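import Crest.Agent.R51.ABasic

set_option autoImplicit false
open Classical Finset

namespace Crest.Agent.R51
noncomputable section

variable {α : Type}

/-- iterating a one-step inequality -/
theorem spread_chain (a : ℕ → ℝ) (e : ℝ) (n : ℕ) (h : ∀ k, k < n → a k ≤ a (k + 1) + e) :
    ∀ k, k ≤ n → a 0 ≤ a k + k * e := by
  intro k
  induction k with
  | zero => intro _; simp
  | succ k ih =>
    intro hk
    have h1 := ih (by omega)
    have h2 := h k (by omega)
    push_cast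
    linarith

/-- an arithmetic progression meets an interval in few points -/
theorem spread_count (n : ℕ) (x v u L : ℝ) (hv : 0 < |v|) (hL : 0 ≤ L) :
    (((Finset.range n).filter (fun k : ℕ => u ≤ x - k * v ∧ x - k * v ≤ u + L)).card : ℝ) ≤
      L / |v| + 1 := by
  set S := (Finset.range n).filter (fun k : ℕ => u ≤ x - k * v ∧ x - k * v ≤ u + L) with hS
  have hpos : 0 ≤ L / |v| := div_nonneg hL hv.le
  rcases S.eq_empty_or_nonempty with h | h
  · rw [h]; simp; linarith
  · have hm := S.min'_mem h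
    have hsub : S ⊆ Finset.Icc (S.min' h) (S.min' h + ⌊L / |v|⌋₊) := by
      intro k hk
      have hle := S.min'_le k hk
      rw [Finset.mem_Icc]
      refine ⟨hle, ?_⟩
      obtain ⟨d, hd⟩ := Nat.exists_eq_add_of_le hle
      have hk' := (Finset.mem_filter.1 hk).2
      have hm' := (Finset.mem_filter.1 hm).2
      have hkd : (k : ℝ) = (S.min' h : ℕ) + d := by exact_mod_cast hd
      have h1 : |(d : ℝ) * v| ≤ L := by
        rw [abs_le]
        constructor
        · have := hk'.2; have := hm'.1; rw [hkd] at *; nlinarith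
        · have := hk'.1; have := hm'.2; rw [hkd] at *; nlinarith
      rw [abs_mul, Nat.abs_cast] at h1
      have h2 : (d : ℝ) ≤ L / |v| := by rw [le_div_iff₀ hv]; exact h1
      have h3 : d ≤ ⌊L / |v|⌋₊ := Nat.le_floor h2
      omega
    have h4 := Finset.card_le_card hsub
    rw [Nat.card_Icc] at h4
    have h5 : S.card ≤ ⌊L / |v|⌋₊ + 1 := by omega
    have h6 : (⌊L / |v|⌋₊ : ℝ) ≤ L / |v| := Nat.floor_le hpos
    have h7 : (S.card : ℝ) ≤ (⌊L / |v|⌋₊ : ℝ) + 1 := by exact_mod_cast h5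
    linarith

/-- few heavy labels -/
theorem spread_labels {β : Type} (P B : Finset α) (hB : B ⊆ P) (l : α → β) (x δ : ℝ)
    (hδ : 0 ≤ δ) (h : ∀ q ∈ B, x ≤ δ * (cls P l q).card) :
    ((B.image l).card : ℝ) * x ≤ δ * P.card := by
  have h1 : ∑ b ∈ B.image l, (P.filter (fun q => l q = b)).card ≤ P.card := by
    rw [← Finset.card_biUnion]
    · apply Finset.card_le_card
      intro q hq
      obtain ⟨b, _, hb⟩ := Finset.mem_biUnion.1 hq
      exact (Finset.mem_filter.1 hb).1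
    · intro b _ b' _ hne
      rw [Function.onFun, Finset.disjoint_left]
      intro q hq hq'
      exact hne ((Finset.mem_filter.1 hq).2.symm.trans (Finset.mem_filter.1 hq').2)
  have h2 : ∑ b ∈ B.image l, x ≤ ∑ b ∈ B.image l, δ * ((P.filter (fun q => l q = b)).card : ℝ) := by
    apply Finset.sum_le_sum
    intro b hb
    obtain ⟨q, hq, rfl⟩ := Finset.mem_image.1 hb
    exact h q hq
  rw [Finset.sum_const, nsmul_eq_mul, ← Finset.mul_sum] at h2
  have h3 : (∑ b ∈ B.image l, ((P.filter (fun q => l q = b)).card : ℝ)) ≤ P.card := by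
    exact_mod_cast h1
  have := mul_le_mul_of_nonneg_left h3 hδ
  linarith

theorem spread {P : Finset α} {f : α → ℝ} {y₁ y₂ v ρ err ρ₁ δ j₁ j₂ C : ℝ}
    (h : QIP P f y₁ y₂ v ρ err) (g : ℝ → ℝ) (hg : Grid ρ₁ g) (hρ : 0 ≤ ρ) (herr : 0 ≤ err)
    (hv : 0 < |v|) (hv1 : |v| ≤ ρ₁) (hδ : 4 * ρ₁ ≤ δ) (hsm : 4 * ρ * δ ≤ ρ₁ * |v|) (hC : 0 < C)
    (h1 : y₁ + δ ≤ j₁) (h2 : j₂ + δ ≤ y₂) :
    ((P.filter (fun q => j₁ ≤ f q ∧ f q ≤ j₂ ∧
      C * ρ₁ * P.card < δ * (cls P (fun u => g (f u)) q).card)).card : ℝ) ≤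
      (16 / C + err * δ / |v|) * P.card := by
  set B := P.filter (fun q => j₁ ≤ f q ∧ f q ≤ j₂ ∧
      C * ρ₁ * P.card < δ * (cls P (fun u => g (f u)) q).card) with hB
  have hρ₁ : 0 < ρ₁ := lt_of_lt_of_le hv hv1
  have hδ0 : 0 < δ := by linarith
  have hP0 : (0 : ℝ) ≤ P.card := Nat.cast_nonneg _
  set n : ℕ := ⌊δ / (2 * |v|)⌋₊ with hn
  have hq2 : 2 ≤ δ / (2 * |v|) := by
    rw [le_div_iff₀ (by positivity)]; linarith
  have hn1 : (n : ℝ) ≤ δ / (2 * |v|) := Nat.floor_le (by linarith)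
  have hn2 : δ / (2 * |v|) < n + 1 := Nat.lt_floor_add_one _
  have hnv : (n : ℝ) * |v| ≤ δ / 2 := by
    rw [le_div_iff₀ (by positivity)] at hn1; linarith
  have hn3 : (1 : ℝ) < n := by linarith
  have hn4 : δ ≤ 4 * |v| * n := by
    rw [div_lt_iff₀ (by positivity)] at hn2; nlinarith
  have hnρ : 4 * (n : ℝ) * ρ ≤ ρ₁ / 2 := by
    have e1 : 4 * (n : ℝ) * ρ * |v| ≤ ρ₁ / 2 * |v| := by nlinarith
    exact le_of_mul_le_mul_right e1 hv
  obtain ⟨Y, hY⟩ : ∃ Y : ℕ → Set ℝ, ∀ k y,
      y ∈ Y k ↔ ∃ q ∈ B, |y - (f q + k * v)| ≤ 4 * k * ρ :=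
    ⟨fun k => {y | ∃ q ∈ B, |y - (f q + k * v)| ≤ 4 * k * ρ}, fun _ _ => Iff.rfl⟩
  let a : ℕ → ℝ := fun k => ((P.filter (fun q => f q ∈ Y k)).card : ℝ)
  have hstep : ∀ k, k < n → a k ≤ a (k + 1) + err * P.card := by
    intro k hk
    have hk1 : (k : ℝ) + 1 ≤ n := by exact_mod_cast hk
    have hk0 : (0 : ℝ) ≤ k := Nat.cast_nonneg _
    have hkv : ((k : ℝ) + 1) * |v| ≤ δ / 2 := le_trans (mul_le_mul_of_nonneg_right hk1 hv.le) hnv
    have hkρ : 4 * ((k : ℝ) + 1) * ρ ≤ ρ₁ / 2 := by nlinarith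
    have := h (Y k) (by
      intro y hy
      obtain ⟨q, hq, hy⟩ := (hY k y).1 hy
      obtain ⟨_, hq1, hq2, _⟩ := Finset.mem_filter.1 hq
      have e1 := abs_le.1 hy
      have e2 := le_abs_self v
      have e3 := neg_abs_le v
      have e4 : (k : ℝ) * v ≤ k * |v| := mul_le_mul_of_nonneg_left e2 hk0
      have e5 : (k : ℝ) * (-|v|) ≤ k * v := mul_le_mul_of_nonneg_left e3 hk0
      refine ⟨?_, ?_, ?_, ?_⟩ <;> nlinarith)
    refine le_trans this ?_
    have hsub : P.filter (fun q => ∃ y ∈ Y k, |f q - (y + v)| ≤ 4 * ρ) ⊆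
        P.filter (fun q => f q ∈ Y (k + 1)) := by
      intro p hp
      obtain ⟨hpP, y, hy, hy'⟩ := Finset.mem_filter.1 hp
      obtain ⟨q, hq, hy⟩ := (hY k y).1 hy
      refine Finset.mem_filter.2 ⟨hpP, (hY _ _).2 ⟨q, hq, ?_⟩⟩
      have e1 := abs_le.1 hy
      have e2 := abs_le.1 hy'
      push_cast
      rw [abs_le]
      constructor <;> nlinarith
    have := Finset.card_le_card hsub
    have : ((P.filter (fun q => ∃ y ∈ Y k, |f q - (y + v)| ≤ 4 * ρ)).card : ℝ) ≤ a (k + 1) := by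
      simp only [a]; exact_mod_cast this
    linarith
  have hchain := spread_chain a (err * P.card) n hstep
  have hB0 : (B.card : ℝ) ≤ a 0 := by
    simp only [a]
    have : B ⊆ P.filter (fun q => f q ∈ Y 0) := by
      intro q hq
      refine Finset.mem_filter.2 ⟨(Finset.mem_filter.1 hq).1, (hY _ _).2 ⟨q, hq, ?_⟩⟩
      simp
    exact_mod_cast Finset.card_le_card this
  -- the number of bad labels
  set Lb := B.image (fun u => g (f u)) with hLb
  have hLb1 : (Lb.card : ℝ) * (C * ρ₁ * P.card) ≤ δ * P.card :=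
    spread_labels P B (Finset.filter_subset _ _) (fun u => g (f u)) _ δ hδ0.le
      (fun q hq => (Finset.mem_filter.1 hq).2.2.2.le)
  -- each point lies in few of the sets `Y k`
  have hpt : ∀ p ∈ P, (((Finset.range n).filter (fun k => f p ∈ Y k)).card : ℝ) ≤
      Lb.card * (3 * ρ₁ / |v|) := by
    intro p _
    have hsub : (Finset.range n).filter (fun k => f p ∈ Y k) ⊆ Lb.biUnion (fun c =>
        (Finset.range n).filter (fun k : ℕ => c - ρ₁ / 2 ≤ f p - k * v ∧
          f p - k * v ≤ c - ρ₁ / 2 + 2 * ρ₁)) := by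
      intro k hk
      obtain ⟨hkn, hy⟩ := Finset.mem_filter.1 hk
      obtain ⟨q, hq, hy⟩ := (hY _ _).1 hy
      refine Finset.mem_biUnion.2 ⟨g (f q), Finset.mem_image_of_mem _ hq, ?_⟩
      have hk1 : (k : ℝ) ≤ n := by exact_mod_cast (Finset.mem_range.1 hkn).le
      have hkρ : 4 * (k : ℝ) * ρ ≤ ρ₁ / 2 := by nlinarith
      have e1 := abs_le.1 hy
      have e2 := hg.le (f q)
      have e3 := hg.lt (f q)
      refine Finset.mem_filter.2 ⟨hkn, ?_, ?_⟩ <;> linarith
    have c1 := le_trans (Finset.card_le_card hsub) Finset.card_biUnion_le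
    have c2 : (((Finset.range n).filter (fun k => f p ∈ Y k)).card : ℝ) ≤ ∑ c ∈ Lb,
        (((Finset.range n).filter (fun k : ℕ => c - ρ₁ / 2 ≤ f p - k * v ∧
          f p - k * v ≤ c - ρ₁ / 2 + 2 * ρ₁)).card : ℝ) := by exact_mod_cast c1
    refine le_trans c2 ?_
    rw [← nsmul_eq_mul, ← Finset.sum_const]
    apply Finset.sum_le_sum
    intro c _
    refine le_trans (spread_count n (f p) v (c - ρ₁ / 2) (2 * ρ₁) hv (by linarith)) ?_
    have : 1 ≤ ρ₁ / |v| := by rw [le_div_iff₀ hv]; linarith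
    have e : 3 * ρ₁ / |v| = 2 * ρ₁ / |v| + ρ₁ / |v| := by ring
    linarith
  have hsum : ∑ k ∈ Finset.range n, a k ≤ P.card * (Lb.card * (3 * ρ₁ / |v|)) := by
    have e : ∑ k ∈ Finset.range n, a k =
        ∑ p ∈ P, (((Finset.range n).filter (fun k => f p ∈ Y k)).card : ℝ) := by
      simp only [a, Finset.card_filter]
      push_cast
      exact Finset.sum_comm
    rw [e, ← nsmul_eq_mul, ← Finset.sum_const]
    exact Finset.sum_le_sum hpt
  have hsum2 : (n : ℝ) * B.card ≤ ∑ k ∈ Finset.range n, a k + n * (n * (err * P.card)) := by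
    have : ∑ k ∈ Finset.range n, (B.card : ℝ) ≤
        ∑ k ∈ Finset.range n, (a k + n * (err * P.card)) := by
      apply Finset.sum_le_sum
      intro k hk
      have hkn := (Finset.mem_range.1 hk).le
      have hk1 : (k : ℝ) ≤ n := by exact_mod_cast hkn
      have := hchain k hkn
      have : (k : ℝ) * (err * P.card) ≤ n * (err * P.card) :=
        mul_le_mul_of_nonneg_right hk1 (by positivity)
      linarith
    rw [Finset.sum_add_distrib, Finset.sum_const, Finset.sum_const, Finset.card_range,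
      nsmul_eq_mul, nsmul_eq_mul] at this
    exact this
  have hmain : P.card * (Lb.card * (3 * ρ₁ / |v|)) ≤ n * (12 / C * P.card) := by
    have e1 : (P.card : ℝ) * (Lb.card * (3 * ρ₁ / |v|)) =
        (Lb.card * (C * ρ₁ * P.card)) * (3 / (C * |v|)) := by
      field_simp
    have e2 : (n : ℝ) * (12 / C * P.card) = (4 * |v| * n * P.card) * (3 / (C * |v|)) := by
      field_simp; ring
    rw [e1, e2]
    apply mul_le_mul_of_nonneg_right _ (by positivity)
    exact le_trans hLb1 (mul_le_mul_of_nonneg_right hn4 hP0)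
  have hfin : (B.card : ℝ) ≤ 12 / C * P.card + n * (err * P.card) := by
    have : (n : ℝ) * B.card ≤ n * (12 / C * P.card + n * (err * P.card)) := by
      rw [mul_add]; linarith
    exact le_of_mul_le_mul_left this (by linarith)
  have e3 : (n : ℝ) ≤ δ / |v| := by
    rw [le_div_iff₀ hv]; linarith
  have e4 : (n : ℝ) * (err * P.card) ≤ δ / |v| * (err * P.card) :=
    mul_le_mul_of_nonneg_right e3 (by positivity)
  have e5 : 12 / C * (P.card : ℝ) ≤ 16 / C * P.card := by
    apply mul_le_mul_of_nonneg_right _ hP0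
    exact div_le_div_of_nonneg_right (by norm_num) hC.le
  have e6 : (16 / C + err * δ / |v|) * (P.card : ℝ) =
      16 / C * P.card + δ / |v| * (err * P.card) := by ring
  rw [e6]
  linarith

theorem escape {P : Finset α} {f : α → ℝ} {c L v ρ err R : ℝ} (k : ℕ)
    (h : QIP P f (c - L) (c + L) v ρ err) (hρ : 0 ≤ ρ)
    (hL : R + (k + 1) * (|v| + 4 * ρ) ≤ L) (hk : 2 * R < k * (|v| - 4 * ρ)) :
    ((P.filter (fun q => |f q - c| ≤ R)).card : ℝ) ≤
      (P.filter (fun q => R < |f q - c|)).card + k * err * P.card := by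
  obtain ⟨Y, hY⟩ : ∃ Y : ℕ → Set ℝ, ∀ j y, y ∈ Y j ↔ |y - (c + j * v)| ≤ R + 4 * j * ρ :=
    ⟨fun j => {y | |y - (c + j * v)| ≤ R + 4 * j * ρ}, fun _ _ => Iff.rfl⟩
  let a : ℕ → ℝ := fun j => ((P.filter (fun q => f q ∈ Y j)).card : ℝ)
  have hv0 := abs_nonneg v
  have e2 := le_abs_self v
  have e3 := neg_abs_le v
  have hstep : ∀ j, j < k → a j ≤ a (j + 1) + err * P.card := by
    intro j hj
    have hj1 : (j : ℝ) + 1 ≤ k := by exact_mod_cast hj
    have hj0 : (0 : ℝ) ≤ j := Nat.cast_nonneg _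
    have hjv : ((j : ℝ) + 1) * (|v| + 4 * ρ) ≤ (k + 1) * (|v| + 4 * ρ) :=
      mul_le_mul_of_nonneg_right (by linarith) (by linarith)
    have := h (Y j) (by
      intro y hy
      have e1 := abs_le.1 ((hY _ _).1 hy)
      have e4 : (j : ℝ) * v ≤ j * |v| := mul_le_mul_of_nonneg_left e2 hj0
      have e5 : (j : ℝ) * (-|v|) ≤ j * v := mul_le_mul_of_nonneg_left e3 hj0
      refine ⟨?_, ?_, ?_, ?_⟩ <;> nlinarith)
    refine le_trans this ?_
    have hsub : P.filter (fun q => ∃ y ∈ Y j, |f q - (y + v)| ≤ 4 * ρ) ⊆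
        P.filter (fun q => f q ∈ Y (j + 1)) := by
      intro p hp
      obtain ⟨hpP, y, hy, hy'⟩ := Finset.mem_filter.1 hp
      refine Finset.mem_filter.2 ⟨hpP, (hY _ _).2 ?_⟩
      have e1 := abs_le.1 ((hY _ _).1 hy)
      have e2 := abs_le.1 hy'
      push_cast
      rw [abs_le]
      constructor <;> nlinarith
    have := Finset.card_le_card hsub
    have : ((P.filter (fun q => ∃ y ∈ Y j, |f q - (y + v)| ≤ 4 * ρ)).card : ℝ) ≤ a (j + 1) := by
      simp only [a]; exact_mod_cast this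
    linarith
  have hchain := spread_chain a (err * P.card) k hstep k le_rfl
  have h0 : ((P.filter (fun q => |f q - c| ≤ R)).card : ℝ) ≤ a 0 := by
    simp only [a]
    have : P.filter (fun q => |f q - c| ≤ R) ⊆ P.filter (fun q => f q ∈ Y 0) := by
      intro q hq
      obtain ⟨hqP, hq⟩ := Finset.mem_filter.1 hq
      refine Finset.mem_filter.2 ⟨hqP, (hY _ _).2 ?_⟩
      simpa using hq
    exact_mod_cast Finset.card_le_card this
  have hk' : a k ≤ ((P.filter (fun q => R < |f q - c|)).card : ℝ) := by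
    simp only [a]
    have : P.filter (fun q => f q ∈ Y k) ⊆ P.filter (fun q => R < |f q - c|) := by
      intro q hq
      obtain ⟨hqP, hq⟩ := Finset.mem_filter.1 hq
      refine Finset.mem_filter.2 ⟨hqP, ?_⟩
      have hq' : |f q - (c + k * v)| ≤ R + 4 * k * ρ := (hY _ _).1 hq
      have t1 : |(k : ℝ) * v| ≤ |f q - c| + |f q - (c + k * v)| := by
        have := abs_sub (f q - c) (f q - (c + k * v))
        have e : f q - c - (f q - (c + k * v)) = k * v := by ring
        rwa [e] at this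
      rw [abs_mul, Nat.abs_cast] at t1
      nlinarith
    exact_mod_cast Finset.card_le_card this
  have e : (k : ℝ) * err * P.card = k * (err * P.card) := by ring
  rw [e]
  linarith

end
end Crest.Agent.R51
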