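import Crest.Agent.R51.ALocal
import Crest.Agent.R51.ASpread

set_option autoImplicit false
open Classical Finset

namespace Crest.Agent.R51
noncomputable section

variable {α : Type} {ℓ : Fin 3 → α → ℝ}

theorem abad_fib {β : Type} (S : Finset α) (F : α → β) (c : ℝ)
    (h : ∀ p ∈ S, ((cls S F p).card : ℝ) ≤ c) : (S.card : ℝ) ≤ (S.image F).card * c := by
  rw [card_eq_sum_card_image F S, Nat.cast_sum, ← nsmul_eq_mul]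
  refine sum_le_card_nsmul _ _ _ fun b hb => ?_
  obtain ⟨p, hp, rfl⟩ := mem_image.1 hb
  exact h p hp

theorem abad_sum {β : Type} {S A : Finset α} (hS : S ⊆ A) (F : α → β) (c : ℝ)
    (h : ∀ p ∈ A, ((cls S F p).card : ℝ) ≤ c * (cls A F p).card) : (S.card : ℝ) ≤ c * A.card := by
  rw [card_eq_sum_card_image F A, card_eq_sum_card_fiberwise (f := F) (t := A.image F)
    fun p hp => mem_image_of_mem F (hS hp), Nat.cast_sum, Nat.cast_sum, mul_sum]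
  refine sum_le_sum fun b hb => ?_
  obtain ⟨p, hp, rfl⟩ := mem_image.1 hb
  exact h p hp

theorem abad_num {r ρm ρ₂ m ε v : ℝ} (hr : 0 < r) (hρm : 0 < ρm) (h1 : ρm ≤ ρ₂) (hm : 0 < m)
    (hm' : m ≤ 1) (hε' : ε ≤ m ^ 3 / 10 ^ 22 * (ρm / r)) (hv : ρ₂ / (8 * 10 ^ 6) ≤ v) :
    16 / (2 * 10 ^ 11) + 4 * ε / (1 / 10 ^ 10 * m ^ 2) * (r / 10 ^ 6) / v ≤ 2 / 10 ^ 10 := by
  have v0 : 0 < ρm / (8 * 10 ^ 6) := by positivity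
  have v1 : ρm / (8 * 10 ^ 6) ≤ v := le_trans (by gcongr) hv
  have h2 : 4 * ε / (1 / 10 ^ 10 * m ^ 2) * (r / 10 ^ 6) / v ≤
      4 * (m ^ 3 / 10 ^ 22 * (ρm / r)) / (1 / 10 ^ 10 * m ^ 2) * (r / 10 ^ 6) / (ρm / (8 * 10 ^ 6)) := by
    refine div_le_div₀ (by positivity) (by gcongr) v0 v1
  have h3 : 4 * (m ^ 3 / 10 ^ 22 * (ρm / r)) / (1 / 10 ^ 10 * m ^ 2) * (r / 10 ^ 6) /
      (ρm / (8 * 10 ^ 6)) = 32 / 10 ^ 12 * m := by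
    field_simp
    ring
  linarith

theorem bad_few (h0 : ∀ p, ℓ 0 p + ℓ 1 p + ℓ 2 p = 0) (A : Finset α) (g g' : Fin 3 → ℝ → ℝ)
    (r r' ρ ρm m₁ m₅ ε : ℝ) (op : Fin 3 → ℝ) (hg : ∀ i, Grid r (g i)) (hg' : ∀ i, Grid r' (g' i))
    (hρ : 0 < ρ) (hρm : 0 < ρm) (hrr : 10 ^ 9 * r' ≤ r) (hsm : 10 ^ 9 * ρ * r ≤ ρm ^ 2)
    (hm₁ : 0 < m₁) (hm₁' : m₁ ≤ 1) (hm₅ : 0 < m₅) (hm₅' : m₅ ≤ 1) (hε : 0 ≤ ε)
    (hε' : ε ≤ (m₁ * m₅ ^ 2 * (ρ / r) ^ 2 / 10 ^ 13) ^ 3 / 10 ^ 22 * (ρm / r))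
    (j : Fin 3) (hj : j = 0 ∨ j = 1) :
    ((A.filter (fun p => Reg ℓ A g (rfn3 g ρ op) r ε p ∧
      (∃ ρ₂, ρm ≤ ρ₂ ∧ 10 ^ 9 * ρ₂ ≤ r' ∧ HW ℓ A g m₁ m₅ r ρ₂ p) ∧ Bad ℓ A g g' r r' j p)).card : ℝ)
      ≤ A.card / 2000 := by
  set S := A.filter (fun p => Reg ℓ A g (rfn3 g ρ op) r ε p ∧
    (∃ ρ₂, ρm ≤ ρ₂ ∧ 10 ^ 9 * ρ₂ ≤ r' ∧ HW ℓ A g m₁ m₅ r ρ₂ p) ∧ Bad ℓ A g g' r r' j p) with hS
  rcases S.eq_empty_or_nonempty with e | ⟨p₀, hp₀⟩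
  · rw [e, card_empty, Nat.cast_zero]; positivity
  obtain ⟨-, -, ⟨ρ₃, a1, a2, -⟩, -⟩ := mem_filter.1 hp₀
  have r'0 : 0 < r' := by linarith
  have r0 : 0 < r := by linarith
  have mr : ρm ≤ r := by linarith
  have ρr : 10 ^ 9 * ρ ≤ ρm := by
    refine le_of_mul_le_mul_right (hsm.trans ?_) r0
    rw [sq]; exact mul_le_mul_of_nonneg_left mr hρm.le
  have m0 : 0 < m₁ * m₅ ^ 2 * (ρ / r) ^ 2 / 10 ^ 13 := by positivity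
  have m1 : m₁ * m₅ ^ 2 * (ρ / r) ^ 2 / 10 ^ 13 ≤ 1 := by
    rw [div_le_one (by positivity)]
    exact (mul_le_one₀ (mul_le_one₀ hm₁' (by positivity) (pow_le_one₀ hm₅.le hm₅')) (by positivity)
      (pow_le_one₀ (by positivity) ((div_le_one r0).2 (by linarith)))).trans (by norm_num)
  have hε2 : ε ≤ (m₁ * m₅ ^ 2 * (ρ / r) ^ 2 / 10 ^ 13) ^ 3 / 10 ^ 22 :=
    hε'.trans (mul_le_of_le_one_right (by positivity) ((div_le_one r0).2 mr))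
  have step1 : ∀ p ∈ S, ∀ X : Finset α, (∀ q ∈ X, q ∈ S ∧ q ∈ c2 A ℓ g 0 1 p ∧
      |ℓ j q - ℓ j p| < r / 10 ^ 6) → (X.card : ℝ) ≤ 2 / 10 ^ 10 * (c2 A ℓ g 0 1 p).card := by
    intro p hp X hX
    obtain ⟨hpA, hreg, ⟨ρ₂, b1, b2, q, hq, b3, b4, b5⟩, -⟩ := mem_filter.1 hp
    obtain ⟨v, v1, v2, hQ⟩ := local_qi h0 A g r ρ ρ₂ m₁ m₅ ε op hg hρ (ρr.trans b1) (by linarith) hm₁ hm₁'
      hm₅ hm₅' hε hε2 hpA hq hreg b3 b4 b5 j hj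
    have ρ₂0 : 0 < ρ₂ := hρm.trans_le b1
    have b6 : |ℓ j p - ℓ j q| ≤ r / 10 ^ 6 := by
      rcases hj with rfl | rfl
      exacts [(le_max_left _ _).trans b3, (le_max_right _ _).trans b3]
    obtain ⟨b7, b8⟩ := abs_le.1 b6
    have h1 := spread hQ (g' j) (hg' j) hρ.le (by positivity) (lt_of_lt_of_le (by positivity) v1)
      (by linarith) (δ := r / 10 ^ 6) (by linarith) (by
        have c1 := mul_le_mul b2 v1 (by positivity) r'0.le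
        have c2 := pow_le_pow_left₀ hρm.le b1 2
        have c3 : 0 ≤ ρ₂ ^ 2 := sq_nonneg _
        linarith) (C := 2 * 10 ^ 11) (by norm_num)
      (j₁ := ℓ j p - r / 10 ^ 6) (j₂ := ℓ j p + r / 10 ^ 6) (by linarith) (by linarith)
    refine le_trans (Nat.cast_le.2 (card_le_card fun u hu => ?_)) (h1.trans
      (mul_le_mul_of_nonneg_right (abad_num r0 hρm b1 m0 m1 hε' v1) (Nat.cast_nonneg _)))
    obtain ⟨c1, c2, c3⟩ := hX u hu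
    obtain ⟨c4, c5⟩ := abs_lt.1 c3
    have c6 : Bad ℓ A g g' r r' j u := (mem_filter.1 c1).2.2.2
    rw [Bad, c2_eq_of_mem c2] at c6
    refine mem_filter.2 ⟨c2, by linarith, by linarith, ?_⟩
    change _ < r / 10 ^ 6 * (cls (R51.c2 A ℓ g 0 1 p) (lab ℓ g' j) u).card
    linarith
  have δ0 : 0 < r / 10 ^ 6 := by positivity
  refine (abad_sum (filter_subset _ _) (fun q => (lab ℓ g 0 q, lab ℓ g 1 q)) (1 / 2000)
    fun p hp => ?_).trans_eq (by ring)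
  rw [← c2_eq_cls, ← c2_eq_cls]
  have hm : ∀ q ∈ c2 S ℓ g 0 1 p, q ∈ S ∧ q ∈ c2 A ℓ g 0 1 p := fun q hq =>
    ⟨c2_sub _ _ _ _ _ _ hq, mem_filter.2 ⟨(mem_filter.1 (mem_filter.1 hq).1).1, (mem_filter.1 hq).2⟩⟩
  have h1 := abad_fib (c2 S ℓ g 0 1 p) (fun q => flo (r / 10 ^ 6) 0 (ℓ j q))
    (2 / 10 ^ 10 * (c2 A ℓ g 0 1 p).card) fun q hq => by
      rw [← c2_eq_of_mem (hm q hq).2]
      refine step1 q (hm q hq).1 _ fun u hu => ?_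
      obtain ⟨u1, u2⟩ := mem_filter.1 hu
      exact ⟨(hm u u1).1, by rw [c2_eq_of_mem (hm q hq).2]; exact (hm u u1).2,
        (grid_flo δ0 0).abs_lt u2⟩
  have h2 := card_flo_labels (c2 S ℓ g 0 1 p) (ℓ j) δ0 0 (lab ℓ g j p) r r0.le fun q hq => by
    have : lab ℓ g j q = lab ℓ g j p := by
      rcases hj with rfl | rfl
      exacts [(mem_filter.1 hq).2.1, (mem_filter.1 hq).2.2]
    rw [← this]
    exact ⟨(hg j).le _, ((hg j).lt _).le⟩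
  rw [div_div_cancel₀ r0.ne'] at h2
  rw [← hS]
  have h3 := mul_le_mul_of_nonneg_right h2
    (show 0 ≤ 2 / 10 ^ 10 * ((c2 A ℓ g 0 1 p).card : ℝ) by positivity)
  have h4 : (0 : ℝ) ≤ (c2 A ℓ g 0 1 p).card := Nat.cast_nonneg _
  linarith

end
end Crest.Agent.R51
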