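import Crest.Agent.R51.GTools

set_option autoImplicit false
open Classical Finset

namespace Crest.Agent.R51
noncomputable section

variable {α : Type} {A₀ : Finset α} {ℓ : Fin 3 → α → ℝ} {T : Fin 3 → Finset α → ℝ}
  {s : Finset α → ℝ} {M Q D B : ℝ}

theorem abs_le_nrm (ℓ : Fin 3 → α → ℝ) (i : Fin 3) (p q : α) : |ℓ i p - ℓ i q| ≤ nrm ℓ p q := by
  fin_cases i
  · exact (le_max_left _ _).trans (le_max_left _ _)
  · exact (le_max_right _ _).trans (le_max_left _ _)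
  · exact le_max_right _ _

theorem nrm_le_of_two (h0 : ∀ p, ℓ 0 p + ℓ 1 p + ℓ 2 p = 0) {i j : Fin 3} (hij : i ≠ j) {p q : α}
    {r : ℝ} (hi' : |ℓ i p - ℓ i q| ≤ r) (hj : |ℓ j p - ℓ j q| ≤ r) : nrm ℓ p q ≤ 2 * r := by
  have a := h0 p
  have b := h0 q
  rw [abs_le] at hi' hj
  simp only [nrm, max_le_iff, abs_le]
  fin_cases i <;> fin_cases j <;> simp only [ne_eq, not_true_eq_false] at hij <;>
    simp only [Fin.zero_eta, Fin.mk_one, Fin.reduceFinMk] at hi' hj <;>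
    refine ⟨⟨⟨?_, ?_⟩, ?_, ?_⟩, ?_, ?_⟩ <;> linarith [hi'.1, hi'.2, hj.1, hj.2]

theorem LL_nonneg (hS : SysA A₀ ℓ T s M Q D B) (hD : 1 ≤ D) {A : Finset α} (hA : A ⊆ A₀)
    (hQ : Q ≤ D * A.card) (i : Fin 3) : 0 ≤ LL T s Q i A := by
  have q := hS.Qpos
  have a : (0 : ℝ) < A.card := by
    by_contra h
    have : (A.card : ℝ) = 0 := le_antisymm (not_lt.1 h) (Nat.cast_nonneg _)
    rw [this] at hQ; linarith
  have t := hS.Tcard i A hA
  have u := hS.scard A hA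
  have t0 := a.trans_le t
  have u0 := a.trans_le u
  have key : Q * (A.card : ℝ) ^ 2 ≤ (T i A) ^ 2 * s A := by
    rcases hS.floor i A hA with h | h | h
    · calc _ ≤ T i A * (T i A * s A) := by rw [sq]; gcongr; exact hQ.trans h
        _ = _ := by ring
    · rw [mul_comm]; gcongr; exact hQ.trans h
    · exact h
  have := Real.log_le_log (by positivity) key
  rw [Real.log_mul q.ne' (by positivity), Real.log_mul (by positivity) u0.ne', Real.log_pow,
    Real.log_pow] at this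
  simp only [LL]
  push_cast at this
  linarith

theorem LL_sub_le (hS : SysA A₀ ℓ T s M Q D B) {A A' : Finset α} (hA : A ⊆ A₀) (h : A' ⊆ A)
    (hne : A'.Nonempty) (i : Fin 3) :
    LL T s Q i A' ≤ LL T s Q i A + 2 * Real.log ((A.card : ℝ) / A'.card) := by
  have a : (0 : ℝ) < A'.card := by exact_mod_cast hne.card_pos
  have b : (0 : ℝ) < A.card := by exact_mod_cast (hne.mono h).card_pos
  have t := Real.log_le_log (a.trans_le (hS.Tcard i A' (h.trans hA))) (hS.Tmono i A' A h hA)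
  have u := Real.log_le_log (a.trans_le (hS.scard A' (h.trans hA))) (hS.smono A' A h hA)
  rw [Real.log_div b.ne' a.ne']
  simp only [LL]
  linarith

theorem Wc_eq (hS : SysA A₀ ℓ T s M Q D B) {A : Finset α} (hA : A ⊆ A₀) (hne : A.Nonempty) :
    Wc T s Q A = A.card * Real.exp (PP T s Q 0 1 A / 4) := by
  have q := hS.Qpos
  have a : (0 : ℝ) < A.card := by exact_mod_cast hne.card_pos
  have t0 := a.trans_le (hS.Tcard 0 A hA)
  have t1 := a.trans_le (hS.Tcard 1 A hA)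
  have u := a.trans_le (hS.scard A hA)
  rw [Wc, Real.sqrt_eq_iff_mul_self_eq (by positivity) (by positivity), mul_mul_mul_comm,
    ← Real.exp_add, show PP T s Q 0 1 A / 4 + PP T s Q 0 1 A / 4 = Real.log (T 0 A) +
      Real.log (T 1 A) + Real.log (s A) - Real.log A.card - Real.log A.card - Real.log Q by
        simp only [PP, LL]; ring]
  simp only [Real.exp_sub, Real.exp_add, Real.exp_log, q, a, t0, t1, u]
  field_simp

theorem Wc_mono (hS : SysA A₀ ℓ T s M Q D B) {A A' : Finset α} (hA : A ⊆ A₀) (h : A' ⊆ A) :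
    Wc T s Q A' ≤ Wc T s Q A := by
  have q := hS.Qpos
  have t0 := (Nat.cast_nonneg _).trans (hS.Tcard 0 A hA)
  have t1 := (Nat.cast_nonneg _).trans (hS.Tcard 1 A hA)
  have t1' := (Nat.cast_nonneg _).trans (hS.Tcard 1 A' (h.trans hA))
  have u := (Nat.cast_nonneg _).trans (hS.scard A' (h.trans hA))
  have := hS.Tmono 0 A' A h hA
  have := hS.Tmono 1 A' A h hA
  have := hS.smono A' A h hA
  unfold Wc
  gcongr

theorem sysA_perm (hS : SysA A₀ ℓ T s M Q D B) (π : Equiv.Perm (Fin 3)) :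
    SysA A₀ (fun i => ℓ (π i)) (fun i => T (π i)) s M Q D B := by
  have key : ∀ (l : Fin 3 → α → ℝ) p q r, nrm l p q ≤ r ↔ ∀ i, |l i p - l i q| ≤ r :=
    fun l p q r => ⟨fun h i => (abs_le_nrm l i p q).trans h,
      fun h => max_le (max_le (h 0) (h 1)) (h 2)⟩
  have hn : nrm (fun i => ℓ (π i)) = nrm ℓ := by
    funext p q
    refine eq_of_forall_ge_iff fun r => ?_
    rw [key, key]
    exact π.forall_congr_right (q := fun i => |ℓ i p - ℓ i q| ≤ r)
  refine ⟨fun p => ?_, hn ▸ hS.inj, hS.Mnn, hS.Qpos, hS.QB, fun i => hS.Tmono _, hS.smono,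
    fun i => hS.Tcard _, hS.scard, fun i => hS.Tle _, hS.sle, fun i => hn ▸ hS.Tadd _,
    fun r ι F A h1 h2 h3 => hS.sadd r ι F A h1 (hn ▸ h2) fun k hk k' hk' hkk =>
      (h3 k hk k' hk' hkk).elim fun j hj => ⟨π j, hj⟩, fun i => hS.floor _⟩
  have := Equiv.sum_comp π fun i => ℓ i p
  rw [Fin.sum_univ_three, Fin.sum_univ_three, hS.sum0] at this
  exact this

theorem Phi_eq (T : Fin 3 → Finset α → ℝ) (s : Finset α → ℝ) (Q : ℝ) (A : Finset α) :
    Phi T s Q A = 2 * ∑ i, LL T s Q i A := by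
  simp only [Phi, PP, Fin.sum_univ_three]; ring

theorem Phi_perm (π : Equiv.Perm (Fin 3)) (A : Finset α) :
    Phi (fun i => T (π i)) s Q A = Phi T s Q A := by
  rw [Phi_eq, Phi_eq, ← Equiv.sum_comp π fun i => LL T s Q i A]
  rfl

theorem exists_perm (T : Fin 3 → Finset α → ℝ) (s : Finset α → ℝ) (Q : ℝ) (A : Finset α) :
    ∃ π : Equiv.Perm (Fin 3), PP (fun i => T (π i)) s Q 0 1 A ≤ Phi T s Q A / 3 := by
  by_contra h
  push Not at h
  have h1 := h 1
  have h2 := h (Equiv.swap 1 2)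
  have h3 := h (Equiv.swap 0 2)
  have e1 : Equiv.swap (1 : Fin 3) 2 0 = 0 := by decide
  have e2 : Equiv.swap (0 : Fin 3) 2 1 = 1 := by decide
  simp only [Phi, PP, LL, Equiv.Perm.coe_one, id, e1, e2, Equiv.swap_apply_left] at h1 h2 h3
  linarith

theorem NonDef.symm {P : Finset α} {a b : α → ℝ} {ε : ℝ} (h : NonDef P a b ε) :
    NonDef P b a ε := by
  intro 𝒜 ℬ
  have := h ℬ 𝒜
  simp only [and_comm (a := a _ ∈ ℬ)] at this
  rwa [mul_comm ((P.filter fun q => b q ∈ 𝒜).card : ℝ)]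

theorem Sep.mono {A A' : Finset α} {f x : α → ℝ} {d d' : ℝ} (h : Sep A f x d) (hA : A' ⊆ A)
    (hd : d' ≤ d) : Sep A' f x d' := by
  intro p hp q hq hpq
  linarith [h p (hA hp) q (hA hq) hpq]

variable {A : Finset α} {g : Fin 3 → ℝ → ℝ}

theorem c2_sub (A : Finset α) (ℓ : Fin 3 → α → ℝ) (g : Fin 3 → ℝ → ℝ) (i j : Fin 3) (p : α) :
    c2 A ℓ g i j p ⊆ A := by
  exact filter_subset _ _

theorem c3_sub_c2 (A : Finset α) (ℓ : Fin 3 → α → ℝ) (g : Fin 3 → ℝ → ℝ) (i j : Fin 3) (p : α) :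
    c3 A ℓ g p ⊆ c2 A ℓ g i j p := by
  intro q hq
  exact mem_filter.2 ⟨(mem_filter.1 hq).1, (mem_filter.1 hq).2 i, (mem_filter.1 hq).2 j⟩

theorem mem_c3_self {p : α} (hp : p ∈ A) : p ∈ c3 A ℓ g p := by
  exact mem_filter.2 ⟨hp, fun _ => rfl⟩

theorem c2_comm (A : Finset α) (ℓ : Fin 3 → α → ℝ) (g : Fin 3 → ℝ → ℝ) (i j : Fin 3) (p : α) :
    c2 A ℓ g i j p = c2 A ℓ g j i p := by
  ext q; simp only [c2, mem_filter, and_comm]

theorem c2_eq_cls (A : Finset α) (ℓ : Fin 3 → α → ℝ) (g : Fin 3 → ℝ → ℝ) (i j : Fin 3) (p : α) :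
    c2 A ℓ g i j p = cls A (fun q => (lab ℓ g i q, lab ℓ g j q)) p := by
  ext q; simp only [c2, cls, mem_filter, Prod.mk.injEq]

theorem c3_eq_cls (A : Finset α) (ℓ : Fin 3 → α → ℝ) (g : Fin 3 → ℝ → ℝ) (p : α) :
    c3 A ℓ g p = cls A (fun q i => lab ℓ g i q) p := by
  ext q; simp only [c3, cls, mem_filter, funext_iff]

theorem c2_eq_of_mem {i j : Fin 3} {p q : α} (h : q ∈ c2 A ℓ g i j p) :
    c2 A ℓ g i j q = c2 A ℓ g i j p := by
  simp only [c2, (mem_filter.1 h).2.1, (mem_filter.1 h).2.2]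

theorem c3_eq_of_mem {p q : α} (h : q ∈ c3 A ℓ g p) : c3 A ℓ g q = c3 A ℓ g p := by
  simp only [c3, (mem_filter.1 h).2]

theorem varpi_mono {A' : Finset α} (h : A' ⊆ A) (ng : ℕ) (r : ℝ) :
    varpi ℓ ng A' g r ≤ varpi ℓ ng A g r := by
  exact sum_le_sum fun k _ => sum_le_sum fun i _ =>
    Nat.cast_le.2 (card_le_card (filter_subset_filter _ h))

theorem varpi_nonneg (ng : ℕ) (r : ℝ) : 0 ≤ varpi ℓ ng A g r := by
  exact sum_nonneg fun k _ => sum_nonneg fun i _ => Nat.cast_nonneg _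

theorem varpi_le (ng : ℕ) (r : ℝ) : varpi ℓ ng A g r ≤ 3 * ng * A.card := by
  refine (sum_le_card_nsmul _ _ (3 * A.card : ℝ) fun k _ => ?_).trans_eq (by simp; ring)
  refine (sum_le_card_nsmul _ _ (A.card : ℝ) fun i _ =>
    Nat.cast_le.2 (card_filter_le _ _)).trans_eq (by simp)

theorem one_le_log_KK : 1 ≤ Real.log KK := by
  rw [Real.le_log_iff_exp_le (by norm_num [KK])]
  exact Real.exp_one_lt_d9.le.trans (by norm_num [KK])

end
end Crest.Agent.R51
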