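import Crest.Agent.R51.ARefine

set_option autoImplicit false
open Classical Finset

namespace Crest.Agent.R51
noncomputable section

variable {α : Type} {A₀ : Finset α} {ℓ : Fin 3 → α → ℝ} {T : Fin 3 → Finset α → ℝ}
  {s : Finset α → ℝ} {M Q D B : ℝ}

theorem rem_sub (A : Finset α) (g : Fin 3 → ℝ → ℝ) (m₁ σ₁ : ℝ) : rem ℓ A g m₁ σ₁ ⊆ A :=
  filter_subset _ _

theorem cl_mem_c2 {A : Finset α} {g : Fin 3 → ℝ → ℝ} {i j : Fin 3} {p q : α} :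
    q ∈ c2 A ℓ g i j p ↔ q ∈ A ∧ lab ℓ g i q = lab ℓ g i p ∧ lab ℓ g j q = lab ℓ g j p :=
  mem_filter

theorem cl_mem_c3 {A : Finset α} {g : Fin 3 → ℝ → ℝ} {p q : α} :
    q ∈ c3 A ℓ g p ↔ q ∈ A ∧ ∀ i, lab ℓ g i q = lab ℓ g i p :=
  mem_filter

theorem cl_mem_rem {A : Finset α} {g : Fin 3 → ℝ → ℝ} {m₁ σ₁ : ℝ} {p : α} :
    p ∈ rem ℓ A g m₁ σ₁ ↔ p ∈ A ∧ σ₁ ≤ (c3 A ℓ g p).card ∧
      ∀ q ∈ A, Ended ℓ A g m₁ q → ∀ i j, i ≠ j → p ∉ c2 A ℓ g i j q :=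
  mem_filter

theorem rem_c3 {A : Finset α} {g : Fin 3 → ℝ → ℝ} {m₁ σ₁ : ℝ} {p : α}
    (hp : p ∈ rem ℓ A g m₁ σ₁) :
    c3 (rem ℓ A g m₁ σ₁) ℓ g p = c3 A ℓ g p ∧ σ₁ ≤ (c3 A ℓ g p).card := by
  obtain ⟨hpA, hσ, hp'⟩ := cl_mem_rem.1 hp
  refine ⟨?_, hσ⟩
  ext q
  constructor
  · intro hq
    obtain ⟨h1, h2⟩ := cl_mem_c3.1 hq
    exact cl_mem_c3.2 ⟨rem_sub _ _ _ _ h1, h2⟩
  · intro hq
    obtain ⟨h1, h2⟩ := cl_mem_c3.1 hq
    refine cl_mem_c3.2 ⟨cl_mem_rem.2 ⟨h1, by rw [c3_eq_of_mem hq]; exact hσ, ?_⟩, h2⟩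
    intro q' hq' he i j hij hc
    obtain ⟨_, h3, h4⟩ := cl_mem_c2.1 hc
    exact hp' q' hq' he i j hij (cl_mem_c2.2 ⟨hpA, (h2 i).symm.trans h3, (h2 j).symm.trans h4⟩)

theorem cl_ended {A : Finset α} {g : Fin 3 → ℝ → ℝ} {m₁ : ℝ} {p q : α}
    (hp : Ended ℓ A g m₁ p) (hq : q ∈ c3 A ℓ g p) : Ended ℓ A g m₁ q := by
  intro i j hij
  rw [c3_eq_of_mem hq, c2_eq_of_mem (c3_sub_c2 A ℓ g i j p hq)]
  exact hp i j hij

/-- the ended points -/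
def clE (ℓ : Fin 3 → α → ℝ) (A : Finset α) (g : Fin 3 → ℝ → ℝ) (m₁ : ℝ) : Finset α :=
  A.filter (fun p => Ended ℓ A g m₁ p)

theorem cl_mem_E {A : Finset α} {g : Fin 3 → ℝ → ℝ} {m₁ : ℝ} {p : α} :
    p ∈ clE ℓ A g m₁ ↔ p ∈ A ∧ Ended ℓ A g m₁ p :=
  mem_filter

theorem cl_disj (A : Finset α) (g : Fin 3 → ℝ → ℝ) (m₁ σ₁ : ℝ) :
    Disjoint (clE ℓ A g m₁) (rem ℓ A g m₁ σ₁) := by
  rw [disjoint_left]
  intro p hp hp'
  obtain ⟨h1, h2⟩ := cl_mem_E.1 hp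
  exact (cl_mem_rem.1 hp').2.2 p h1 h2 0 1 (by decide) (cl_mem_c2.2 ⟨h1, rfl, rfl⟩)

theorem cl_c2_E {A : Finset α} {g : Fin 3 → ℝ → ℝ} {m₁ σ₁ : ℝ} (hm' : m₁ ≤ 1 / 2) {p : α}
    (hp : p ∈ clE ℓ A g m₁) {i j : Fin 3} (hij : i ≠ j) :
    c2 (clE ℓ A g m₁ ∪ rem ℓ A g m₁ σ₁) ℓ g i j p = c3 A ℓ g p := by
  obtain ⟨hpA, hpE⟩ := cl_mem_E.1 hp
  ext q
  constructor
  · intro hq
    obtain ⟨h1, h2, h3⟩ := cl_mem_c2.1 hq
    rcases mem_union.1 h1 with h1 | h1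
    · obtain ⟨hqA, hqE⟩ := cl_mem_E.1 h1
      by_contra hc
      have hq2 : q ∈ c2 A ℓ g i j p := cl_mem_c2.2 ⟨hqA, h2, h3⟩
      have hd : Disjoint (c3 A ℓ g p) (c3 A ℓ g q) := by
        rw [disjoint_left]
        intro x hx hx'
        apply hc
        rw [← c3_eq_of_mem hx, c3_eq_of_mem hx']
        exact mem_c3_self hqA
      have hsub : c3 A ℓ g p ∪ c3 A ℓ g q ⊆ c2 A ℓ g i j p := by
        refine union_subset (c3_sub_c2 A ℓ g i j p) ?_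
        rw [← c2_eq_of_mem hq2]
        exact c3_sub_c2 A ℓ g i j q
      have hcard : ((c3 A ℓ g p).card : ℝ) + (c3 A ℓ g q).card ≤ (c2 A ℓ g i j p).card := by
        have := card_le_card hsub
        rw [card_union_of_disjoint hd] at this
        exact_mod_cast this
      have e1 := hpE i j hij
      have e2 := hqE i j hij
      rw [c2_eq_of_mem hq2] at e2
      have p1 : (0 : ℝ) < (c3 A ℓ g p).card := by
        exact_mod_cast card_pos.2 ⟨p, mem_c3_self hpA⟩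
      have p2 : (0 : ℝ) < (c3 A ℓ g q).card := by
        exact_mod_cast card_pos.2 ⟨q, mem_c3_self hqA⟩
      nlinarith
    · exact absurd (cl_mem_c2.2 ⟨rem_sub _ _ _ _ h1, h2, h3⟩)
        ((cl_mem_rem.1 h1).2.2 p hpA hpE i j hij)
  · intro hq
    obtain ⟨h1, h2⟩ := cl_mem_c3.1 hq
    exact cl_mem_c2.2 ⟨mem_union_left _ (cl_mem_E.2 ⟨h1, cl_ended hpE hq⟩), h2 i, h2 j⟩

theorem cl_c2_rem {A : Finset α} {g : Fin 3 → ℝ → ℝ} {m₁ σ₁ : ℝ} {p : α}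
    (hp : p ∈ rem ℓ A g m₁ σ₁) {i j : Fin 3} (hij : i ≠ j) :
    c2 (clE ℓ A g m₁ ∪ rem ℓ A g m₁ σ₁) ℓ g i j p = c2 (rem ℓ A g m₁ σ₁) ℓ g i j p := by
  obtain ⟨hpA, _, hp'⟩ := cl_mem_rem.1 hp
  ext q
  constructor
  · intro hq
    obtain ⟨h1, h2, h3⟩ := cl_mem_c2.1 hq
    rcases mem_union.1 h1 with h1 | h1
    · obtain ⟨hqA, hqE⟩ := cl_mem_E.1 h1
      exact absurd (cl_mem_c2.2 ⟨hpA, h2.symm, h3.symm⟩) (hp' q hqA hqE i j hij)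
    · exact cl_mem_c2.2 ⟨h1, h2, h3⟩
  · intro hq
    obtain ⟨h1, h2⟩ := cl_mem_c2.1 hq
    exact cl_mem_c2.2 ⟨mem_union_right _ h1, h2⟩

/-- points which are not ended but lie in the pair cell of an ended point -/
def clR (ℓ : Fin 3 → α → ℝ) (A : Finset α) (g : Fin 3 → ℝ → ℝ) (m₁ : ℝ) (i j : Fin 3) :
    Finset α :=
  A.filter (fun x => ¬ Ended ℓ A g m₁ x ∧ ∃ q ∈ clE ℓ A g m₁, x ∈ c2 A ℓ g i j q)

theorem cl_card_R {A : Finset α} {g : Fin 3 → ℝ → ℝ} {m₁ : ℝ} (hm : 0 ≤ m₁) {i j : Fin 3}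
    (hij : i ≠ j) : ((clR ℓ A g m₁ i j).card : ℝ) ≤ m₁ * (clE ℓ A g m₁).card := by
  let f : α → ℝ × ℝ := fun q => (lab ℓ g i q, lab ℓ g j q)
  have h1 : (clR ℓ A g m₁ i j).card = ∑ b ∈ (clE ℓ A g m₁).image f,
      ((clR ℓ A g m₁ i j).filter (fun x => f x = b)).card := by
    refine card_eq_sum_card_fiberwise ?_
    intro x hx
    obtain ⟨_, _, q, hq, hxq⟩ := mem_filter.1 (mem_coe.1 hx)
    obtain ⟨_, h2, h3⟩ := cl_mem_c2.1 hxq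
    exact mem_coe.2 (mem_image.2 ⟨q, hq, Prod.ext h2.symm h3.symm⟩)
  have h2 : (clE ℓ A g m₁).card = ∑ b ∈ (clE ℓ A g m₁).image f,
      ((clE ℓ A g m₁).filter (fun x => f x = b)).card :=
    card_eq_sum_card_fiberwise fun x hx => mem_coe.2 (mem_image_of_mem f (mem_coe.1 hx))
  rw [h1, h2]
  push_cast
  rw [mul_sum]
  refine sum_le_sum fun b hb => ?_
  obtain ⟨q, hq, rfl⟩ := mem_image.1 hb
  obtain ⟨hqA, hqE⟩ := cl_mem_E.1 hq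
  have s1 : (clR ℓ A g m₁ i j).filter (fun x => f x = f q) ⊆ c2 A ℓ g i j q \ c3 A ℓ g q := by
    intro x hx
    obtain ⟨hx1, hx2⟩ := mem_filter.1 hx
    obtain ⟨hxA, hxE, _⟩ := mem_filter.1 hx1
    exact mem_sdiff.2 ⟨cl_mem_c2.2 ⟨hxA, congrArg Prod.fst hx2, congrArg Prod.snd hx2⟩,
      fun h => hxE (cl_ended hqE h)⟩
  have s2 : c3 A ℓ g q ⊆ (clE ℓ A g m₁).filter (fun x => f x = f q) := by
    intro x hx
    obtain ⟨hxA, hx2⟩ := cl_mem_c3.1 hx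
    exact mem_filter.2 ⟨cl_mem_E.2 ⟨hxA, cl_ended hqE hx⟩, Prod.ext (hx2 i) (hx2 j)⟩
  have c1 : (((clR ℓ A g m₁ i j).filter (fun x => f x = f q)).card : ℝ) ≤
      (c2 A ℓ g i j q \ c3 A ℓ g q).card := by exact_mod_cast card_le_card s1
  have c2' : ((c3 A ℓ g q).card : ℝ) ≤ ((clE ℓ A g m₁).filter (fun x => f x = f q)).card := by
    exact_mod_cast card_le_card s2
  have c3' : ((c2 A ℓ g i j q \ c3 A ℓ g q).card : ℝ) + (c3 A ℓ g q).card =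
      (c2 A ℓ g i j q).card := by
    exact_mod_cast card_sdiff_add_card_eq_card (c3_sub_c2 A ℓ g i j q)
  have e1 := hqE i j hij
  nlinarith [mul_le_mul_of_nonneg_left c2' hm]

theorem cl_mem_R {A : Finset α} {g : Fin 3 → ℝ → ℝ} {m₁ : ℝ} {x q : α} (hx : x ∈ A)
    (hxE : ¬ Ended ℓ A g m₁ x) (hq : q ∈ clE ℓ A g m₁) {i j : Fin 3} (hij : i ≠ j)
    (h : x ∈ c2 A ℓ g i j q) :
    x ∈ clR ℓ A g m₁ 0 1 ∪ clR ℓ A g m₁ 0 2 ∪ clR ℓ A g m₁ 1 2 := by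
  have h1 : x ∈ clR ℓ A g m₁ i j := mem_filter.2 ⟨hx, hxE, q, hq, h⟩
  have h2 : x ∈ clR ℓ A g m₁ j i := mem_filter.2 ⟨hx, hxE, q, hq, by rw [c2_comm]; exact h⟩
  simp only [mem_union]
  fin_cases i <;> fin_cases j <;> first
    | exact absurd rfl hij
    | exact Or.inl (Or.inl h1)
    | exact Or.inl (Or.inl h2)
    | exact Or.inl (Or.inr h1)
    | exact Or.inl (Or.inr h2)
    | exact Or.inr h1
    | exact Or.inr h2

theorem cleanup (hS : SysA A₀ ℓ T s M Q D B) (hD : 1 ≤ D) {lam c σ₁ m₁ : ℝ} {n : ℕ}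
    (hl : 12 ≤ lam) (hc : 0 ≤ c) (hσ : 0 < σ₁) (hm : 0 ≤ m₁) (hm' : m₁ ≤ 1 / 2)
    (hIH : IH A₀ T s Q D lam c σ₁ n) {A : Finset α} {g : Fin 3 → ℝ → ℝ} (hA : A ⊆ A₀)
    (hQ : ∀ p ∈ A, Q ≤ D * (c3 A ℓ g p).card) (hn : ∀ p ∈ A, (c3 A ℓ g p).card < n) :
    PhiTot ℓ T s Q (rem ℓ A g m₁ σ₁) g -
        ∑ p ∈ rem ℓ A g m₁ σ₁, psi lam c σ₁ (c3 (rem ℓ A g m₁ σ₁) ℓ g p).card ≤
      PhiTot ℓ T s Q A g - ∑ p ∈ A, psi lam c σ₁ (c3 A ℓ g p).card +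
        3 * lam * m₁ * ((A.card : ℝ) - (rem ℓ A g m₁ σ₁).card) := by
  set E := clE ℓ A g m₁ with hE
  set Rm := rem ℓ A g m₁ σ₁ with hRm
  set R := clR ℓ A g m₁ 0 1 ∪ clR ℓ A g m₁ 0 2 ∪ clR ℓ A g m₁ 1 2 with hR
  have hEA : E ⊆ A := filter_subset _ _
  have hRA : Rm ⊆ A := rem_sub _ _ _ _
  have hd : Disjoint E Rm := cl_disj A g m₁ σ₁
  have h1A : E ∪ Rm ⊆ A := union_subset hEA hRA
  have hrem := remove_Phi hS hD hA h1A hQ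
  have hPhi : PhiTot ℓ T s Q (E ∪ Rm) g =
      ∑ p ∈ E, Phi T s Q (c3 A ℓ g p) + PhiTot ℓ T s Q Rm g := by
    unfold PhiTot
    rw [sum_union hd]
    congr 1
    · refine sum_congr rfl fun p hp => ?_
      rw [cl_c2_E hm' hp (by decide), cl_c2_E hm' hp (by decide), cl_c2_E hm' hp (by decide)]
      rfl
    · refine sum_congr rfl fun p hp => ?_
      rw [cl_c2_rem hp (by decide), cl_c2_rem hp (by decide), cl_c2_rem hp (by decide)]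
  have hEψ : ∑ p ∈ E, psi lam c σ₁ (c3 A ℓ g p).card ≤ ∑ p ∈ E, Phi T s Q (c3 A ℓ g p) :=
    sum_le_sum fun p hp =>
      hIH _ ((filter_subset _ _).trans hA) (hn p (hEA hp)) (hQ p (hEA hp))
  have hRψ : ∑ p ∈ Rm, psi lam c σ₁ (c3 Rm ℓ g p).card =
      ∑ p ∈ Rm, psi lam c σ₁ (c3 A ℓ g p).card :=
    sum_congr rfl fun p hp => by rw [(rem_c3 hp).1]
  have hsplit : ∑ p ∈ A, psi lam c σ₁ (c3 A ℓ g p).card =
      ∑ p ∈ A \ (E ∪ Rm), psi lam c σ₁ (c3 A ℓ g p).card +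
        (∑ p ∈ E, psi lam c σ₁ (c3 A ℓ g p).card + ∑ p ∈ Rm, psi lam c σ₁ (c3 A ℓ g p).card) := by
    rw [← sum_union hd, sum_sdiff h1A]
  have hX : ((A \ (E ∪ Rm)).card : ℝ) + (E ∪ Rm).card = A.card := by
    exact_mod_cast card_sdiff_add_card_eq_card h1A
  have hU : ((E ∪ Rm).card : ℝ) = E.card + Rm.card := by
    exact_mod_cast card_union_of_disjoint hd
  have hXψ : ∑ p ∈ A \ (E ∪ Rm), (psi lam c σ₁ (c3 A ℓ g p).card + 12) ≤ lam * R.card := by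
    calc ∑ p ∈ A \ (E ∪ Rm), (psi lam c σ₁ (c3 A ℓ g p).card + 12)
        ≤ ∑ p ∈ A \ (E ∪ Rm), if p ∈ R then lam else 0 := by
          refine sum_le_sum fun p hp => ?_
          obtain ⟨hpA, hp'⟩ := mem_sdiff.1 hp
          split_ifs with hpR
          · linarith [psi_le lam c σ₁ (c3 A ℓ g p).card]
          · have hpE : ¬ Ended ℓ A g m₁ p := fun h => hp' (mem_union_left _ (cl_mem_E.2 ⟨hpA, h⟩))
            have hsm : ((c3 A ℓ g p).card : ℝ) ≤ σ₁ := by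
              by_contra hc'
              refine hp' (mem_union_right _ (cl_mem_rem.2 ⟨hpA, (not_le.1 hc').le, ?_⟩))
              intro q hqA hqE i j hij h
              exact hpR (cl_mem_R hpA hpE (cl_mem_E.2 ⟨hqA, hqE⟩) hij h)
            have p1 : (0 : ℝ) < (c3 A ℓ g p).card := by
              exact_mod_cast card_pos.2 ⟨p, mem_c3_self hpA⟩
            rw [psi_small (by linarith) hc hσ p1 hsm]
            norm_num
      _ = lam * ((A \ (E ∪ Rm)).filter (fun p => p ∈ R)).card := by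
          rw [← sum_filter, sum_const, nsmul_eq_mul, mul_comm]
      _ ≤ lam * R.card := by
          refine mul_le_mul_of_nonneg_left ?_ (by linarith)
          exact_mod_cast card_le_card fun p hp => (mem_filter.1 hp).2
  have hRc : (R.card : ℝ) ≤ 3 * (m₁ * E.card) := by
    have a1 := cl_card_R (ℓ := ℓ) (A := A) (g := g) hm (show (0 : Fin 3) ≠ 1 by decide)
    have a2 := cl_card_R (ℓ := ℓ) (A := A) (g := g) hm (show (0 : Fin 3) ≠ 2 by decide)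
    have a3 := cl_card_R (ℓ := ℓ) (A := A) (g := g) hm (show (1 : Fin 3) ≠ 2 by decide)
    have a4 : (R.card : ℝ) ≤ (clR ℓ A g m₁ 0 1).card + (clR ℓ A g m₁ 0 2).card +
        (clR ℓ A g m₁ 1 2).card := by
      exact_mod_cast (card_union_le _ _).trans (Nat.add_le_add_right (card_union_le _ _) _)
    linarith
  rw [sum_add_distrib, sum_const, nsmul_eq_mul] at hXψ
  have hX0 : (0 : ℝ) ≤ (A \ (E ∪ Rm)).card := Nat.cast_nonneg _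
  have hfin : lam * R.card ≤ 3 * lam * m₁ * ((A.card : ℝ) - Rm.card) :=
    calc lam * R.card ≤ lam * (3 * (m₁ * E.card)) := mul_le_mul_of_nonneg_left hRc (by linarith)
      _ = 3 * lam * m₁ * E.card := by ring
      _ ≤ _ := mul_le_mul_of_nonneg_left (by linarith) (by positivity)
  linarith

end
end Crest.Agent.R51
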