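import Crest.Agent.R51.AOption

set_option autoImplicit false
open Classical Finset

namespace Crest.Agent.R51
noncomputable section

variable {α : Type} {ℓ : Fin 3 → α → ℝ}

theorem ac_fiber {β : Type} (A : Finset α) (f : α → β) (B : α → Prop) {inst : DecidablePred B}
    (c : ℝ) (h : ∀ p ∈ A, (((cls A f p).filter B).card : ℝ) ≤ c * (cls A f p).card) :
    ((A.filter B).card : ℝ) ≤ c * A.card := by
  rw [card_eq_sum_card_image f A, card_eq_sum_card_fiberwise (f := f) (t := A.image f)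
    fun p hp => mem_coe.2 (mem_image_of_mem f (mem_filter.1 (mem_coe.1 hp)).1), Nat.cast_sum,
    Nat.cast_sum, mul_sum]
  refine sum_le_sum fun b hb => ?_
  obtain ⟨p, hp, rfl⟩ := mem_image.1 hb
  rw [filter_comm]
  exact h p hp

theorem ac_mem {β : Type} {P : Finset α} {f : α → β} {p z : α} (h : z ∈ cls P f p) :
    z ∈ P ∧ f z = f p := mem_filter.1 h

theorem ac_light {β : Type} (P X : Finset α) (f : α → β) (T : Finset β) (n x : ℝ) (hx : 0 ≤ x)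
    (hn : (T.card : ℝ) ≤ n) (hT : ∀ p ∈ P, f p ∈ T)
    (hX : ∀ p ∈ X, p ∈ P ∧ ((cls P f p).card : ℝ) < x) : (X.card : ℝ) ≤ n * x :=
  le_trans (Nat.cast_le.2 (card_le_card fun p hp => mem_filter.2 (hX p hp)))
    (card_light P f n x hx ((Nat.cast_le.2 (card_le_card (image_subset_iff.2 hT))).trans hn))

theorem thin_few (A : Finset α) (g : Fin 3 → ℝ → ℝ) (r ρ m₅ : ℝ) (hg : ∀ i, Grid r (g i))
    (hρ : 0 < ρ) (hρr : ρ ≤ r) (hm : 0 ≤ m₅) :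
    ((A.filter (fun p => Thin ℓ A g m₅ ρ p)).card : ℝ) ≤
      m₅ * (3 * 10 ^ 6 * (r / ρ)) ^ 2 * A.card := by
  refine ac_fiber A (fun q => (lab ℓ g 0 q, lab ℓ g 1 q)) _ _ fun p _ => ?_
  rw [← c2_eq_cls]
  have ha : 0 < ρ / 10 ^ 6 / 2 := by positivity
  have h1 : 1 ≤ r / ρ := (one_le_div hρ).2 hρr
  have hl : ∀ i, (∀ q ∈ c2 A ℓ g 0 1 p, lab ℓ g i q = lab ℓ g i p) →
      (((c2 A ℓ g 0 1 p).image fun q => flo (ρ / 10 ^ 6 / 2) 0 (ℓ i q)).card : ℝ) ≤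
        3 * 10 ^ 6 * (r / ρ) := fun i hi => by
    refine (card_flo_labels _ (ℓ i) ha 0 (lab ℓ g i p) r (hρ.le.trans hρr) fun q hq => ?_).trans ?_
    · rw [← hi q hq]
      exact ⟨(hg i).le _, ((hg i).lt _).le⟩
    · have : r / (ρ / 10 ^ 6 / 2) = 2 * 10 ^ 6 * (r / ρ) := by
        field_simp
      linarith
  have h2 := mul_le_mul (hl 0 fun q hq => (mem_filter.1 hq).2.1)
    (hl 1 fun q hq => (mem_filter.1 hq).2.2) (by positivity) (by positivity)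
  rw [← Nat.cast_mul, ← card_product] at h2
  refine (ac_light (c2 A ℓ g 0 1 p) _
    (fun q => (flo (ρ / 10 ^ 6 / 2) 0 (ℓ 0 q), flo (ρ / 10 ^ 6 / 2) 0 (ℓ 1 q))) _ _
    (m₅ * (c2 A ℓ g 0 1 p).card) (by positivity) h2 (fun q hq => mem_product.2
      ⟨mem_image_of_mem _ hq, mem_image_of_mem _ hq⟩) fun q hq => ?_).trans (le_of_eq (by ring))
  obtain ⟨q1, q2⟩ := mem_filter.1 hq
  rw [Thin, c2_eq_of_mem q1] at q2
  refine ⟨q1, lt_of_le_of_lt (Nat.cast_le.2 (card_le_card fun z hz => ?_)) q2⟩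
  obtain ⟨z1, z2⟩ := ac_mem hz
  exact mem_filter.2 ⟨c2_sub _ _ _ _ _ _ z1, max_le
    ((grid_flo ha 0).abs_lt (congrArg Prod.fst z2).symm).le
    ((grid_flo ha 0).abs_lt (congrArg Prod.snd z2).symm).le⟩

theorem ac_or3 (X S₁ S₂ S₃ : Finset α) (h : ∀ p ∈ X, p ∈ S₁ ∨ p ∈ S₂ ∨ p ∈ S₃) :
    (X.card : ℝ) ≤ S₁.card + S₂.card + S₃.card := by
  have h1 : X.card ≤ (S₁ ∪ (S₂ ∪ S₃)).card :=
    card_le_card fun p hp => by simpa only [mem_union] using h p hp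
  have h2 := card_union_le S₁ (S₂ ∪ S₃)
  have h3 := card_union_le S₂ S₃
  exact_mod_cast (by omega : X.card ≤ S₁.card + S₂.card + S₃.card)

theorem ac_pair (A : Finset α) (g : Fin 3 → ℝ → ℝ) (r : ℝ) (hr : 0 < r) (hg : ∀ i, Grid r (g i))
    (i j k : Fin 3) (h0 : ∀ p, ℓ i p + ℓ j p + ℓ k p = 0) (hk : ∀ m, m = i ∨ m = j ∨ m = k) :
    ((A.filter fun p => ¬ Near (g k) (r / 10 ^ 5) (ℓ k p) ∧
      10 ^ 10 * ((c3 A ℓ g p).card : ℝ) < (c2 A ℓ g i j p).card).card : ℝ) ≤ 1 / 6000 * A.card := by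
  refine ac_fiber A (fun q => (lab ℓ g i q, lab ℓ g j q)) _ _ fun p _ => ?_
  rw [← c2_eq_cls]
  have ha : 0 < r / 10 ^ 5 := by positivity
  have h1 := card_flo_labels ((c2 A ℓ g i j p).filter fun q => ¬ Near (g k) (r / 10 ^ 5) (ℓ k q))
    (ℓ k) ha 0 (-(lab ℓ g i p + lab ℓ g j p + 2 * r)) (2 * r) (by positivity) fun q hq => by
      obtain ⟨-, q1, q2⟩ := mem_filter.1 (mem_filter.1 hq).1
      rw [← q1, ← q2]
      unfold lab
      constructor <;> linarith [h0 q, (hg i).le (ℓ i q), (hg i).lt (ℓ i q), (hg j).le (ℓ j q),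
        (hg j).lt (ℓ j q)]
  rw [show 2 * r / (r / 10 ^ 5) = 2 * 10 ^ 5 by field_simp] at h1
  refine (ac_light _ _ (fun q => flo (r / 10 ^ 5) 0 (ℓ k q)) _ _
    ((c2 A ℓ g i j p).card / 10 ^ 10) (by positivity) h1 (fun q hq => mem_image_of_mem _ hq)
    fun q hq => ?_).trans (by linarith [(c2 A ℓ g i j p).card.cast_nonneg (α := ℝ)])
  obtain ⟨q1, q2, q3⟩ := mem_filter.1 hq
  rw [c2_eq_of_mem q1] at q3
  refine ⟨mem_filter.2 ⟨q1, q2⟩, lt_of_le_of_lt (Nat.cast_le.2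
    (card_le_card (t := c3 A ℓ g q) fun z hz => ?_)) (by linarith)⟩
  obtain ⟨z1, z2⟩ := mem_filter.1 hz
  obtain ⟨z3, z4, z5⟩ := mem_filter.1 (mem_filter.1 z1).1
  refine mem_filter.2 ⟨z3, fun m => ?_⟩
  rcases hk m with rfl | rfl | rfl
  · exact z4.trans (mem_filter.1 q1).2.1.symm
  · exact z5.trans (mem_filter.1 q1).2.2.symm
  · exact (hg m).eq_of_not_near q2 ((grid_flo ha 0).abs_lt z2).le

theorem notreg_few (h0 : ∀ p, ℓ 0 p + ℓ 1 p + ℓ 2 p = 0) (A : Finset α) (g gp : Fin 3 → ℝ → ℝ)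
    (r ε : ℝ) (hr : 0 < r) (hg : ∀ i, Grid r (g i)) :
    ((A.filter (fun p => ¬ Reg ℓ A g gp r ε p)).card : ℝ) ≤
      NB ℓ A g (r / 10 ^ 5) + A.card / 2000 + DefC ℓ A g gp ε := by
  have h1 := ac_or3 (A.filter fun p => ¬ Reg ℓ A g gp r ε p)
    (A.filter fun p => ∃ i, Near (g i) (r / 10 ^ 5) (ℓ i p))
    (A.filter fun p => (∀ i, ¬ Near (g i) (r / 10 ^ 5) (ℓ i p)) ∧ ∃ i j, i ≠ j ∧
      10 ^ 10 * ((c3 A ℓ g p).card : ℝ) < (c2 A ℓ g i j p).card)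
    (A.filter fun p => ¬ NonDef (c2 A ℓ g 0 1 p) (lab ℓ gp 0) (lab ℓ gp 1) ε ∨
      ¬ NonDef (c2 A ℓ g 0 2 p) (lab ℓ gp 0) (lab ℓ gp 2) ε ∨
      ¬ NonDef (c2 A ℓ g 1 2 p) (lab ℓ gp 1) (lab ℓ gp 2) ε) fun p hp => by
      obtain ⟨p1, p2⟩ := mem_filter.1 hp
      by_contra h
      simp only [mem_filter, p1, true_and, not_or, not_exists, not_and, not_lt, not_not] at h
      exact p2 ⟨h.1, h.2.1 h.1, h.2.2.1, h.2.2.2.1, h.2.2.2.2⟩
  refine h1.trans (add_le_add (add_le_add ?_ ?_) ?_)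
  · rw [NB, Fin.sum_univ_three]
    refine ac_or3 _ _ _ _ fun p hp => ?_
    obtain ⟨p1, i, hi⟩ := mem_filter.1 hp
    fin_cases i
    exacts [Or.inl (mem_filter.2 ⟨p1, hi⟩), Or.inr (Or.inl (mem_filter.2 ⟨p1, hi⟩)),
      Or.inr (Or.inr (mem_filter.2 ⟨p1, hi⟩))]
  · have a1 := ac_pair A g r hr hg 0 1 2 h0 (by decide)
    have a2 := ac_pair A g r hr hg 0 2 1 (fun p => by linarith [h0 p]) (by decide)
    have a3 := ac_pair A g r hr hg 1 2 0 (fun p => by linarith [h0 p]) (by decide)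
    refine le_trans (le_trans (ac_or3 _ _ _ _ fun p hp => ?_) (add_le_add (add_le_add a1 a2) a3))
      (by linarith [A.card.cast_nonneg (α := ℝ)])
    obtain ⟨p1, p2, i, j, hij, p3⟩ := mem_filter.1 hp
    have p4 := c2_comm A ℓ g i j p ▸ p3
    simp only [mem_filter, p1, p2, true_and, not_false_eq_true]
    fin_cases i <;> fin_cases j
    exacts [absurd rfl hij, Or.inl p3, Or.inr (Or.inl p3), Or.inl p4, absurd rfl hij,
      Or.inr (Or.inr p3), Or.inr (Or.inl p4), Or.inr (Or.inr p4), absurd rfl hij]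
  · refine ac_or3 _ _ _ _ fun p hp => ?_
    obtain ⟨p1, p2⟩ := mem_filter.1 hp
    simpa only [mem_filter, p1, true_and] using p2

/-- an interior point that stays in the epoch is not atomic -/
theorem rem_nonat (h0 : ∀ p, ℓ 0 p + ℓ 1 p + ℓ 2 p = 0) (A : Finset α) (g : Fin 3 → ℝ → ℝ)
    (r r' θ ϑ m₁ σ₁ : ℝ) (o : Fin 3 → ℝ) (hg : ∀ i, Grid r (g i)) (hr' : 0 < r')
    (hrr : 10 ^ 9 * r' ≤ r) (hθ : 0 ≤ θ) (hθ' : θ ≤ 1 / 10 ^ 6) (hm : 0 ≤ m₁) {p : α}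
    (hp : p ∈ rem ℓ (surv ℓ A g (rfn3 g r' o) (θ * r') ϑ) (rfn3 g r' o) m₁ σ₁)
    (hint : ∀ i, ¬ Near (g i) (r / 10 ^ 5) (ℓ i p))
    (hnear : ∀ i, ¬ Near (flo3 r' o i) (3 * r' / 10 ^ 6) (ℓ i p)) : NonAt ℓ A m₁ r' p := by
  obtain ⟨p1, -, p2⟩ := mem_filter.1 hp
  have hg' : ∀ i, Grid r' (rfn3 g r' o i) := fun i => grid_rfn (hg i) hr' (o i)
  have hn : ∀ i, ¬ Near (rfn3 g r' o i) (3 * r' / 10 ^ 6) (ℓ i p) := fun i h =>
    ((near_rfn (hg i) hr' (o i) _).1 h).elim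
      (fun h => hint i ((hg i).near_mono (by positivity) (by linarith) h)) (hnear i)
  have h3 := (surv_c3 (g' := rfn3 g r' o)
    (fun i x y h => ((rfn_eq_iff (hg i) hr' (o i) x y).1 h).1) p1).1
  have t0 : 0 ≤ θ * r' := by positivity
  have t1 := mul_le_mul_of_nonneg_right hθ' hr'.le
  have b1 : ball ℓ A p (r' / 10 ^ 6) ⊆
      c3 (surv ℓ A g (rfn3 g r' o) (θ * r') ϑ) ℓ (rfn3 g r' o) p := by
    rw [h3]
    intro q hq
    obtain ⟨q1, q2⟩ := mem_filter.1 hq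
    have q3 : ∀ i, |ℓ i p - ℓ i q| ≤ 2 * (r' / 10 ^ 6) := fun i => (abs_le_nrm ℓ i p q).trans
      (nrm_le_of_two h0 zero_ne_one (max_le_iff.1 q2).1 (max_le_iff.1 q2).2)
    have q4 : ∀ i (t : ℝ), -(θ * r') ≤ t → t ≤ θ * r' →
        rfn3 g r' o i (ℓ i q + t) = rfn3 g r' o i (ℓ i p) := fun i t a1 a2 => by
      obtain ⟨a3, a4⟩ := abs_le.1 (q3 i)
      exact (hg' i).eq_of_not_near (hn i) (abs_le.2 ⟨by linarith, by linarith⟩)
    refine mem_filter.2 ⟨mem_filter.2 ⟨q1, fun i h => h ?_⟩, fun i => ?_⟩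
    · rw [sub_eq_add_neg, q4 i _ le_rfl (by linarith), q4 i _ (by linarith) le_rfl]
    · simpa only [add_zero, lab] using q4 i 0 (by linarith) t0
  by_contra h
  refine p2 p p1 (fun i j hij => ?_) 0 1 zero_ne_one (mem_filter.2 ⟨p1, rfl, rfl⟩)
  have b2 : c2 (surv ℓ A g (rfn3 g r' o) (θ * r') ϑ) ℓ (rfn3 g r' o) i j p ⊆
      ball ℓ A p (2 * r') := fun q hq => by
    obtain ⟨q1, q2, q3⟩ := mem_filter.1 hq
    have q4 := nrm_le_of_two h0 hij ((hg' i).abs_lt q2.symm).le ((hg' j).abs_lt q3.symm).le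
    exact mem_filter.2 ⟨surv_sub _ _ _ _ _ q1,
      max_le ((abs_le_nrm ℓ 0 p q).trans q4) ((abs_le_nrm ℓ 1 p q).trans q4)⟩
  have b3 : ball ℓ A p (r' / 10 ^ 6 / 2) ⊆ ball ℓ A p (r' / 10 ^ 6) := fun q hq =>
    mem_filter.2 ⟨(mem_filter.1 hq).1, (mem_filter.1 hq).2.trans (by linarith)⟩
  have c1 := (Nat.cast_le (α := ℝ)).2 (card_le_card b1)
  have c2 := (Nat.cast_le (α := ℝ)).2 (card_le_card b2)
  have c3 := (Nat.cast_le (α := ℝ)).2 (card_le_card b3)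
  linarith [not_lt.1 h, mul_le_mul_of_nonneg_left (c3.trans c1) hm]

end
end Crest.Agent.R51
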