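import Crest.Agent.R51.ABasic

set_option autoImplicit false
open Classical Finset

namespace Crest.Agent.R51
noncomputable section

variable {α : Type} {A₀ : Finset α} {ℓ : Fin 3 → α → ℝ} {T : Fin 3 → Finset α → ℝ}
  {s : Finset α → ℝ} {M Q D B : ℝ}

/-- total variation is bounded by the Hellinger distance -/
theorem ADrift_tv {β : Type} (I J : Finset β) (hJ : J ⊆ I) (p q : β → ℝ) (hp : ∀ c ∈ I, 0 ≤ p c)
    (hq : ∀ c ∈ I, 0 ≤ q c) (sp : ∑ c ∈ I, p c ≤ 1) (sq' : ∑ c ∈ I, q c ≤ 1) :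
    |∑ c ∈ J, p c - ∑ c ∈ J, q c| ≤ 2 * √(∑ c ∈ I, (√(p c) - √(q c)) ^ 2) := by
  have h1 := sum_mul_sq_le_sq_mul_sq J (fun c => √(p c) - √(q c)) (fun c => √(p c) + √(q c))
  have h2 : ∑ c ∈ J, (√(p c) - √(q c)) * (√(p c) + √(q c)) = ∑ c ∈ J, p c - ∑ c ∈ J, q c := by
    rw [← sum_sub_distrib]
    refine sum_congr rfl fun c hc => ?_
    nlinarith [Real.sq_sqrt (hp c (hJ hc)), Real.sq_sqrt (hq c (hJ hc))]
  have h3 : ∑ c ∈ J, (√(p c) - √(q c)) ^ 2 ≤ ∑ c ∈ I, (√(p c) - √(q c)) ^ 2 :=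
    sum_le_sum_of_subset_of_nonneg hJ fun _ _ _ => sq_nonneg _
  have h4 : ∑ c ∈ J, (√(p c) + √(q c)) ^ 2 ≤ 4 :=
    calc ∑ c ∈ J, (√(p c) + √(q c)) ^ 2 ≤ ∑ c ∈ I, (√(p c) + √(q c)) ^ 2 :=
          sum_le_sum_of_subset_of_nonneg hJ fun _ _ _ => sq_nonneg _
      _ ≤ ∑ c ∈ I, (2 * p c + 2 * q c) := sum_le_sum fun c hc => by
          nlinarith [Real.sq_sqrt (hp c hc), Real.sq_sqrt (hq c hc), sq_nonneg (√(p c) - √(q c))]
      _ ≤ 4 := by
          rw [sum_add_distrib, ← mul_sum, ← mul_sum]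
          linarith
  have h0 : 0 ≤ ∑ c ∈ I, (√(p c) - √(q c)) ^ 2 := sum_nonneg fun _ _ => sq_nonneg _
  refine abs_le_of_sq_le_sq' ?_ (by positivity) |> abs_le.2
  rw [← h2, mul_pow, Real.sq_sqrt h0]
  refine h1.trans ((mul_le_mul h3 h4 (sum_nonneg fun _ _ => sq_nonneg _) h0).trans_eq ?_)
  ring

theorem ADrift_log {p q : ℝ} (hp : 0 < p) (hq : 0 < q) :
    p * (Real.log q - Real.log p) ≤ q - p - (√p - √q) ^ 2 := by
  have h1 := Real.sqrt_pos.2 hp
  have h2 := Real.sqrt_pos.2 hq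
  have h3 := Real.log_le_sub_one_of_pos (div_pos h2 h1)
  rw [Real.log_div h2.ne' h1.ne', Real.log_sqrt hp.le, Real.log_sqrt hq.le] at h3
  have h4 := Real.sq_sqrt hp.le
  have h5 := Real.sq_sqrt hq.le
  have h6 : p * (√q / √p) = √p * √q := by
    field_simp
    rw [h4]
  have h7 := mul_le_mul_of_nonneg_left h3 hp.le
  nlinarith

theorem ADrift_four {x y z u v a b e : ℝ} (hy0 : 0 ≤ y) (hy : y ≤ 1) (ha0 : 0 ≤ a) (hb0 : 0 ≤ b)
    (hau : a ≤ u) (hbv : b ≤ v) (hu : u ≤ 1) (hv : v ≤ 1) (h1 : |x - a * b| ≤ e)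
    (h2 : |y - a * v| ≤ e) (h3 : |z - u * b| ≤ e) (h4 : |1 - u * v| ≤ e) :
    |x - y * z| ≤ 4 * e := by
  have he : 0 ≤ e := (abs_nonneg _).trans h1
  have hab : |a * b| ≤ 1 := by
    rw [abs_of_nonneg (mul_nonneg ha0 hb0)]
    exact mul_le_one₀ (hau.trans hu) hb0 (hbv.trans hv)
  have hub : |u * b| ≤ 1 := by
    rw [abs_of_nonneg (mul_nonneg (ha0.trans hau) hb0)]
    exact mul_le_one₀ hu hb0 (hbv.trans hv)
  have hy' : |y| ≤ 1 := by rwa [abs_of_nonneg hy0]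
  have e1 : x - y * z = (x - a * b) + (a * b) * (1 - u * v) - (u * b) * (y - a * v) -
      y * (z - u * b) := by ring
  have b1 : |(a * b) * (1 - u * v)| ≤ 1 * e := by
    rw [abs_mul]; exact mul_le_mul hab h4 (abs_nonneg _) zero_le_one
  have b2 : |(u * b) * (y - a * v)| ≤ 1 * e := by
    rw [abs_mul]; exact mul_le_mul hub h2 (abs_nonneg _) zero_le_one
  have b3 : |y * (z - u * b)| ≤ 1 * e := by
    rw [abs_mul]; exact mul_le_mul hy' h3 (abs_nonneg _) zero_le_one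
  rw [e1]
  rw [abs_le] at h1 b1 b2 b3 ⊢
  constructor <;> linarith [h1.1, h1.2, b1.1, b1.2, b2.1, b2.2, b3.1, b3.2]

/-- the strips of one coordinate are superadditive -/
theorem ADrift_T (hS : SysA A₀ ℓ T s M Q D B) {P P'' : Finset α} (hP : P ⊆ A₀)
    (h : P'' ⊆ P) (i : Fin 3) (a : α → ℝ) (r : ℝ) (hr : ∀ p ∈ P'', ∀ q ∈ P'', nrm ℓ p q ≤ r)
    (ha : Sep P'' a (ℓ i) (2 * M * r)) :
    ∑ x ∈ P''.image a, T i (P''.filter fun q => a q = x) ≤ T i P := by
  refine (hS.Tadd i ℝ (P''.image a) (fun x => P''.filter fun q => a q = x)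
    (fun x _ => (filter_subset _ _).trans (h.trans hP)) fun x _ x' _ hne p hp q hq => ?_).trans
    (hS.Tmono i _ _ (biUnion_subset.2 fun x _ => (filter_subset _ _).trans h) hP)
  replace hp := mem_filter.1 hp
  replace hq := mem_filter.1 hq
  obtain ⟨hp, rfl⟩ := hp
  obtain ⟨hq, rfl⟩ := hq
  have h1 := mul_le_mul_of_nonneg_left (hr p hp q hq) hS.Mnn
  have h2 : 0 ≤ M * nrm ℓ p q :=
    mul_nonneg hS.Mnn ((abs_nonneg _).trans (abs_le_nrm ℓ i p q))
  rcases lt_or_gt_of_ne hne with hlt | hlt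
  · have := ha p hp q hq hlt
    linarith [neg_le_abs (ℓ i p - ℓ i q)]
  · have := ha q hq p hp hlt
    linarith [le_abs_self (ℓ i p - ℓ i q)]

/-- the approximate product structure -/
theorem ADrift_def {P P'' : Finset α} (h : P'' ⊆ P) (hN : 0 < (P.card : ℝ)) (a b : α → ℝ)
    (τ τ' : ℝ → ℝ) (h0 : ∀ x ∈ P''.image a, 0 ≤ τ x) (h0' : ∀ x ∈ P''.image b, 0 ≤ τ' x)
    (h1 : ∑ x ∈ P''.image a, τ x ≤ 1) (h1' : ∑ x ∈ P''.image b, τ' x ≤ 1) (n : ℝ × ℝ → ℝ)
    (hn : ∀ c, n c = (P''.filter fun q => (a q, b q) = c).card) :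
    NonDef P a b (4 * (2 * √(∑ c ∈ P''.image a ×ˢ P''.image b,
      (√(n c / P.card) - √(τ c.1 * τ' c.2)) ^ 2) + ((P.card : ℝ) - P''.card) / P.card)) := by
  have hsum : ∀ 𝒜 ℬ : Set ℝ,
      ∑ c ∈ (P''.image a).filter (· ∈ 𝒜) ×ˢ (P''.image b).filter (· ∈ ℬ), n c =
        (P''.filter fun q => a q ∈ 𝒜 ∧ b q ∈ ℬ).card := by
    intro 𝒜 ℬ
    rw [card_eq_sum_card_fiberwise (f := fun q => (a q, b q))
      (t := (P''.image a).filter (· ∈ 𝒜) ×ˢ (P''.image b).filter (· ∈ ℬ)) (fun q hq => by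
        obtain ⟨h1, h2, h3⟩ := mem_filter.1 (mem_coe.1 hq)
        exact mem_coe.2 (mem_product.2 ⟨mem_filter.2 ⟨mem_image_of_mem _ h1, h2⟩,
          mem_filter.2 ⟨mem_image_of_mem _ h1, h3⟩⟩))]
    push_cast
    refine sum_congr rfl fun c hc => ?_
    obtain ⟨c1, c2⟩ := mem_product.1 hc
    rw [hn]
    congr 2
    ext q
    simp only [mem_filter]
    constructor
    · rintro ⟨hq, rfl⟩
      exact ⟨⟨hq, (mem_filter.1 c1).2, (mem_filter.1 c2).2⟩, rfl⟩
    · rintro ⟨hq, e⟩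
      exact ⟨hq.1, e⟩
  have hprod : ∀ X Y : Finset ℝ, ∑ c ∈ X ×ˢ Y, τ c.1 * τ' c.2 = (∑ x ∈ X, τ x) * ∑ y ∈ Y, τ' y :=
    fun X Y => by rw [sum_mul_sum, sum_product]
  have hc : (P''.card : ℝ) ≤ P.card := by exact_mod_cast card_le_card h
  have sp : ∑ c ∈ P''.image a ×ˢ P''.image b, n c / P.card ≤ 1 := by
    have := hsum Set.univ Set.univ
    simp only [Set.mem_univ, filter_true, and_self] at this
    rw [← sum_div, this, div_le_one hN]
    exact hc
  have sq' : ∑ c ∈ P''.image a ×ˢ P''.image b, τ c.1 * τ' c.2 ≤ 1 := by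
    rw [hprod]
    exact mul_le_one₀ h1 (sum_nonneg h0') h1'
  have key : ∀ 𝒜 ℬ : Set ℝ, |((P.filter fun q => a q ∈ 𝒜 ∧ b q ∈ ℬ).card : ℝ) / P.card -
      (∑ x ∈ (P''.image a).filter (· ∈ 𝒜), τ x) * ∑ y ∈ (P''.image b).filter (· ∈ ℬ), τ' y| ≤
      2 * √(∑ c ∈ P''.image a ×ˢ P''.image b, (√(n c / P.card) - √(τ c.1 * τ' c.2)) ^ 2) +
        ((P.card : ℝ) - P''.card) / P.card := by
    intro 𝒜 ℬ
    have h2 := ADrift_tv (P''.image a ×ˢ P''.image b)
      ((P''.image a).filter (· ∈ 𝒜) ×ˢ (P''.image b).filter (· ∈ ℬ))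
      (product_subset_product (filter_subset _ _) (filter_subset _ _)) (fun c => n c / P.card)
      (fun c => τ c.1 * τ' c.2) (fun c _ => by rw [hn]; positivity)
      (fun c hc => mul_nonneg (h0 _ (mem_product.1 hc).1) (h0' _ (mem_product.1 hc).2)) sp sq'
    rw [← sum_div, hsum, hprod] at h2
    have h3 : ((P''.filter fun q => a q ∈ 𝒜 ∧ b q ∈ ℬ).card : ℝ) ≤
        (P.filter fun q => a q ∈ 𝒜 ∧ b q ∈ ℬ).card := by
      exact_mod_cast card_le_card (filter_subset_filter _ h)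
    have h4 : ((P.filter fun q => a q ∈ 𝒜 ∧ b q ∈ ℬ).card : ℝ) + P''.card ≤
        (P''.filter fun q => a q ∈ 𝒜 ∧ b q ∈ ℬ).card + P.card := by
      have e1 := card_sdiff_add_card_eq_card h
      have e2 : (P.filter fun q => a q ∈ 𝒜 ∧ b q ∈ ℬ).card ≤
          (P''.filter fun q => a q ∈ 𝒜 ∧ b q ∈ ℬ).card + (P \ P'').card := by
        refine le_trans (card_le_card fun q hq => ?_) (card_union_le _ _)
        by_cases hq' : q ∈ P''
        · exact mem_union_left _ (mem_filter.2 ⟨hq', (mem_filter.1 hq).2⟩)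
        · exact mem_union_right _ (mem_sdiff.2 ⟨(mem_filter.1 hq).1, hq'⟩)
      exact_mod_cast (by omega : (P.filter fun q => a q ∈ 𝒜 ∧ b q ∈ ℬ).card + P''.card ≤
        (P''.filter fun q => a q ∈ 𝒜 ∧ b q ∈ ℬ).card + P.card)
    have h5 := div_le_div_of_nonneg_right h3 hN.le
    have h6 : ((P.filter fun q => a q ∈ 𝒜 ∧ b q ∈ ℬ).card : ℝ) / P.card ≤
        ((P''.filter fun q => a q ∈ 𝒜 ∧ b q ∈ ℬ).card : ℝ) / P.card +
          ((P.card : ℝ) - P''.card) / P.card := by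
      rw [← add_div]
      exact div_le_div_of_nonneg_right (by linarith) hN.le
    have h7 : 0 ≤ ((P.card : ℝ) - P''.card) / P.card := div_nonneg (by linarith) hN.le
    rw [abs_le] at h2 ⊢
    constructor <;> linarith [h2.1, h2.2]
  intro 𝒜 ℬ
  have k1 := key 𝒜 ℬ
  have k2 := key 𝒜 Set.univ
  have k3 := key Set.univ ℬ
  have k4 := key Set.univ Set.univ
  simp only [Set.mem_univ, filter_true, and_true, true_and] at k2 k3 k4
  rw [div_self hN.ne'] at k4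
  have k5 := ADrift_four (by positivity)
    ((div_le_one hN).2 (by exact_mod_cast card_le_card (filter_subset _ _)))
    (sum_nonneg fun x hx => h0 x (mem_filter.1 hx).1)
    (sum_nonneg fun x hx => h0' x (mem_filter.1 hx).1)
    (sum_le_sum_of_subset_of_nonneg (filter_subset _ _) fun x hx _ => h0 x hx)
    (sum_le_sum_of_subset_of_nonneg (filter_subset _ _) fun x hx _ => h0' x hx) h1 h1' k1 k2 k3 k4
  have e : ∀ x y z : ℝ, x * P.card - y * z = (x / P.card - y / P.card * (z / P.card)) *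
      (P.card : ℝ) ^ 2 := fun x y z => by field_simp
  rw [e, abs_mul, abs_of_nonneg (sq_nonneg (P.card : ℝ))]
  exact mul_le_mul_of_nonneg_right k5 (sq_nonneg _)

theorem pair_drift (hS : SysA A₀ ℓ T s M Q D B) {P P'' : Finset α} (hP : P ⊆ A₀)
    (h : P'' ⊆ P) (i j : Fin 3) (a b : α → ℝ) (r ε : ℝ) (hε : 0 ≤ ε)
    (hr : ∀ p ∈ P'', ∀ q ∈ P'', nrm ℓ p q ≤ r) (ha : Sep P'' a (ℓ i) (2 * M * r))
    (hb : Sep P'' b (ℓ j) (2 * M * r)) :
    ∑ p ∈ P'', PP T s Q i j (cls P'' (fun q => (a q, b q)) p) +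
        (if NonDef P a b ε then 0 else ε ^ 2 * P.card / 64) ≤
      P''.card * PP T s Q i j P + 5 * ((P.card : ℝ) - P''.card) := by
  rcases P.eq_empty_or_nonempty with rfl | hne
  · obtain rfl := subset_empty.1 h
    simp
  have hN : 0 < (P.card : ℝ) := by exact_mod_cast hne.card_pos
  have hP'' : P'' ⊆ A₀ := h.trans hP
  have hc : (P''.card : ℝ) ≤ P.card := by exact_mod_cast card_le_card h
  have hTP : ∀ i, 0 < T i P := fun i => hN.trans_le (hS.Tcard i P hP)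
  have hsP : 0 < s P := hN.trans_le (hS.scard P hP)
  obtain ⟨C, hC⟩ : ∃ C : ℝ × ℝ → Finset α, ∀ c q, q ∈ C c ↔ q ∈ P'' ∧ (a q, b q) = c :=
    ⟨fun c => P''.filter fun q => (a q, b q) = c, fun _ _ => mem_filter⟩
  have hCs : ∀ c, C c ⊆ P'' := fun c q hq => ((hC c q).1 hq).1
  obtain ⟨F, hF⟩ : ∃ F : Finset (ℝ × ℝ), ∀ c, c ∈ F ↔ ∃ q ∈ P'', (a q, b q) = c :=
    ⟨P''.image fun q => (a q, b q), fun _ => mem_image⟩
  have hcls : ∀ G : Finset α → ℝ, ∑ p ∈ P'', G (cls P'' (fun q => (a q, b q)) p) =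
      ∑ c ∈ F, ((C c).card : ℝ) * G (C c) := by
    intro G
    rw [sum_cls]
    refine sum_congr (by ext c; rw [hF]; simp only [mem_image]) fun c _ => ?_
    have e : ∀ X : Finset α, (∀ q, q ∈ X ↔ q ∈ P'' ∧ (a q, b q) = c) →
        (X.card : ℝ) * G X = ((C c).card : ℝ) * G (C c) := fun X hX => by
      rw [show X = C c from Finset.ext fun q => (hX q).trans (hC c q).symm]
    exact e _ fun q => by simp only [mem_filter]
  have hcard : ∑ c ∈ F, ((C c).card : ℝ) = P''.card := by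
    simpa using (hcls fun _ => 1).symm
  obtain ⟨τ, hτ⟩ : ∃ τ : ℝ → ℝ, ∀ x, τ x = T i (P''.filter fun q => a q = x) / T i P :=
    ⟨_, fun _ => rfl⟩
  obtain ⟨τ', hτ'⟩ : ∃ τ' : ℝ → ℝ, ∀ x, τ' x = T j (P''.filter fun q => b q = x) / T j P :=
    ⟨_, fun _ => rfl⟩
  have t0 : ∀ x, 0 ≤ τ x := fun x => by
    rw [hτ]
    exact div_nonneg ((Nat.cast_nonneg _).trans
      (hS.Tcard i _ ((filter_subset _ _).trans hP''))) (hTP i).le
  have t0' : ∀ x, 0 ≤ τ' x := fun x => by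
    rw [hτ']
    exact div_nonneg ((Nat.cast_nonneg _).trans
      (hS.Tcard j _ ((filter_subset _ _).trans hP''))) (hTP j).le
  have t1 : ∑ x ∈ P''.image a, τ x ≤ 1 := by
    simp only [hτ]
    rw [← sum_div, div_le_one (hTP i)]
    exact ADrift_T hS hP h i a r hr ha
  have t1' : ∑ x ∈ P''.image b, τ' x ≤ 1 := by
    simp only [hτ']
    rw [← sum_div, div_le_one (hTP j)]
    exact ADrift_T hS hP h j b r hr hb
  have s1 : ∑ c ∈ F, s (C c) ≤ s P := by
    refine (hS.sadd r (ℝ × ℝ) F C (fun c _ => (hCs c).trans hP'') (fun p hp q hq => ?_)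
      fun c _ c' _ hne => ?_).trans
      (hS.smono _ _ (biUnion_subset.2 fun c _ => (hCs c).trans h) hP)
    · exact hr p (biUnion_subset.2 (fun c _ => hCs c) hp) q (biUnion_subset.2 (fun c _ => hCs c) hq)
    have e1 : ∀ c, ∀ p ∈ C c, a p = c.1 := fun c p hp => congrArg Prod.fst ((hC c p).1 hp).2
    have e2 : ∀ c, ∀ p ∈ C c, b p = c.2 := fun c p hp => congrArg Prod.snd ((hC c p).1 hp).2
    rcases lt_trichotomy c.1 c'.1 with h1 | h1 | h1
    · exact ⟨i, Or.inl fun p hp q hq => ha p (hCs _ hp) q (hCs _ hq)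
        (by rw [e1 _ p hp, e1 _ q hq]; exact h1)⟩
    · rcases lt_trichotomy c.2 c'.2 with h2 | h2 | h2
      · exact ⟨j, Or.inl fun p hp q hq => hb p (hCs _ hp) q (hCs _ hq)
          (by rw [e2 _ p hp, e2 _ q hq]; exact h2)⟩
      · exact absurd (Prod.ext h1 h2) hne
      · exact ⟨j, Or.inr fun p hp q hq => hb q (hCs _ hq) p (hCs _ hp)
          (by rw [e2 _ p hp, e2 _ q hq]; exact h2)⟩
    · exact ⟨i, Or.inr fun p hp q hq => ha q (hCs _ hq) p (hCs _ hp)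
        (by rw [e1 _ p hp, e1 _ q hq]; exact h1)⟩
  have hFI : F ⊆ P''.image a ×ˢ P''.image b := fun c hc => by
    obtain ⟨q, hq, rfl⟩ := (hF c).1 hc
    exact mem_product.2 ⟨mem_image_of_mem _ hq, mem_image_of_mem _ hq⟩
  -- one class
  have hone : ∀ c ∈ F, ((C c).card : ℝ) * PP T s Q i j (C c) ≤
      (C c).card * PP T s Q i j P + 2 * (P.card * (τ c.1 * τ' c.2 - (C c).card / P.card -
        (√(((C c).card : ℝ) / P.card) - √(τ c.1 * τ' c.2)) ^ 2)) +
        2 * (P.card * (s (C c) / s P) - (C c).card) := by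
    intro c hc
    obtain ⟨q, hq, hqc⟩ := (hF c).1 hc
    have hn : 0 < ((C c).card : ℝ) := by
      exact_mod_cast card_pos.2 ⟨q, (hC c q).2 ⟨hq, hqc⟩⟩
    have hA : C c ⊆ A₀ := (hCs c).trans hP''
    have u1 : T i (C c) ≤ T i (P''.filter fun q => a q = c.1) :=
      hS.Tmono i _ _ (fun p hp => mem_filter.2 ⟨hCs c hp, congrArg Prod.fst ((hC c p).1 hp).2⟩)
        ((filter_subset _ _).trans hP'')
    have u2 : T j (C c) ≤ T j (P''.filter fun q => b q = c.2) :=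
      hS.Tmono j _ _ (fun p hp => mem_filter.2 ⟨hCs c hp, congrArg Prod.snd ((hC c p).1 hp).2⟩)
        ((filter_subset _ _).trans hP'')
    have v1 : 0 < T i (C c) := hn.trans_le (hS.Tcard i _ hA)
    have v2 : 0 < T j (C c) := hn.trans_le (hS.Tcard j _ hA)
    have v3 : 0 < s (C c) := hn.trans_le (hS.scard _ hA)
    have w1 := Real.log_le_log v1 u1
    have w2 := Real.log_le_log v2 u2
    have p1 : 0 < τ c.1 := by rw [hτ]; exact div_pos (v1.trans_le u1) (hTP i)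
    have p2 : 0 < τ' c.2 := by rw [hτ']; exact div_pos (v2.trans_le u2) (hTP j)
    have l1 : Real.log (τ c.1) = Real.log (T i (P''.filter fun q => a q = c.1)) -
        Real.log (T i P) := by rw [hτ, Real.log_div (v1.trans_le u1).ne' (hTP i).ne']
    have l2 : Real.log (τ' c.2) = Real.log (T j (P''.filter fun q => b q = c.2)) -
        Real.log (T j P) := by rw [hτ', Real.log_div (v2.trans_le u2).ne' (hTP j).ne']
    have g1 := ADrift_log (div_pos hn hN) (mul_pos p1 p2)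
    rw [Real.log_mul p1.ne' p2.ne', Real.log_div hn.ne' hN.ne'] at g1
    have g2 := mul_le_mul_of_nonneg_left g1 hN.le
    rw [← mul_assoc, mul_div_cancel₀ _ hN.ne'] at g2
    have g3 := Real.log_le_sub_one_of_pos (div_pos (mul_pos hN (div_pos v3 hsP)) hn)
    rw [Real.log_div (mul_pos hN (div_pos v3 hsP)).ne' hn.ne',
      Real.log_mul hN.ne' (div_pos v3 hsP).ne', Real.log_div v3.ne' hsP.ne'] at g3
    have g4 := mul_le_mul_of_nonneg_left g3 hn.le
    rw [mul_sub _ (_ / _), mul_div_cancel₀ _ hn.ne', mul_one] at g4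
    have g5 : PP T s Q i j (C c) - PP T s Q i j P ≤
        2 * (Real.log (τ c.1) + Real.log (τ' c.2) - (Real.log (C c).card - Real.log P.card)) +
        2 * (Real.log P.card + (Real.log (s (C c)) - Real.log (s P)) - Real.log (C c).card) := by
      simp only [PP, LL]
      linarith
    have g6 := mul_le_mul_of_nonneg_left g5 hn.le
    linarith
  obtain ⟨H2, hH2⟩ : ∃ H2 : ℝ, H2 = ∑ c ∈ P''.image a ×ˢ P''.image b,
      (√(((C c).card : ℝ) / P.card) - √(τ c.1 * τ' c.2)) ^ 2 := ⟨_, rfl⟩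
  have H0 : 0 ≤ H2 := hH2 ▸ sum_nonneg fun _ _ => sq_nonneg _
  have hzero : ∀ c, c ∉ F → ((C c).card : ℝ) = 0 := fun c hc => by
    rw [Nat.cast_eq_zero, card_eq_zero, eq_empty_iff_forall_notMem]
    exact fun q hq => hc ((hF c).2 ⟨q, (hC c q).1 hq⟩)
  have hgain : ∑ c ∈ F, (τ c.1 * τ' c.2 - (C c).card / P.card -
      (√(((C c).card : ℝ) / P.card) - √(τ c.1 * τ' c.2)) ^ 2) ≤ 1 - P''.card / P.card - H2 := by
    rw [sum_subset hFI fun c _ hc => by
      rw [hzero c hc, zero_div, Real.sqrt_zero, zero_sub, neg_sq,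
        Real.sq_sqrt (mul_nonneg (t0 _) (t0' _))]
      ring]
    rw [sum_sub_distrib, sum_sub_distrib, ← hH2, ← sum_div,
      ← sum_subset hFI fun c _ hc => hzero c hc, hcard, sum_product, ← sum_mul_sum]
    linarith [mul_le_one₀ t1 (sum_nonneg fun x _ => t0' x) t1']
  have hmain : ∑ p ∈ P'', PP T s Q i j (cls P'' (fun q => (a q, b q)) p) ≤
      P''.card * PP T s Q i j P + 4 * ((P.card : ℝ) - P''.card) - 2 * P.card * H2 := by
    rw [hcls]
    refine (sum_le_sum hone).trans ?_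
    rw [sum_add_distrib, sum_add_distrib, ← sum_mul, ← mul_sum, ← mul_sum, ← mul_sum,
      sum_sub_distrib (f := fun c => P.card * (s (C c) / s P)), ← mul_sum, ← sum_div, hcard]
    have g1 := mul_le_mul_of_nonneg_left hgain hN.le
    rw [mul_sub _ (1 - _), mul_sub _ 1, mul_div_cancel₀ _ hN.ne'] at g1
    have g2 := mul_le_mul_of_nonneg_left ((div_le_one hsP).2 s1) hN.le
    linarith
  split_ifs with hd
  · nlinarith [mul_nonneg hN.le H0]
  have hdef := ADrift_def h hN a b τ τ' (fun x _ => t0 x) (fun x _ => t0' x) t1 t1'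
    (fun c => (C c).card) fun c => by
      rw [show C c = P''.filter fun q => (a q, b q) = c from
        Finset.ext fun q => by rw [hC, mem_filter]]
  rw [← hH2] at hdef
  have hlt : ε ≤ 4 * (2 * √H2 + ((P.card : ℝ) - P''.card) / P.card) := by
    by_contra hlt
    exact hd fun 𝒜 ℬ => (hdef 𝒜 ℬ).trans
      (mul_le_mul_of_nonneg_right (not_le.1 hlt).le (sq_nonneg _))
  obtain ⟨κ, hκ⟩ : ∃ κ : ℝ, κ = ((P.card : ℝ) - P''.card) / P.card := ⟨_, rfl⟩
  rw [← hκ] at hlt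
  have κ0 : 0 ≤ κ := hκ ▸ div_nonneg (by linarith) hN.le
  have κ1 : κ ≤ 1 := hκ ▸ (div_le_one hN).2 (by linarith [(Nat.cast_nonneg P''.card : (0 : ℝ) ≤ _)])
  have κN : κ * P.card = (P.card : ℝ) - P''.card := by rw [hκ, div_mul_cancel₀ _ hN.ne']
  have e2 : ε ^ 2 ≤ 128 * H2 + 32 * κ := by
    have h1 := pow_le_pow_left₀ hε hlt 2
    nlinarith [Real.sq_sqrt H0, sq_nonneg (2 * √H2 - κ), mul_le_mul_of_nonneg_left κ1 κ0]
  have e3 := mul_le_mul_of_nonneg_right e2 hN.le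
  nlinarith

end
end Crest.Agent.R51
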