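import Crest.Agent.R51.ABasic

set_option autoImplicit false
open Classical Finset

namespace Crest.Agent.R51
noncomputable section

variable {α : Type} {A₀ : Finset α} {ℓ : Fin 3 → α → ℝ} {T : Fin 3 → Finset α → ℝ}
  {s : Finset α → ℝ} {M Q D B : ℝ}

theorem AD2_mem {β : Type} {A : Finset α} {f : α → β} {p q : α} :
    q ∈ cls A f p ↔ q ∈ A ∧ f q = f p := mem_filter

theorem AD2_pos {β : Type} {A : Finset α} (f : α → β) {p : α} (hp : p ∈ A) :
    (0 : ℝ) < (cls A f p).card := Nat.cast_pos.2 (card_pos.2 ⟨p, mem_filter.2 ⟨hp, rfl⟩⟩)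

theorem AD2_sum {β : Type} (A : Finset α) (f : α → β) : ∃ (I : Finset β) (C : β → Finset α),
    (∀ x q, q ∈ C x ↔ q ∈ A ∧ f q = x) ∧
      ∀ F : Finset α → ℝ, ∑ p ∈ A, F (cls A f p) / (cls A f p).card = ∑ x ∈ I, F (C x) := by
  refine ⟨A.image f, fun x => A.filter fun q => f q = x, fun x q => mem_filter, fun F => ?_⟩
  rw [sum_cls A f fun X => F X / X.card]
  refine sum_congr rfl fun x hx => ?_
  obtain ⟨p, hp, rfl⟩ := mem_image.1 hx
  exact mul_div_cancel₀ _ (AD2_pos f hp).ne'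

theorem AD2_gibbs {β : Type} {P P'' : Finset α} (h : P'' ⊆ P) (f : α → β) (F : Finset α → ℝ)
    (hF : ∀ A, A ⊆ P → (A.card : ℝ) ≤ F A)
    (hadd : ∑ p ∈ P'', F (cls P'' f p) / (cls P'' f p).card ≤ F P) :
    ∑ p ∈ P'', (Real.log (F (cls P'' f p)) - Real.log (cls P'' f p).card) ≤
      P''.card * (Real.log (F P) - Real.log P.card) + ((P.card : ℝ) - P''.card) := by
  rcases P''.eq_empty_or_nonempty with rfl | hne
  · simp
  have h1 : (0 : ℝ) < P.card := Nat.cast_pos.2 (card_pos.2 (hne.mono h))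
  have h2 : 0 < F P := h1.trans_le (hF P subset_rfl)
  have h3 : ∑ p ∈ P'', (Real.log (F (cls P'' f p)) - Real.log (cls P'' f p).card) ≤
      ∑ p ∈ P'', (P.card / F P * (F (cls P'' f p) / (cls P'' f p).card) +
        (Real.log (F P) - Real.log P.card - 1)) := sum_le_sum fun p hp => by
    have h4 := AD2_pos f hp
    have h5 : 0 < F (cls P'' f p) := h4.trans_le (hF _ ((filter_subset _ _).trans h))
    have h6 := Real.log_le_sub_one_of_pos (mul_pos (div_pos h1 h2) (div_pos h5 h4))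
    rw [Real.log_mul (div_pos h1 h2).ne' (div_pos h5 h4).ne', Real.log_div h1.ne' h2.ne',
      Real.log_div h5.ne' h4.ne'] at h6
    linarith
  rw [sum_add_distrib, ← mul_sum, sum_const, nsmul_eq_mul] at h3
  have h4 := mul_le_mul_of_nonneg_left hadd (div_pos h1 h2).le
  rw [div_mul_cancel₀ _ h2.ne'] at h4
  linarith

theorem AD2_T (hS : SysA A₀ ℓ T s M Q D B) {P P'' : Finset α} (hP : P ⊆ A₀) (h : P'' ⊆ P)
    {j : Fin 3} {b : α → ℝ} {r : ℝ} (hr : ∀ p ∈ P'', ∀ q ∈ P'', nrm ℓ p q ≤ r)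
    (hb : Sep P'' b (ℓ j) (2 * M * r)) (I : Finset ℝ) (C : ℝ → Finset α)
    (hC : ∀ x, ∀ q ∈ C x, q ∈ P'' ∧ b q = x) : ∑ x ∈ I, T j (C x) ≤ T j P := by
  refine (hS.Tadd j ℝ I C (fun x _ q hq => hP (h (hC x q hq).1))
    fun x _ y _ hxy p hp q hq => ?_).trans
    (hS.Tmono j _ _ (biUnion_subset.2 fun x _ q hq => h (hC x q hq).1) hP)
  obtain ⟨a1, rfl⟩ := hC x p hp
  obtain ⟨a2, rfl⟩ := hC y q hq
  have h1 := mul_le_mul_of_nonneg_left (hr p a1 q a2) hS.Mnn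
  have h2 := mul_nonneg hS.Mnn ((abs_nonneg _).trans (abs_le_nrm ℓ j p q))
  rcases lt_or_gt_of_ne hxy with h3 | h3
  · exact lt_abs.2 (Or.inr (by linarith [hb p a1 q a2 h3]))
  · exact lt_abs.2 (Or.inl (by linarith [hb q a2 p a1 h3]))

theorem AD2_s (hS : SysA A₀ ℓ T s M Q D B) {P P'' : Finset α} (hP : P ⊆ A₀) (h : P'' ⊆ P)
    {r : ℝ} (hr : ∀ p ∈ P'', ∀ q ∈ P'', nrm ℓ p q ≤ r) {β : Type} (f : α → β)
    (hf : ∀ x y, x ≠ y → ∃ j, ∃ π : β → ℝ, Sep P'' (fun p => π (f p)) (ℓ j) (2 * M * r) ∧ π x ≠ π y)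
    (I : Finset β) (C : β → Finset α) (hC : ∀ x, ∀ q ∈ C x, q ∈ P'' ∧ f q = x) :
    ∑ x ∈ I, s (C x) ≤ s P := by
  have h1 : I.biUnion C ⊆ P'' := biUnion_subset.2 fun x _ q hq => (hC x q hq).1
  refine (hS.sadd r β I C (fun x _ q hq => hP (h (hC x q hq).1))
    (fun p hp q hq => hr p (h1 hp) q (h1 hq)) fun x _ y _ hxy => ?_).trans
    (hS.smono _ _ (h1.trans h) hP)
  obtain ⟨j, π, h2, h3⟩ := hf x y hxy
  refine ⟨j, (lt_or_gt_of_ne h3).imp (fun h4 p hp q hq => h2 p (hC x p hp).1 q (hC y q hq).1 ?_)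
    fun h4 p hp q hq => h2 q (hC y q hq).1 p (hC x p hp).1 ?_⟩ <;>
  · simp only [(hC x p hp).2, (hC y q hq).2]
    exact h4

theorem thin_drift (hS : SysA A₀ ℓ T s M Q D B) {P P'' : Finset α} (hP : P ⊆ A₀)
    (h : P'' ⊆ P) (j : Fin 3) (b : α → ℝ) (r : ℝ)
    (hr : ∀ p ∈ P'', ∀ q ∈ P'', nrm ℓ p q ≤ r) (hb : Sep P'' b (ℓ j) (2 * M * r)) :
    ∑ p ∈ P'', LL T s Q j (cls P'' b p) +
        ∑ p ∈ P'', Real.log ((P.card : ℝ) / (cls P'' b p).card) ≤
      P''.card * LL T s Q j P + 3 * ((P.card : ℝ) - P''.card) := by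
  obtain ⟨I, C, hC, e⟩ := AD2_sum P'' b
  have h1 := AD2_gibbs h b (T j) (fun A hA => hS.Tcard j A (hA.trans hP))
    ((e _).trans_le (AD2_T hS hP h hr hb I C fun x q => (hC x q).1))
  have h2 := AD2_gibbs h b s (fun A hA => hS.scard A (hA.trans hP))
    ((e _).trans_le (AD2_s hS hP h hr b (fun x y hxy => ⟨j, id, hb, hxy⟩) I C
      fun x q => (hC x q).1))
  have h3 : ∑ p ∈ P'', (LL T s Q j (cls P'' b p) + Real.log ((P.card : ℝ) / (cls P'' b p).card)) =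
      ∑ p ∈ P'', (2 * (Real.log (T j (cls P'' b p)) - Real.log (cls P'' b p).card) +
        (Real.log (s (cls P'' b p)) - Real.log (cls P'' b p).card) +
        (Real.log P.card - Real.log Q)) := sum_congr rfl fun p hp => by
    rw [Real.log_div (Nat.cast_pos.2 (card_pos.2 ⟨p, h hp⟩)).ne' (AD2_pos b hp).ne', LL]
    ring
  rw [← sum_add_distrib, h3, sum_add_distrib, sum_add_distrib, ← mul_sum, sum_const, nsmul_eq_mul,
    LL]
  linarith

theorem triple_drift (hS : SysA A₀ ℓ T s M Q D B) {P P'' : Finset α} (hP : P ⊆ A₀)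
    (h : P'' ⊆ P) (e : Fin 3 → α → ℝ) (r : ℝ)
    (hr : ∀ p ∈ P'', ∀ q ∈ P'', nrm ℓ p q ≤ r) (he : ∀ i, Sep P'' (e i) (ℓ i) (2 * M * r)) :
    ∑ p ∈ P'', Phi T s Q (cls P'' (fun q i => e i q) p) ≤
      P''.card * Phi T s Q P + 18 * ((P.card : ℝ) - P''.card) +
        ∑ p ∈ P'', (4 * ∑ i, Real.log (((cls P'' (e i) p).card : ℝ) / P.card) -
          6 * Real.log (((cls P'' (fun q i => e i q) p).card : ℝ) / P.card)) := by
  have h1 := fun i => AD2_gibbs h (e i) (T i) (fun A hA => hS.Tcard i A (hA.trans hP)) (by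
    obtain ⟨I, C, hC, e'⟩ := AD2_sum P'' (e i)
    exact (e' _).trans_le (AD2_T hS hP h hr (he i) I C fun x q => (hC x q).1))
  obtain ⟨I, C, hC, e'⟩ := AD2_sum P'' (fun q i => e i q)
  have h2 := AD2_gibbs h (fun q i => e i q) s (fun A hA => hS.scard A (hA.trans hP))
    ((e' _).trans_le (AD2_s hS hP h hr _ (fun x y hxy => by
      obtain ⟨i, hi⟩ := Function.ne_iff.1 hxy
      exact ⟨i, fun z => z i, he i, hi⟩) I C fun x q => (hC x q).1))
  have h3 : ∑ p ∈ P'', (Phi T s Q (cls P'' (fun q i => e i q) p) -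
      (4 * ∑ i, Real.log (((cls P'' (e i) p).card : ℝ) / P.card) -
          6 * Real.log (((cls P'' (fun q i => e i q) p).card : ℝ) / P.card))) ≤
      ∑ p ∈ P'', (4 * (Real.log (T 0 (cls P'' (e 0) p)) - Real.log (cls P'' (e 0) p).card) +
        4 * (Real.log (T 1 (cls P'' (e 1) p)) - Real.log (cls P'' (e 1) p).card) +
        4 * (Real.log (T 2 (cls P'' (e 2) p)) - Real.log (cls P'' (e 2) p).card) +
        6 * (Real.log (s (cls P'' (fun q i => e i q) p)) -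
          Real.log (cls P'' (fun q i => e i q) p).card) +
        6 * (Real.log P.card - Real.log Q)) := sum_le_sum fun p hp => by
    have h4 : (P.card : ℝ) ≠ 0 := (Nat.cast_pos.2 (card_pos.2 ⟨p, h hp⟩)).ne'
    have h5 : ∀ i, Real.log (T i (cls P'' (fun q i => e i q) p)) ≤
        Real.log (T i (cls P'' (e i) p)) := fun i => Real.log_le_log
      ((AD2_pos _ hp).trans_le (hS.Tcard i _ fun q hq => hP (h (AD2_mem.1 hq).1)))
      (hS.Tmono i _ _ (fun q hq => AD2_mem.2 ⟨(AD2_mem.1 hq).1, congrFun (AD2_mem.1 hq).2 i⟩)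
        fun q hq => hP (h (AD2_mem.1 hq).1))
    simp only [Fin.sum_univ_three, Real.log_div (AD2_pos _ hp).ne' h4, Phi, PP, LL]
    linarith [h5 0, h5 1, h5 2]
  simp only [sum_add_distrib, ← mul_sum, sum_const, nsmul_eq_mul] at h3
  rw [sum_sub_distrib] at h3
  have h4 : Phi T s Q P = 4 * (Real.log (T 0 P) - Real.log P.card) +
      4 * (Real.log (T 1 P) - Real.log P.card) + 4 * (Real.log (T 2 P) - Real.log P.card) +
      6 * (Real.log (s P) - Real.log P.card) + 6 * (Real.log P.card - Real.log Q) := by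
    simp only [Phi, PP, LL]
    ring
  rw [h4]
  linarith [h1 0, h1 1, h1 2]

theorem W_drift (hS : SysA A₀ ℓ T s M Q D B) {P P'' : Finset α} (hP : P ⊆ A₀)
    (h : P'' ⊆ P) (a b : α → ℝ) (r : ℝ)
    (hr : ∀ p ∈ P'', ∀ q ∈ P'', nrm ℓ p q ≤ r) (ha : Sep P'' a (ℓ 0) (2 * M * r))
    (hb : Sep P'' b (ℓ 1) (2 * M * r)) :
    ∑ p ∈ P'', Wc T s Q (cls P'' (fun q => (a q, b q)) p) /
      (cls P'' (fun q => (a q, b q)) p).card ≤ Wc T s Q P := by
  obtain ⟨I, C, hC, e⟩ := AD2_sum P'' (fun q => (a q, b q))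
  obtain ⟨-, Ca, hCa, -⟩ := AD2_sum P'' a
  obtain ⟨-, Cb, hCb, -⟩ := AD2_sum P'' b
  have nT : ∀ i A, A ⊆ A₀ → 0 ≤ T i A := fun i A hA => (Nat.cast_nonneg _).trans (hS.Tcard i A hA)
  have ns : ∀ A, A ⊆ A₀ → 0 ≤ s A := fun A hA => (Nat.cast_nonneg _).trans (hS.scard A hA)
  have sC : ∀ z, C z ⊆ A₀ := fun z q hq => hP (h ((hC z q).1 hq).1)
  have sa : ∀ z, Ca z ⊆ A₀ := fun z q hq => hP (h ((hCa z q).1 hq).1)
  have sb : ∀ z, Cb z ⊆ A₀ := fun z q hq => hP (h ((hCb z q).1 hq).1)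
  have hQ := hS.Qpos
  have h1 : ∑ z ∈ I, T 0 (Ca z.1) * T 1 (Cb z.2) ≤ T 0 P * T 1 P := by
    refine (sum_le_sum_of_subset_of_nonneg subset_product fun z _ _ =>
      mul_nonneg (nT _ _ (sa _)) (nT _ _ (sb _))).trans ?_
    rw [sum_product' (f := fun x y => T 0 (Ca x) * T 1 (Cb y)), ← sum_mul_sum]
    exact mul_le_mul (AD2_T hS hP h hr ha _ Ca fun x q => (hCa x q).1)
      (AD2_T hS hP h hr hb _ Cb fun x q => (hCb x q).1) (sum_nonneg fun _ _ => nT _ _ (sb _))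
      (nT _ _ hP)
  have h2 : ∑ z ∈ I, s (C z) / Q ≤ s P / Q := by
    rw [← sum_div]
    refine div_le_div_of_nonneg_right (AD2_s hS hP h hr _ (fun x y hxy => ?_) I C
      fun x q => (hC x q).1) hQ.le
    by_cases h0 : x.1 = y.1
    · exact ⟨1, Prod.snd, hb, fun h1 => hxy (Prod.ext h0 h1)⟩
    · exact ⟨0, Prod.fst, ha, h0⟩
  rw [e (Wc T s Q)]
  calc ∑ z ∈ I, Wc T s Q (C z)
      ≤ ∑ z ∈ I, Real.sqrt (T 0 (Ca z.1) * T 1 (Cb z.2)) * Real.sqrt (s (C z) / Q) := by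
        refine sum_le_sum fun z _ => ?_
        rw [← Real.sqrt_mul (mul_nonneg (nT _ _ (sa _)) (nT _ _ (sb _))), Wc, mul_div_assoc]
        refine Real.sqrt_le_sqrt (mul_le_mul_of_nonneg_right (mul_le_mul
          (hS.Tmono _ _ _ (fun q hq => ?_) (sa _)) (hS.Tmono _ _ _ (fun q hq => ?_) (sb _))
          (nT _ _ (sC _)) (nT _ _ (sa _))) (div_nonneg (ns _ (sC _)) hQ.le))
        · exact (hCa _ q).2 ⟨((hC z q).1 hq).1, congrArg Prod.fst ((hC z q).1 hq).2⟩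
        · exact (hCb _ q).2 ⟨((hC z q).1 hq).1, congrArg Prod.snd ((hC z q).1 hq).2⟩
    _ ≤ _ := Real.sum_sqrt_mul_sqrt_le _ (fun z => mul_nonneg (nT _ _ (sa _)) (nT _ _ (sb _)))
        fun z => div_nonneg (ns _ (sC _)) hQ.le
    _ ≤ Real.sqrt (T 0 P * T 1 P) * Real.sqrt (s P / Q) := by gcongr
    _ = _ := by rw [← Real.sqrt_mul (mul_nonneg (nT _ _ hP) (nT _ _ hP)), Wc, mul_div_assoc]

end
end Crest.Agent.R51
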