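import Crest.Agent.R51.ABasic

set_option autoImplicit false
open Classical Finset

namespace Crest.Agent.R51
noncomputable section

variable {κ lam lam₂ κ' m₁ m₅ ε₁ c₁ c₂ c θ ϑ θ₅ θl Ξ β σ₁ : ℝ} {ng n₀ N₁ : ℕ}

theorem apar_one_le_KK : (1 : ℝ) ≤ KK := by unfold KK; norm_num

theorem apar_three_le_KK : (3 : ℝ) ≤ KK := by unfold KK; norm_num

theorem apar_log_KK_nonneg : 0 ≤ Real.log KK := Real.log_nonneg apar_one_le_KK

theorem ParA.lam₂_nonneg (hP : ParA κ lam lam₂ κ' m₁ m₅ ε₁ c₁ c₂ c θ ϑ θ₅ θl Ξ β ng n₀ N₁) :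
    0 ≤ lam₂ := by
  have hL := apar_log_KK_nonneg
  have h1 := hP.c₁pos
  have h2 := hP.c₂pos
  have h3 := hP.m₁pos
  have h4 := hP.lamge
  have h5 := hP.κ'pos
  have hlam : 0 < lam := by linarith
  have hβ : 0 ≤ β := le_trans (by positivity) hP.βge
  have hf := hP.first
  have e1 : 0 ≤ 3 * lam * m₁ := by positivity
  have e2 : 0 ≤ c₁ * (β + 6000 * Real.log KK * ng) := by positivity
  have e3 : (0 : ℝ) ≤ 26 * (8 / 9) ^ n₀ := by positivity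
  have e4 : c₂ ≤ c₂ * Real.exp (lam / 12 + 1 / 4) :=
    le_mul_of_one_le_right h2.le (Real.one_le_exp (by positivity))
  have e5 : (1 : ℝ) / 10 ^ 80 ≤ 1 := by norm_num
  have e6 : c₂ ≤ 1 := by linarith
  by_contra hneg
  have e7 : Real.exp (lam₂ / 4) ≤ 1 := Real.exp_le_one_iff.2 (by linarith [not_le.1 hneg])
  have e8 : c₂ * Real.exp (lam₂ / 4) ≤ 1 := mul_le_one₀ e6 (Real.exp_pos _).le e7
  linarith [hP.c₂ge]

theorem ParA.K_le (hP : ParA κ lam lam₂ κ' m₁ m₅ ε₁ c₁ c₂ c θ ϑ θ₅ θl Ξ β ng n₀ N₁) :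
    KK ^ 2001 ≤ Real.exp κ' := by
  have h1 := hP.lam₂_nonneg
  have h2 := hP.lam₂le
  have h3 := hP.κ'pos
  have hK : 0 < KK := lt_of_lt_of_le one_pos apar_one_le_KK
  have h4 : KK ^ 2001 = Real.exp (((2001 : ℕ) : ℝ) * Real.log KK) := by
    rw [Real.exp_nat_mul, Real.exp_log hK]
  rw [h4]
  apply Real.exp_le_exp.2
  push_cast
  linarith

theorem ParA.m₅_le_one (hP : ParA κ lam lam₂ κ' m₁ m₅ ε₁ c₁ c₂ c θ ϑ θ₅ θl Ξ β ng n₀ N₁) :
    m₅ ≤ 1 := by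
  have h1 : (1 : ℝ) ≤ KK ^ 1000 := one_le_pow₀ apar_one_le_KK
  have h2 := hP.m₅le
  have h3 := hP.m₅pos
  generalize KK ^ 1000 = K at h1 h2
  have h4 : (1 : ℝ) ≤ (3 * 10 ^ 6 * K) ^ 2 := one_le_pow₀ (by linarith)
  have h5 : m₅ ≤ m₅ * (3 * 10 ^ 6 * K) ^ 2 := le_mul_of_one_le_right h3.le h4
  linarith

theorem ParA.exp_le (hP : ParA κ lam lam₂ κ' m₁ m₅ ε₁ c₁ c₂ c θ ϑ θ₅ θl Ξ β ng n₀ N₁) :
    Real.exp (-κ) ≤ 1 / 10 ^ 6 := by
  have h1 := hP.thin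
  have h2 := hP.θle
  have h3 : 1 ≤ Real.exp κ' := Real.one_le_exp hP.κ'pos.le
  have h4 := Real.exp_pos (-κ)
  nlinarith

theorem ParA.θ₅_le (hP : ParA κ lam lam₂ κ' m₁ m₅ ε₁ c₁ c₂ c θ ϑ θ₅ θl Ξ β ng n₀ N₁) :
    θ₅ ≤ 1 / 100 ∧ θl ≤ 1 / 100 := by
  have h1 := hP.θ₅ge
  have h2 := hP.θ₅le
  have h3 := hP.lamge
  have h4 := hP.θlpos
  have e1 : (0 : ℝ) ≤ 6 / (N₁ : ℝ) := by positivity
  have e2 : (0 : ℝ) ≤ (8 / 9) ^ n₀ := by positivity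
  have e3 : 0 ≤ θ₅ := by linarith
  have e4 : θ₅ ≤ 1 / 100 := by nlinarith
  exact ⟨e4, by linarith⟩

theorem apar_ev (C : ℝ) : ∀ᶠ κ : ℝ in Filter.atTop,
    C ≤ κ ∧ C * (κ + 1) * Real.exp (-κ / 1000) ≤ 1 := by
  filter_upwards [Filter.eventually_ge_atTop C, Filter.eventually_ge_atTop (1 : ℝ),
    Filter.eventually_ge_atTop (4 * 10 ^ 6 * |C|)] with κ h1 h2 h3
  refine ⟨h1, ?_⟩
  have h4 := Real.quadratic_le_exp_of_nonneg (x := κ / 1000) (by positivity)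
  have h5 : C * (κ + 1) ≤ Real.exp (κ / 1000) := by
    have h6 : C * (κ + 1) ≤ |C| * (2 * κ) :=
      mul_le_mul (le_abs_self C) (by linarith) (by linarith) (abs_nonneg C)
    nlinarith
  rw [neg_div, Real.exp_neg, ← div_eq_mul_inv, div_le_one (Real.exp_pos _)]
  exact h5

/-- the arithmetic of the parameters, with the constants made abstract -/
theorem apar_kill {κ y Y : ℝ} (hκ : 1 ≤ κ) (hy : 0 < y) (hy1 : y ≤ 1) (hY : y * Y = 1)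
    (h : 400 * (κ + 1) * y ≤ 1) :
    y ^ 11 * (78 * (κ / 1000)) + (27 / 5 * κ + 3) * (27 * y ^ 11 + (Y ^ 22 + 2) ^ 3 * y ^ 78)
      ≤ y ^ 9 := by
  have hY1 : 1 ≤ Y := by nlinarith
  have h1 : (1 : ℝ) ≤ Y ^ 22 := one_le_pow₀ hY1
  have h2 : (Y ^ 22 + 2) ^ 3 ≤ (3 * Y ^ 22) ^ 3 :=
    pow_le_pow_left₀ (by positivity) (by linarith) 3
  have h3 : (3 * Y ^ 22) ^ 3 * y ^ 78 = 27 * y ^ 12 := by
    have : (3 * Y ^ 22) ^ 3 * y ^ 78 = 27 * y ^ 12 * (y * Y) ^ 66 := by ring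
    rw [this, hY, one_pow, mul_one]
  have h4 : y ^ 12 ≤ y ^ 11 := pow_le_pow_of_le_one hy.le hy1 (by norm_num)
  have h5 : (Y ^ 22 + 2) ^ 3 * y ^ 78 ≤ 27 * y ^ 11 := by
    have := mul_le_mul_of_nonneg_right h2 (by positivity : 0 ≤ y ^ 78)
    linarith
  have h6 : y ^ 11 ≤ y ^ 10 := pow_le_pow_of_le_one hy.le hy1 (by norm_num)
  have h7 : (27 / 5 * κ + 3) * (27 * y ^ 11 + (Y ^ 22 + 2) ^ 3 * y ^ 78) ≤
      (27 / 5 * κ + 3) * (54 * y ^ 10) :=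
    mul_le_mul_of_nonneg_left (by linarith) (by linarith)
  have h8 : y ^ 11 * (78 * (κ / 1000)) ≤ y ^ 10 * (78 * (κ / 1000)) :=
    mul_le_mul_of_nonneg_right h6 (by linarith)
  have h9 : 0 < y ^ 9 := by positivity
  have h10 : 0 < y ^ 10 := by positivity
  have h11 : y ^ 9 * (400 * (κ + 1) * y) ≤ y ^ 9 := mul_le_of_le_one_right h9.le h
  have h12 : y ^ 9 * (400 * (κ + 1) * y) = 400 * (κ + 1) * y ^ 10 := by ring
  nlinarith

theorem apar_first {κ y L E Z G δ : ℝ} (hκ : 1 ≤ κ) (hy : 0 < y) (hy1 : y ≤ 1) (hL : 0 ≤ L)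
    (hE : E ≤ 27 / 5 * κ * y) (hZ : Z ≤ y) (hG0 : 0 ≤ G) (hG : G ≤ κ + 1)
    (h : (40 + 10002 * L) * (κ + 1) * y ≤ δ) :
    y ^ 9 + 3 * (27 / 5 * κ) * y +
      y ^ 9 * (6 + 2 * (97 / 100 * κ) + 3 * (27 / 5 * κ) * y / y ^ 9 + 4002 * L + 6000 * L * G) +
      E + 26 * Z ≤ δ := by
  have h1 : y ^ 9 ≤ y := pow_le_of_le_one hy.le hy1 (by norm_num)
  have h2 : y ^ 9 * (6 + 2 * (97 / 100 * κ) + 3 * (27 / 5 * κ) * y / y ^ 9 + 4002 * L +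
      6000 * L * G) = y ^ 9 * (6 + 2 * (97 / 100 * κ) + 4002 * L + 6000 * L * G) +
        3 * (27 / 5 * κ) * y := by
    field_simp
    ring
  have h3 : L * G ≤ L * (κ + 1) := mul_le_mul_of_nonneg_left hG hL
  have h4 : L ≤ L * (κ + 1) := le_mul_of_one_le_right hL (by linarith)
  have h5 : y ^ 9 * (6 + 2 * (97 / 100 * κ) + 4002 * L + 6000 * L * G) ≤
      y * (6 + 2 * (97 / 100 * κ) + 10002 * (L * (κ + 1))) :=
    mul_le_mul h1 (by linarith) (by positivity) hy.le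
  have h6 : 0 ≤ κ * y := by positivity
  rw [h2]
  nlinarith

theorem exists_parA : ∃ κ₀ : ℝ, ∀ κ : ℝ, κ₀ ≤ κ →
    ∃ (lam lam₂ κ' m₁ m₅ ε₁ c₁ c₂ c θ ϑ θ₅ θl Ξ β : ℝ) (ng n₀ N₁ : ℕ),
      ParA κ lam lam₂ κ' m₁ m₅ ε₁ c₁ c₂ c θ ϑ θ₅ θl Ξ β ng n₀ N₁ := by
  have hL := apar_log_KK_nonneg
  have hK1 : (1 : ℝ) ≤ KK ^ 1000 := one_le_pow₀ apar_one_le_KK
  have hK2 : (1 : ℝ) ≤ KK ^ 2001 := one_le_pow₀ apar_one_le_KK
  obtain ⟨m₅, hm₅⟩ : ∃ m₅ : ℝ, m₅ = 1 / (2000 * (3 * 10 ^ 6 * KK ^ 1000) ^ 2) := ⟨_, rfl⟩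
  have hm₅pos : 0 < m₅ := by
    rw [hm₅]
    generalize KK ^ 1000 = K at hK1
    positivity
  have hm₅le : m₅ * (3 * 10 ^ 6 * KK ^ 1000) ^ 2 ≤ 1 / 2000 := by
    rw [hm₅]
    generalize KK ^ 1000 = K at hK1
    apply le_of_eq
    field_simp
  obtain ⟨C₀, hC₀⟩ : ∃ C₀ : ℝ,
      C₀ = (m₅ ^ 2 / (KK ^ 2001) ^ 2 / 10 ^ 13) ^ 3 / 10 ^ 22 / KK ^ 1000 := ⟨_, rfl⟩
  have hC₀pos : 0 < C₀ := by
    rw [hC₀]
    generalize KK ^ 1000 = K at hK1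
    generalize KK ^ 2001 = K' at hK2
    positivity
  have hC₀eq : ∀ y : ℝ, (y * m₅ ^ 2 / (KK ^ 2001) ^ 2 / 10 ^ 13) ^ 3 / 10 ^ 22 / KK ^ 1000 =
      y ^ 3 * C₀ := by
    intro y
    rw [hC₀]
    generalize KK ^ 1000 = K
    generalize KK ^ 2001 = K'
    ring
  obtain ⟨δ, hδ⟩ : ∃ δ : ℝ, δ = 1 / 10 ^ 80 := ⟨_, rfl⟩
  have hδpos : 0 < δ := by rw [hδ]; positivity
  obtain ⟨κ₀, hκ₀⟩ := Filter.eventually_atTop.1
    ((apar_ev (10 ^ 6)).and ((apar_ev C₀⁻¹).and ((apar_ev (128 * 10 ^ 6 * Real.log KK)).and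
      ((apar_ev (KK ^ 2001)).and (apar_ev ((40 + 10002 * Real.log KK) / δ))))))
  refine ⟨κ₀, fun κ hκ => ?_⟩
  obtain ⟨⟨a1, b1⟩, ⟨-, b2⟩, ⟨a3, b3⟩, ⟨-, b4⟩, ⟨-, b5⟩⟩ := hκ₀ κ hκ
  obtain ⟨y, hy⟩ : ∃ y : ℝ, y = Real.exp (-κ / 1000) := ⟨_, rfl⟩
  obtain ⟨Y, hY⟩ : ∃ Y : ℝ, Y = Real.exp (κ / 1000) := ⟨_, rfl⟩
  rw [← hy] at b1 b2 b3 b4 b5
  have hκ1 : 1 ≤ κ := by linarith
  have hy0 : 0 < y := hy ▸ Real.exp_pos _
  have hY0 : 0 < Y := hY ▸ Real.exp_pos _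
  have hyY : y * Y = 1 := by
    rw [hy, hY, ← Real.exp_add, show -κ / 1000 + κ / 1000 = 0 by ring, Real.exp_zero]
  have hκy : 0 ≤ κ * y := by positivity
  have hy6 : y ≤ 1 / 10 ^ 6 := by nlinarith
  have hy1 : y ≤ 1 := by linarith [show (1 : ℝ) / 10 ^ 6 ≤ 1 by norm_num]
  have hY6 : 10 ^ 6 ≤ Y := by nlinarith
  have hY1 : 1 ≤ Y := by linarith
  have hyp : ∀ n : ℕ, y ^ n = Real.exp (n * (-κ / 1000)) := fun n => by
    rw [hy, Real.exp_nat_mul]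
  have hYp : ∀ n : ℕ, Y ^ n = Real.exp (n * (κ / 1000)) := fun n => by
    rw [hY, Real.exp_nat_mul]
  have hpl : ∀ n : ℕ, n ≠ 0 → y ^ n ≤ y := fun n hn => pow_le_of_le_one hy0.le hy1 hn
  have hek : Real.exp (-κ) = y ^ 1000 := by
    rw [hyp]; congr 1; push_cast; ring
  -- the integers
  have hn₀ : ((⌈κ / 100⌉₊ : ℕ) : ℝ) < κ / 100 + 1 := Nat.ceil_lt_add_one (by positivity)
  have hn₀' : κ / 100 ≤ ((⌈κ / 100⌉₊ : ℕ) : ℝ) := Nat.le_ceil _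
  have hng : ((⌈κ⌉₊ : ℕ) : ℝ) < κ + 1 := Nat.ceil_lt_add_one (by positivity)
  have hng' : κ ≤ ((⌈κ⌉₊ : ℕ) : ℝ) := Nat.le_ceil _
  have hN : ((⌈Y⌉₊ : ℕ) : ℝ) < Y + 1 := Nat.ceil_lt_add_one hY0.le
  have hN' : Y ≤ ((⌈Y⌉₊ : ℕ) : ℝ) := Nat.le_ceil _
  generalize ⌈κ / 100⌉₊ = n₀ at hn₀ hn₀'
  generalize ⌈κ⌉₊ = ng at hng hng'
  generalize ⌈Y⌉₊ = N₁ at hN hN'
  have h89 : ((8 : ℝ) / 9) ^ n₀ ≤ y := by
    have e1 : (8 : ℝ) / 9 ≤ Real.exp (-1 / 10) := by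
      have := Real.add_one_le_exp (-1 / 10 : ℝ)
      linarith
    calc ((8 : ℝ) / 9) ^ n₀ ≤ Real.exp (-1 / 10) ^ n₀ := pow_le_pow_left₀ (by norm_num) e1 _
      _ = Real.exp (n₀ * (-1 / 10)) := (Real.exp_nat_mul _ _).symm
      _ ≤ y := by rw [hy]; exact Real.exp_le_exp.2 (by linarith)
  have h5 : (5 : ℝ) ^ (n₀ + 1) ≤ Y ^ 21 := by
    have e1 : (5 : ℝ) ≤ Real.exp 2 := by
      have := Real.quadratic_le_exp_of_nonneg (x := 2) (by norm_num)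
      linarith
    calc (5 : ℝ) ^ (n₀ + 1) ≤ Real.exp 2 ^ (n₀ + 1) := pow_le_pow_left₀ (by norm_num) e1 _
      _ = Real.exp (((n₀ + 1 : ℕ) : ℝ) * 2) := (Real.exp_nat_mul _ _).symm
      _ ≤ Y ^ 21 := by
        rw [hYp]; apply Real.exp_le_exp.2; push_cast; linarith
  have h6N : 6 / (N₁ : ℝ) ≤ 6 * y := by
    rw [div_le_iff₀ (by linarith)]
    nlinarith
  refine ⟨27 / 5 * κ, 37 / 20 * κ, 97 / 100 * κ, y, m₅, y ^ 4, y ^ 9,
    27 / 5 * κ * Real.exp (-(37 / 20 * κ / 4)), y ^ 11, y ^ 11, y ^ 78,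
    6 / (N₁ : ℝ) + (8 / 9) ^ n₀ + 27 * y, y, Y ^ 22,
    6 + 2 * (97 / 100 * κ) + 3 * (27 / 5 * κ) * y / y ^ 9 + 4002 * Real.log KK, ng, n₀, N₁, ?_⟩
  refine
    { θpos := by positivity
      θle := (hpl 11 (by norm_num)).trans hy6
      ϑpos := by positivity
      ϑle := (hpl 78 (by norm_num)).trans hy1
      m₁pos := hy0
      m₁le := by linarith [show (1 : ℝ) / 10 ^ 6 ≤ 1 / 2 by norm_num]
      m₅pos := hm₅pos
      m₅le := hm₅le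
      cpos := by positivity
      cle := by linarith [hpl 11 (by norm_num), show (1 : ℝ) / 10 ^ 6 ≤ 1 / 100 by norm_num]
      c₁pos := by positivity
      c₂pos := by positivity
      lamge := by linarith
      κ'pos := by positivity
      ε₁pos := by positivity
      ε₁le := ?_
      c₁le := ?_
      kill := ?_
      βge := le_rfl
      lam₂le := by linarith
      c₂ge := ?_
      thin := ?_
      pair := ?_
      ΞK := ?_
      Ξ5 := ?_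
      ngpos := ?_
      ngle := ?_
      first := ?_
      N₁pos := ?_
      θlpos := hy0
      θ₅ge := le_rfl
      θ₅le := ?_
      elb := ?_
      lamgt := by linarith }
  · rw [hC₀eq]
    have e1 : C₀⁻¹ * y ≤ 1 := by
      have : C₀⁻¹ * y ≤ C₀⁻¹ * (κ + 1) * y := by
        rw [mul_assoc]
        exact mul_le_mul_of_nonneg_left (by nlinarith) (by positivity)
      linarith
    have e2 : y ≤ C₀ := by rwa [inv_mul_le_iff₀ hC₀pos, mul_one] at e1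
    calc y ^ 4 = y ^ 3 * y := by ring
      _ ≤ y ^ 3 * C₀ := mul_le_mul_of_nonneg_left e2 (by positivity)
  · generalize Real.log KK = L at hL b3
    have e1 : 128 * 10 ^ 6 * L * y ≤ 1 := by
      have : 128 * 10 ^ 6 * L * y ≤ 128 * 10 ^ 6 * L * (κ + 1) * y := by
        rw [mul_assoc (128 * 10 ^ 6 * L)]
        exact mul_le_mul_of_nonneg_left (by nlinarith) (by positivity)
      linarith
    calc 128 * 10 ^ 6 * L * y ^ 9 = y ^ 8 * (128 * 10 ^ 6 * L * y) := by ring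
      _ ≤ y ^ 8 := mul_le_of_le_one_right (by positivity) e1
      _ = (y ^ 4) ^ 2 := by ring
  · have e1 : Real.log (1 / y ^ 78) = 78 * (κ / 1000) := by
      rw [one_div, Real.log_inv, hyp, Real.log_exp]; push_cast; ring
    rw [e1]
    exact apar_kill hκ1 hy0 hy1 hyY (by nlinarith)
  · rw [mul_assoc, ← Real.exp_add, neg_add_cancel, Real.exp_zero, mul_one]
  · have e1 : Real.exp (-κ) * Real.exp (97 / 100 * κ) = y ^ 11 * y ^ 19 := by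
      rw [← pow_add, hyp, ← Real.exp_add]; congr 1; push_cast; ring
    have e2 := hpl 19 (by norm_num)
    have e3 : 0 < y ^ 11 := by positivity
    rw [mul_assoc, e1]
    nlinarith
  · have e1 : Real.exp (-κ) * Y ^ 22 = y ^ 11 * y ^ 967 := by
      rw [← pow_add, hyp, hYp, ← Real.exp_add]; congr 1; push_cast; ring
    have e2 := hpl 967 (by norm_num)
    have e3 : 0 < y ^ 11 := by positivity
    rw [mul_assoc, e1]
    generalize y ^ 967 = z at e2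
    nlinarith
  · generalize KK ^ 2001 = K at hK2 b4
    have e1 : K * y ≤ 1 := by
      have : K * y ≤ K * (κ + 1) * y := by
        rw [mul_assoc]
        exact mul_le_mul_of_nonneg_left (by nlinarith) (by positivity)
      linarith
    have e2 : K ≤ Y := by nlinarith
    exact e2.trans (le_self_pow₀ hY1 (by norm_num))
  · calc 3000 * (5 : ℝ) ^ (n₀ + 1) ≤ Y * Y ^ 21 :=
          mul_le_mul (by linarith) h5 (by positivity) hY0.le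
      _ = Y ^ 22 := by ring
  · have : ((1 : ℕ) : ℝ) ≤ ng := by push_cast; linarith
    exact_mod_cast this
  · have e1 : Real.exp κ ≤ KK ^ ng := by
      calc Real.exp κ ≤ Real.exp (ng * 1) := Real.exp_le_exp.2 (by linarith)
        _ = Real.exp 1 ^ ng := Real.exp_nat_mul _ _
        _ ≤ KK ^ ng := pow_le_pow_left₀ (Real.exp_pos _).le
            (le_trans (by linarith [Real.exp_one_lt_d9]) apar_three_le_KK) _
    have e2 : 1 / 10 ^ 5 / KK ^ ng ≤ 1 / Real.exp κ :=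
      div_le_div₀ (by norm_num) (by norm_num) (Real.exp_pos _) e1
    rw [one_div (Real.exp κ), ← Real.exp_neg, hek] at e2
    exact e2.trans (pow_le_pow_of_le_one hy0.le hy1 (by norm_num))
  · rw [← hδ]
    refine apar_first hκ1 hy0 hy1 hL ?_ h89 (Nat.cast_nonneg _) hng.le ?_
    · rw [mul_assoc, ← Real.exp_add]
      refine mul_le_mul_of_nonneg_left ?_ (by positivity)
      rw [hy]
      exact Real.exp_le_exp.2 (by linarith)
    · rw [div_mul_eq_mul_div, div_mul_eq_mul_div, div_le_one hδpos] at b5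
      exact b5
  · have : ((1 : ℕ) : ℝ) ≤ N₁ := by push_cast; linarith
    exact_mod_cast this
  · have e1 : 6 / (N₁ : ℝ) + (8 / 9) ^ n₀ + 27 * y ≤ 34 * y := by linarith
    have e2 := mul_le_mul_of_nonneg_right e1 (by positivity : 0 ≤ 27 / 5 * κ)
    nlinarith
  · have e1 : Real.exp (-κ) * (Y ^ 21 * Y) = y ^ 978 := by
      rw [← pow_succ, hyp, hYp, ← Real.exp_add]; congr 1; push_cast; ring
    have e2 := hpl 978 (by norm_num)
    have e3 : (5 : ℝ) ^ (n₀ + 1) * N₁ ≤ Y ^ 21 * (2 * Y) :=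
      mul_le_mul h5 (by linarith) (by positivity) (by positivity)
    have e4 := mul_le_mul_of_nonneg_left e3 (Real.exp_pos (-κ)).le
    have e5 : Real.exp (-κ) * (Y ^ 21 * (2 * Y)) = 2 * y ^ 978 := by rw [← e1]; ring
    generalize y ^ 978 = z at e2 e5
    nlinarith

end
end Crest.Agent.R51
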