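import Crest.Agent.R51.AElbowG
import Crest.Agent.R51.ADrift2
import Crest.Agent.R51.APar

set_option autoImplicit false
open Classical Finset

namespace Crest.Agent.R51
noncomputable section

variable {α : Type} {A₀ : Finset α} {ℓ : Fin 3 → α → ℝ} {T : Fin 3 → Finset α → ℝ}
  {s : Finset α → ℝ} {M Q D B : ℝ}

variable {κ lam lam₂ κ' m₁ m₅ ε₁ c₁ c₂ c θ ϑ θ₅ θl Ξ β σ₁ : ℝ} {ng n₀ N₁ : ℕ}

theorem elb_card_in (A : Finset α) (N : α → ℝ) (w : ℝ) :
    ((A.filter (fun p => N p ≤ w)).card : ℝ) = A.card - out A N w := by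
  have h := Finset.card_filter_add_card_filter_not (s := A) (fun p => w < N p)
  have h' : A.filter (fun p => ¬ w < N p) = A.filter (fun p => N p ≤ w) := by
    simp only [not_lt]
  rw [h'] at h
  rw [out, ← h]
  push_cast
  ring

theorem elb_abs_le (ℓ : Fin 3 → α → ℝ) (cc : Fin 3 → ℝ) (p : α) (i : Fin 3) :
    |ℓ i p - cc i| ≤ Nc ℓ cc p := by
  unfold Nc
  fin_cases i
  · exact (le_max_left _ _).trans (le_max_left _ _)
  · exact (le_max_right _ _).trans (le_max_left _ _)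
  · exact le_max_right _ _

theorem elb_nrm_le (ℓ : Fin 3 → α → ℝ) (cc : Fin 3 → ℝ) (p q : α) :
    nrm ℓ p q ≤ Nc ℓ cc p + Nc ℓ cc q := by
  have h : ∀ i, |ℓ i p - ℓ i q| ≤ Nc ℓ cc p + Nc ℓ cc q := fun i => by
    have h1 := abs_le.1 (elb_abs_le ℓ cc p i)
    have h2 := abs_le.1 (elb_abs_le ℓ cc q i)
    exact abs_le.2 ⟨by linarith [h1.1, h2.2], by linarith [h1.2, h2.1]⟩
  exact max_le (max_le (h 0) (h 1)) (h 2)

theorem elb_exists_gt {cc : Fin 3 → ℝ} {p : α} {w : ℝ} (h : w < Nc ℓ cc p) :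
    ∃ i, w < |ℓ i p - cc i| := by
  rcases lt_max_iff.1 h with h | h
  · rcases lt_max_iff.1 h with h | h
    · exact ⟨0, h⟩
    · exact ⟨1, h⟩
  · exact ⟨2, h⟩

theorem elb_elbow_step (hS : SysA A₀ ℓ T s M Q D B)
    (hP : ParA κ lam lam₂ κ' m₁ m₅ ε₁ c₁ c₂ c θ ϑ θ₅ θl Ξ β ng n₀ N₁)
    (hZ : SizA Q D B lam ϑ θl σ₁) (hM : M ≤ Real.exp (-κ)) {A : Finset α}
    (hIH : IH A₀ T s Q D lam c σ₁ A.card) (hA : A ⊆ A₀) (hσ : σ₁ < A.card)
    (cc : Fin 3 → ℝ) (hcc : cc 0 + cc 1 + cc 2 = 0) (w : ℝ) (hw : 0 < w)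
    (h1 : out A (Nc ℓ cc) (5 * w) ≤ 1 / 10 ^ 12 * A.card)
    (h2 : (9 / 8) ^ n₀ * out A (Nc ℓ cc) (5 ^ (n₀ + 1) * w) ≤ out A (Nc ℓ cc) (5 * w))
    (h4 : out A (Nc ℓ cc) w ≤ 9 / 8 * out A (Nc ℓ cc) (5 * w))
    (h5 : Real.exp (-lam) / 10 ^ 7 * A.card ≤ out A (Nc ℓ cc) w) :
    psi lam c σ₁ A.card ≤ Phi T s Q A := by
  have hσ2 := hZ.σge
  have hN : (0 : ℝ) < A.card := by linarith
  have he : 0 < Real.exp (-lam) / 10 ^ 7 := by positivity
  have hx : 0 < out A (Nc ℓ cc) w := (mul_pos he hN).trans_le h5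
  obtain ⟨hθ5, hθl⟩ := hP.θ₅_le
  obtain ⟨e, A'', hsub, hk, hev, hin, hfar, hsep, hr, hcls⟩ :=
    elbow_geom hS.sum0 A cc hcc w θl n₀ N₁ hw hP.N₁pos hP.θlpos.le (by linarith) (by linarith) h2
  set x := out A (Nc ℓ cc) w with hxdef
  have hk' : (A.card : ℝ) - A''.card ≤ x / 100 := by
    have := mul_le_mul_of_nonneg_right (hP.θ₅ge.trans hθ5) hx.le
    linarith
  have hmain : (A.card : ℝ) - (A''.filter (fun p => ∀ i, e i p = 0)).card ≤ x := by
    have h : A.filter (fun p => Nc ℓ cc p ≤ w) ⊆ A''.filter (fun p => ∀ i, e i p = 0) := by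
      intro p hp
      obtain ⟨hp1, hp2⟩ := mem_filter.1 hp
      exact mem_filter.2 (hin p hp1 hp2)
    have h' : ((A.filter (fun p => Nc ℓ cc p ≤ w)).card : ℝ) ≤
        (A''.filter (fun p => ∀ i, e i p = 0)).card := by exact_mod_cast card_le_card h
    rw [elb_card_in] at h'
    linarith
  have hfar' : (8 / 9 - 1 / 100) * x ≤
      (A''.filter (fun p => ∃ i j, i ≠ j ∧ e i p ≠ 0 ∧ e j p ≠ 0)).card := by
    have h : A.filter (fun p => 5 * w < Nc ℓ cc p) ⊆
        A''.filter (fun p => ∃ i j, i ≠ j ∧ e i p ≠ 0 ∧ e j p ≠ 0) ∪ A \ A'' := by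
      intro p hp
      obtain ⟨hp1, hp2⟩ := mem_filter.1 hp
      by_cases h : p ∈ A''
      · exact mem_union_left _ (mem_filter.2 ⟨h, hfar p h hp2⟩)
      · exact mem_union_right _ (mem_sdiff.2 ⟨hp1, h⟩)
    have h' : out A (Nc ℓ cc) (5 * w) ≤
        (A''.filter (fun p => ∃ i j, i ≠ j ∧ e i p ≠ 0 ∧ e j p ≠ 0)).card + ((A \ A'').card : ℝ) := by
      unfold out
      exact_mod_cast (card_le_card h).trans (card_union_le _ _)
    rw [cast_card_sdiff hsub] at h'
    linarith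
  have hA'' : (A''.card : ℝ) ≤ A.card := by exact_mod_cast card_le_card hsub
  have hent := elbow_entropy A'' e A.card x hx (by linarith) hA'' hev hmain hfar'
  have hN1 : (0 : ℝ) < N₁ := by exact_mod_cast hP.N₁pos
  have hd : 2 * M * (2 * 5 ^ (n₀ + 1) * w) ≤ w / N₁ := by
    rw [le_div_iff₀ hN1]
    have h3 : 4 * M * 5 ^ (n₀ + 1) * N₁ ≤ 1 := le_trans (by gcongr) hP.elb
    nlinarith
  have hdr := triple_drift hS hA hsub e _ hr fun i => (hsep i).mono subset_rfl hd
  obtain ⟨a, ha⟩ : (A''.filter (fun p => ∀ i, e i p = 0)).Nonempty := by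
    rw [← card_pos, ← Nat.cast_pos (α := ℝ)]
    linarith
  obtain ⟨b, hb⟩ : (A''.filter (fun p => ∃ i j, i ≠ j ∧ e i p ≠ 0 ∧ e j p ≠ 0)).Nonempty := by
    rw [← card_pos, ← Nat.cast_pos (α := ℝ)]
    linarith
  obtain ⟨ha1, ha2⟩ := mem_filter.1 ha
  obtain ⟨hb1, i, -, -, hb2, -⟩ := mem_filter.1 hb
  have key : ∀ p ∈ A'', psi lam c σ₁ A.card ≤ Phi T s Q (cls A'' (fun q i => e i q) p) +
      1 / 100 * Real.log (A.card / (cls A'' (fun q i => e i q) p).card) := by
    intro p hp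
    have hmem : ∀ q, q ∈ cls A'' (fun q i => e i q) p ↔ q ∈ A'' ∧ ∀ i, e i q = e i p := by
      intro q
      simp only [cls, mem_filter, funext_iff]
    have hC : cls A'' (fun q i => e i q) p ⊆ A'' := fun q hq => ((hmem q).1 hq).1
    have hlt : (cls A'' (fun q i => e i q) p).card < A.card := by
      refine lt_of_lt_of_le (card_lt_card ⟨hC, fun h => hb2 ?_⟩) (card_le_card hsub)
      have e1 := ((hmem a).1 (h ha1)).2 i
      have e2 := ((hmem b).1 (h hb1)).2 i
      exact e2.trans (e1.symm.trans (ha2 i))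
    have hpos : (0 : ℝ) < (cls A'' (fun q i => e i q) p).card :=
      (mul_pos hP.θlpos hx).trans_le (hcls p hp)
    have hle : ((cls A'' (fun q i => e i q) p).card : ℝ) ≤ A.card := by exact_mod_cast hlt.le
    have hQ : Q ≤ D * (cls A'' (fun q i => e i q) p).card := by
      refine hZ.h2.trans (mul_le_mul_of_nonneg_left (le_trans ?_ (hcls p hp)) (by linarith [hZ.Dge]))
      rw [mul_assoc]
      exact mul_le_mul_of_nonneg_left ((mul_le_mul_of_nonneg_left hσ.le he.le).trans h5) hP.θlpos.le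
    have i1 := hIH _ ((hC.trans hsub).trans hA) hlt hQ
    have i2 := psi_sub_le (lam := lam) hP.cpos.le (by linarith : 0 < σ₁) hpos hle
    have i3 := mul_le_mul_of_nonneg_right hP.cle (Real.log_nonneg ((one_le_div hpos).2 hle))
    linarith
  have hsum := sum_le_sum key
  rw [sum_const, nsmul_eq_mul, sum_add_distrib, ← mul_sum] at hsum
  have hpos : (0 : ℝ) < A''.card := by exact_mod_cast card_pos.2 ⟨a, ha1⟩
  refine le_of_mul_le_mul_left ?_ hpos
  linarith

/-- additivity for a core and a far side -/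
theorem elb_add (hS : SysA A₀ ℓ T s M Q D B) (hM : M ≤ 1 / 10 ^ 6) {A U V : Finset α} (hA : A ⊆ A₀)
    (hU : U ⊆ A) (hV : V ⊆ A) {w : ℝ} (hw : 0 < w) (i : Fin 3)
    (hr : ∀ p ∈ U ∪ V, ∀ q ∈ U ∪ V, nrm ℓ p q ≤ 50 * w)
    (hg : (∀ p ∈ U, ∀ q ∈ V, ℓ i p + 4 * w < ℓ i q) ∨ (∀ p ∈ U, ∀ q ∈ V, ℓ i q + 4 * w < ℓ i p)) :
    T i U + T i V ≤ T i A ∧ s U + s V ≤ s A := by
  have hM0 := hS.Mnn
  let F : Bool → Finset α := fun k => if k then U else V
  have hF : (univ : Finset Bool).biUnion F = U ∪ V := by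
    ext p
    simp [F]
  have hF0 : ∀ k ∈ (univ : Finset Bool), F k ⊆ A₀ := by
    intro k _
    cases k
    · exact hV.trans hA
    · exact hU.trans hA
  have hUV : U ∪ V ⊆ A := union_subset hU hV
  have hgap : ∀ p ∈ U, ∀ q ∈ V, 4 * w < |ℓ i p - ℓ i q| := by
    intro p hp q hq
    rcases hg with hg | hg
    · exact lt_abs.2 (Or.inr (by linarith [hg p hp q hq]))
    · exact lt_abs.2 (Or.inl (by linarith [hg p hp q hq]))
  have hsm : M * (50 * w) ≤ w := by nlinarith
  constructor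
  · have h := hS.Tadd i Bool univ F hF0 (by
      intro k _ k' _ hk p hp q hq
      cases k <;> cases k'
      · exact absurd rfl hk
      · have h1 := hgap q hq p hp
        rw [abs_sub_comm] at h1
        have h2 := mul_le_mul_of_nonneg_left
          (hr p (mem_union_right _ hp) q (mem_union_left _ hq)) hM0
        linarith
      · have h1 := hgap p hp q hq
        have h2 := mul_le_mul_of_nonneg_left
          (hr p (mem_union_left _ hp) q (mem_union_right _ hq)) hM0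
        linarith
      · exact absurd rfl hk)
    rw [hF, Fintype.sum_bool] at h
    exact le_trans h (hS.Tmono i _ _ hUV hA)
  · have h := hS.sadd (50 * w) Bool univ F hF0 (by rw [hF]; exact hr) (by
      intro k _ k' _ hk
      refine ⟨i, ?_⟩
      cases k <;> cases k'
      · exact absurd rfl hk
      · rcases hg with hg | hg
        · exact Or.inr fun p hp q hq => by linarith [hg q hq p hp]
        · exact Or.inl fun p hp q hq => by linarith [hg q hq p hp]
      · rcases hg with hg | hg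
        · exact Or.inl fun p hp q hq => by linarith [hg p hp q hq]
        · exact Or.inr fun p hp q hq => by linarith [hg p hp q hq]
      · exact absurd rfl hk)
    rw [hF, Fintype.sum_bool] at h
    exact le_trans h (hS.smono _ _ hUV hA)

theorem elb_log_le {a b d : ℝ} (ha : 0 < a) (hd : 0 < d) (h : a + b ≤ d) :
    Real.log a ≤ Real.log d - b / d := by
  have h1 := Real.log_le_sub_one_of_pos (div_pos ha hd)
  rw [Real.log_div ha.ne' hd.ne'] at h1
  have h2 : a / d ≤ 1 - b / d := by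
    rw [le_sub_iff_add_le, ← add_div, div_le_one hd]
    exact h
  linarith

theorem elb_num {Q N TV sV TA sA v m lam : ℝ} (hQ : 0 < Q) (hN : 0 < N) (hTV : 0 < TV)
    (hsV : 0 < sV) (hTA : 0 < TA) (hsA : 0 < sA) (hm : 0 < m) (hv : m * N / 100 ≤ v)
    (h : Q * v ^ 2 ≤ TV ^ 2 * sV)
    (hL : 2 * Real.log TA + Real.log sA - 2 * Real.log N - Real.log Q ≤ lam)
    (hE : m ≤ Real.exp (-lam) / 10 ^ 7) : 7 * m ≤ TV / TA + sV / sA := by
  by_contra hlt
  push Not at hlt
  have hτ : 0 < TV / TA := div_pos hTV hTA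
  have hσ : 0 < sV / sA := div_pos hsV hsA
  have hexp : TA ^ 2 * sA ≤ Real.exp lam * (N ^ 2 * Q) := by
    rw [← div_le_iff₀ (by positivity), ← Real.log_le_iff_le_exp (by positivity),
      Real.log_div (by positivity) (by positivity), Real.log_mul (by positivity) hsA.ne',
      Real.log_mul (by positivity) hQ.ne', Real.log_pow, Real.log_pow]
    push_cast
    linarith
  have e3 : TV ^ 2 * sV = (TV / TA) ^ 2 * (sV / sA) * (TA ^ 2 * sA) := by
    field_simp
  have e4 : (TV / TA) ^ 2 * (sV / sA) ≤ (7 * m) ^ 3 := by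
    calc (TV / TA) ^ 2 * (sV / sA) ≤ (7 * m) ^ 2 * (7 * m) := by gcongr <;> linarith
      _ = (7 * m) ^ 3 := by ring
  have e5 : Q * (m * N / 100) ^ 2 ≤ (7 * m) ^ 3 * (Real.exp lam * (N ^ 2 * Q)) := by
    calc Q * (m * N / 100) ^ 2 ≤ Q * v ^ 2 := by gcongr
      _ ≤ (TV / TA) ^ 2 * (sV / sA) * (TA ^ 2 * sA) := e3 ▸ h
      _ ≤ _ := by gcongr
  have e6 : m * Real.exp lam ≤ 1 / 10 ^ 7 := by
    have e8 := mul_le_mul_of_nonneg_right hE (Real.exp_pos lam).le
    have e7 : Real.exp (-lam) / 10 ^ 7 * Real.exp lam = 1 / 10 ^ 7 := by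
      rw [div_mul_eq_mul_div, ← Real.exp_add, neg_add_cancel, Real.exp_zero]
    rwa [e7] at e8
  have e9 : 0 < Q * (m * N) ^ 2 := by positivity
  have e10 : (7 * m) ^ 3 * (Real.exp lam * (N ^ 2 * Q)) =
      343 * (m * Real.exp lam) * (Q * (m * N) ^ 2) := by ring
  have e11 : Q * (m * N / 100) ^ 2 = 1 / 10 ^ 4 * (Q * (m * N) ^ 2) := by ring
  rw [e10, e11] at e5
  have := le_of_mul_le_mul_right e5 e9
  linarith

theorem elb_side (A : Finset α) (cc : Fin 3 → ℝ) (w : ℝ) :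
    ∃ (i : Fin 3) (V : Finset α), V ⊆ A ∧
      out A (Nc ℓ cc) (5 * w) - out A (Nc ℓ cc) (25 * w) ≤ 6 * V.card ∧
      (∀ q ∈ V, Nc ℓ cc q ≤ 25 * w) ∧
      ((∀ q ∈ V, 5 * w < ℓ i q - cc i) ∨ ∀ q ∈ V, ℓ i q - cc i < -(5 * w)) := by
  let S : Fin 3 × Bool → Finset α := fun k => A.filter fun q => Nc ℓ cc q ≤ 25 * w ∧
    if k.2 then 5 * w < ℓ k.1 q - cc k.1 else ℓ k.1 q - cc k.1 < -(5 * w)
  obtain ⟨k, -, hk⟩ := exists_max_image univ (fun k => (S k).card) univ_nonempty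
  have hcov : A.filter (fun p => 5 * w < Nc ℓ cc p) ⊆
      A.filter (fun p => 25 * w < Nc ℓ cc p) ∪ univ.biUnion S := by
    intro p hp
    obtain ⟨hp1, hp2⟩ := mem_filter.1 hp
    by_cases h : 25 * w < Nc ℓ cc p
    · exact mem_union_left _ (mem_filter.2 ⟨hp1, h⟩)
    refine mem_union_right _ (mem_biUnion.2 ?_)
    obtain ⟨i, hi⟩ := elb_exists_gt hp2
    rcases lt_abs.1 hi with hi | hi
    · exact ⟨(i, true), mem_univ _, mem_filter.2 ⟨hp1, not_lt.1 h, by simpa using hi⟩⟩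
    · exact ⟨(i, false), mem_univ _, mem_filter.2 ⟨hp1, not_lt.1 h, by
        simp only [Bool.false_eq_true, if_false]; linarith⟩⟩
  have hc : (univ.biUnion S).card ≤ 6 * (S k).card := by
    refine card_biUnion_le.trans ((sum_le_card_nsmul _ _ _ fun j hj => hk j hj).trans ?_)
    simp
  have hc' := (card_le_card hcov).trans ((card_union_le _ _).trans (Nat.add_le_add_left hc _))
  refine ⟨k.1, S k, filter_subset _ _, ?_, fun q hq => (mem_filter.1 hq).2.1, ?_⟩
  · unfold out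
    have : ((A.filter (fun p => 5 * w < Nc ℓ cc p)).card : ℝ) ≤
      (A.filter (fun p => 25 * w < Nc ℓ cc p)).card + 6 * (S k).card := by exact_mod_cast hc'
    linarith
  · cases h : k.2
    · exact Or.inr fun q hq => by simpa [h] using (mem_filter.1 hq).2.2
    · exact Or.inl fun q hq => by simpa [h] using (mem_filter.1 hq).2.2

theorem elb_tiny_step (hS : SysA A₀ ℓ T s M Q D B)
    (hP : ParA κ lam lam₂ κ' m₁ m₅ ε₁ c₁ c₂ c θ ϑ θ₅ θl Ξ β ng n₀ N₁)
    (hZ : SizA Q D B lam ϑ θl σ₁) (hM : M ≤ Real.exp (-κ)) {A : Finset α}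
    (hIH : IH A₀ T s Q D lam c σ₁ A.card) (hA : A ⊆ A₀) (hσ : σ₁ < A.card)
    (hgood : Phi T s Q A ≤ lam)
    (cc : Fin 3 → ℝ) (w : ℝ) (hw : 0 < w) (h0 : 0 < out A (Nc ℓ cc) (5 * w))
    (h2 : 9 / 8 * out A (Nc ℓ cc) (25 * w) ≤ out A (Nc ℓ cc) (5 * w))
    (h4 : out A (Nc ℓ cc) w ≤ 9 / 8 * out A (Nc ℓ cc) (5 * w))
    (h5 : out A (Nc ℓ cc) w ≤ Real.exp (-lam) / 10 ^ 7 * A.card) :
    psi lam c σ₁ A.card ≤ Phi T s Q A := by
  have hσ2 := hZ.σge
  have hD := hZ.Dge
  have hQ0 := hS.Qpos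
  have hlam := hP.lamge
  have hN : (0 : ℝ) < A.card := by linarith
  have hel : Real.exp (-lam) ≤ 1 := Real.exp_le_one_iff.2 (by linarith)
  have hx : 0 < out A (Nc ℓ cc) w := by
    refine h0.trans_le ?_
    unfold out
    exact_mod_cast card_le_card fun p hp =>
      mem_filter.2 ⟨(mem_filter.1 hp).1, by linarith [(mem_filter.1 hp).2]⟩
  obtain ⟨i, V, hV, hVc, hV25, hVs⟩ := elb_side (ℓ := ℓ) A cc w
  have hUc := elb_card_in A (Nc ℓ cc) w
  set x := out A (Nc ℓ cc) w with hxdef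
  set U := A.filter (fun p => Nc ℓ cc p ≤ w) with hU
  have hUA : U ⊆ A := filter_subset _ _
  have hxN : x ≤ A.card / 10 ^ 7 := by nlinarith
  have hVx : x / 100 ≤ V.card := by linarith
  have hU0 : (0 : ℝ) < U.card := by linarith
  have hUw : ∀ p ∈ U, Nc ℓ cc p ≤ w := fun p hp => (mem_filter.1 hp).2
  obtain ⟨hT, hs⟩ := elb_add hS (hM.trans hP.exp_le) hA hUA hV hw i (by
      have h : ∀ p ∈ U ∪ V, Nc ℓ cc p ≤ 25 * w := fun p hp => by
        rcases mem_union.1 hp with hp | hp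
        · linarith [hUw p hp]
        · exact hV25 p hp
      intro p hp q hq
      linarith [elb_nrm_le ℓ cc p q, h p hp, h q hq]) (by
      rcases hVs with h | h
      · exact Or.inl fun p hp q hq => by
          linarith [h q hq, (abs_le.1 ((elb_abs_le ℓ cc p i).trans (hUw p hp))).2]
      · exact Or.inr fun p hp q hq => by
          linarith [h q hq, (abs_le.1 ((elb_abs_le ℓ cc p i).trans (hUw p hp))).1])
  have hTU : ∀ j, 0 < T j U := fun j => hU0.trans_le (hS.Tcard j U (hUA.trans hA))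
  have hTA : ∀ j, 0 < T j A := fun j => hN.trans_le (hS.Tcard j A hA)
  have hsU : 0 < s U := hU0.trans_le (hS.scard U (hUA.trans hA))
  have hsA : 0 < s A := hN.trans_le (hS.scard A hA)
  have hV0 : (0 : ℝ) < V.card := by linarith
  have hTV : 0 < T i V := hV0.trans_le (hS.Tcard i V (hV.trans hA))
  have hsV : 0 < s V := hV0.trans_le (hS.scard V (hV.trans hA))
  have hQh : Q ≤ D * (A.card / 2) := by
    refine hZ.h1.trans (mul_le_mul_of_nonneg_left ?_ (by linarith))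
    have := mul_le_mul_of_nonneg_right hP.ϑle (by linarith : 0 ≤ σ₁)
    linarith
  have hQA : Q ≤ D * A.card := hQh.trans (mul_le_mul_of_nonneg_left (by linarith) (by linarith))
  have hQU : Q ≤ D * U.card := hQh.trans (mul_le_mul_of_nonneg_left (by linarith) (by linarith))
  set τ := T i V / T i A with hτ
  set σ := s V / s A with hσd
  set m := x / A.card with hm
  have hτ0 : 0 < τ := div_pos hTV (hTA i)
  have hσ0 : 0 < σ := div_pos hsV hsA
  have hm0 : 0 < m := div_pos hx hN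
  have hxm : x = m * A.card := by rw [hm]; field_simp
  have hbr : ∀ a d : ℝ, 0 < d → d ≤ B → D * V.card ≤ a → 7 * m ≤ a / d := by
    intro a d hd hdB ha
    rw [le_div_iff₀ hd]
    have e1 : 700 * d ≤ D * A.card := by nlinarith [hZ.h3]
    have e2 : D * (x / 100) ≤ a := (mul_le_mul_of_nonneg_left hVx (by linarith)).trans ha
    rw [hxm] at e2
    nlinarith
  have h7 : 7 * m ≤ τ + σ := by
    rcases hS.floor i V (hV.trans hA) with h | h | h
    · linarith [hbr _ _ (hTA i) ((hS.Tmono i _ _ hA subset_rfl).trans (hS.Tle i)) h]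
    · linarith [hbr _ _ hsA ((hS.smono _ _ hA subset_rfl).trans hS.sle) h]
    have hLL : LL T s Q i A ≤ lam := by
      have e1 := Phi_eq T s Q A
      have e2 := single_le_sum (f := fun j => LL T s Q j A)
        (fun j _ => LL_nonneg hS hD hA hQA j) (mem_univ i)
      linarith
    refine elb_num hQ0 hN hTV hsV (hTA i) hsA hm0 (by rw [← hxm]; exact hVx) h hLL ?_
    rw [hm, div_le_iff₀ hN]
    exact h5
  have hlogN : Real.log A.card ≤ Real.log U.card + 2 * m := by
    have e1 := Real.log_le_sub_one_of_pos (div_pos hN hU0)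
    rw [Real.log_div hN.ne' hU0.ne'] at e1
    have e2 : (A.card : ℝ) / U.card ≤ 1 + 2 * m := by
      rw [div_le_iff₀ hU0, hUc]
      nlinarith
    linarith
  have hlt : U.card < A.card := by
    have : (U.card : ℝ) < A.card := by linarith
    exact_mod_cast this
  have i1 := hIH U (hUA.trans hA) hlt hQU
  have i2 := psi_sub_le (lam := lam) hP.cpos.le (by linarith : 0 < σ₁) hU0 (by linarith : _ ≤ (A.card : ℝ))
  rw [Real.log_div hN.ne' hU0.ne'] at i2
  have i3 : c * (Real.log A.card - Real.log U.card) ≤ 1 / 100 * (2 * m) :=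
    (mul_le_mul_of_nonneg_left (by linarith) hP.cpos.le).trans
      (mul_le_mul_of_nonneg_right hP.cle (by linarith))
  have i4 := elb_log_le (hTU i) (hTA i) hT
  have i5 := elb_log_le hsU hsA hs
  have i6 : ∑ j, Real.log (T j U) + τ ≤ ∑ j, Real.log (T j A) := by
    rw [← add_sum_erase _ _ (mem_univ i), ← add_sum_erase _ (fun j => Real.log (T j A)) (mem_univ i)]
    have := sum_le_sum (s := univ.erase i) fun j _ => Real.log_le_log (hTU j) (hS.Tmono j _ _ hUA hA)
    linarith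
  rw [Fin.sum_univ_three, Fin.sum_univ_three] at i6
  unfold Phi PP LL at i1 ⊢
  linarith

end
end Crest.Agent.R51
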