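import Crest.Agent.R51.AElbowG
import Crest.Agent.R51.ADrift2
import Crest.Agent.R51.APar
import Crest.Agent.R51.AElbowAux

set_option autoImplicit false
open Classical Finset

namespace Crest.Agent.R51
noncomputable section

variable {α : Type} {A₀ : Finset α} {ℓ : Fin 3 → α → ℝ} {T : Fin 3 → Finset α → ℝ}
  {s : Finset α → ℝ} {M Q D B : ℝ}

variable {κ lam lam₂ κ' m₁ m₅ ε₁ c₁ c₂ c θ ϑ θ₅ θl Ξ β σ₁ : ℝ} {ng n₀ N₁ : ℕ}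

theorem elbow_step (hS : SysA A₀ ℓ T s M Q D B)
    (hP : ParA κ lam lam₂ κ' m₁ m₅ ε₁ c₁ c₂ c θ ϑ θ₅ θl Ξ β ng n₀ N₁)
    (hZ : SizA Q D B lam ϑ θl σ₁) (hM : M ≤ Real.exp (-κ)) {A : Finset α}
    (hIH : IH A₀ T s Q D lam c σ₁ A.card) (hA : A ⊆ A₀) (hσ : σ₁ < A.card)
    (cc : Fin 3 → ℝ) (hcc : cc 0 + cc 1 + cc 2 = 0) (w : ℝ) (hw : 0 < w)
    (h1 : out A (Nc ℓ cc) (5 * w) ≤ 1 / 10 ^ 12 * A.card)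
    (h2 : (9 / 8) ^ n₀ * out A (Nc ℓ cc) (5 ^ (n₀ + 1) * w) ≤ out A (Nc ℓ cc) (5 * w))
    (h4 : out A (Nc ℓ cc) w ≤ 9 / 8 * out A (Nc ℓ cc) (5 * w))
    (h5 : Real.exp (-lam) / 10 ^ 7 * A.card ≤ out A (Nc ℓ cc) w) :
    psi lam c σ₁ A.card ≤ Phi T s Q A :=
  elb_elbow_step hS hP hZ hM hIH hA hσ cc hcc w hw h1 h2 h4 h5

theorem tiny_step (hS : SysA A₀ ℓ T s M Q D B)
    (hP : ParA κ lam lam₂ κ' m₁ m₅ ε₁ c₁ c₂ c θ ϑ θ₅ θl Ξ β ng n₀ N₁)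
    (hZ : SizA Q D B lam ϑ θl σ₁) (hM : M ≤ Real.exp (-κ)) {A : Finset α}
    (hIH : IH A₀ T s Q D lam c σ₁ A.card) (hA : A ⊆ A₀) (hσ : σ₁ < A.card)
    (hgood : Phi T s Q A ≤ lam)
    (cc : Fin 3 → ℝ) (w : ℝ) (hw : 0 < w) (h0 : 0 < out A (Nc ℓ cc) (5 * w))
    (h2 : 9 / 8 * out A (Nc ℓ cc) (25 * w) ≤ out A (Nc ℓ cc) (5 * w))
    (h4 : out A (Nc ℓ cc) w ≤ 9 / 8 * out A (Nc ℓ cc) (5 * w))
    (h5 : out A (Nc ℓ cc) w ≤ Real.exp (-lam) / 10 ^ 7 * A.card) :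
    psi lam c σ₁ A.card ≤ Phi T s Q A :=
  elb_tiny_step hS hP hZ hM hIH hA hσ hgood cc w hw h0 h2 h4 h5

end
end Crest.Agent.R51
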