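import Crest.Agent.R51.ABasic

set_option autoImplicit false
open Classical Finset

namespace Crest.Agent.R51
noncomputable section

variable {α : Type} {ℓ : Fin 3 → α → ℝ}

theorem elb_slot (A : Finset α) (u Nf : α → ℝ) (h : ∀ p, u p ≤ Nf p) (w : ℝ) (hw : 0 < w)
    (N₁ : ℕ) (hN : 1 ≤ N₁) : ∃ c : ℝ, w ≤ c ∧ c + w / N₁ ≤ 2 * w ∧
      ((A.filter (fun p => c < u p ∧ u p ≤ c + w / N₁)).card : ℝ) ≤ out A Nf w / N₁ := by
  have hN0 : (0 : ℝ) < N₁ := by exact_mod_cast hN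
  have hg : 0 < w / N₁ := div_pos hw hN0
  obtain ⟨j, hj, hc⟩ := slot (A.filter (fun p => w < Nf p)) u w (w / N₁) hg N₁ hN
  have hj0 : 0 ≤ (j : ℝ) * (w / N₁) := by positivity
  refine ⟨w + j * (w / N₁), by linarith, ?_, ?_⟩
  · have h1 : (j : ℝ) + 1 ≤ N₁ := by exact_mod_cast hj
    have h2 := mul_le_mul_of_nonneg_right h1 hg.le
    have h3 : (N₁ : ℝ) * (w / N₁) = w := by field_simp
    linarith
  · rw [le_div_iff₀ hN0, mul_comm, out]
    have h1 : (A.filter (fun p => w + j * (w / N₁) < u p ∧ u p ≤ w + j * (w / N₁) + w / N₁)).card ≤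
        ((A.filter (fun p => w < Nf p)).filter
          (fun p => w + j * (w / N₁) < u p ∧ u p ≤ w + (j + 1) * (w / N₁))).card := by
      refine Finset.card_le_card fun p hp => ?_
      simp only [Finset.mem_filter] at hp ⊢
      have := h p
      exact ⟨⟨hp.1, by linarith [hp.2.1]⟩, hp.2.1, by linarith [hp.2.2]⟩
    exact_mod_cast (Nat.mul_le_mul_left N₁ h1).trans hc

theorem elb_img (A : Finset α) (e : Fin 3 → α → ℝ)
    (he : ∀ i p, e i p = -1 ∨ e i p = 0 ∨ e i p = 1) :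
    ((A.image (fun q i => e i q)).card : ℝ) ≤ 27 := by
  have h1 : A.image (fun q i => e i q) ⊆
      Fintype.piFinset (fun _ : Fin 3 => ({-1, 0, 1} : Finset ℝ)) := by
    intro b hb
    obtain ⟨q, -, rfl⟩ := Finset.mem_image.1 hb
    simp only [Fintype.mem_piFinset, Finset.mem_insert, Finset.mem_singleton]
    exact fun i => he i q
  have h2 := Finset.card_le_card h1
  have h3 : ({-1, 0, 1} : Finset ℝ).card ≤ 3 := Finset.card_le_three
  rw [Fintype.card_piFinset, Finset.prod_const, Finset.card_univ, Fintype.card_fin] at h2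
  have h4 := h2.trans (Nat.pow_le_pow_left h3 3)
  exact_mod_cast h4

theorem elb_le_Nc (ℓ : Fin 3 → α → ℝ) (cc : Fin 3 → ℝ) (i : Fin 3) (p : α) :
    |ℓ i p - cc i| ≤ Nc ℓ cc p := by
  unfold Nc
  fin_cases i
  · exact le_max_of_le_left (le_max_left _ _)
  · exact le_max_of_le_left (le_max_right _ _)
  · exact le_max_right _ _

theorem elb_mem_cls {β : Type} {A : Finset α} {f : α → β} {p q : α} :
    q ∈ cls A f p ↔ q ∈ A ∧ f q = f p := Finset.mem_filter

theorem elbow_geom (h0 : ∀ p, ℓ 0 p + ℓ 1 p + ℓ 2 p = 0) (A : Finset α) (cc : Fin 3 → ℝ)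
    (hcc : cc 0 + cc 1 + cc 2 = 0) (w θl : ℝ) (n₀ N₁ : ℕ) (hw : 0 < w) (hN : 1 ≤ N₁)
    (hθ : 0 ≤ θl) (hθ' : θl ≤ 1) (h1 : 2 * out A (Nc ℓ cc) w ≤ A.card)
    (h2 : (9 / 8) ^ n₀ * out A (Nc ℓ cc) (5 ^ (n₀ + 1) * w) ≤ out A (Nc ℓ cc) (5 * w)) :
    ∃ (e : Fin 3 → α → ℝ) (A'' : Finset α), A'' ⊆ A ∧
      (A.card : ℝ) - A''.card ≤ (6 / (N₁ : ℝ) + (8 / 9) ^ n₀ + 27 * θl) * out A (Nc ℓ cc) w ∧
      (∀ i p, e i p = -1 ∨ e i p = 0 ∨ e i p = 1) ∧
      (∀ p ∈ A, Nc ℓ cc p ≤ w → p ∈ A'' ∧ ∀ i, e i p = 0) ∧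
      (∀ p ∈ A'', 5 * w < Nc ℓ cc p → ∃ i j, i ≠ j ∧ e i p ≠ 0 ∧ e j p ≠ 0) ∧
      (∀ i, Sep A'' (e i) (ℓ i) (w / N₁)) ∧
      (∀ p ∈ A'', ∀ q ∈ A'', nrm ℓ p q ≤ 2 * 5 ^ (n₀ + 1) * w) ∧
      (∀ p ∈ A'', θl * out A (Nc ℓ cc) w ≤ (cls A'' (fun q i => e i q) p).card) := by
  have hN0 : (0 : ℝ) < N₁ := by exact_mod_cast hN
  have hg : 0 < w / N₁ := div_pos hw hN0
  choose cp p1 p2 p3 using fun i => elb_slot A (fun p => ℓ i p - cc i) (Nc ℓ cc)
    (fun p => (le_abs_self _).trans (elb_le_Nc ℓ cc i p)) w hw N₁ hN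
  choose cm m1 m2 m3 using fun i => elb_slot A (fun p => -(ℓ i p - cc i)) (Nc ℓ cc)
    (fun p => (neg_le_abs _).trans (elb_le_Nc ℓ cc i p)) w hw N₁ hN
  set O := out A (Nc ℓ cc) w with hO
  have hO0 : 0 ≤ O := Nat.cast_nonneg _
  obtain ⟨e, he⟩ : ∃ e : Fin 3 → α → ℝ, ∀ i p, e i p = if cp i + w / N₁ < ℓ i p - cc i then 1
      else if cm i + w / N₁ < -(ℓ i p - cc i) then -1 else 0 := ⟨fun i p => _, fun _ _ => rfl⟩
  have he3 : ∀ i p, e i p = -1 ∨ e i p = 0 ∨ e i p = 1 := fun i p => by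
    rw [he]; split_ifs <;> simp
  obtain ⟨A', hA'⟩ : ∃ A' : Finset α, ∀ p, p ∈ A' ↔ p ∈ A ∧ Nc ℓ cc p ≤ 5 ^ (n₀ + 1) * w ∧
      ∀ i, ¬ (cp i < ℓ i p - cc i ∧ ℓ i p - cc i ≤ cp i + w / N₁) ∧
        ¬ (cm i < -(ℓ i p - cc i) ∧ -(ℓ i p - cc i) ≤ cm i + w / N₁) :=
    ⟨A.filter _, fun p => Finset.mem_filter⟩
  obtain ⟨A'', hA''⟩ : ∃ A'' : Finset α, ∀ p, p ∈ A'' ↔ p ∈ A' ∧
      θl * O ≤ (cls A' (fun q i => e i q) p).card := ⟨A'.filter _, fun p => Finset.mem_filter⟩
  have h5 : (1 : ℝ) ≤ 5 ^ (n₀ + 1) := one_le_pow₀ (by norm_num)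
  have hmain : ∀ p ∈ A, Nc ℓ cc p ≤ w → p ∈ A' ∧ ∀ i, e i p = 0 := by
    intro p hp hpw
    have b : ∀ i, -w ≤ ℓ i p - cc i ∧ ℓ i p - cc i ≤ w := fun i =>
      abs_le.1 ((elb_le_Nc ℓ cc i p).trans hpw)
    refine ⟨(hA' p).2 ⟨hp, by nlinarith, fun i => ⟨fun h => ?_, fun h => ?_⟩⟩, fun i => ?_⟩
    · linarith [h.1, p1 i, (b i).2]
    · linarith [h.1, m1 i, (b i).1]
    · rw [he, if_neg (by linarith [p1 i, (b i).2]), if_neg (by linarith [m1 i, (b i).1])]
  refine ⟨e, A'', fun p hp => ((hA' p).1 ((hA'' p).1 hp).1).1, ?_, he3, fun p hp hpw => ?_,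
    fun p hp hf => ?_, fun i p hp q hq hlt => ?_, fun p hp q hq => ?_, fun p hp => ?_⟩
  · have c1 : A ⊆ A'' ∪ (A'.filter (fun p => ((cls A' (fun q i => e i q) p).card : ℝ) < θl * O) ∪
        (A.filter (fun p => 5 ^ (n₀ + 1) * w < Nc ℓ cc p) ∪
        (Finset.univ.biUnion (fun i => A.filter
          (fun p => cp i < ℓ i p - cc i ∧ ℓ i p - cc i ≤ cp i + w / N₁)) ∪
        Finset.univ.biUnion (fun i => A.filter
          (fun p => cm i < -(ℓ i p - cc i) ∧ -(ℓ i p - cc i) ≤ cm i + w / N₁))))) := by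
      intro p hp
      simp only [Finset.mem_union, Finset.mem_filter, Finset.mem_biUnion, Finset.mem_univ, true_and]
      by_cases h' : p ∈ A'
      · by_cases h'' : θl * O ≤ (cls A' (fun q i => e i q) p).card
        · exact Or.inl ((hA'' p).2 ⟨h', h''⟩)
        · exact Or.inr (Or.inl ⟨h', not_le.1 h''⟩)
      · refine Or.inr (Or.inr ?_)
        by_contra hc
        simp only [not_or, not_exists] at hc
        refine h' ((hA' p).2 ⟨hp, not_lt.1 fun h => hc.1 ⟨hp, h⟩, fun i =>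
          ⟨fun h => hc.2.1 i ⟨hp, h⟩, fun h => hc.2.2 i ⟨hp, h⟩⟩⟩)
    have c2 := (Finset.card_le_card c1).trans ((Finset.card_union_le _ _).trans
      (Nat.add_le_add_left ((Finset.card_union_le _ _).trans (Nat.add_le_add_left
        ((Finset.card_union_le _ _).trans (Nat.add_le_add_left ((Finset.card_union_le _ _).trans
          (Nat.add_le_add Finset.card_biUnion_le Finset.card_biUnion_le)) _)) _)) _))
    have c3 := (Nat.cast_le (α := ℝ)).2 c2
    push_cast at c3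
    have d1 := card_light A' (fun q i => e i q) 27 (θl * O) (mul_nonneg hθ hO0)
      (by convert elb_img A' e he3)
    have d2 : ((A.filter (fun p => 5 ^ (n₀ + 1) * w < Nc ℓ cc p)).card : ℝ) ≤ (8 / 9) ^ n₀ * O := by
      have a1 : out A (Nc ℓ cc) (5 * w) ≤ O := by
        rw [hO, out, out, Nat.cast_le]
        refine Finset.card_le_card fun p hp => ?_
        simp only [Finset.mem_filter] at hp ⊢
        exact ⟨hp.1, by linarith [hp.2]⟩
      have a2 := mul_le_mul_of_nonneg_left (h2.trans a1) (pow_nonneg (by norm_num : (0 : ℝ) ≤ 8 / 9) n₀)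
      rw [← mul_assoc, ← mul_pow] at a2
      norm_num at a2
      exact a2
    have d3 := Finset.sum_le_sum fun i (_ : i ∈ (Finset.univ : Finset (Fin 3))) => p3 i
    have d4 := Finset.sum_le_sum fun i (_ : i ∈ (Finset.univ : Finset (Fin 3))) => m3 i
    simp only [Finset.sum_const, Finset.card_univ, Fintype.card_fin, nsmul_eq_mul,
      Nat.cast_ofNat] at d3 d4
    have d5 : (6 / (N₁ : ℝ) + (8 / 9) ^ n₀ + 27 * θl) * O =
      3 * (O / N₁) + 3 * (O / N₁) + (8 / 9) ^ n₀ * O + 27 * (θl * O) := by ring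
    linarith
  · refine ⟨(hA'' p).2 ⟨(hmain p hp hpw).1, ?_⟩, (hmain p hp hpw).2⟩
    have c1 : A.filter (fun p => ¬ w < Nc ℓ cc p) ⊆ cls A' (fun q i => e i q) p := by
      intro q hq
      obtain ⟨q1, q2⟩ := Finset.mem_filter.1 hq
      have := hmain q q1 (not_lt.1 q2)
      exact elb_mem_cls.2 ⟨this.1, funext fun i => by
        rw [this.2 i, (hmain p hp hpw).2 i]⟩
    have c2 := (Nat.cast_le (α := ℝ)).2 (Finset.card_le_card c1)
    have c3 := congrArg (Nat.cast : ℕ → ℝ)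
      (Finset.card_filter_add_card_filter_not (s := A) (fun p => w < Nc ℓ cc p))
    push_cast at c3
    have c4 : O = ((A.filter (fun p => w < Nc ℓ cc p)).card : ℝ) := rfl
    nlinarith
  · have z : ∀ i, e i p = 0 → |ℓ i p - cc i| ≤ 2 * w := fun i hi => by
      rw [he] at hi
      split_ifs at hi with a b
      · norm_num at hi
      · norm_num at hi
      · exact abs_le.2 ⟨by linarith [m2 i], by linarith [p2 i]⟩
    have hs := h0 p
    have fin : ¬ (|ℓ 0 p - cc 0| ≤ 4 * w ∧ |ℓ 1 p - cc 1| ≤ 4 * w ∧ |ℓ 2 p - cc 2| ≤ 4 * w) := by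
      rintro ⟨a, b, c⟩
      have : Nc ℓ cc p ≤ 4 * w := max_le (max_le a b) c
      linarith
    by_cases z0 : e 0 p = 0
    · by_cases z1 : e 1 p = 0
      · have a := abs_le.1 (z 0 z0)
        have b := abs_le.1 (z 1 z1)
        exact absurd ⟨abs_le.2 ⟨by linarith, by linarith⟩, abs_le.2 ⟨by linarith, by linarith⟩,
          abs_le.2 ⟨by linarith, by linarith⟩⟩ fin
      · by_cases z2 : e 2 p = 0
        · have a := abs_le.1 (z 0 z0)
          have b := abs_le.1 (z 2 z2)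
          exact absurd ⟨abs_le.2 ⟨by linarith, by linarith⟩, abs_le.2 ⟨by linarith, by linarith⟩,
            abs_le.2 ⟨by linarith, by linarith⟩⟩ fin
        · exact ⟨1, 2, by decide, z1, z2⟩
    · by_cases z1 : e 1 p = 0
      · by_cases z2 : e 2 p = 0
        · have a := abs_le.1 (z 1 z1)
          have b := abs_le.1 (z 2 z2)
          exact absurd ⟨abs_le.2 ⟨by linarith, by linarith⟩, abs_le.2 ⟨by linarith, by linarith⟩,
            abs_le.2 ⟨by linarith, by linarith⟩⟩ fin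
        · exact ⟨0, 2, by decide, z0, z2⟩
      · exact ⟨0, 1, by decide, z0, z1⟩
  · have a := ((hA' p).1 ((hA'' p).1 hp).1).2.2 i
    have b := ((hA' q).1 ((hA'' q).1 hq).1).2.2 i
    simp only [not_and, not_le] at a b
    rw [he, he] at hlt
    split_ifs at hlt with k1 k2 k3 k4 k5 k6 k7 k8
    · norm_num at hlt
    · norm_num at hlt
    · norm_num at hlt
    · linarith [p1 i, m1 i]
    · norm_num at hlt
    · have : ¬ cm i < -(ℓ i q - cc i) := fun h => k6 (b.2 h)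
      linarith
    · have : ¬ cp i < ℓ i p - cc i := fun h => k1 (a.1 h)
      linarith
    · norm_num at hlt
    · norm_num at hlt
  · have a := ((hA' p).1 ((hA'' p).1 hp).1).2.1
    have b := ((hA' q).1 ((hA'' q).1 hq).1).2.1
    have c : ∀ i, |ℓ i p - ℓ i q| ≤ 2 * 5 ^ (n₀ + 1) * w := fun i => by
      have a' := abs_le.1 ((elb_le_Nc ℓ cc i p).trans a)
      have b' := abs_le.1 ((elb_le_Nc ℓ cc i q).trans b)
      exact abs_le.2 ⟨by linarith [a'.1, b'.2], by linarith [a'.2, b'.1]⟩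
    exact max_le (max_le (c 0) (c 1)) (c 2)
  · have a := ((hA'' p).1 hp).2
    refine a.trans (Nat.cast_le.2 (Finset.card_le_card fun q hq => ?_))
    obtain ⟨q1, q2⟩ := elb_mem_cls.1 hq
    refine elb_mem_cls.2 ⟨(hA'' q).2 ⟨q1, ?_⟩, q2⟩
    have : cls A' (fun q i => e i q) q = cls A' (fun q i => e i q) p := by
      ext r
      rw [elb_mem_cls, elb_mem_cls, q2]
    rw [this]
    exact a

theorem elb_log27 : Real.log 27 ≤ 34 / 10 := by
  have h1 : Real.log 27 = 5 * Real.log 2 + Real.log (27 / 32) := by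
    rw [show (5 : ℝ) = ((5 : ℕ) : ℝ) by norm_num, ← Real.log_pow,
      ← Real.log_mul (by norm_num) (by norm_num)]
    norm_num
  have h2 := Real.log_le_sub_one_of_pos (show (0 : ℝ) < 27 / 32 by norm_num)
  have h3 := Real.log_two_lt_d9
  linarith

theorem elb_exp27 : Real.exp 27 ≤ 8 / 9 * 10 ^ 12 := by
  have h1 : Real.exp 27 = Real.exp 1 ^ 27 := by
    rw [← Real.exp_nat_mul]; norm_num
  rw [h1]
  refine (pow_le_pow_left₀ (Real.exp_pos 1).le
    (Real.exp_one_lt_d9.le.trans (show _ ≤ (272 / 100 : ℝ) by norm_num)) 27).trans ?_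
  norm_num

/-- entropy estimate of the elbow step -/
theorem elbow_entropy (A'' : Finset α) (e : Fin 3 → α → ℝ) (N x : ℝ) (hx : 0 < x)
    (hxN : x ≤ 9 / 8 / 10 ^ 12 * N) (hN : (A''.card : ℝ) ≤ N)
    (he : ∀ i p, e i p = -1 ∨ e i p = 0 ∨ e i p = 1)
    (hmain : N - (A''.filter (fun p => ∀ i, e i p = 0)).card ≤ x)
    (hfar : (8 / 9 - 1 / 100) * x ≤
      (A''.filter (fun p => ∃ i j, i ≠ j ∧ e i p ≠ 0 ∧ e j p ≠ 0)).card) :
    ∑ p ∈ A'', (4 * ∑ i, Real.log (((cls A'' (e i) p).card : ℝ) / N) -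
        6 * Real.log (((cls A'' (fun q i => e i q) p).card : ℝ) / N)) +
      1 / 100 * ∑ p ∈ A'', Real.log (N / (cls A'' (fun q i => e i q) p).card) + x ≤ 0 := by
  have hN0 : 0 < N := by linarith
  set L := Real.log (N / x) with hL
  have hL27 : 27 ≤ L := by
    rw [hL, Real.le_log_iff_exp_le (div_pos hN0 hx), le_div_iff₀ hx]
    have := mul_le_mul_of_nonneg_right elb_exp27 hx.le
    linarith
  have pos : ∀ {β : Type} (f : α → β), ∀ p ∈ A'', (1 : ℝ) ≤ (cls A'' f p).card := fun f p hp => by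
    exact_mod_cast Finset.card_pos.2 ⟨p, elb_mem_cls.2 ⟨hp, rfl⟩⟩
  have up : ∀ {β : Type} (f : α → β) (p : α), ((cls A'' f p).card : ℝ) ≤ N := fun f p =>
    (Nat.cast_le.2 (Finset.card_le_card (Finset.filter_subset _ _))).trans hN
  have hsplit := congrArg (Nat.cast : ℕ → ℝ)
    (Finset.card_filter_add_card_filter_not (s := A'') (fun p => ∀ i, e i p = 0))
  push_cast at hsplit
  have hoff : ((A''.filter (fun p => ¬ ∀ i, e i p = 0)).card : ℝ) ≤ x := by linarith
  have a0 : ∀ i, ∀ p ∈ A'', Real.log (((cls A'' (e i) p).card : ℝ) / N) ≤ 0 := fun i p hp =>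
    Real.log_nonpos (by positivity) ((div_le_one hN0).2 (up _ p))
  have a1 : ∀ i, ∀ p ∈ A'', e i p ≠ 0 → Real.log (((cls A'' (e i) p).card : ℝ) / N) ≤ -L := by
    intro i p hp hne
    have b1 : ((cls A'' (e i) p).card : ℝ) ≤ x := by
      refine le_trans (Nat.cast_le.2 (Finset.card_le_card fun q hq => ?_)) hoff
      obtain ⟨q1, q2⟩ := elb_mem_cls.1 hq
      exact Finset.mem_filter.2 ⟨q1, fun h => hne (q2 ▸ h i)⟩
    rw [hL, ← Real.log_inv, inv_div]
    have := pos (e i) p hp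
    exact Real.log_le_log (by positivity) (div_le_div_of_nonneg_right b1 hN0.le)
  have s1 : ∑ p ∈ A'', ∑ i, Real.log (((cls A'' (e i) p).card : ℝ) / N) ≤
      -2 * L * (A''.filter (fun p => ∃ i j, i ≠ j ∧ e i p ≠ 0 ∧ e j p ≠ 0)).card := by
    rw [← Finset.sum_filter_add_sum_filter_not A'' (fun p => ∃ i j, i ≠ j ∧ e i p ≠ 0 ∧ e j p ≠ 0)]
    have b1 : ∑ p ∈ A''.filter (fun p => ¬ ∃ i j, i ≠ j ∧ e i p ≠ 0 ∧ e j p ≠ 0),
        ∑ i, Real.log (((cls A'' (e i) p).card : ℝ) / N) ≤ 0 :=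
      Finset.sum_nonpos fun p hp => Finset.sum_nonpos fun i _ => a0 i p (Finset.mem_filter.1 hp).1
    have b2 := Finset.sum_le_card_nsmul
      (A''.filter (fun p => ∃ i j, i ≠ j ∧ e i p ≠ 0 ∧ e j p ≠ 0))
      (fun p => ∑ i, Real.log (((cls A'' (e i) p).card : ℝ) / N)) (-2 * L) (fun p hp => by
        obtain ⟨hp, i, j, hij, hi, hj⟩ := Finset.mem_filter.1 hp
        have c1 := Finset.sum_le_sum_of_subset_of_nonneg
          (f := fun i => -Real.log (((cls A'' (e i) p).card : ℝ) / N))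
          (Finset.subset_univ {i, j}) (fun k _ _ => neg_nonneg.2 (a0 k p hp))
        rw [Finset.sum_pair hij, Finset.sum_neg_distrib] at c1
        linarith [a1 i p hp hi, a1 j p hp hj])
    rw [nsmul_eq_mul] at b2
    linarith
  have s2 : ∑ p ∈ A''.filter (fun p => ∀ i, e i p = 0),
      Real.log (N / (cls A'' (fun q i => e i q) p).card) ≤ x := by
    have hM : (0 : ℝ) < (A''.filter (fun p => ∀ i, e i p = 0)).card := by linarith
    have b2 := Finset.sum_le_card_nsmul (A''.filter (fun p => ∀ i, e i p = 0))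
      (fun p => Real.log (N / (cls A'' (fun q i => e i q) p).card))
      (N / (A''.filter (fun p => ∀ i, e i p = 0)).card - 1) (fun p hp => by
        obtain ⟨hp, h0⟩ := Finset.mem_filter.1 hp
        have c1 : cls A'' (fun q i => e i q) p = A''.filter (fun p => ∀ i, e i p = 0) := by
          ext q
          rw [elb_mem_cls, Finset.mem_filter, funext_iff]
          simp only [h0]
        rw [c1]
        exact Real.log_le_sub_one_of_pos (div_pos hN0 hM))
    rw [nsmul_eq_mul, mul_sub, mul_div_cancel₀ _ hM.ne'] at b2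
    linarith
  have s3 : ∑ p ∈ A'', (((cls A'' (fun q i => e i q) p).card : ℝ))⁻¹ ≤ 27 := by
    rw [sum_cls A'' (fun q i => e i q) (fun B => ((B.card : ℝ))⁻¹)]
    refine le_trans (Finset.sum_le_card_nsmul _ _ 1 fun b _ => mul_inv_le_one) ?_
    rw [nsmul_eq_mul, mul_one]
    refine le_trans (le_of_eq ?_) (elb_img A'' e he)
    congr
    exact Subsingleton.elim _ _
  have s4 : ∑ p ∈ A''.filter (fun p => ¬ ∀ i, e i p = 0),
      Real.log (N / (cls A'' (fun q i => e i q) p).card) ≤ x * (34 / 10 + L) := by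
    have b1 : ∑ p ∈ A''.filter (fun p => ¬ ∀ i, e i p = 0),
        Real.log (N / (cls A'' (fun q i => e i q) p).card) ≤
        ∑ p ∈ A''.filter (fun p => ¬ ∀ i, e i p = 0),
          ((34 / 10 + L - 1) + x / 27 * (((cls A'' (fun q i => e i q) p).card : ℝ))⁻¹) := by
      refine Finset.sum_le_sum fun p hp => ?_
      have c0 := pos (fun q i => e i q) p (Finset.mem_filter.1 hp).1
      generalize ((cls A'' (fun q i => e i q) p).card : ℝ) = n at c0
      have c1 : N / n = 27 * (N / x) * (x / 27 * n⁻¹) := by field_simp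
      have c2 := Real.log_le_sub_one_of_pos (show 0 < x / 27 * n⁻¹ by positivity)
      rw [c1, Real.log_mul (by positivity) (by positivity),
        Real.log_mul (by positivity) (by positivity)]
      linarith [elb_log27]
    rw [Finset.sum_add_distrib, Finset.sum_const, nsmul_eq_mul, ← Finset.mul_sum] at b1
    have b2 := (Finset.sum_le_sum_of_subset_of_nonneg
      (f := fun p => (((cls A'' (fun q i => e i q) p).card : ℝ))⁻¹)
      (Finset.filter_subset (fun p => ¬ ∀ i, e i p = 0) A'') (fun p _ _ => by positivity)).trans s3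
    have b3 := mul_le_mul_of_nonneg_left b2 (show 0 ≤ x / 27 by positivity)
    have b4 := mul_le_mul_of_nonneg_right hoff (show 0 ≤ 34 / 10 + L - 1 by linarith)
    linarith
  have s5 := Finset.sum_filter_add_sum_filter_not A'' (fun p => ∀ i, e i p = 0)
    (fun p => Real.log (N / (cls A'' (fun q i => e i q) p).card))
  have s6 : ∑ p ∈ A'', (4 * ∑ i, Real.log (((cls A'' (e i) p).card : ℝ) / N) -
        6 * Real.log (((cls A'' (fun q i => e i q) p).card : ℝ) / N)) =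
      4 * ∑ p ∈ A'', ∑ i, Real.log (((cls A'' (e i) p).card : ℝ) / N) +
        6 * ∑ p ∈ A'', Real.log (N / (cls A'' (fun q i => e i q) p).card) := by
    rw [Finset.mul_sum, Finset.mul_sum, ← Finset.sum_add_distrib]
    refine Finset.sum_congr rfl fun p _ => ?_
    rw [← inv_div N, Real.log_inv]
    ring
  have s7 := mul_le_mul_of_nonneg_left hfar (show 0 ≤ L by linarith)
  have s8 := mul_le_mul_of_nonneg_left hL27 hx.le
  rw [s6]
  nlinarith

end
end Crest.Agent.R51
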