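import Crest.Agent.R51.AQI
import Crest.Agent.R51.ASpread

set_option autoImplicit false
open Classical Finset

namespace Crest.Agent.R51
noncomputable section

variable {α : Type} {ℓ : Fin 3 → α → ℝ}

theorem fd_heavy {A B : Finset α} (hne : A.Nonempty) (hB : B ⊆ A)
    (hc : 1 / 10 ^ 12 / 36 * (A.card : ℝ) ≤ B.card) (f : α → ℝ) {r w : ℝ} (hw : 0 < w) {g : ℝ → ℝ}
    (hg : Grid r g) (o c : ℝ) (hsame : ∀ p ∈ A, ∀ q ∈ A, g (f p) = g (f q))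
    (hin : ∀ p ∈ B, |f p - c| ≤ 5 * w) :
    ∃ p ∈ B, 1 / 10 ^ 18 * (A.card : ℝ) ≤
      (A.filter (fun q => rfn g (w / 1000) o (f q) = rfn g (w / 1000) o (f p))).card := by
  have hA : (0 : ℝ) < A.card := Nat.cast_pos.2 hne.card_pos
  have hB0 : B.Nonempty := card_pos.1 (Nat.cast_pos.1 (lt_of_lt_of_le (by positivity) hc))
  have h1 := card_rfn_labels B f hg (by positivity : 0 < w / 1000) o (c - 5 * w) (10 * w)
    (by positivity) (fun p hp => by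
      obtain ⟨a, b⟩ := abs_le.1 (hin p hp)
      constructor <;> linarith) fun p hp q hq => hsame p (hB hp) q (hB hq)
  have e : 10 * w / (w / 1000) + 2 = 10002 := by
    field_simp
    norm_num
  rw [e] at h1
  obtain ⟨p, hp, h2⟩ := heavy_label B hB0 _ _ h1
  refine ⟨p, hp, ?_⟩
  have h3 : ((cls B (fun p => rfn g (w / 1000) o (f p)) p).card : ℝ) ≤
      (A.filter (fun q => rfn g (w / 1000) o (f q) = rfn g (w / 1000) o (f p))).card :=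
    Nat.cast_le.2 (card_le_card (filter_subset_filter _ hB))
  linarith

theorem fd_abs_le (cc : Fin 3 → ℝ) (j : Fin 3) (p : α) : |ℓ j p - cc j| ≤ Nc ℓ cc p := by
  fin_cases j
  · exact (le_max_left _ _).trans (le_max_left _ _)
  · exact (le_max_right _ _).trans (le_max_left _ _)
  · exact le_max_right _ _

/-- a non-atomic set of bounded support is not a product in all three systems -/
theorem first_defect (h0 : ∀ p, ℓ 0 p + ℓ 1 p + ℓ 2 p = 0) (A : Finset α) (hne : A.Nonempty)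
    (cc : Fin 3 → ℝ) (w r₀ : ℝ) (hw : 0 < w) (g₀ : Fin 3 → ℝ → ℝ) (hg : ∀ i, Grid r₀ (g₀ i))
    (hsame : ∀ p ∈ A, ∀ q ∈ A, ∀ i, g₀ i (ℓ i p) = g₀ i (ℓ i q)) (o : Fin 3 → ℝ)
    (i : Fin 3) (B₀ B₁ : Finset α) (hB₀ : B₀ ⊆ A) (hB₁ : B₁ ⊆ A)
    (hc₀ : 1 / 10 ^ 12 / 36 * (A.card : ℝ) ≤ B₀.card)
    (hc₁ : 1 / 10 ^ 12 / 36 * (A.card : ℝ) ≤ B₁.card)
    (hin : ∀ p ∈ B₀ ∪ B₁, |ℓ i p - cc i| ≤ 5 * w)
    (hsep : ∀ p ∈ B₀, ∀ q ∈ B₁, ℓ i p + w / 2 < ℓ i q)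
    (hout : out A (Nc ℓ cc) (5 * w) ≤ 2 / 10 ^ 12 * A.card) :
    ¬ (NonDef A (lab ℓ (rfn3 g₀ (w / 1000) o) 0) (lab ℓ (rfn3 g₀ (w / 1000) o) 1) (1 / 10 ^ 39) ∧
       NonDef A (lab ℓ (rfn3 g₀ (w / 1000) o) 0) (lab ℓ (rfn3 g₀ (w / 1000) o) 2) (1 / 10 ^ 39) ∧
       NonDef A (lab ℓ (rfn3 g₀ (w / 1000) o) 1) (lab ℓ (rfn3 g₀ (w / 1000) o) 2) (1 / 10 ^ 39)) := by
  rintro ⟨h01, h02, h12⟩
  have hA : (0 : ℝ) < A.card := Nat.cast_pos.2 hne.card_pos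
  have hG : ∀ j, Grid (w / 1000) (rfn (g₀ j) (w / 1000) (o j)) := fun j =>
    grid_rfn (hg j) (by positivity) (o j)
  obtain ⟨p₀, hp₀, m₀⟩ := fd_heavy hne hB₀ hc₀ (ℓ i) hw (hg i) (o i) (cc i)
    (fun p hp q hq => hsame p hp q hq i) fun p hp => hin p (mem_union_left _ hp)
  obtain ⟨p₁, hp₁, m₁⟩ := fd_heavy hne hB₁ hc₁ (ℓ i) hw (hg i) (o i) (cc i)
    (fun p hp q hq => hsame p hp q hq i) fun p hp => hin p (mem_union_right _ hp)
  obtain ⟨j, k, hs, hj, hk⟩ : ∃ j k : Fin 3, (∀ p, ℓ i p + ℓ j p + ℓ k p = 0) ∧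
      NonDef A (lab ℓ (rfn3 g₀ (w / 1000) o) i) (lab ℓ (rfn3 g₀ (w / 1000) o) j) (1 / 10 ^ 39) ∧
      NonDef A (lab ℓ (rfn3 g₀ (w / 1000) o) i) (lab ℓ (rfn3 g₀ (w / 1000) o) k) (1 / 10 ^ 39) := by
    obtain rfl | rfl | rfl : i = 0 ∨ i = 1 ∨ i = 2 := by fin_cases i <;> simp
    · exact ⟨1, 2, h0, h01, h02⟩
    · exact ⟨0, 2, fun p => by linarith [h0 p], h01.symm, h12⟩
    · exact ⟨0, 1, fun p => by linarith [h0 p], h02.symm, h12.symm⟩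
  obtain ⟨v, hv, hq⟩ := qi (ℓ i) (ℓ j) (ℓ k) hs _ _ _ (hG i) (hG j) (hG k) (by positivity) one_pos
    le_rfl (by positivity) hne hne hj hk (one_mul _).le _ _ m₀ m₁ m₀ m₁ (cc j - 400 * w)
    (cc j + 400 * w) fun q hq _ _ _ => by rw [union_self] at hq; exact ⟨hq, hq⟩
  have a₀ := (hG i).le (ℓ i p₀)
  have b₀ := (hG i).lt (ℓ i p₀)
  have a₁ := (hG i).le (ℓ i p₁)
  have b₁ := (hG i).lt (ℓ i p₁)
  have c₀ := abs_le.1 (hin p₀ (mem_union_left _ hp₀))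
  have c₁ := abs_le.1 (hin p₁ (mem_union_right _ hp₁))
  have d := hsep p₀ hp₀ p₁ hp₁
  have hv' : |v| = rfn (g₀ i) (w / 1000) (o i) (ℓ i p₁) - rfn (g₀ i) (w / 1000) (o i) (ℓ i p₀) := by
    rcases hv with rfl | rfl
    · rw [abs_sub_comm, abs_of_nonneg (by linarith)]
    · rw [abs_of_nonneg (by linarith)]
  have h1 := escape (R := 5 * w) 25 hq (by positivity) (by rw [hv']; push_cast; linarith [c₀.1, c₁.2])
    (by rw [hv']; push_cast; linarith)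
  have h2 : ((A.filter (fun q => 5 * w < |ℓ j q - cc j|)).card : ℝ) ≤ out A (Nc ℓ cc) (5 * w) :=
    Nat.cast_le.2 (card_le_card (monotone_filter_right _ fun q _ h => h.trans_le (fd_abs_le cc j q)))
  have h3 : ((A.filter (fun q => |ℓ j q - cc j| ≤ 5 * w)).card : ℝ) +
      (A.filter (fun q => 5 * w < |ℓ j q - cc j|)).card = A.card := by
    rw [← Nat.cast_add, ← card_filter_add_card_filter_not (s := A) fun q => |ℓ j q - cc j| ≤ 5 * w]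
    simp only [not_le]
  norm_num at h1
  linarith

end
end Crest.Agent.R51
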