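import Crest.Agent.R51.AInner
import Crest.Agent.R51.AFirstDef

set_option autoImplicit false
open Classical Finset

namespace Crest.Agent.R51
noncomputable section

variable {α : Type} {A₀ : Finset α} {ℓ : Fin 3 → α → ℝ} {T : Fin 3 → Finset α → ℝ}
  {s : Finset α → ℝ} {M Q D B : ℝ}

variable {κ lam lam₂ κ' m₁ m₅ ε₁ c₁ c₂ c θ ϑ θ₅ θl Ξ β σ₁ : ℝ} {ng n₀ N₁ : ℕ}

theorem AFirst_sides (h0 : ∀ p, ℓ 0 p + ℓ 1 p + ℓ 2 p = 0) {A : Finset α} (cc : Fin 3 → ℝ)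
    (hcc : cc 0 + cc 1 + cc 2 = 0)
    (hmed : ∀ i : Fin 3, i = 0 ∨ i = 1 → A.card ≤ 2 * (A.filter (fun p => ℓ i p ≤ cc i)).card ∧
      A.card ≤ 2 * (A.filter (fun p => cc i ≤ ℓ i p)).card)
    (w : ℝ) (hw : 0 < w) (h1 : out A (Nc ℓ cc) (5 * w) ≤ 1 / 10 ^ 12 * A.card)
    (h3 : 1 / 10 ^ 12 * (A.card : ℝ) < out A (Nc ℓ cc) w)
    (h4 : 9 / 8 * out A (Nc ℓ cc) (5 * w) ≤ out A (Nc ℓ cc) w) :
    ∃ (i : Fin 3) (B₀ B₁ : Finset α), B₀ ⊆ A.filter (fun p => Nc ℓ cc p ≤ 5 * w) ∧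
      B₁ ⊆ A.filter (fun p => Nc ℓ cc p ≤ 5 * w) ∧
      1 / 10 ^ 12 / 36 * (A.card : ℝ) ≤ B₀.card ∧ 1 / 10 ^ 12 / 36 * (A.card : ℝ) ≤ B₁.card ∧
      ∀ p ∈ B₀, ∀ q ∈ B₁, ℓ i p + w / 2 < ℓ i q := by
  set C := A.filter (fun p => Nc ℓ cc p ≤ 5 * w) with hC
  have hN : (0 : ℝ) ≤ A.card := Nat.cast_nonneg _
  -- removing the far points costs at most `out (5w)`
  have hrem : ∀ P : α → Prop, ((A.filter P).card : ℝ) ≤
      (C.filter P).card + out A (Nc ℓ cc) (5 * w) := by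
    intro P
    have : A.filter P ⊆ C.filter P ∪ A.filter (fun p => 5 * w < Nc ℓ cc p) := by
      intro p hp
      rw [mem_filter] at hp
      rw [mem_union]
      by_cases h : Nc ℓ cc p ≤ 5 * w
      · exact Or.inl (mem_filter.2 ⟨mem_filter.2 ⟨hp.1, h⟩, hp.2⟩)
      · exact Or.inr (mem_filter.2 ⟨hp.1, not_le.1 h⟩)
    have h2 := (card_le_card this).trans (card_union_le _ _)
    unfold out
    exact_mod_cast h2
  have hlo : ∀ i : Fin 3, i = 0 ∨ i = 1 →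
      1 / 10 ^ 12 / 36 * (A.card : ℝ) ≤ (C.filter (fun p => ℓ i p ≤ cc i)).card := by
    intro i hi
    have a : (A.card : ℝ) ≤ 2 * (A.filter (fun p => ℓ i p ≤ cc i)).card := by
      exact_mod_cast (hmed i hi).1
    have b := hrem (fun p => ℓ i p ≤ cc i)
    linarith
  have hhi : ∀ i : Fin 3, i = 0 ∨ i = 1 →
      1 / 10 ^ 12 / 36 * (A.card : ℝ) ≤ (C.filter (fun p => cc i ≤ ℓ i p)).card := by
    intro i hi
    have a : (A.card : ℝ) ≤ 2 * (A.filter (fun p => cc i ≤ ℓ i p)).card := by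
      exact_mod_cast (hmed i hi).2
    have b := hrem (fun p => cc i ≤ ℓ i p)
    linarith
  have hS := hrem (fun p => w < Nc ℓ cc p)
  have hsub : C.filter (fun p => w < Nc ℓ cc p) ⊆
      (C.filter (fun p => cc 0 + w / 2 < ℓ 0 p) ∪ C.filter (fun p => ℓ 0 p + w / 2 < cc 0)) ∪
      (C.filter (fun p => cc 1 + w / 2 < ℓ 1 p) ∪ C.filter (fun p => ℓ 1 p + w / 2 < cc 1)) := by
    intro p hp
    rw [mem_filter] at hp
    simp only [mem_union, mem_filter]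
    by_contra hcon
    simp only [not_or, not_and, not_lt] at hcon
    have hpC := mem_filter.1 hp.1
    obtain ⟨⟨a1, a2⟩, a3, a4⟩ := hcon
    have a1 := a1 hp.1
    have a2 := a2 hp.1
    have a3 := a3 hp.1
    have a4 := a4 hp.1
    have hz := h0 p
    have : Nc ℓ cc p ≤ w := by
      unfold Nc
      refine max_le (max_le ?_ ?_) ?_ <;> rw [abs_le] <;> constructor <;> linarith
    linarith [hp.2]
  have hcard := (card_le_card hsub).trans ((card_union_le _ _).trans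
    (add_le_add (card_union_le _ _) (card_union_le _ _)))
  have hcard' : ((C.filter (fun p => w < Nc ℓ cc p)).card : ℝ) ≤
      ((C.filter (fun p => cc 0 + w / 2 < ℓ 0 p)).card +
        (C.filter (fun p => ℓ 0 p + w / 2 < cc 0)).card) +
      ((C.filter (fun p => cc 1 + w / 2 < ℓ 1 p)).card +
        (C.filter (fun p => ℓ 1 p + w / 2 < cc 1)).card) := by exact_mod_cast hcard
  have hout : out A (Nc ℓ cc) w = ((A.filter (fun p => w < Nc ℓ cc p)).card : ℝ) := rfl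
  have up : ∀ i : Fin 3, i = 0 ∨ i = 1 →
      1 / 10 ^ 12 / 36 * (A.card : ℝ) ≤ (C.filter (fun p => cc i + w / 2 < ℓ i p)).card →
      ∃ (i : Fin 3) (B₀ B₁ : Finset α), B₀ ⊆ C ∧ B₁ ⊆ C ∧
      1 / 10 ^ 12 / 36 * (A.card : ℝ) ≤ B₀.card ∧ 1 / 10 ^ 12 / 36 * (A.card : ℝ) ≤ B₁.card ∧
      ∀ p ∈ B₀, ∀ q ∈ B₁, ℓ i p + w / 2 < ℓ i q := by
    intro i hi h
    refine ⟨i, _, _, filter_subset _ _, filter_subset _ _, hlo i hi, h, ?_⟩
    intro p hp q hq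
    have := (mem_filter.1 hp).2
    have := (mem_filter.1 hq).2
    linarith
  have dn : ∀ i : Fin 3, i = 0 ∨ i = 1 →
      1 / 10 ^ 12 / 36 * (A.card : ℝ) ≤ (C.filter (fun p => ℓ i p + w / 2 < cc i)).card →
      ∃ (i : Fin 3) (B₀ B₁ : Finset α), B₀ ⊆ C ∧ B₁ ⊆ C ∧
      1 / 10 ^ 12 / 36 * (A.card : ℝ) ≤ B₀.card ∧ 1 / 10 ^ 12 / 36 * (A.card : ℝ) ≤ B₁.card ∧
      ∀ p ∈ B₀, ∀ q ∈ B₁, ℓ i p + w / 2 < ℓ i q := by
    intro i hi h
    refine ⟨i, _, _, filter_subset _ _, filter_subset _ _, h, hhi i hi, ?_⟩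
    intro p hp q hq
    have := (mem_filter.1 hp).2
    have := (mem_filter.1 hq).2
    linarith
  by_contra hcon
  have b1 := not_le.1 (fun h => hcon (up 0 (Or.inl rfl) h))
  have b2 := not_le.1 (fun h => hcon (dn 0 (Or.inl rfl) h))
  have b3 := not_le.1 (fun h => hcon (up 1 (Or.inr rfl) h))
  have b4 := not_le.1 (fun h => hcon (dn 1 (Or.inr rfl) h))
  linarith

theorem AFirst_flo {R x o : ℝ} (hR : 0 < R) (h : |x - o| < 3 / 2 * R) :
    flo (3 * R) (o - 3 / 2 * R) x = o - 3 / 2 * R := by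
  have h3 : (0 : ℝ) < 3 * R := by linarith
  rw [abs_lt] at h
  have : ⌊(x - (o - 3 / 2 * R)) / (3 * R)⌋ = 0 := by
    rw [Int.floor_eq_zero_iff]
    constructor
    · exact div_nonneg (by linarith [h.1]) h3.le
    · rw [div_lt_one h3]; linarith [h.2]
  unfold flo
  rw [this]
  simp

theorem AFirst_arith {N N'' N₃ Φ ψ P₂ P₃ S₂ S₃ Df V W₃ E L δ lk lam m₁ c₁ c₂ c β ng e : ℝ}
    (hN : 0 < N) (h3 : 0 ≤ N₃) (h32 : N₃ ≤ N'') (h21 : N'' ≤ N) (hδ : N - N'' ≤ δ * N)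
    (href : P₂ + (1 / 10 ^ 39) ^ 2 / 64 * Df ≤ N * Φ + 15 * (N - N'')) (hDf : N ≤ Df)
    (hcl : P₃ - S₃ ≤ P₂ - S₂ + 3 * lam * m₁ * (N'' - N₃))
    (hin : 0 ≤ P₃ - S₃ + c₁ * ((β - 4002 * lk) * N₃ + 2000 * lk * V) + c₂ * W₃)
    (hV : V ≤ 3 * ng * N₃) (hW : W₃ ≤ N * E) (hS : N'' * (ψ - c * L) ≤ S₂) (hψ : ψ ≤ lam - 12)
    (hlk : 0 ≤ lk) (hlam : 0 ≤ lam) (hm : 0 ≤ m₁) (hc₁ : 0 ≤ c₁) (hc₂ : 0 ≤ c₂) (hc : 0 ≤ c)
    (hL : 0 ≤ L) (hβ : 0 ≤ β) (hng : 0 ≤ ng)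
    (kill : c * L + (lam + 3) * δ ≤ c₁)
    (first : c₁ + 3 * lam * m₁ + c₁ * (β + 6000 * lk * ng) + c₂ * E + e ≤ 1 / 10 ^ 80) :
    ψ + e ≤ Φ := by
  have a1 : 3 * lam * m₁ * (N'' - N₃) ≤ 3 * lam * m₁ * N :=
    mul_le_mul_of_nonneg_left (by linarith) (by positivity)
  have a2 : (β - 4002 * lk) * N₃ + 2000 * lk * V ≤ (β + 6000 * lk * ng) * N := by
    have b1 : 2000 * lk * V ≤ 2000 * lk * (3 * ng * N₃) :=
      mul_le_mul_of_nonneg_left hV (by positivity)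
    have b2 : (β + 6000 * lk * ng) * N₃ ≤ (β + 6000 * lk * ng) * N :=
      mul_le_mul_of_nonneg_left (by linarith) (by positivity)
    have b3 : 0 ≤ lk * N₃ := mul_nonneg hlk h3
    nlinarith
  have a3 := mul_le_mul_of_nonneg_left a2 hc₁
  have a4 := mul_le_mul_of_nonneg_left hW hc₂
  have a5 : (N - N'') * ψ ≤ (N - N'') * (lam - 12) :=
    mul_le_mul_of_nonneg_left hψ (by linarith)
  have a6 : N'' * (c * L) ≤ N * (c * L) := mul_le_mul_of_nonneg_right h21 (by positivity)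
  have a7 : (lam + 3) * (N - N'') ≤ (lam + 3) * (δ * N) :=
    mul_le_mul_of_nonneg_left hδ (by positivity)
  have a8 := mul_le_mul_of_nonneg_left kill hN.le
  have a9 := mul_le_mul_of_nonneg_left first hN.le
  have a10 : 1 / 10 ^ 80 * N ≤ (1 / 10 ^ 39) ^ 2 / 64 * Df :=
    mul_le_mul (by norm_num) hDf hN.le (by positivity)
  have key : N * (ψ + e) ≤ N * Φ := by nlinarith
  exact le_of_mul_le_mul_left key hN

theorem AFirst_core (hS : SysA A₀ ℓ T s M Q D B)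
    (hP : ParA κ lam lam₂ κ' m₁ m₅ ε₁ c₁ c₂ c θ ϑ θ₅ θl Ξ β ng n₀ N₁)
    (hZ : SizA Q D B lam ϑ θl σ₁) (hM : M ≤ Real.exp (-κ)) {n : ℕ}
    (hIH : IH A₀ T s Q D lam c σ₁ n) {A : Finset α} (hA : A ⊆ A₀) (hn : A.card ≤ n)
    (hσ : σ₁ ≤ 2 * A.card) (hPP : PP T s Q 0 1 A ≤ lam / 3 + 1) (cc : Fin 3 → ℝ) (w : ℝ)
    (hw : 0 < w) (hR : ∀ p ∈ A, ∀ i, |ℓ i p - cc i| ≤ 5 ^ (n₀ + 1) * w)
    (i : Fin 3) (B₀ B₁ : Finset α) (hB₀ : B₀ ⊆ A) (hB₁ : B₁ ⊆ A)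
    (hc₀ : 1 / 10 ^ 12 / 36 * (A.card : ℝ) ≤ B₀.card)
    (hc₁ : 1 / 10 ^ 12 / 36 * (A.card : ℝ) ≤ B₁.card)
    (hin : ∀ p ∈ B₀ ∪ B₁, |ℓ i p - cc i| ≤ 5 * w)
    (hsep : ∀ p ∈ B₀, ∀ q ∈ B₁, ℓ i p + w / 2 < ℓ i q)
    (hout : out A (Nc ℓ cc) (5 * w) ≤ 2 / 10 ^ 12 * A.card) :
    psi lam c σ₁ A.card + 26 * (8 / 9) ^ n₀ ≤ Phi T s Q A := by
  have hσ2 := hZ.σge
  have hD := hZ.Dge
  have hN : (0 : ℝ) < A.card := by linarith
  have hne : A.Nonempty := card_pos.1 (by exact_mod_cast hN)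
  have h5 : (1 : ℝ) ≤ 5 ^ (n₀ + 1) := one_le_pow₀ (by norm_num)
  obtain ⟨R, hRdef⟩ : ∃ R : ℝ, R = 5 ^ (n₀ + 1) * w := ⟨_, rfl⟩
  rw [← hRdef] at hR
  have hwR : w ≤ R := by rw [hRdef]; nlinarith
  have hRpos : 0 < R := by linarith
  have hθ := hP.θpos
  have hθ' := hP.θle
  have hϑ := hP.ϑpos
  have hϑ' := hP.ϑle
  have hlam := hP.lamge
  obtain ⟨g₀, hg₀def⟩ : ∃ g₀ : Fin 3 → ℝ → ℝ,
      g₀ = flo3 (3 * R) (fun i => cc i - 3 / 2 * R) := ⟨_, rfl⟩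
  have hg₀ : ∀ i, Grid (3 * R) (g₀ i) := by
    intro i; rw [hg₀def]; exact grid_flo (by linarith) _
  have hval : ∀ i x, |x - cc i| < 3 / 2 * R → g₀ i x = cc i - 3 / 2 * R := by
    intro i x hx; rw [hg₀def]; exact AFirst_flo hRpos hx
  have hlab : ∀ p ∈ A, ∀ i, g₀ i (ℓ i p) = cc i - 3 / 2 * R := fun p hp i =>
    hval i _ (lt_of_le_of_lt (hR p hp i) (by linarith))
  have hsame : ∀ p ∈ A, ∀ q ∈ A, ∀ i, g₀ i (ℓ i p) = g₀ i (ℓ i q) := by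
    intro p hp q hq i; rw [hlab p hp, hlab q hq]
  have htr₀ : ∀ p ∈ A, ∀ i, ¬ Near (g₀ i) (θ * (3 * R)) (ℓ i p) := by
    intro p hp i
    have hb := abs_le.1 (hR p hp i)
    have h1 : θ * (3 * R) ≤ 1 / 10 ^ 6 * (3 * R) := mul_le_mul_of_nonneg_right hθ' (by linarith)
    have h2 : 0 < θ * (3 * R) := by positivity
    unfold Near
    rw [hval i _ (by rw [abs_lt]; constructor <;> linarith [hb.1, hb.2]),
      hval i _ (by rw [abs_lt]; constructor <;> linarith [hb.1, hb.2])]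
    simp
  have hc2 : ∀ p ∈ A, ∀ i j, c2 A ℓ g₀ i j p = A := by
    intro p hp i j
    unfold c2
    exact filter_true_of_mem (fun q hq => ⟨hsame q hq p hp i, hsame q hq p hp j⟩)
  have hc3 : ∀ p ∈ A, c3 A ℓ g₀ p = A := by
    intro p hp
    unfold c3
    exact filter_true_of_mem (fun q hq i => hsame q hq p hp i)
  have hr' : 0 < w / 1000 := by positivity
  have hΞ : 3 * R ≤ Ξ * (w / 1000) := by
    have := mul_le_mul_of_nonneg_right hP.Ξ5 hr'.le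
    rw [hRdef]; linarith
  obtain ⟨o, ho, -, -⟩ := exists_option (ℓ := ℓ) A g₀ (3 * R) (w / 1000) θ ϑ Ξ ng hr'
    (by linarith) hΞ hθ hϑ.le hP.ngpos hP.ngle hg₀ htr₀
  have hdef := first_defect hS.sum0 A hne cc w (3 * R) hw g₀ hg₀ hsame o i B₀ B₁ hB₀ hB₁ hc₀ hc₁
    hin hsep hout
  obtain ⟨g₁, hg₁def⟩ : ∃ g₁ : Fin 3 → ℝ → ℝ, g₁ = rfn3 g₀ (w / 1000) o := ⟨_, rfl⟩
  rw [← hg₁def] at ho hdef
  have hg₁ : ∀ i, Grid (w / 1000) (g₁ i) := by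
    intro i; rw [hg₁def]; exact grid_rfn (hg₀ i) hr' _
  have href : ∀ i x y, g₁ i x = g₁ i y → g₀ i x = g₀ i y := by
    intro i x y h
    rw [hg₁def] at h
    exact ((rfn_eq_iff (hg₀ i) hr' (o i) x y).1 h).1
  obtain ⟨A₂, hA₂def⟩ : ∃ A₂, A₂ = surv ℓ A g₀ g₁ (θ * (w / 1000)) ϑ := ⟨_, rfl⟩
  rw [← hA₂def] at ho
  have hA₂ : A₂ ⊆ A := by rw [hA₂def]; exact surv_sub _ _ _ _ _
  have htr₂ : ∀ p ∈ A₂, ∀ i, ¬ Near (g₁ i) (θ * (w / 1000)) (ℓ i p) := by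
    intro p hp i; rw [hA₂def] at hp; exact surv_trim hp i
  have hheavy : ∀ p ∈ A₂, ϑ * A.card ≤ (c3 A₂ ℓ g₁ p).card := by
    intro p hp
    have hpA := hA₂ hp
    rw [hA₂def] at hp
    have := (surv_c3 href hp).2.1
    rwa [← hA₂def, hc3 p hpA] at this
  have hc3sub : ∀ p, c3 A₂ ℓ g₁ p ⊆ A := fun p => (filter_subset _ _).trans hA₂
  have hMr : 4 * M * (3 * R) ≤ θ * (w / 1000) := by
    have hE := Real.exp_pos (-κ)
    have a1 : 4 * M * (3 * R) ≤ 4 * Real.exp (-κ) * (3 * R) :=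
      mul_le_mul_of_nonneg_right (by linarith) (by linarith)
    have a2 : 4 * Real.exp (-κ) * (3 * R) ≤ 4 * Real.exp (-κ) * (Ξ * (w / 1000)) :=
      mul_le_mul_of_nonneg_left hΞ (by positivity)
    have a3 := mul_le_mul_of_nonneg_right hP.pair hr'.le
    linarith
  have hQϑ : Q ≤ D * (ϑ * A.card) := by
    refine hZ.h1.trans (mul_le_mul_of_nonneg_left ?_ (by linarith))
    have := mul_le_mul_of_nonneg_left hσ hϑ.le
    linarith
  have hQ₀ : ∀ p ∈ A, Q ≤ D * (c3 A ℓ g₀ p).card := by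
    intro p hp
    rw [hc3 p hp]
    refine hQϑ.trans (mul_le_mul_of_nonneg_left ?_ (by linarith))
    nlinarith
  have hQ₂ : ∀ p ∈ A₂, Q ≤ D * (c3 A₂ ℓ g₁ p).card := fun p hp =>
    hQϑ.trans (mul_le_mul_of_nonneg_left (hheavy p hp) (by linarith))
  have hθw : 0 ≤ θ * (w / 1000) := by positivity
  have hrefine := refine_Phi hS hD hA hA₂ hg₀ hg₁ href hθw htr₂ hMr hQ₀ (1 / 10 ^ 39)
    (by positivity)
  have hrefW := refine_W hS hA hA₂ hg₀ hg₁ href hθw htr₂ hMr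
  have hPhiTot : PhiTot ℓ T s Q A g₀ = A.card * Phi T s Q A := by
    unfold PhiTot
    rw [sum_congr rfl (g := fun _ => Phi T s Q A) (fun p hp => by
      rw [hc2 p hp, hc2 p hp, hc2 p hp]; rfl)]
    rw [sum_const, nsmul_eq_mul]
  have hWtot : Wtot ℓ T s Q A g₀ = A.card * Real.exp (PP T s Q 0 1 A / 4) := by
    unfold Wtot
    rw [sum_congr rfl (g := fun _ => Wc T s Q A / A.card) (fun p hp => by rw [hc2 p hp])]
    rw [sum_const, nsmul_eq_mul, ← Wc_eq hS hA hne]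
    field_simp
  have hDf : (A.card : ℝ) ≤ DefC ℓ A g₀ g₁ (1 / 10 ^ 39) := by
    have hall : ∀ i j : Fin 3, ¬ NonDef A (lab ℓ g₁ i) (lab ℓ g₁ j) (1 / 10 ^ 39) →
        A.filter (fun p => ¬ NonDef (c2 A ℓ g₀ i j p) (lab ℓ g₁ i) (lab ℓ g₁ j) (1 / 10 ^ 39)) =
          A := by
      intro i j h
      exact filter_true_of_mem (fun p hp => by rw [hc2 p hp]; exact h)
    unfold DefC
    by_cases d1 : NonDef A (lab ℓ g₁ 0) (lab ℓ g₁ 1) (1 / 10 ^ 39)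
    · by_cases d2 : NonDef A (lab ℓ g₁ 0) (lab ℓ g₁ 2) (1 / 10 ^ 39)
      · rw [hall 1 2 (fun d3 => hdef ⟨d1, d2, d3⟩)]
        exact le_add_of_nonneg_left (by positivity)
      · rw [hall 0 2 d2]
        exact le_add_of_le_of_nonneg (le_add_of_nonneg_left (by positivity)) (by positivity)
    · rw [hall 0 1 d1]
      exact le_add_of_le_of_nonneg (le_add_of_nonneg_right (by positivity)) (by positivity)
  -- the new cells are proper subsets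
  have hsmall : ∀ p ∈ A₂, (c3 A₂ ℓ g₁ p).card < n := by
    intro p _
    obtain ⟨b₀, hb₀⟩ : B₀.Nonempty := card_pos.1 (by
      have : (0 : ℝ) < B₀.card := lt_of_lt_of_le (by positivity) hc₀
      exact_mod_cast this)
    obtain ⟨b₁, hb₁⟩ : B₁.Nonempty := card_pos.1 (by
      have : (0 : ℝ) < B₁.card := lt_of_lt_of_le (by positivity) hc₁
      exact_mod_cast this)
    refine lt_of_lt_of_le (card_lt_card ⟨hc3sub p, fun hsup => ?_⟩) hn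
    have e0 := (mem_filter.1 (hsup (hB₀ hb₀))).2 i
    have e1 := (mem_filter.1 (hsup (hB₁ hb₁))).2 i
    have := (hg₁ i).abs_lt (x := ℓ i b₀) (y := ℓ i b₁) (e0.trans e1.symm)
    have h2 := hsep b₀ hb₀ b₁ hb₁
    rw [abs_lt] at this
    linarith [this.1]
  have hcl := cleanup hS hD (lam := lam) (c := c) (σ₁ := σ₁) (m₁ := m₁) (by linarith) hP.cpos.le
    (by linarith) hP.m₁pos.le hP.m₁le hIH (hA₂.trans hA) hQ₂ hsmall
  obtain ⟨A₃, hA₃def⟩ : ∃ A₃, A₃ = rem ℓ A₂ g₁ m₁ σ₁ := ⟨_, rfl⟩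
  rw [← hA₃def] at hcl
  have hA₃ : A₃ ⊆ A₂ := by rw [hA₃def]; exact rem_sub _ _ _ _
  have hc3₃ : ∀ p ∈ A₃, c3 A₃ ℓ g₁ p = c3 A₂ ℓ g₁ p ∧ σ₁ ≤ (c3 A₂ ℓ g₁ p).card := by
    intro p hp; rw [hA₃def] at hp ⊢; exact rem_c3 hp
  have hInv : Inv A₀ ℓ θ σ₁ n A₃ (w / 1000) g₁ :=
    { sub := hA₃.trans (hA₂.trans hA)
      rpos := hr'
      grid := hg₁
      trim := fun p hp => htr₂ p (hA₃ hp)
      big := fun p hp => by rw [(hc3₃ p hp).1]; exact (hc3₃ p hp).2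
      small := fun p hp => by rw [(hc3₃ p hp).1]; exact hsmall p (hA₃ hp) }
  have hinner := inner hS hP hZ hM hIH hInv
  unfold F0 at hinner
  have hremW := remove_W hS (hA₂.trans hA) hA₃ (g := g₁)
  have hW : Wtot ℓ T s Q A₃ g₁ ≤ A.card * Real.exp (lam / 12 + 1 / 4) := by
    refine hremW.trans (hrefW.trans ?_)
    rw [hWtot]
    exact mul_le_mul_of_nonneg_left (Real.exp_le_exp.2 (by linarith)) hN.le
  have hpsi : (A₂.card : ℝ) * (psi lam c σ₁ A.card - c * Real.log (1 / ϑ)) ≤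
      ∑ p ∈ A₂, psi lam c σ₁ (c3 A₂ ℓ g₁ p).card := by
    rw [← nsmul_eq_mul, ← sum_const]
    refine sum_le_sum (fun p hp => ?_)
    have hy : (0 : ℝ) < (c3 A₂ ℓ g₁ p).card := lt_of_lt_of_le (by positivity) (hheavy p hp)
    have hyx : ((c3 A₂ ℓ g₁ p).card : ℝ) ≤ A.card := by exact_mod_cast card_le_card (hc3sub p)
    have a1 := psi_sub_le (lam := lam) hP.cpos.le (by linarith : 0 < σ₁) hy hyx
    have a2 : Real.log ((A.card : ℝ) / (c3 A₂ ℓ g₁ p).card) ≤ Real.log (1 / ϑ) := by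
      refine Real.log_le_log (by positivity) ?_
      rw [div_le_div_iff₀ hy hϑ]
      have := hheavy p hp
      linarith
    have a3 := mul_le_mul_of_nonneg_left a2 hP.cpos.le
    linarith
  have hlk : (0 : ℝ) ≤ Real.log KK := le_trans zero_le_one one_le_log_KK
  have hβ : 0 ≤ β := by
    have a1 := hP.βge
    have a2 := hP.κ'pos
    have a3 : 0 ≤ 3 * lam * m₁ / c₁ :=
      div_nonneg (mul_nonneg (by linarith) hP.m₁pos.le) hP.c₁pos.le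
    linarith
  rw [hPhiTot] at hrefine
  exact AFirst_arith hN (Nat.cast_nonneg _) (by exact_mod_cast card_le_card hA₃)
    (by exact_mod_cast card_le_card hA₂) ho hrefine hDf hcl hinner (varpi_le ng _) hW hpsi
    (psi_le _ _ _ _) hlk (by linarith) hP.m₁pos.le hP.c₁pos.le hP.c₂pos.le hP.cpos.le
    (Real.log_nonneg (by rw [le_div_iff₀ hϑ]; linarith)) hβ (Nat.cast_nonneg _) hP.kill hP.first

theorem first_level (hS : SysA A₀ ℓ T s M Q D B)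
    (hP : ParA κ lam lam₂ κ' m₁ m₅ ε₁ c₁ c₂ c θ ϑ θ₅ θl Ξ β ng n₀ N₁)
    (hZ : SizA Q D B lam ϑ θl σ₁) (hM : M ≤ Real.exp (-κ)) {A : Finset α}
    (hIH : IH A₀ T s Q D lam c σ₁ A.card) (hA : A ⊆ A₀) (hσ : σ₁ < A.card)
    (hPP : PP T s Q 0 1 A ≤ lam / 3) (cc : Fin 3 → ℝ) (hcc : cc 0 + cc 1 + cc 2 = 0)
    (hmed : ∀ i : Fin 3, i = 0 ∨ i = 1 → A.card ≤ 2 * (A.filter (fun p => ℓ i p ≤ cc i)).card ∧
      A.card ≤ 2 * (A.filter (fun p => cc i ≤ ℓ i p)).card)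
    (w : ℝ) (hw : 0 < w) (h1 : out A (Nc ℓ cc) (5 * w) ≤ 1 / 10 ^ 12 * A.card)
    (h2 : (9 / 8) ^ n₀ * out A (Nc ℓ cc) (5 ^ (n₀ + 1) * w) ≤ out A (Nc ℓ cc) (5 * w))
    (h3 : 1 / 10 ^ 12 * (A.card : ℝ) < out A (Nc ℓ cc) w)
    (h4 : 9 / 8 * out A (Nc ℓ cc) (5 * w) ≤ out A (Nc ℓ cc) w) :
    psi lam c σ₁ A.card ≤ Phi T s Q A := by
  have hσ2 := hZ.σge
  have hN : (0 : ℝ) < A.card := by linarith
  have h5 : (5 : ℝ) ≤ 5 ^ (n₀ + 1) := by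
    have : (1 : ℝ) ≤ 5 ^ n₀ := one_le_pow₀ (by norm_num)
    rw [pow_succ]; linarith
  obtain ⟨A', hA'def⟩ : ∃ A', A' = A.filter (fun p => Nc ℓ cc p ≤ 5 ^ (n₀ + 1) * w) := ⟨_, rfl⟩
  have hA' : A' ⊆ A := by rw [hA'def]; exact filter_subset _ _
  have hsplit : (A'.card : ℝ) + out A (Nc ℓ cc) (5 ^ (n₀ + 1) * w) = A.card := by
    unfold out
    have := card_filter_add_card_filter_not (s := A) (fun p => Nc ℓ cc p ≤ 5 ^ (n₀ + 1) * w)
    simp only [not_le] at this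
    rw [hA'def]
    exact_mod_cast this
  obtain ⟨e, he⟩ : ∃ e : ℝ, e = (8 / 9) ^ n₀ := ⟨_, rfl⟩
  have he0 : 0 < e := by rw [he]; positivity
  have he1 : e ≤ 1 := by rw [he]; exact pow_le_one₀ (by norm_num) (by norm_num)
  have hfar : out A (Nc ℓ cc) (5 ^ (n₀ + 1) * w) ≤ e * (1 / 10 ^ 12 * A.card) := by
    have a1 := mul_le_mul_of_nonneg_left (h2.trans h1) he0.le
    have a2 : e * (9 / 8) ^ n₀ = 1 := by rw [he, ← mul_pow]; norm_num
    rwa [← mul_assoc, a2, one_mul] at a1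
  have heN : e * (1 / 10 ^ 12 * A.card) ≤ 1 / 10 ^ 12 * A.card :=
    mul_le_of_le_one_left (by positivity) he1
  have hhalf : (A.card : ℝ) ≤ 2 * A'.card := by linarith
  have hN' : (0 : ℝ) < A'.card := by linarith
  have hne' : A'.Nonempty := card_pos.1 (by exact_mod_cast hN')
  have hle : (A'.card : ℝ) ≤ A.card := by exact_mod_cast card_le_card hA'
  have hlog : Real.log ((A.card : ℝ) / A'.card) ≤ 2 / 10 ^ 12 * e := by
    refine (Real.log_le_sub_one_of_pos (by positivity)).trans ?_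
    rw [sub_le_iff_le_add, div_le_iff₀ hN']
    have : e * (1 / 10 ^ 12 * (A.card : ℝ)) ≤ e * (1 / 10 ^ 12 * (2 * A'.card)) := by gcongr
    linarith
  have l0 := LL_sub_le hS hA hA' hne' 0
  have l1 := LL_sub_le hS hA hA' hne' 1
  have l2 := LL_sub_le hS hA hA' hne' 2
  obtain ⟨i, B₀, B₁, hB₀, hB₁, hc₀, hc₁, hsep⟩ := AFirst_sides hS.sum0 cc hcc hmed w hw h1 h3 h4
  have hCA : A.filter (fun p => Nc ℓ cc p ≤ 5 * w) ⊆ A' := by
    intro p hp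
    rw [mem_filter] at hp
    rw [hA'def, mem_filter]
    exact ⟨hp.1, hp.2.trans (mul_le_mul_of_nonneg_right h5 hw.le)⟩
  have hcore := AFirst_core hS hP hZ hM hIH (hA'.trans hA) (card_le_card hA') (by linarith)
    (by unfold PP at hPP ⊢; linarith) cc w hw
    (fun p hp i => (fd_abs_le cc i p).trans (by rw [hA'def] at hp; exact (mem_filter.1 hp).2))
    i B₀ B₁ (hB₀.trans hCA) (hB₁.trans hCA) (by linarith) (by linarith)
    (fun p hp => (fd_abs_le cc i p).trans (by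
      rcases mem_union.1 hp with h | h
      · exact (mem_filter.1 (hB₀ h)).2
      · exact (mem_filter.1 (hB₁ h)).2))
    hsep (by
      have : out A' (Nc ℓ cc) (5 * w) ≤ out A (Nc ℓ cc) (5 * w) := by
        unfold out
        exact_mod_cast card_le_card (filter_subset_filter _ hA')
      linarith)
  rw [← he] at hcore
  have hψ := psi_sub_le (lam := lam) hP.cpos.le (by linarith : 0 < σ₁) hN' hle
  have hlog0 : 0 ≤ Real.log ((A.card : ℝ) / A'.card) :=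
    Real.log_nonneg (by rw [le_div_iff₀ hN']; linarith)
  have hc : c * Real.log ((A.card : ℝ) / A'.card) ≤ 1 / 100 * Real.log ((A.card : ℝ) / A'.card) :=
    mul_le_mul_of_nonneg_right hP.cle hlog0
  unfold Phi PP at hcore ⊢
  linarith

end
end Crest.Agent.R51
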