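import Crest.Agent.R51.AStep

set_option autoImplicit false
open Classical Finset

namespace Crest.Agent.R51
noncomputable section

variable {α : Type} {A₀ : Finset α} {ℓ : Fin 3 → α → ℝ} {T : Fin 3 → Finset α → ℝ}
  {s : Finset α → ℝ} {M Q D B : ℝ}

variable {κ lam lam₂ κ' m₁ m₅ ε₁ c₁ c₂ c θ ϑ θ₅ θl Ξ β σ₁ : ℝ} {ng n₀ N₁ : ℕ}

theorem ain_hQ (hP : ParA κ lam lam₂ κ' m₁ m₅ ε₁ c₁ c₂ c θ ϑ θ₅ θl Ξ β ng n₀ N₁)
    (hZ : SizA Q D B lam ϑ θl σ₁) {n : ℕ}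
    {A : Finset α} {r : ℝ} {g : Fin 3 → ℝ → ℝ} (hI : Inv A₀ ℓ θ σ₁ n A r g) :
    ∀ p ∈ A, Q ≤ D * (c3 A ℓ g p).card := by
  intro p hp
  have h1 := hZ.h1
  have h2 := hI.big p hp
  have hD := hZ.Dge
  have hσ := hZ.σge
  have hϑ := hP.ϑle
  have hϑ0 := hP.ϑpos
  have h3 : ϑ * σ₁ / 2 ≤ ((c3 A ℓ g p).card : ℝ) := by nlinarith
  calc Q ≤ D * (ϑ * σ₁ / 2) := h1
    _ ≤ D * (c3 A ℓ g p).card := mul_le_mul_of_nonneg_left h3 (by linarith)

theorem ain_c2_filter {A : Finset α} {g : Fin 3 → ℝ → ℝ} (F : Finset α → Prop) {p : α}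
    (hp : p ∈ A.filter (fun q => F (c2 A ℓ g 0 1 q))) :
    c2 (A.filter (fun q => F (c2 A ℓ g 0 1 q))) ℓ g 0 1 p = c2 A ℓ g 0 1 p := by
  have hF := (mem_filter.1 hp).2
  ext q
  constructor
  · intro hq
    have h := mem_filter.1 hq
    exact mem_filter.2 ⟨(mem_filter.1 h.1).1, h.2⟩
  · intro hq
    have h := mem_filter.1 hq
    refine mem_filter.2 ⟨mem_filter.2 ⟨h.1, ?_⟩, h.2⟩
    rw [c2_eq_of_mem hq]
    exact hF

theorem ain_c3_filter {A : Finset α} {g : Fin 3 → ℝ → ℝ} (F : Finset α → Prop) {p : α}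
    (hp : p ∈ A.filter (fun q => F (c2 A ℓ g 0 1 q))) :
    c3 (A.filter (fun q => F (c2 A ℓ g 0 1 q))) ℓ g p = c3 A ℓ g p := by
  have hF := (mem_filter.1 hp).2
  ext q
  constructor
  · intro hq
    have h := mem_filter.1 hq
    exact mem_filter.2 ⟨(mem_filter.1 h.1).1, h.2⟩
  · intro hq
    have h := mem_filter.1 hq
    refine mem_filter.2 ⟨mem_filter.2 ⟨h.1, ?_⟩, h.2⟩
    rw [c2_eq_of_mem (c3_sub_c2 A ℓ g 0 1 p hq)]
    exact hF

theorem ain_gap (hS : SysA A₀ ℓ T s M Q D B) :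
    ∃ d : ℝ, 0 < d ∧ ∀ p ∈ A₀, ∀ q ∈ A₀, nrm ℓ p q < d → p = q := by
  have hnn : ∀ p q, 0 ≤ nrm ℓ p q := fun p q => le_trans (abs_nonneg _) (abs_le_nrm ℓ 0 p q)
  by_cases hne : ((A₀ ×ˢ A₀).filter (fun z : α × α => z.1 ≠ z.2)).Nonempty
  · obtain ⟨z, hz, hmin⟩ := exists_min_image _ (fun z : α × α => nrm ℓ z.1 z.2) hne
    have hz' := mem_filter.1 hz
    have hz'' := mem_product.1 hz'.1
    refine ⟨nrm ℓ z.1 z.2, ?_, ?_⟩
    · rcases (hnn z.1 z.2).lt_or_eq with h | h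
      · exact h
      · exact absurd (hS.inj _ hz''.1 _ hz''.2 h.symm) hz'.2
    · intro p hp q hq hlt
      by_contra hpq
      have := hmin (p, q) (mem_filter.2 ⟨mem_product.2 ⟨hp, hq⟩, hpq⟩)
      exact absurd hlt (not_lt.2 this)
  · refine ⟨1, one_pos, ?_⟩
    intro p hp q hq _
    by_contra hpq
    exact hne ⟨(p, q), mem_filter.2 ⟨mem_product.2 ⟨hp, hq⟩, hpq⟩⟩

theorem ain_empty (hZ : SizA Q D B lam ϑ θl σ₁) {d : ℝ}
    (hd : ∀ p ∈ A₀, ∀ q ∈ A₀, nrm ℓ p q < d → p = q) {n : ℕ}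
    {A : Finset α} {r : ℝ} {g : Fin 3 → ℝ → ℝ} (hI : Inv A₀ ℓ θ σ₁ n A r g) (hr : r ≤ d) :
    A = ∅ := by
  by_contra hne
  obtain ⟨p, hp⟩ := nonempty_iff_ne_empty.2 hne
  have h1 : c3 A ℓ g p ⊆ {p} := by
    intro q hq
    have h := mem_filter.1 hq
    have hi : ∀ i, |ℓ i q - ℓ i p| < r := fun i => (hI.grid i).abs_lt (h.2 i)
    have hn : nrm ℓ q p < d := by
      unfold nrm
      exact lt_of_lt_of_le (max_lt (max_lt (hi 0) (hi 1)) (hi 2)) hr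
    exact mem_singleton.2 (hd q (hI.sub h.1) p (hI.sub hp) hn)
  have h2 : (c3 A ℓ g p).card ≤ 1 := by simpa using card_le_card h1
  have h3 : ((c3 A ℓ g p).card : ℝ) ≤ 1 := by exact_mod_cast h2
  have h4 := hI.big p hp
  have h5 := hZ.σge
  linarith

theorem ain_F1_empty (r rb : ℝ) (g gb : Fin 3 → ℝ → ℝ) :
    F1 ℓ T s Q lam c σ₁ c₁ c₂ β κ' ng (∅ : Finset α) r g rb gb = 0 := by
  simp [F1, PhiTot, Theta, varpi, Wtot]

theorem rebase (hS : SysA A₀ ℓ T s M Q D B)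
    (hP : ParA κ lam lam₂ κ' m₁ m₅ ε₁ c₁ c₂ c θ ϑ θ₅ θl Ξ β ng n₀ N₁)
    (hZ : SizA Q D B lam ϑ θl σ₁) (hM : M ≤ Real.exp (-κ)) {n : ℕ}
    {A : Finset α} {r : ℝ} {g : Fin 3 → ℝ → ℝ} (hI : Inv A₀ ℓ θ σ₁ n A r g) :
    ∃ A' : Finset α, Inv A₀ ℓ θ σ₁ n A' r g ∧
      F1 ℓ T s Q lam c σ₁ c₁ c₂ β κ' ng A' r g r g ≤ F0 ℓ T s Q lam c σ₁ c₁ c₂ β ng A r g := by
  set E : ℝ := Real.exp (lam₂ / 4) with hE
  set F : Finset α → Prop := fun C => Wc T s Q C ≤ E * C.card with hF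
  set A' : Finset α := A.filter (fun q => F (c2 A ℓ g 0 1 q)) with hA'
  have hsub : A' ⊆ A := filter_subset _ _
  have h2 : ∀ p ∈ A', c2 A' ℓ g 0 1 p = c2 A ℓ g 0 1 p := fun p hp => ain_c2_filter F hp
  have h3 : ∀ p ∈ A', c3 A' ℓ g p = c3 A ℓ g p := fun p hp => ain_c3_filter F hp
  have hQ := ain_hQ hP hZ hI
  have hself : ∀ p ∈ A, p ∈ c2 A ℓ g 0 1 p := fun p hp => c3_sub_c2 A ℓ g 0 1 p (mem_c3_self hp)
  have hcpos : ∀ p ∈ A, (0 : ℝ) < (c2 A ℓ g 0 1 p).card := fun p hp => by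
    exact_mod_cast card_pos.2 ⟨p, hself p hp⟩
  refine ⟨A', ⟨hsub.trans hI.sub, hI.rpos, hI.grid, fun p hp => hI.trim p (hsub hp),
    fun p hp => by rw [h3 p hp]; exact hI.big p (hsub hp),
    fun p hp => by rw [h3 p hp]; exact hI.small p (hsub hp)⟩, ?_⟩
  set R : Finset α := A.filter (fun q => ¬ F (c2 A ℓ g 0 1 q)) with hR
  have hcard : (R.card : ℝ) = (A.card : ℝ) - A'.card := by
    have := card_filter_add_card_filter_not (s := A) (fun q => F (c2 A ℓ g 0 1 q))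
    have h' : ((A'.card + R.card : ℕ) : ℝ) = A.card := by exact_mod_cast this
    push_cast at h'
    linarith
  have hPhi := remove_Phi (g := g) hS hZ.Dge hI.sub hsub hQ
  have hpsi : ∑ p ∈ A, psi lam c σ₁ (c3 A ℓ g p).card ≤
      ∑ p ∈ A', psi lam c σ₁ (c3 A' ℓ g p).card + (lam - 12) * ((A.card : ℝ) - A'.card) := by
    rw [← sum_filter_add_sum_filter_not A (fun q => F (c2 A ℓ g 0 1 q))]
    have e1 : ∑ p ∈ A', psi lam c σ₁ (c3 A' ℓ g p).card =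
        ∑ p ∈ A', psi lam c σ₁ (c3 A ℓ g p).card :=
      sum_congr rfl (fun p hp => by rw [h3 p hp])
    have e2 : ∑ p ∈ R, psi lam c σ₁ (c3 A ℓ g p).card ≤ ∑ _p ∈ R, (lam - 12) :=
      sum_le_sum (fun p _ => psi_le _ _ _ _)
    rw [sum_const, nsmul_eq_mul, hcard] at e2
    rw [e1]
    linarith
  have hTh : Theta ℓ T s Q A' g g ≤ lam₂ * A'.card := by
    rw [Theta_self]
    have e : ∑ p ∈ A', PP T s Q 0 1 (c2 A' ℓ g 0 1 p) ≤ ∑ _p ∈ A', lam₂ := by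
      refine sum_le_sum (fun p hp => ?_)
      rw [h2 p hp]
      have hp' := mem_filter.1 hp
      have hw : Wc T s Q (c2 A ℓ g 0 1 p) ≤ E * (c2 A ℓ g 0 1 p).card := hp'.2
      rw [Wc_eq hS ((c2_sub A ℓ g 0 1 p).trans hI.sub) ⟨p, hself p hp'.1⟩, mul_comm] at hw
      have hw' := le_of_mul_le_mul_right hw (hcpos p hp'.1)
      rw [hE, Real.exp_le_exp] at hw'
      linarith
    rw [sum_const, nsmul_eq_mul] at e
    linarith
  have hW : Wtot ℓ T s Q A' g + E * ((A.card : ℝ) - A'.card) ≤ Wtot ℓ T s Q A g := by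
    unfold Wtot
    rw [← sum_filter_add_sum_filter_not A (fun q => F (c2 A ℓ g 0 1 q))]
    have e1 : ∑ p ∈ A', Wc T s Q (c2 A' ℓ g 0 1 p) / (c2 A' ℓ g 0 1 p).card =
        ∑ p ∈ A', Wc T s Q (c2 A ℓ g 0 1 p) / (c2 A ℓ g 0 1 p).card :=
      sum_congr rfl (fun p hp => by rw [h2 p hp])
    have e2 : ∑ _p ∈ R, E ≤ ∑ p ∈ R, Wc T s Q (c2 A ℓ g 0 1 p) / (c2 A ℓ g 0 1 p).card := by
      refine sum_le_sum (fun p hp => ?_)
      have hp' := mem_filter.1 hp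
      have hw : ¬ Wc T s Q (c2 A ℓ g 0 1 p) ≤ E * (c2 A ℓ g 0 1 p).card := hp'.2
      rw [le_div_iff₀ (hcpos p hp'.1)]
      exact (not_le.1 hw).le
    rw [sum_const, nsmul_eq_mul, hcard] at e2
    rw [e1]
    linarith
  have hv := varpi_mono (ℓ := ℓ) (g := g) hsub ng r
  have hlk := one_le_log_KK
  have hk : (0 : ℝ) ≤ (A.card : ℝ) - A'.card := by rw [← hcard]; positivity
  have ha' : (0 : ℝ) ≤ A'.card := by positivity
  have hβ : 4002 * Real.log KK ≤ β := by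
    have h := hP.βge
    have : 0 ≤ 3 * lam * m₁ / c₁ := by
      have := hP.lamge
      have := hP.m₁pos
      have := hP.c₁pos
      positivity
    have := hP.κ'pos
    linarith
  have hl2 := hP.lam₂le
  have hc2 := hP.c₂ge
  have hc1 := hP.c₁pos
  have hc2p := hP.c₂pos
  have hin : Theta ℓ T s Q A' g g - 49 / 25 * (Real.log (r / r) + κ') * A'.card + β * A'.card +
      2000 * Real.log KK * varpi ℓ ng A' g r ≤
      (β - 4002 * Real.log KK) * A.card + 2000 * Real.log KK * varpi ℓ ng A g r := by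
    rw [div_self hI.rpos.ne', Real.log_one, zero_add]
    have a1 : (lam₂ + 4002 * Real.log KK) * A'.card ≤ 49 / 25 * κ' * A'.card :=
      mul_le_mul_of_nonneg_right hl2 ha'
    have a2 : 0 ≤ (β - 4002 * Real.log KK) * ((A.card : ℝ) - A'.card) :=
      mul_nonneg (by linarith) hk
    have a3 : 2000 * Real.log KK * varpi ℓ ng A' g r ≤ 2000 * Real.log KK * varpi ℓ ng A g r :=
      mul_le_mul_of_nonneg_left hv (by linarith)
    nlinarith
  have b1 := mul_le_mul_of_nonneg_left hin hc1.le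
  have b2 := mul_le_mul_of_nonneg_left hW hc2p.le
  have b3 : lam * ((A.card : ℝ) - A'.card) ≤ c₂ * E * ((A.card : ℝ) - A'.card) :=
    mul_le_mul_of_nonneg_right hc2 hk
  unfold F1 F0
  nlinarith

theorem F0_le_F1 (hS : SysA A₀ ℓ T s M Q D B)
    (hP : ParA κ lam lam₂ κ' m₁ m₅ ε₁ c₁ c₂ c θ ϑ θ₅ θl Ξ β ng n₀ N₁)
    (hZ : SizA Q D B lam ϑ θl σ₁) (hM : M ≤ Real.exp (-κ)) {n : ℕ}
    {A : Finset α} {r rb : ℝ} {g gb : Fin 3 → ℝ → ℝ} (hI : Inv A₀ ℓ θ σ₁ n A r g)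
    (hB : Bas r rb g gb) (hv : r ≤ rb * Real.exp (-κ') * KK ^ 2001) :
    F0 ℓ T s Q lam c σ₁ c₁ c₂ β ng A r g ≤ F1 ℓ T s Q lam c σ₁ c₁ c₂ β κ' ng A r g rb gb := by
  have hTh := Theta_nonneg (g := g) (gb := gb) hS hZ.Dge hI.sub hB.ref (ain_hQ hP hZ hI)
  have hlk := one_le_log_KK
  have hr := hI.rpos
  have hrb : 0 < rb := lt_of_lt_of_le hr hB.le
  have hK : (0 : ℝ) < KK := by unfold KK; positivity
  have hlog : Real.log (r / rb) + κ' ≤ 2001 * Real.log KK := by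
    have h1 : r / rb ≤ Real.exp (-κ') * KK ^ 2001 := by
      rw [div_le_iff₀ hrb]
      calc r ≤ rb * Real.exp (-κ') * KK ^ 2001 := hv
        _ = Real.exp (-κ') * KK ^ 2001 * rb := by ring
    have h2 := Real.log_le_log (div_pos hr hrb) h1
    rw [Real.log_mul (Real.exp_pos _).ne' (pow_pos hK _).ne', Real.log_exp, Real.log_pow] at h2
    push_cast at h2
    linarith
  have ha : (0 : ℝ) ≤ A.card := by positivity
  have hin : (β - 4002 * Real.log KK) * A.card + 2000 * Real.log KK * varpi ℓ ng A g r ≤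
      Theta ℓ T s Q A gb g - 49 / 25 * (Real.log (r / rb) + κ') * A.card + β * A.card +
      2000 * Real.log KK * varpi ℓ ng A g r := by
    have a1 : 49 / 25 * (Real.log (r / rb) + κ') * A.card ≤ 4002 * Real.log KK * A.card :=
      mul_le_mul_of_nonneg_right (by linarith) ha
    nlinarith
  have b1 := mul_le_mul_of_nonneg_left hin hP.c₁pos.le
  unfold F1 F0
  linarith

theorem inner (hS : SysA A₀ ℓ T s M Q D B)
    (hP : ParA κ lam lam₂ κ' m₁ m₅ ε₁ c₁ c₂ c θ ϑ θ₅ θl Ξ β ng n₀ N₁)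
    (hZ : SizA Q D B lam ϑ θl σ₁) (hM : M ≤ Real.exp (-κ)) {n : ℕ}
    (hIH : IH A₀ T s Q D lam c σ₁ n) {A : Finset α} {r : ℝ} {g : Fin 3 → ℝ → ℝ}
    (hI : Inv A₀ ℓ θ σ₁ n A r g) : 0 ≤ F0 ℓ T s Q lam c σ₁ c₁ c₂ β ng A r g := by
  obtain ⟨d, hd0, hd⟩ := ain_gap hS
  have hself : ∀ (r : ℝ), 0 < r → r * Real.exp (-κ') * KK ^ 2001 ≤ r := by
    intro r hr
    have h1 : Real.exp (-κ') * KK ^ 2001 ≤ 1 := by
      calc Real.exp (-κ') * KK ^ 2001 ≤ Real.exp (-κ') * Real.exp κ' :=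
            mul_le_mul_of_nonneg_left hP.K_le (Real.exp_pos _).le
        _ = 1 := by rw [← Real.exp_add, neg_add_cancel, Real.exp_zero]
    calc r * Real.exp (-κ') * KK ^ 2001 = r * (Real.exp (-κ') * KK ^ 2001) := mul_assoc _ _ _
      _ ≤ r * 1 := mul_le_mul_of_nonneg_left h1 hr.le
      _ = r := mul_one _
  have key : ∀ f : ℕ, ∀ (A : Finset α) (r rb : ℝ) (g gb : Fin 3 → ℝ → ℝ),
      Inv A₀ ℓ θ σ₁ n A r g → Bas r rb g gb → r ≤ d * 2 ^ f →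
      0 ≤ F1 ℓ T s Q lam c σ₁ c₁ c₂ β κ' ng A r g rb gb := by
    intro f
    induction f with
    | zero =>
      intro A r rb g gb hI hB hr
      have hA : A = ∅ := ain_empty hZ hd hI (by simpa using hr)
      rw [hA, ain_F1_empty]
    | succ f ih =>
      have h1 : ∀ (A : Finset α) (r rb : ℝ) (g gb : Fin 3 → ℝ → ℝ),
          Inv A₀ ℓ θ σ₁ n A r g → Bas r rb g gb → r ≤ d * 2 ^ (f + 1) →
          rb * Real.exp (-κ') * KK ^ 2001 ≤ r →
          0 ≤ F1 ℓ T s Q lam c σ₁ c₁ c₂ β κ' ng A r g rb gb := by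
        intro A r rb g gb hI hB hr hv
        obtain ⟨A', r', g', hI', hB', hrr, hF⟩ := stepA hS hP hZ hM hIH hI hB hv
        refine le_trans (ih A' r' rb g' gb hI' hB' ?_) hF
        rw [pow_succ] at hr
        linarith
      intro A r rb g gb hI hB hr
      rcases le_total (rb * Real.exp (-κ') * KK ^ 2001) r with hv | hv
      · exact h1 A r rb g gb hI hB hr hv
      · obtain ⟨A', hI', hF⟩ := rebase hS hP hZ hM hI
        have h2 := h1 A' r r g g hI' ⟨le_rfl, hI.grid, fun _ _ _ h => h⟩ hr (hself r hI.rpos)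
        exact le_trans (le_trans h2 hF) (F0_le_F1 hS hP hZ hM hI hB hv)
  obtain ⟨f, hf⟩ := pow_unbounded_of_one_lt (r / d) (by norm_num : (1 : ℝ) < 2)
  obtain ⟨A', hI', hF⟩ := rebase hS hP hZ hM hI
  have hr : r ≤ d * 2 ^ f := by
    rw [div_lt_iff₀ hd0] at hf
    linarith
  exact le_trans (key f A' r r g g hI' ⟨le_rfl, hI.grid, fun _ _ _ h => h⟩ hr) hF

end
end Crest.Agent.R51
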