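import Crest.Agent.R51.AQI

set_option autoImplicit false
open Classical Finset

namespace Crest.Agent.R51
noncomputable section

variable {α : Type} {ℓ : Fin 3 → α → ℝ}

theorem lq_heavy (B : Finset α) (f : α → ℝ) {n c : ℝ} (hc : 0 < c) (hcB : c ≤ B.card)
    (hn : ((B.image f).card : ℝ) ≤ n) :
    ∃ u ∈ B, c ≤ n * (B.filter (fun q => f q = f u)).card := by
  have hne : B.Nonempty := by
    rw [← Finset.card_pos]
    exact_mod_cast hc.trans_le hcB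
  obtain ⟨u, hu, h⟩ := heavy_label B hne f n hn
  refine ⟨u, hu, hcB.trans (h.trans (le_of_eq ?_))⟩
  unfold cls
  congr

theorem lq_card_le {B P : Finset α} (h : ∀ u ∈ B, u ∈ P) : (B.card : ℝ) ≤ P.card := by
  exact_mod_cast Finset.card_le_card h

/-- abstract form of `local_qi` -/
theorem lq_abs {P₁ P₂ P₃ S B₀ B₁ : Finset α} (x y z : α → ℝ) (hxyz : ∀ p, x p + y p + z p = 0)
    {ρ ρ₂ t w m₁ m₅ m₄ ε cx cy : ℝ} (ga gb gc : ℝ → ℝ) (ha : Grid ρ ga) (hb : Grid ρ gb)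
    (hc : Grid ρ gc) (hρ : 0 < ρ) (hρ₂ : 10 ^ 9 * ρ ≤ ρ₂) (hw : 10 * ρ₂ ≤ w) (ht : 0 < t)
    (ht1 : t ≤ 1) (ht2 : 4 * ρ₂ / ρ + 2 ≤ 2 / t) (hm₁ : 0 < m₁) (hm₁' : m₁ ≤ 1) (hm₅ : 0 < m₅)
    (hm₅' : m₅ ≤ 1) (hm₄ : m₄ = m₁ * m₅ ^ 2 * t ^ 2 / 10 ^ 13) (hε : 0 ≤ ε)
    (hε' : ε ≤ m₄ ^ 3 / 10 ^ 22) (hS₁ : S ⊆ P₁) (hS₂ : S ⊆ P₂) (hS₃ : S ⊆ P₃) (hSne : S.Nonempty)
    (hc₂ : (P₂.card : ℝ) ≤ 10 ^ 10 * S.card) (hc₃ : (P₃.card : ℝ) ≤ 10 ^ 10 * S.card)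
    (hsafe : ∀ u, u ∈ P₁ ∨ u ∈ P₂ ∨ u ∈ P₃ → |x u - cx| ≤ w → |y u - cy| ≤ w → u ∈ S)
    (hLa : ∀ B ⊆ P₁, ∀ u L : ℝ, 0 ≤ L → (∀ p ∈ B, u ≤ x p ∧ x p ≤ u + L) →
      ((B.image (fun p => ga (x p))).card : ℝ) ≤ L / ρ + 2)
    (hLb : ∀ B ⊆ P₁, ∀ u L : ℝ, 0 ≤ L → (∀ p ∈ B, u ≤ y p ∧ y p ≤ u + L) →
      ((B.image (fun p => gb (y p))).card : ℝ) ≤ L / ρ + 2)
    (h12 : NonDef P₁ (fun q => ga (x q)) (fun q => gb (y q)) ε)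
    (h13 : NonDef P₂ (fun q => ga (x q)) (fun q => gc (z q)) ε)
    (h23 : NonDef P₃ (fun q => gb (y q)) (fun q => gc (z q)) ε)
    (hB₀ : B₀ ⊆ P₁) (hB₀c : m₅ * P₁.card ≤ B₀.card)
    (hB₀n : ∀ u ∈ B₀, |x u - cx| ≤ ρ₂ / 10 ^ 6 / 2 ∧ |y u - cy| ≤ ρ₂ / 10 ^ 6 / 2)
    (hB₁ : B₁ ⊆ P₁) (hB₁c : m₁ * m₅ * P₁.card ≤ 2 * B₁.card)
    (hB₁n : ∀ u ∈ B₁, ρ₂ / 10 ^ 6 < |x u - cx| ∧ |x u - cx| ≤ 2 * ρ₂ ∧ |y u - cy| ≤ 2 * ρ₂) :
    (∃ v : ℝ, ρ₂ / (8 * 10 ^ 6) ≤ |v| ∧ |v| ≤ 4 * ρ₂ ∧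
      QIP P₁ x (cx - w) (cx + w) v ρ (4 * ε / (1 / 10 ^ 10 * m₄ ^ 2))) ∧
    ∃ v : ℝ, ρ₂ / (8 * 10 ^ 6) ≤ |v| ∧ |v| ≤ 4 * ρ₂ ∧
      QIP P₁ y (cy - w) (cy + w) v ρ (4 * ε / (1 / 10 ^ 10 * m₄ ^ 2)) := by
  have hρ₂0 : 0 < ρ₂ := by linarith [mul_pos (by norm_num : (0 : ℝ) < 10 ^ 9) hρ]
  obtain ⟨N, hN⟩ : ∃ N : ℝ, N = P₁.card := ⟨_, rfl⟩
  obtain ⟨μ, hμ⟩ : ∃ μ : ℝ, μ = m₅ * t := ⟨_, rfl⟩
  have hP₁ : P₁.Nonempty := hSne.mono hS₁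
  have hP₂ : P₂.Nonempty := hSne.mono hS₂
  have hP₃ : P₃.Nonempty := hSne.mono hS₃
  have hN0 : 0 < N := by rw [hN]; exact_mod_cast hP₁.card_pos
  have hSN : (S.card : ℝ) ≤ N := by rw [hN]; exact lq_card_le hS₁
  have hμ0 : 0 < μ := by rw [hμ]; positivity
  have hμ1 : μ ≤ 1 := by rw [hμ]; exact mul_le_one₀ hm₅' ht.le ht1
  have hm₄' : m₄ = m₁ * μ ^ 2 / 10 ^ 13 := by rw [hm₄, hμ]; ring
  have hm₄0 : 0 < m₄ := by rw [hm₄']; positivity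
  have hμ2 : μ ^ 2 ≤ μ := by nlinarith
  have hm₄μ : m₄ ≤ μ ^ 2 / 10 ^ 13 := by
    rw [hm₄']
    have := mul_le_of_le_one_left (sq_nonneg μ) hm₁'
    linarith
  have hm₄1 : m₄ ≤ 1 := by linarith
  have hεm : ε ≤ m₄ := by
    have h1 : m₄ ^ 3 ≤ m₄ := by
      have := pow_le_pow_of_le_one hm₄0.le hm₄1 (by norm_num : 1 ≤ 3)
      rwa [pow_one] at this
    linarith
  have herr : 4 * ε / (1 / 10 ^ 10 * m₄ ^ 2) ≤ μ / 4 := by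
    rw [div_le_iff₀ (by positivity)]
    have h1 : m₄ * m₄ ^ 2 ≤ μ / 10 ^ 13 * m₄ ^ 2 :=
      mul_le_mul_of_nonneg_right (by linarith) (sq_nonneg _)
    have h2 : 0 ≤ μ * m₄ ^ 2 := by positivity
    nlinarith
  have hA1 : m₁ * μ ^ 2 * N ≤ m₁ * μ * N := by gcongr
  have hA2 : m₁ * μ * N ≤ μ * N := by
    have := mul_le_of_le_one_left (mul_pos hμ0 hN0).le hm₁'
    linarith
  have hA3 : m₁ * μ ^ 2 * N ≤ μ ^ 2 * N := by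
    have := mul_le_of_le_one_left (by positivity : 0 ≤ μ ^ 2 * N) hm₁'
    linarith
  have hA0 : 0 < m₁ * μ ^ 2 * N := by positivity
  have key : ∀ Pc K : ℝ, Pc ≤ 10 ^ 10 * N → m₁ * μ ^ 2 * N ≤ 1000 * K → m₄ * Pc ≤ K := by
    intro Pc K h1 h2
    have := mul_le_mul_of_nonneg_left h1 hm₄0.le
    rw [hm₄'] at this ⊢
    linarith
  have k₁ : (P₁.card : ℝ) ≤ 10 ^ 10 * N := by rw [← hN]; linarith
  have k₂ : (P₂.card : ℝ) ≤ 10 ^ 10 * N := by linarith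
  have k₃ : (P₃.card : ℝ) ≤ 10 ^ 10 * N := by linarith
  have hη₂ : 1 / 10 ^ 10 * (P₂.card : ℝ) ≤ P₁.card := by rw [← hN]; linarith
  have hη₃ : 1 / 10 ^ 10 * (P₃.card : ℝ) ≤ P₁.card := by rw [← hN]; linarith
  rw [← hN] at hB₀c hB₁c
  have hdiv : ∀ c K : ℝ, c ≤ 2 / t * K → t * c ≤ 2 * K := by
    intro c K h
    have := mul_le_mul_of_nonneg_left h ht.le
    rwa [← mul_assoc, mul_div_cancel₀ _ ht.ne'] at this
  have hB₀S : ∀ u ∈ B₀, u ∈ S := fun u hu =>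
    hsafe u (Or.inl (hB₀ hu)) (by linarith [(hB₀n u hu).1]) (by linarith [(hB₀n u hu).2])
  have hB₁S : ∀ u ∈ B₁, u ∈ S := fun u hu =>
    hsafe u (Or.inl (hB₁ hu)) (by linarith [(hB₁n u hu).2.1]) (by linarith [(hB₁n u hu).2.2])
  -- heavy columns
  obtain ⟨u₀, hu₀, F₀⟩ := lq_heavy B₀ (fun p => ga (x p)) (n := 2 / t) (by positivity) hB₀c
    ((hLa B₀ hB₀ (cx - 2 * ρ₂) (4 * ρ₂) (by positivity) fun p hp => by
      have := abs_le.1 (hB₀n p hp).1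
      constructor <;> linarith).trans ht2)
  obtain ⟨u₁, hu₁, F₁⟩ := lq_heavy B₁ (fun p => ga (x p)) (n := 2 / t) (c := m₁ * m₅ * N / 2)
    (by positivity) (by linarith)
    ((hLa B₁ hB₁ (cx - 2 * ρ₂) (4 * ρ₂) (by positivity) fun p hp => by
      have := abs_le.1 (hB₁n p hp).2.1
      constructor <;> linarith).trans ht2)
  obtain ⟨w₀, hw₀, F₂⟩ := lq_heavy B₀ (fun p => gb (y p)) (n := 2 / t) (by positivity) hB₀c
    ((hLb B₀ hB₀ (cy - 2 * ρ₂) (4 * ρ₂) (by positivity) fun p hp => by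
      have := abs_le.1 (hB₀n p hp).2
      constructor <;> linarith).trans ht2)
  have G₀ : μ * N ≤ 2 * ((B₀.filter fun q => ga (x q) = ga (x u₀)).card : ℝ) := by
    have := hdiv _ _ F₀
    rw [hμ]; linarith
  have G₁ : m₁ * μ * N ≤ 4 * ((B₁.filter fun q => ga (x q) = ga (x u₁)).card : ℝ) := by
    have := hdiv _ _ F₁
    rw [hμ]; linarith
  have G₂ : μ * N ≤ 2 * ((B₀.filter fun q => gb (y q) = gb (y w₀)).card : ℝ) := by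
    have := hdiv _ _ F₂
    rw [hμ]; linarith
  have sub : ∀ {B P : Finset α} (f : α → ℝ) (c : ℝ), (∀ u ∈ B, u ∈ P) →
      ((B.filter fun q => f q = c).card : ℝ) ≤ (P.filter fun q => f q = c).card := by
    intro B P f c h
    exact lq_card_le fun u hu => mem_filter.2 ⟨h u (mem_filter.1 hu).1, (mem_filter.1 hu).2⟩
  have xu₀ := abs_le.1 (hB₀n u₀ hu₀).1
  have xu₁ := abs_le.1 (hB₁n u₁ hu₁).2.1
  have yw₀ := abs_le.1 (hB₀n w₀ hw₀).2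
  have a₀ := ha.le (x u₀)
  have a₀' := ha.lt (x u₀)
  have a₁ := ha.le (x u₁)
  have a₁' := ha.lt (x u₁)
  have b₀ := hb.le (y w₀)
  have b₀' := hb.lt (y w₀)
  obtain ⟨v, hv, hQ⟩ := qi x y z hxyz ga gb gc ha hb hc hε (η := 1 / 10 ^ 10) (by positivity)
    (by norm_num) hm₄0 hP₁ hP₂ h12 h13 hη₂ (ga (x u₀)) (ga (x u₁))
    (key _ _ k₁ (by linarith [sub (fun q => ga (x q)) (ga (x u₀)) hB₀]))
    (key _ _ k₁ (by linarith [sub (fun q => ga (x q)) (ga (x u₁)) hB₁]))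
    (key _ _ k₂ (by linarith [sub (fun q => ga (x q)) (ga (x u₀)) fun u hu => hS₂ (hB₀S u hu)]))
    (key _ _ k₂ (by linarith [sub (fun q => ga (x q)) (ga (x u₁)) fun u hu => hS₂ (hB₁S u hu)]))
    (cy - w) (cy + w) (by
      intro u hu hx h1 h2
      have hu' : u ∈ P₁ ∨ u ∈ P₂ ∨ u ∈ P₃ := by
        rcases mem_union.1 hu with h | h
        · exact Or.inl h
        · exact Or.inr (Or.inl h)
      have hS : u ∈ S := by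
        refine hsafe u hu' ?_ (abs_le.2 ⟨by linarith, by linarith⟩)
        rcases hx with hx | hx
        · have := abs_lt.1 (ha.abs_lt hx)
          exact abs_le.2 ⟨by linarith, by linarith⟩
        · have := abs_lt.1 (ha.abs_lt hx)
          exact abs_le.2 ⟨by linarith, by linarith⟩
      exact ⟨hS₁ hS, hS₂ hS⟩)
  have hv' : |v| = |ga (x u₀) - ga (x u₁)| := by
    rcases hv with rfl | rfl
    · rfl
    · exact abs_sub_comm _ _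
  have hv1 : ρ₂ / 10 ^ 6 / 2 - ρ ≤ |v| := by
    rw [hv']
    rcases lt_abs.1 (hB₁n u₁ hu₁).1 with h | h
    · exact le_abs.2 (Or.inr (by linarith))
    · exact le_abs.2 (Or.inl (by linarith))
  have hv2 : |v| ≤ 3 * ρ₂ := by
    rw [hv']
    exact abs_le.2 ⟨by linarith, by linarith⟩
  have hv3 := abs_le.1 hv2
  refine ⟨?_, v, by linarith, by linarith, hQ⟩
  -- the second heavy row
  have hQ' := hQ (Set.Icc (gb (y w₀)) (gb (y w₀) + ρ)) fun y' hy' => by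
    obtain ⟨h1, h2⟩ := hy'
    refine ⟨?_, ?_, ?_, ?_⟩ <;> linarith
  obtain ⟨C, hC⟩ : ∃ C : Finset α, C = P₁.filter (fun q =>
      ∃ y' ∈ Set.Icc (gb (y w₀)) (gb (y w₀) + ρ), |y q - (y' + v)| ≤ 4 * ρ) := ⟨_, rfl⟩
  have hCP : C ⊆ P₁ := by rw [hC]; exact filter_subset _ _
  have hCy : ∀ u ∈ C, gb (y w₀) + v - 4 * ρ ≤ y u ∧ y u ≤ gb (y w₀) + v - 4 * ρ + 9 * ρ := by
    intro u hu
    rw [hC] at hu
    obtain ⟨y', ⟨h1, h2⟩, h3⟩ := (mem_filter.1 hu).2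
    have := abs_le.1 h3
    constructor <;> linarith
  have hCc : μ * N / 4 ≤ C.card := by
    have h1 : ((B₀.filter fun q => gb (y q) = gb (y w₀)).card : ℝ) ≤
        (P₁.filter fun q => y q ∈ Set.Icc (gb (y w₀)) (gb (y w₀) + ρ)).card := by
      refine lq_card_le fun u hu => ?_
      obtain ⟨h1, h2⟩ := mem_filter.1 hu
      refine mem_filter.2 ⟨hB₀ h1, ?_, ?_⟩
      · rw [← h2]; exact hb.le _
      · rw [← h2]; exact (hb.lt _).le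
    have h2 : 4 * ε / (1 / 10 ^ 10 * m₄ ^ 2) * (P₁.card : ℝ) ≤ μ / 4 * N := by
      rw [← hN]
      exact mul_le_mul_of_nonneg_right herr hN0.le
    have h3 : ((P₁.filter fun q => y q ∈ Set.Icc (gb (y w₀)) (gb (y w₀) + ρ)).card : ℝ) ≤
        C.card + 4 * ε / (1 / 10 ^ 10 * m₄ ^ 2) * (P₁.card : ℝ) := by
      rw [hC]
      convert hQ'
    linarith
  obtain ⟨w₁, hw₁, G₃⟩ := lq_heavy C (fun p => gb (y p)) (n := 11) (by positivity) hCc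
    ((hLb C hCP _ (9 * ρ) (by positivity) hCy).trans (by
      rw [mul_div_cancel_right₀ _ hρ.ne']; norm_num))
  have yw₁ := hCy w₁ hw₁
  have b₁ := hb.le (y w₁)
  have b₁' := hb.lt (y w₁)
  have hX : m₁ * μ ^ 2 * N ≤ 1000 * ((P₃.filter fun q => gb (y q) = gb (y w₁)).card : ℝ) := by
    have h1 := (abs_le.1 (h12 {ga (x u₀)} {gb (y w₁)})).1
    rw [← hN] at h1
    obtain ⟨X, hX⟩ : ∃ X : ℝ, X = ((P₁.filter fun q => ga (x q) ∈ ({ga (x u₀)} : Set ℝ) ∧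
      gb (y q) ∈ ({gb (y w₁)} : Set ℝ)).card : ℝ) := ⟨_, rfl⟩
    obtain ⟨K, hK⟩ : ∃ K : ℝ, K = ((P₁.filter fun q =>
      ga (x q) ∈ ({ga (x u₀)} : Set ℝ)).card : ℝ) := ⟨_, rfl⟩
    obtain ⟨R, hR⟩ : ∃ R : ℝ, R = ((P₁.filter fun q =>
      gb (y q) ∈ ({gb (y w₁)} : Set ℝ)).card : ℝ) := ⟨_, rfl⟩
    have h1' : -(ε * N ^ 2) ≤ X * N - K * R := by
      rw [hX, hK, hR]
      refine le_trans h1 (le_of_eq ?_)
      congr
    have h2 : μ * N / 2 ≤ K := by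
      have : ((B₀.filter fun q => ga (x q) = ga (x u₀)).card : ℝ) ≤ K := by
        rw [hK]
        exact lq_card_le fun u hu =>
          mem_filter.2 ⟨hB₀ (mem_filter.1 hu).1, (mem_filter.1 hu).2⟩
      linarith
    have h3 : μ * N / 44 ≤ R := by
      have : ((C.filter fun q => gb (y q) = gb (y w₁)).card : ℝ) ≤ R := by
        rw [hR]
        exact lq_card_le fun u hu =>
          mem_filter.2 ⟨hCP (mem_filter.1 hu).1, (mem_filter.1 hu).2⟩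
      linarith
    have h4 : X ≤ ((P₃.filter fun q => gb (y q) = gb (y w₁)).card : ℝ) := by
      rw [hX]
      refine lq_card_le fun u hu => ?_
      obtain ⟨h5, h6, h7⟩ := mem_filter.1 hu
      have h8 := abs_lt.1 (ha.abs_lt (show ga (x u) = ga (x u₀) from h6))
      have h9 := abs_lt.1 (hb.abs_lt (show gb (y u) = gb (y w₁) from h7))
      refine mem_filter.2 ⟨hS₃ (hsafe u (Or.inl h5) ?_ ?_), h7⟩
      · exact abs_le.2 ⟨by linarith, by linarith⟩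
      · exact abs_le.2 ⟨by linarith, by linarith⟩
    have h5 : μ * N / 2 * (μ * N / 44) ≤ K * R :=
      mul_le_mul h2 h3 (by positivity) (le_trans (by positivity) h2)
    have h6 : ε * N ^ 2 ≤ μ ^ 2 / 10 ^ 13 * N ^ 2 :=
      mul_le_mul_of_nonneg_right (hεm.trans hm₄μ) (sq_nonneg _)
    have h7 : μ ^ 2 * N / 1000 * N ≤ X * N := by
      have : 0 ≤ μ ^ 2 * N ^ 2 := by positivity
      nlinarith
    have h8 := le_of_mul_le_mul_right h7 hN0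
    linarith
  obtain ⟨v', hv', hQ₂⟩ := qi y x z (fun p => by linarith [hxyz p]) gb ga gc hb ha hc hε
    (η := 1 / 10 ^ 10) (by positivity) (by norm_num) hm₄0 hP₁ hP₃ h12.symm h23 hη₃
    (gb (y w₀)) (gb (y w₁))
    (key _ _ k₁ (by linarith [sub (fun q => gb (y q)) (gb (y w₀)) hB₀]))
    (key _ _ k₁ (by linarith [sub (fun q => gb (y q)) (gb (y w₁)) hCP]))
    (key _ _ k₃ (by linarith [sub (fun q => gb (y q)) (gb (y w₀)) fun u hu => hS₃ (hB₀S u hu)]))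
    (key _ _ k₃ hX) (cx - w) (cx + w) (by
      intro u hu hy h1 h2
      have hu' : u ∈ P₁ ∨ u ∈ P₂ ∨ u ∈ P₃ := by
        rcases mem_union.1 hu with h | h
        · exact Or.inl h
        · exact Or.inr (Or.inr h)
      have hS : u ∈ S := by
        refine hsafe u hu' (abs_le.2 ⟨by linarith, by linarith⟩) ?_
        rcases hy with hy | hy
        · have := abs_lt.1 (hb.abs_lt hy)
          exact abs_le.2 ⟨by linarith, by linarith⟩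
        · have := abs_lt.1 (hb.abs_lt hy)
          exact abs_le.2 ⟨by linarith, by linarith⟩
      exact ⟨hS₁ hS, hS₃ hS⟩)
  have hv'' : |v'| = |gb (y w₁) - gb (y w₀)| := by
    rcases hv' with rfl | rfl
    · exact abs_sub_comm _ _
    · rfl
  refine ⟨v', ?_, ?_, hQ₂⟩
  · rw [hv'']
    rcases le_abs.1 hv1 with h | h
    · exact le_abs.2 (Or.inl (by linarith))
    · exact le_abs.2 (Or.inr (by linarith))
  · rw [hv'']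
    exact abs_le.2 ⟨by linarith, by linarith⟩

/-- near a witness both marginals of the pair cell `(0,1)` are quasi-invariant -/
theorem local_qi (h0 : ∀ p, ℓ 0 p + ℓ 1 p + ℓ 2 p = 0) (A : Finset α) (g : Fin 3 → ℝ → ℝ)
    (r ρ ρ₂ m₁ m₅ ε : ℝ) (op : Fin 3 → ℝ) (hg : ∀ i, Grid r (g i)) (hρ : 0 < ρ)
    (hρ₂ : 10 ^ 9 * ρ ≤ ρ₂) (hr : 10 ^ 9 * ρ₂ ≤ r) (hm₁ : 0 < m₁) (hm₁' : m₁ ≤ 1) (hm₅ : 0 < m₅)
    (hm₅' : m₅ ≤ 1) (hε : 0 ≤ ε)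
    (hε' : ε ≤ (m₁ * m₅ ^ 2 * (ρ / r) ^ 2 / 10 ^ 13) ^ 3 / 10 ^ 22)
    {p q : α} (hp : p ∈ A) (hq : q ∈ A) (hreg : Reg ℓ A g (rfn3 g ρ op) r ε p)
    (hpq : n01 ℓ p q ≤ r / 10 ^ 6) (hna : NonAt ℓ A m₁ ρ₂ q) (hth : ¬ Thin ℓ A g m₅ ρ₂ q)
    (j : Fin 3) (hj : j = 0 ∨ j = 1) :
    ∃ v : ℝ, ρ₂ / (8 * 10 ^ 6) ≤ |v| ∧ |v| ≤ 4 * ρ₂ ∧
      QIP (c2 A ℓ g 0 1 p) (ℓ j) (ℓ j q - 3 * r / 10 ^ 6) (ℓ j q + 3 * r / 10 ^ 6) v ρ
        (4 * ε / (1 / 10 ^ 10 * (m₁ * m₅ ^ 2 * (ρ / r) ^ 2 / 10 ^ 13) ^ 2)) := by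
  have hρ₂0 : 0 < ρ₂ := by linarith [mul_pos (by norm_num : (0 : ℝ) < 10 ^ 9) hρ]
  have hr0 : 0 < r := by linarith [mul_pos (by norm_num : (0 : ℝ) < 10 ^ 9) hρ₂0]
  have hq0 : |ℓ 0 p - ℓ 0 q| ≤ r / 10 ^ 6 := (le_max_left _ _).trans hpq
  have hq1 : |ℓ 1 p - ℓ 1 q| ≤ r / 10 ^ 6 := (le_max_right _ _).trans hpq
  have hsafe : ∀ u ∈ A, |ℓ 0 u - ℓ 0 q| ≤ 3 * r / 10 ^ 6 → |ℓ 1 u - ℓ 1 q| ≤ 3 * r / 10 ^ 6 →
      u ∈ c3 A ℓ g p := by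
    intro u hu h1 h2
    have a1 := abs_le.1 h1
    have a2 := abs_le.1 h2
    have a3 := abs_le.1 hq0
    have a4 := abs_le.1 hq1
    have a5 := h0 u
    have a6 := h0 p
    refine mem_filter.2 ⟨hu, fun i => (hg i).eq_of_not_near (hreg.int i) ?_⟩
    have hi : i = 0 ∨ i = 1 ∨ i = 2 := by fin_cases i <;> simp
    rcases hi with rfl | rfl | rfl <;> exact abs_le.2 ⟨by linarith, by linarith⟩
  have hqS : q ∈ c3 A ℓ g p := hsafe q hq (by rw [sub_self, abs_zero]; positivity)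
    (by rw [sub_self, abs_zero]; positivity)
  have hPq : c2 A ℓ g 0 1 q = c2 A ℓ g 0 1 p := c2_eq_of_mem (c3_sub_c2 A ℓ g 0 1 p hqS)
  have hball : ∀ {u : α} {w : ℝ}, u ∈ ball ℓ A q w ↔
      u ∈ A ∧ |ℓ 0 u - ℓ 0 q| ≤ w ∧ |ℓ 1 u - ℓ 1 q| ≤ w := by
    intro u w
    unfold ball n01
    rw [mem_filter, max_le_iff, abs_sub_comm (ℓ 0 q), abs_sub_comm (ℓ 1 q)]
  have hballP : ∀ w : ℝ, w ≤ 2 * ρ₂ → ball ℓ A q w ⊆ c2 A ℓ g 0 1 p := by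
    intro w hw u hu
    obtain ⟨h1, h2, h3⟩ := hball.1 hu
    exact c3_sub_c2 A ℓ g 0 1 p (hsafe u h1 (by linarith) (by linarith))
  have hB₀c : m₅ * ((c2 A ℓ g 0 1 p).card : ℝ) ≤ (ball ℓ A q (ρ₂ / 10 ^ 6 / 2)).card := by
    rw [← hPq]
    exact not_lt.1 hth
  have hB₀ := hballP (ρ₂ / 10 ^ 6 / 2) (by linarith)
  let D : Fin 3 → Finset α := fun i =>
    (ball ℓ A q (2 * ρ₂)).filter fun u => ρ₂ / 10 ^ 6 < |ℓ i u - ℓ i q|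
  have hD : ∀ i, D i ⊆ c2 A ℓ g 0 1 p := fun i =>
    (filter_subset _ _).trans (hballP _ le_rfl)
  have hDc : m₁ * m₅ * ((c2 A ℓ g 0 1 p).card : ℝ) ≤ (D 0).card + (D 1).card := by
    have h1 : ball ℓ A q (2 * ρ₂) ⊆ ball ℓ A q (ρ₂ / 10 ^ 6) ∪ (D 0 ∪ D 1) := by
      intro u hu
      by_cases h2 : ρ₂ / 10 ^ 6 < |ℓ 0 u - ℓ 0 q|
      · exact mem_union_right _ (mem_union_left _ (mem_filter.2 ⟨hu, h2⟩))
      by_cases h3 : ρ₂ / 10 ^ 6 < |ℓ 1 u - ℓ 1 q|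
      · exact mem_union_right _ (mem_union_right _ (mem_filter.2 ⟨hu, h3⟩))
      exact mem_union_left _ (hball.2 ⟨(hball.1 hu).1, not_lt.1 h2, not_lt.1 h3⟩)
    have h2 := (card_le_card h1).trans ((card_union_le _ _).trans
      (Nat.add_le_add_left (card_union_le _ _) _))
    have h3 : ((ball ℓ A q (2 * ρ₂)).card : ℝ) ≤
        (ball ℓ A q (ρ₂ / 10 ^ 6)).card + ((D 0).card + (D 1).card) := by exact_mod_cast h2
    have h4 : m₁ * (ball ℓ A q (ρ₂ / 10 ^ 6 / 2)).card <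
      ((ball ℓ A q (2 * ρ₂)).card : ℝ) - (ball ℓ A q (ρ₂ / 10 ^ 6)).card := hna
    have h5 := mul_le_mul_of_nonneg_left hB₀c hm₁.le
    linarith
  have ht1 : ρ / r ≤ 1 := by rw [div_le_one hr0]; linarith
  have ht2 : 4 * ρ₂ / ρ + 2 ≤ 2 / (ρ / r) := by
    rw [div_div_eq_mul_div, div_add' _ _ _ hρ.ne']
    gcongr
    linarith
  have hL : ∀ i, i = 0 ∨ i = 1 → ∀ B ⊆ c2 A ℓ g 0 1 p, ∀ u L : ℝ, 0 ≤ L →
      (∀ p ∈ B, u ≤ ℓ i p ∧ ℓ i p ≤ u + L) →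
      ((B.image (fun p => rfn (g i) ρ (op i) (ℓ i p))).card : ℝ) ≤ L / ρ + 2 := by
    intro i hi B hB u L hL h
    refine card_rfn_labels B (ℓ i) (hg i) hρ (op i) u L hL h fun a ha b hb => ?_
    obtain ⟨-, a0, a1⟩ := mem_filter.1 (hB ha)
    obtain ⟨-, b0, b1⟩ := mem_filter.1 (hB hb)
    rcases hi with rfl | rfl
    · exact a0.trans b0.symm
    · exact a1.trans b1.symm
  have hA : ∀ (i i' : Fin 3) (u : α),
      u ∈ c2 A ℓ g 0 1 p ∨ u ∈ c2 A ℓ g i 2 p ∨ u ∈ c2 A ℓ g i' 2 p → u ∈ A := by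
    rintro i i' u (h | h | h) <;> exact c2_sub _ _ _ _ _ _ h
  rcases le_total ((D 1).card : ℝ) (D 0).card with hle | hle
  · have key := lq_abs (P₁ := c2 A ℓ g 0 1 p) (P₂ := c2 A ℓ g 0 2 p) (P₃ := c2 A ℓ g 1 2 p)
      (S := c3 A ℓ g p) (B₀ := ball ℓ A q (ρ₂ / 10 ^ 6 / 2)) (B₁ := D 0) (ℓ 0) (ℓ 1) (ℓ 2) h0
      (w := 3 * r / 10 ^ 6) (cx := ℓ 0 q) (cy := ℓ 1 q) _ _ _ (grid_rfn (hg 0) hρ (op 0))
      (grid_rfn (hg 1) hρ (op 1)) (grid_rfn (hg 2) hρ (op 2)) hρ hρ₂ (by linarith)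
      (div_pos hρ hr0) ht1 ht2 hm₁ hm₁' hm₅ hm₅' rfl hε hε' (c3_sub_c2 _ _ _ _ _ _)
      (c3_sub_c2 _ _ _ _ _ _) (c3_sub_c2 _ _ _ _ _ _) ⟨q, hqS⟩ (hreg.comp 0 2 (by decide))
      (hreg.comp 1 2 (by decide)) (fun u hu h1 h2 => hsafe u (hA _ _ u hu) h1 h2)
      (hL 0 (Or.inl rfl)) (hL 1 (Or.inr rfl)) hreg.d01 hreg.d02 hreg.d12 hB₀ hB₀c
      (fun u hu => (hball.1 hu).2) (hD 0) (by linarith)
      fun u hu => ⟨(mem_filter.1 hu).2, (hball.1 (mem_filter.1 hu).1).2⟩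
    rcases hj with rfl | rfl
    · exact key.1
    · exact key.2
  · have key := lq_abs (P₁ := c2 A ℓ g 0 1 p) (P₂ := c2 A ℓ g 1 2 p) (P₃ := c2 A ℓ g 0 2 p)
      (S := c3 A ℓ g p) (B₀ := ball ℓ A q (ρ₂ / 10 ^ 6 / 2)) (B₁ := D 1) (ℓ 1) (ℓ 0) (ℓ 2)
      (fun p => by linarith [h0 p])
      (w := 3 * r / 10 ^ 6) (cx := ℓ 1 q) (cy := ℓ 0 q) _ _ _ (grid_rfn (hg 1) hρ (op 1))
      (grid_rfn (hg 0) hρ (op 0)) (grid_rfn (hg 2) hρ (op 2)) hρ hρ₂ (by linarith)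
      (div_pos hρ hr0) ht1 ht2 hm₁ hm₁' hm₅ hm₅' rfl hε hε' (c3_sub_c2 _ _ _ _ _ _)
      (c3_sub_c2 _ _ _ _ _ _) (c3_sub_c2 _ _ _ _ _ _) ⟨q, hqS⟩ (hreg.comp 1 2 (by decide))
      (hreg.comp 0 2 (by decide)) (fun u hu h1 h2 => hsafe u (hA _ _ u hu) h2 h1)
      (hL 1 (Or.inr rfl)) (hL 0 (Or.inl rfl)) hreg.d01.symm hreg.d12 hreg.d02 hB₀ hB₀c
      (fun u hu => (hball.1 hu).2.symm) (hD 1) (by linarith)
      fun u hu => ⟨(mem_filter.1 hu).2, (hball.1 (mem_filter.1 hu).1).2.symm⟩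
    rcases hj with rfl | rfl
    · exact key.2
    · exact key.1

end
end Crest.Agent.R51
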