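import Crest.Agent.R51.ABad
import Crest.Agent.R51.ACount
import Crest.Agent.R51.APar
import Crest.Agent.R51.ACleanup

set_option autoImplicit false
open Classical Finset

namespace Crest.Agent.R51
noncomputable section

variable {κ lam lam₂ κ' m₁ m₅ ε₁ c₁ c₂ c θ ϑ θ₅ θl Ξ β σ₁ : ℝ} {ng n₀ N₁ : ℕ}

variable {α : Type} {ℓ : Fin 3 → α → ℝ}

/-- `t` is the largest scale index with a witness near `p` -/
def EqT (ℓ : Fin 3 → α → ℝ) (A : Finset α) (g : Fin 3 → ℝ → ℝ) (m₁ m₅ r : ℝ) (t : ℕ) (p : α) :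
    Prop :=
  HW ℓ A g m₁ m₅ r (r / KK ^ t) p ∧
    ∀ t', t < t' → t' ≤ 1000 → ¬ HW ℓ A g m₁ m₅ r (r / KK ^ t') p

theorem ob_cls_pos {A : Finset α} (g g' : Fin 3 → ℝ → ℝ) (j : Fin 3) {p : α} (hp : p ∈ A) :
    (0 : ℝ) < (cls (c2 A ℓ g 0 1 p) (lab ℓ g' j) p).card :=
  Nat.cast_pos.2 (card_pos.2 ⟨p, mem_filter.2 ⟨mem_filter.2 ⟨hp, rfl, rfl⟩, rfl⟩⟩)

theorem hh_nonneg {A : Finset α} (g g' : Fin 3 → ℝ → ℝ) (j : Fin 3) {p : α} (hp : p ∈ A) :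
    0 ≤ hh ℓ A g g' j p := by
  exact Real.log_nonneg ((one_le_div (ob_cls_pos g g' j hp)).2
    (Nat.cast_le.2 (card_le_card (filter_subset _ _))))

theorem ob_one_le : 1 ≤ KK := by
  change (1 : ℝ) ≤ 10 ^ 9
  norm_num

theorem ob_hh {A : Finset α} (g g' : Fin 3 → ℝ → ℝ) {r : ℝ} (hr : 0 < r) (t : ℕ) (j : Fin 3)
    {p : α} (hp : p ∈ A) : ((t : ℝ) - 2) * Real.log KK -
      t * Real.log KK * (if Bad ℓ A g g' r (r / KK ^ t) j p then 1 else 0) ≤ hh ℓ A g g' j p := by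
  have k0 : 0 < KK := one_pos.trans_le ob_one_le
  split_ifs with h
  · linarith [hh_nonneg (ℓ := ℓ) g g' j hp, one_le_log_KK]
  · have h1 : r * (cls (c2 A ℓ g 0 1 p) (lab ℓ g' j) p).card ≤
      2 * 10 ^ 17 * (r / KK ^ t) * (c2 A ℓ g 0 1 p).card := not_lt.1 h
    have h2 : (2 * 10 ^ 17 : ℝ) ≤ KK ^ 2 := by
      change (2 * 10 ^ 17 : ℝ) ≤ (10 ^ 9) ^ 2
      norm_num
    have h3 := h1.trans (mul_le_mul_of_nonneg_right
      (mul_le_mul_of_nonneg_right h2 (by positivity)) (Nat.cast_nonneg _))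
    have e : ((t : ℝ) - 2) * Real.log KK = Real.log (KK ^ t / KK ^ 2) := by
      rw [Real.log_div (by positivity) (by positivity), Real.log_pow, Real.log_pow, Nat.cast_ofNat,
        sub_mul]
    rw [mul_zero, sub_zero, e]
    refine Real.log_le_log (by positivity) ?_
    rw [div_le_div_iff₀ (by positivity) (ob_cls_pos g g' j hp)]
    refine le_of_mul_le_mul_left ?_ (by positivity : 0 < r / KK ^ t)
    rw [← mul_assoc, div_mul_cancel₀ _ (by positivity)]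
    linarith

theorem ob_bad (h0 : ∀ p, ℓ 0 p + ℓ 1 p + ℓ 2 p = 0)
    (hP : ParA κ lam lam₂ κ' m₁ m₅ ε₁ c₁ c₂ c θ ϑ θ₅ θl Ξ β ng n₀ N₁) (A : Finset α) (r : ℝ)
    (hr : 0 < r) (g : Fin 3 → ℝ → ℝ) (hg : ∀ i, Grid r (g i)) (t : ℕ) (ht1 : 1 ≤ t)
    (ht : t ≤ 1000) (o op : Fin 3 → ℝ)
    (hnear : NB ℓ A (flo3 (r / KK ^ t) o) (3 * (r / KK ^ t) / 10 ^ 6) ≤ 81 / 10 ^ 6 * A.card)
    (j : Fin 3) (hj : j = 0 ∨ j = 1) :
    (((rem ℓ (surv ℓ A g (rfn3 g (r / KK ^ t) o) (θ * (r / KK ^ t)) ϑ)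
      (rfn3 g (r / KK ^ t) o) m₁ σ₁).filter
        (fun p => Bad ℓ A g (rfn3 g (r / KK ^ t) o) r (r / KK ^ t) j p)).card : ℝ) ≤
      ((A.filter (fun p => ¬ Reg ℓ A g (rfn3 g (r / KK ^ 2001) op) r ε₁ p)).card : ℝ) +
        3 * A.card / 2000 + (A.filter (fun p => EqT ℓ A g m₁ m₅ r t p)).card := by
  have k1 := ob_one_le
  have k0 : 0 < KK := one_pos.trans_le k1
  have hN : (0 : ℝ) ≤ A.card := Nat.cast_nonneg _
  have hr' : 0 < r / KK ^ t := by positivity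
  have hstep : ∀ a b : ℕ, a < b → 10 ^ 9 * (r / KK ^ b) ≤ r / KK ^ a := fun a b hab => by
    refine le_trans (mul_le_mul_of_nonneg_left (div_le_div_of_nonneg_left hr.le (by positivity)
      (pow_le_pow_right₀ k1 (Nat.succ_le_of_lt hab))) (by positivity)) (le_of_eq ?_)
    change KK * (r / KK ^ (a + 1)) = r / KK ^ a
    rw [pow_succ]
    field_simp
  have hrr : 10 ^ 9 * (r / KK ^ t) ≤ r := by
    have := hstep 0 t ht1
    rwa [pow_zero, div_one] at this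
  have b1 := bad_few h0 A g (rfn3 g (r / KK ^ t) o) r (r / KK ^ t) (r / KK ^ 2001) (r / KK ^ 1000)
    m₁ m₅ ε₁ op hg (fun i => grid_rfn (hg i) hr' _) (by positivity) (by positivity) hrr
    (le_of_eq (by
      change KK * (r / KK ^ 2001) * r = (r / KK ^ 1000) ^ 2
      field_simp)) hP.m₁pos (by linarith [hP.m₁le]) hP.m₅pos hP.m₅_le_one hP.ε₁pos.le
    (hP.ε₁le.trans_eq (by field_simp)) j hj
  have b2 := thin_few (ℓ := ℓ) A g r (r / KK ^ t) m₅ hg hr' (div_le_self hr.le (one_le_pow₀ k1))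
    hP.m₅pos.le
  have b3 : m₅ * (3 * 10 ^ 6 * (r / (r / KK ^ t))) ^ 2 ≤ 1 / 2000 := by
    rw [div_div_cancel₀ hr.ne']
    exact (mul_le_mul_of_nonneg_left (pow_le_pow_left₀ (by positivity)
      (mul_le_mul_of_nonneg_left (pow_le_pow_right₀ k1 ht) (by positivity)) 2)
      hP.m₅pos.le).trans hP.m₅le
  have b4 := mul_le_mul_of_nonneg_right b3 hN
  have b5 : (((univ : Finset (Fin 3)).biUnion fun i => A.filter fun p =>
      Near (flo3 (r / KK ^ t) o i) (3 * (r / KK ^ t) / 10 ^ 6) (ℓ i p)).card : ℝ) ≤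
      NB ℓ A (flo3 (r / KK ^ t) o) (3 * (r / KK ^ t) / 10 ^ 6) :=
    (Nat.cast_le.2 card_biUnion_le).trans_eq (Nat.cast_sum _ _)
  generalize hX1 : A.filter (fun p => ¬ Reg ℓ A g (rfn3 g (r / KK ^ 2001) op) r ε₁ p) = X1
  generalize hX2 : A.filter (fun p => EqT ℓ A g m₁ m₅ r t p) = X2
  generalize hX3 : A.filter (fun p => Thin ℓ A g m₅ (r / KK ^ t) p) = X3 at b2
  generalize hX4 : ((univ : Finset (Fin 3)).biUnion fun i => A.filter fun p =>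
      Near (flo3 (r / KK ^ t) o i) (3 * (r / KK ^ t) / 10 ^ 6) (ℓ i p)) = X4 at b5
  generalize hX5 : A.filter (fun p => Reg ℓ A g (rfn3 g (r / KK ^ 2001) op) r ε₁ p ∧
      (∃ ρ₂, r / KK ^ 1000 ≤ ρ₂ ∧ 10 ^ 9 * ρ₂ ≤ r / KK ^ t ∧ HW ℓ A g m₁ m₅ r ρ₂ p) ∧
      Bad ℓ A g (rfn3 g (r / KK ^ t) o) r (r / KK ^ t) j p) = X5 at b1
  have b6 : (X1 ∪ X2 ∪ X3 ∪ X4 ∪ X5).card ≤ X1.card + X2.card + X3.card + X4.card + X5.card :=
    (card_union_le _ _).trans (Nat.add_le_add_right ((card_union_le _ _).trans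
      (Nat.add_le_add_right ((card_union_le _ _).trans
        (Nat.add_le_add_right (card_union_le _ _) _)) _)) _)
  have b7 : ((X1 ∪ X2 ∪ X3 ∪ X4 ∪ X5).card : ℝ) ≤
      X1.card + X2.card + X3.card + X4.card + X5.card := by exact_mod_cast b6
  refine (Nat.cast_le.2 (card_le_card (t := X1 ∪ X2 ∪ X3 ∪ X4 ∪ X5) fun p hp => ?_)).trans
    (by linarith)
  obtain ⟨h1, h2⟩ := mem_filter.1 hp
  have hA : p ∈ A := (mem_filter.1 (mem_filter.1 (rem_sub _ _ _ _ h1)).1).1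
  by_contra hn
  simp only [mem_union, not_or] at hn
  obtain ⟨⟨⟨⟨n1, n2⟩, n3⟩, n4⟩, n5⟩ := hn
  have c1 : Reg ℓ A g (rfn3 g (r / KK ^ 2001) op) r ε₁ p :=
    not_not.1 fun h => n1 (hX1 ▸ mem_filter.2 ⟨hA, h⟩)
  refine n2 (hX2 ▸ mem_filter.2 ⟨hA, ⟨p, hA, ?_, ?_, fun h => n3 (hX3 ▸ mem_filter.2 ⟨hA, h⟩)⟩,
    fun t' h3 h4 h5 => n5 (hX5 ▸ mem_filter.2 ⟨hA, c1, ⟨_, ?_, hstep t t' h3, h5⟩, h2⟩)⟩)
  · change max |ℓ 0 p - ℓ 0 p| |ℓ 1 p - ℓ 1 p| ≤ _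
    rw [sub_self, sub_self, abs_zero, max_self]
    positivity
  · exact rem_nonat h0 A g r _ θ ϑ m₁ σ₁ o hg hr' hrr hP.θpos.le hP.θle hP.m₁pos.le h1 c1.int
      fun i h => n4 (hX4 ▸ mem_biUnion.2 ⟨i, mem_univ i, mem_filter.2 ⟨hA, h⟩⟩)
  · exact div_le_div_of_nonneg_left hr.le (by positivity) (pow_le_pow_right₀ k1 h4)

theorem opt_bound (h0 : ∀ p, ℓ 0 p + ℓ 1 p + ℓ 2 p = 0)
    (hP : ParA κ lam lam₂ κ' m₁ m₅ ε₁ c₁ c₂ c θ ϑ θ₅ θl Ξ β ng n₀ N₁) (A : Finset α) (r : ℝ)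
    (hr : 0 < r) (g : Fin 3 → ℝ → ℝ) (hg : ∀ i, Grid r (g i)) (t : ℕ) (ht1 : 1 ≤ t)
    (ht : t ≤ 1000) (o op : Fin 3 → ℝ)
    (hnear : NB ℓ A (flo3 (r / KK ^ t) o) (3 * (r / KK ^ t) / 10 ^ 6) ≤ 81 / 10 ^ 6 * A.card)
    (A' : Finset α)
    (hA' : A' = rem ℓ (surv ℓ A g (rfn3 g (r / KK ^ t) o) (θ * (r / KK ^ t)) ϑ)
      (rfn3 g (r / KK ^ t) o) m₁ σ₁) :
    2 * A.card * ((t : ℝ) / 50 - 2) * Real.log KK -
        2 * t * Real.log KK *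
          (((A.filter (fun p => ¬ Reg ℓ A g (rfn3 g (r / KK ^ 2001) op) r ε₁ p)).card : ℝ) +
            3 * A.card / 2000 + (A.filter (fun p => EqT ℓ A g m₁ m₅ r t p)).card) ≤
      ∑ p ∈ A', (hh ℓ A g (rfn3 g (r / KK ^ t) o) 0 p + hh ℓ A g (rfn3 g (r / KK ^ t) o) 1 p) -
        49 / 25 * (t * Real.log KK) * A'.card +
        4002 * Real.log KK * ((A.card : ℝ) - A'.card) := by
  have b0 := ob_bad (σ₁ := σ₁) h0 hP A r hr g hg t ht1 ht o op hnear 0 (Or.inl rfl)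
  have b1 := ob_bad (σ₁ := σ₁) h0 hP A r hr g hg t ht1 ht o op hnear 1 (Or.inr rfl)
  have hsub : A' ⊆ A := fun p hp =>
    (mem_filter.1 (mem_filter.1 (rem_sub _ _ _ _ (hA' ▸ hp))).1).1
  rw [← hA'] at b0 b1
  have h1 := sum_le_sum fun p (hp : p ∈ A') =>
    add_le_add (ob_hh (ℓ := ℓ) g (rfn3 g (r / KK ^ t) o) hr t 0 (hsub hp))
      (ob_hh (ℓ := ℓ) g (rfn3 g (r / KK ^ t) o) hr t 1 (hsub hp))
  rw [sum_add_distrib, sum_sub_distrib, sum_sub_distrib, sum_const, nsmul_eq_mul, ← mul_sum,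
    ← mul_sum, sum_boole, sum_boole] at h1
  have hl := one_le_log_KK
  have h2 : (0 : ℝ) ≤ t * Real.log KK := by positivity
  have h3 := mul_le_mul_of_nonneg_left (add_le_add b0 b1) h2
  have h4 : (0 : ℝ) ≤ (A.card : ℝ) - A'.card := sub_nonneg.2 (Nat.cast_le.2 (card_le_card hsub))
  have h5 : (t : ℝ) ≤ 1000 := by exact_mod_cast ht
  have h6 := mul_nonneg (mul_nonneg (by linarith : (0 : ℝ) ≤ 4006 - t / 25)
    (zero_le_one.trans hl)) h4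
  linarith

end
end Crest.Agent.R51
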