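import Crest.Agent.R51.ABasic

set_option autoImplicit false
open Classical Finset

namespace Crest.Agent.R51
noncomputable section

variable {α : Type} {ℓ : Fin 3 → α → ℝ}

theorem aopt_KK : (2 : ℝ) ≤ KK := by
  unfold KK
  norm_num

theorem aopt_offset (A : Finset α) (f : α → ℝ) {ρ θ : ℝ} (hρ : 0 < ρ) (hθ : 0 < θ) (ng : ℕ) :
    ∃ o : ℝ, ((A.filter (fun p => Near (flo ρ o) (θ * ρ) (f p))).card : ℝ) ≤ 9 * θ * A.card ∧
      ((A.filter (fun p => Near (flo ρ o) (3 * ρ / 10 ^ 6) (f p))).card : ℝ) ≤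
        27 / 10 ^ 6 * A.card ∧
      ∑ k ∈ range ng, ((A.filter (fun p => Near (flo ρ o) (ρ / 10 ^ 5 / KK ^ k) (f p))).card : ℝ) ≤
        18 / 10 ^ 5 * A.card := by
  have hK := aopt_KK
  have hK0 : 0 < KK := by linarith
  let a : ℕ → ℝ := fun k => match k with
    | 0 => 1 / θ
    | 1 => 10 ^ 6 / 3
    | _ + 2 => 10 ^ 5 / 2
  let w : ℕ → ℝ := fun k => match k with
    | 0 => θ
    | 1 => 3 / 10 ^ 6
    | k + 2 => 1 / 10 ^ 5 / KK ^ k
  obtain ⟨o, ho⟩ := exists_offset A f ρ hρ (range (ng + 1 + 1)) a w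
    (fun k _ => by
      match k with
      | 0 => simp only [a]; positivity
      | 1 => simp only [a]; positivity
      | _ + 2 => simp only [a]; positivity)
    (fun k _ => by
      match k with
      | 0 => simp only [w]; positivity
      | 1 => simp only [w]; positivity
      | _ + 2 => simp only [w]; positivity)
  rw [sum_range_succ', sum_range_succ', sum_range_succ', sum_range_succ'] at ho
  simp only [a, w] at ho
  have e1 : ∀ k : ℕ, 1 / 10 ^ 5 / KK ^ k * ρ = ρ / 10 ^ 5 / KK ^ k := fun k => by ring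
  have e2 : 3 / 10 ^ 6 * ρ = 3 * ρ / 10 ^ 6 := by ring
  simp only [e1, e2] at ho
  have hs : ∑ k ∈ range ng, (10 : ℝ) ^ 5 / 2 * (1 / 10 ^ 5 / KK ^ k) ≤ 1 := by
    have h1 := sum_geometric_two_le ng
    have h2 : ∑ k ∈ range ng, (10 : ℝ) ^ 5 / 2 * (1 / 10 ^ 5 / KK ^ k) ≤
        ∑ k ∈ range ng, (1 / 2 : ℝ) * (1 / 2) ^ k := by
      refine sum_le_sum fun k _ => ?_
      have h3 : (1 : ℝ) / KK ^ k ≤ (1 / 2) ^ k := by
        rw [← one_div_pow]
        exact pow_le_pow_left₀ (by positivity) (one_div_le_one_div_of_le two_pos hK) k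
      have h4 : (10 : ℝ) ^ 5 / 2 * (1 / 10 ^ 5 / KK ^ k) = 1 / 2 * (1 / KK ^ k) := by ring
      rw [h4]
      linarith
    have h5 : ∑ k ∈ range ng, (1 / 2 : ℝ) * (1 / 2) ^ k = 1 / 2 * ∑ k ∈ range ng, (1 / 2 : ℝ) ^ k :=
      (mul_sum _ _ _).symm
    linarith
  have e3 : 1 / θ * θ = 1 := by field_simp
  rw [e3, ← mul_sum] at ho
  set x := ((A.filter (fun p => Near (flo ρ o) (θ * ρ) (f p))).card : ℝ) with hx
  set y := ((A.filter (fun p => Near (flo ρ o) (3 * ρ / 10 ^ 6) (f p))).card : ℝ) with hy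
  set z := ∑ k ∈ range ng,
    ((A.filter (fun p => Near (flo ρ o) (ρ / 10 ^ 5 / KK ^ k) (f p))).card : ℝ) with hz
  have hx0 : 0 ≤ 1 / θ * x := by positivity
  have hy0 : 0 ≤ y := Nat.cast_nonneg _
  have hz0 : 0 ≤ z := sum_nonneg fun _ _ => Nat.cast_nonneg _
  have hA : (0 : ℝ) ≤ A.card := Nat.cast_nonneg _
  have hb : 10 ^ 5 / 2 * z + 10 ^ 6 / 3 * y + 1 / θ * x ≤ 9 * A.card := by
    refine ho.trans ?_
    have := mul_le_mul_of_nonneg_left hs (by positivity : (0 : ℝ) ≤ 3 * A.card)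
    nlinarith
  refine ⟨o, ?_, by linarith, by linarith⟩
  have h5 : 1 / θ * x ≤ 9 * A.card := by linarith
  have h6 := mul_le_mul_of_nonneg_left h5 hθ.le
  have h7 : θ * (1 / θ * x) = x := by field_simp
  linarith

theorem aopt_light {β γ : Type} (A Tr : Finset α) (hT : Tr ⊆ A) (F : α → β) (F' : α → γ)
    (href : ∀ p q, F' p = F' q → F p = F q) {n ϑ : ℝ} (hϑ : 0 ≤ ϑ)
    (hn : ∀ b, ∃ S : Finset γ, (S.card : ℝ) ≤ n ∧ ∀ p ∈ Tr, F p = b → F' p ∈ S) :
    ((Tr.filter (fun p => ((cls Tr F' p).card : ℝ) < ϑ * (cls A F p).card)).card : ℝ) ≤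
      n * ϑ * A.card := by
  have h1 := card_eq_sum_card_fiberwise (f := F) (t := A.image F)
    (s := Tr.filter (fun p => ((cls Tr F' p).card : ℝ) < ϑ * (cls A F p).card))
    (fun p hp => mem_coe.2 (mem_image_of_mem F (hT (mem_filter.1 (mem_coe.1 hp)).1)))
  have h2 := card_eq_sum_card_image F A
  rw [h1, h2]
  push_cast
  rw [mul_sum]
  refine sum_le_sum fun b _ => ?_
  obtain ⟨S, hS, hS'⟩ := hn b
  have h3 := card_light (Tr.filter (fun p => F p = b)) F' n
    (ϑ * (A.filter (fun p => F p = b)).card) (by positivity) (by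
      refine le_trans ?_ hS
      exact_mod_cast card_le_card fun c hc => by
        obtain ⟨p, hp, rfl⟩ := mem_image.1 hc
        exact hS' p (mem_filter.1 hp).1 (mem_filter.1 hp).2)
  rw [mul_assoc]
  refine le_trans ?_ h3
  refine Nat.cast_le.2 (card_le_card fun p hp => ?_)
  obtain ⟨hp1, hp2⟩ := mem_filter.1 hp
  obtain ⟨hp3, hp4⟩ := mem_filter.1 hp1
  refine mem_filter.2 ⟨mem_filter.2 ⟨hp3, hp2⟩, lt_of_le_of_lt ?_ (hp4.trans_le (le_of_eq ?_))⟩
  · exact Nat.cast_le.2 (card_le_card (filter_subset_filter _ (filter_subset _ _)))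
  · subst hp2
    rfl

theorem aopt_card_or (A : Finset α) (P Q R : α → Prop) (h : ∀ p ∈ A, P p → Q p ∨ R p) :
    ((A.filter P).card : ℝ) ≤ (A.filter Q).card + (A.filter R).card := by
  have h1 : A.filter P ⊆ A.filter Q ∪ A.filter R := fun p hp => by
    obtain ⟨h1, h2⟩ := mem_filter.1 hp
    rcases h p h1 h2 with h3 | h3
    · exact mem_union_left _ (mem_filter.2 ⟨h1, h3⟩)
    · exact mem_union_right _ (mem_filter.2 ⟨h1, h3⟩)
  exact_mod_cast (card_le_card h1).trans (card_union_le _ _)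

theorem exists_option (A : Finset α) (g : Fin 3 → ℝ → ℝ) (r r' θ ϑ Ξ : ℝ) (ng : ℕ)
    (hr' : 0 < r') (hrr : r' ≤ r) (hΞ : r ≤ Ξ * r') (hθ : 0 < θ) (hϑ : 0 ≤ ϑ) (hng : 1 ≤ ng)
    (hngle : 1 / 10 ^ 5 / KK ^ ng ≤ θ) (hg : ∀ i, Grid r (g i))
    (htr : ∀ p ∈ A, ∀ i, ¬ Near (g i) (θ * r) (ℓ i p)) :
    ∃ o : Fin 3 → ℝ,
      (A.card : ℝ) - (surv ℓ A g (rfn3 g r' o) (θ * r') ϑ).card ≤
        (27 * θ + (Ξ + 2) ^ 3 * ϑ) * A.card ∧
      NB ℓ A (flo3 r' o) (3 * r' / 10 ^ 6) ≤ 81 / 10 ^ 6 * A.card ∧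
      (KK * r' ≤ r → varpi ℓ ng A (rfn3 g r' o) r' + NB ℓ A g (r / 10 ^ 5) ≤
        varpi ℓ ng A g r + 54 / 10 ^ 5 * A.card) := by
  have hK := aopt_KK
  have hK0 : 0 < KK := by linarith
  have hr : 0 < r := lt_of_lt_of_le hr' hrr
  choose o ho1 ho2 ho3 using fun i : Fin 3 => aopt_offset A (ℓ i) hr' hθ ng
  refine ⟨o, ?_, ?_, fun hKr => ?_⟩
  · set Tr := trimS ℓ A (rfn3 g r' o) (θ * r') with hTr
    have hTA : Tr ⊆ A := filter_subset _ _
    have h1 : (A.card : ℝ) ≤ Tr.card + 27 * θ * A.card := by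
      have h2 : A ⊆ Tr ∪ (univ : Finset (Fin 3)).biUnion
          (fun i => A.filter (fun p => Near (flo r' (o i)) (θ * r') (ℓ i p))) := fun p hp => by
        by_cases hp' : p ∈ Tr
        · exact mem_union_left _ hp'
        · refine mem_union_right _ ?_
          by_contra hc
          refine hp' (mem_filter.2 ⟨hp, fun i hi => ?_⟩)
          rcases (near_rfn (hg i) hr' (o i) _).1 hi with h | h
          · exact htr p hp i ((hg i).near_mono (by positivity)
              (mul_le_mul_of_nonneg_left hrr hθ.le) h)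
          · exact hc (mem_biUnion.2 ⟨i, mem_univ _, mem_filter.2 ⟨hp, h⟩⟩)
      have h3 := (card_le_card h2).trans ((card_union_le _ _).trans
        (Nat.add_le_add_left card_biUnion_le _))
      have h4 : (A.card : ℝ) ≤ Tr.card + ∑ i : Fin 3,
          ((A.filter (fun p => Near (flo r' (o i)) (θ * r') (ℓ i p))).card : ℝ) := by
        exact_mod_cast h3
      rw [Fin.sum_univ_three] at h4
      linarith [ho1 0, ho1 1, ho1 2]
    have hΞ' : r / r' ≤ Ξ := (div_le_iff₀ hr').2 hΞ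
    have h5 := aopt_light A Tr hTA (fun q i => lab ℓ g i q) (fun q i => lab ℓ (rfn3 g r' o) i q)
      (fun p q h => funext fun i => ((rfn_eq_iff (hg i) hr' (o i) _ _).1 (congrFun h i)).1)
      (n := (Ξ + 2) ^ 3) hϑ (fun b => by
        refine ⟨Fintype.piFinset fun i => (Tr.filter (fun p => g i (ℓ i p) = b i)).image
          (fun p => rfn (g i) r' (o i) (ℓ i p)), ?_, fun p hp hb => ?_⟩
        · rw [Fintype.card_piFinset]
          push_cast
          refine (prod_le_prod (g := fun _ => Ξ + 2) (fun _ _ => Nat.cast_nonneg _)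
            fun i _ => ?_).trans (by simp)
          refine (card_rfn_labels _ (ℓ i) (hg i) hr' (o i) (b i) r hr.le (fun p hp => ?_)
            fun p hp q hq => ?_).trans (by linarith)
          · rw [← (mem_filter.1 hp).2]
            exact ⟨(hg i).le _, ((hg i).lt _).le⟩
          · rw [(mem_filter.1 hp).2, (mem_filter.1 hq).2]
        · exact Fintype.mem_piFinset.2 fun i =>
            mem_image_of_mem _ (mem_filter.2 ⟨hp, congrFun hb i⟩))
    have h6 := aopt_card_or Tr (fun _ => True)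
      (fun p => ϑ * (c3 A ℓ g p).card ≤ (c3 Tr ℓ (rfn3 g r' o) p).card)
      (fun p => ((cls Tr (fun q i => lab ℓ (rfn3 g r' o) i q) p).card : ℝ) <
        ϑ * (cls A (fun q i => lab ℓ g i q) p).card) (fun p _ _ => by
        rw [← c3_eq_cls, ← c3_eq_cls]
        exact le_or_gt _ _)
    rw [filter_true] at h6
    have h7 : surv ℓ A g (rfn3 g r' o) (θ * r') ϑ = Tr.filter
      (fun p => ϑ * (c3 A ℓ g p).card ≤ (c3 Tr ℓ (rfn3 g r' o) p).card) := rfl
    rw [h7]
    linarith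
  · unfold NB flo3
    rw [Fin.sum_univ_three]
    linarith [ho2 0, ho2 1, ho2 2]
  · set N : ℕ → ℝ := fun k => ∑ i : Fin 3,
      ((A.filter (fun p => Near (g i) (r / 10 ^ 5 / KK ^ k) (ℓ i p))).card : ℝ) with hN
    have h1 : varpi ℓ ng A (rfn3 g r' o) r' ≤ ∑ k ∈ range ng, N (k + 1) + ∑ i : Fin 3,
        ∑ k ∈ range ng,
          ((A.filter (fun p => Near (flo r' (o i)) (r' / 10 ^ 5 / KK ^ k) (ℓ i p))).card : ℝ) := by
      rw [sum_comm (s := univ), ← sum_add_distrib]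
      refine sum_le_sum fun k _ => ?_
      simp only [hN]
      rw [← sum_add_distrib]
      refine sum_le_sum fun i _ => aopt_card_or A _ _ _ fun p _ hp => ?_
      refine ((near_rfn (hg i) hr' (o i) _).1 hp).imp_left fun h =>
        (hg i).near_mono (by positivity) ?_ h
      have e : r / 10 ^ 5 / KK ^ (k + 1) = r / KK / 10 ^ 5 / KK ^ k := by
        rw [pow_succ KK k]
        field_simp
      rw [e]
      refine div_le_div_of_nonneg_right ?_ (pow_pos hK0 _).le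
      refine div_le_div_of_nonneg_right ?_ (pow_pos (by norm_num) _).le
      rw [le_div_iff₀ hK0]
      linarith
    have h2 : NB ℓ A g (r / 10 ^ 5) = N 0 := by
      simp only [hN, NB, pow_zero, div_one]
    have h3 : N ng = 0 := by
      refine sum_eq_zero fun i _ => ?_
      rw [Nat.cast_eq_zero, card_eq_zero, filter_eq_empty_iff]
      intro p hp h
      refine htr p hp i ((hg i).near_mono (by positivity) ?_ h)
      have := mul_le_mul_of_nonneg_right hngle hr.le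
      refine le_trans (le_of_eq ?_) this
      ring
    have h4 : varpi ℓ ng A g r = ∑ k ∈ range ng, N k := rfl
    have h5 := sum_range_succ' N ng
    rw [sum_range_succ, h3] at h5
    rw [Fin.sum_univ_three] at h1
    rw [h2, h4]
    linarith [ho3 0, ho3 1, ho3 2]

theorem surv_sub (A : Finset α) (g g' : Fin 3 → ℝ → ℝ) (w ϑ : ℝ) : surv ℓ A g g' w ϑ ⊆ A :=
  (filter_subset _ _).trans (filter_subset _ _)

theorem surv_trim {A : Finset α} {g g' : Fin 3 → ℝ → ℝ} {w ϑ : ℝ} {p : α}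
    (hp : p ∈ surv ℓ A g g' w ϑ) (i : Fin 3) : ¬ Near (g' i) w (ℓ i p) :=
  (mem_filter.1 (mem_filter.1 hp).1).2 i

theorem surv_c3 {A : Finset α} {g g' : Fin 3 → ℝ → ℝ} {w ϑ : ℝ}
    (href : ∀ i x y, g' i x = g' i y → g i x = g i y) {p : α} (hp : p ∈ surv ℓ A g g' w ϑ) :
    c3 (surv ℓ A g g' w ϑ) ℓ g' p = c3 (trimS ℓ A g' w) ℓ g' p ∧
    ϑ * (c3 A ℓ g p).card ≤ (c3 (surv ℓ A g g' w ϑ) ℓ g' p).card ∧
    c3 (surv ℓ A g g' w ϑ) ℓ g' p ⊆ c3 A ℓ g p := by
  have h1 : c3 (surv ℓ A g g' w ϑ) ℓ g' p = c3 (trimS ℓ A g' w) ℓ g' p := by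
    refine Subset.antisymm (filter_subset_filter _ (filter_subset _ _)) fun q hq => ?_
    obtain ⟨hq1, hq2⟩ := mem_filter.1 hq
    refine mem_filter.2 ⟨mem_filter.2 ⟨hq1, ?_⟩, hq2⟩
    have h2 : q ∈ c3 A ℓ g p :=
      mem_filter.2 ⟨(mem_filter.1 hq1).1, fun i => href i _ _ (hq2 i)⟩
    rw [c3_eq_of_mem hq, c3_eq_of_mem h2]
    exact (mem_filter.1 hp).2
  refine ⟨h1, h1 ▸ (mem_filter.1 hp).2, fun q hq => ?_⟩
  obtain ⟨hq1, hq2⟩ := mem_filter.1 hq
  exact mem_filter.2 ⟨surv_sub _ _ _ _ _ hq1, fun i => href i _ _ (hq2 i)⟩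

end
end Crest.Agent.R51
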