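import Crest.Agent.R51.ABasic

set_option autoImplicit false
open Classical Finset

namespace Crest.Agent.R51
noncomputable section

variable {α : Type}

theorem qi_arith {n n' a0 a1 t0 t1 b N n1 n2 γ ε η m : ℝ} (hε : 0 ≤ ε) (hη : 0 < η) (hη1 : η ≤ 1)
    (hm : 0 < m) (hn : 0 < n) (hn' : 0 < n') (hPP : η * n' ≤ n) (hN : 0 ≤ N)
    (ha0 : m * n ≤ a0) (ht0 : m * n' ≤ t0) (ht1 : m * n' ≤ t1) (ht0' : t0 ≤ n') (ht1' : t1 ≤ n')
    (hl : t0 * a1 ≤ a0 * t1)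
    (k1 : a0 * b ≤ n1 * n + ε * n ^ 2) (k2 : n1 * n' ≤ t0 * γ + ε * n' ^ 2)
    (k3 : t1 * γ ≤ n2 * n' + ε * n' ^ 2) (k4 : n2 * n ≤ a1 * N + ε * n ^ 2) :
    b ≤ N + 4 * ε / (η * m ^ 2) * n := by
  have pa0 : 0 < a0 := lt_of_lt_of_le (by positivity) ha0
  have pt0 : 0 < t0 := lt_of_lt_of_le (by positivity) ht0
  have pt1 : 0 < t1 := lt_of_lt_of_le (by positivity) ht1
  have e1 : t1 * n1 ≤ t0 * n2 + ε * n' * (t0 + t1) := by
    refine le_of_mul_le_mul_right ?_ hn'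
    have h1 := mul_le_mul_of_nonneg_left k2 pt1.le
    have h2 := mul_le_mul_of_nonneg_left k3 pt0.le
    linarith
  have e2 : a0 * t1 * b ≤ a0 * t1 * N + ε * n * (n + n') * (t0 + t1) := by
    have h1 := mul_le_mul_of_nonneg_left k1 pt1.le
    have h2 := mul_le_mul_of_nonneg_left e1 hn.le
    have h3 := mul_le_mul_of_nonneg_left k4 pt0.le
    have h4 := mul_le_mul_of_nonneg_right hl hN
    linarith
  have e3 : ε * n * (n + n') * (t0 + t1) ≤ a0 * t1 * (4 * ε / (η * m ^ 2) * n) := by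
    have h1 : η * (n + n') ≤ 2 * n := by nlinarith
    have h2 : n + n' ≤ 2 * n / η := by rw [le_div_iff₀ hη]; linarith
    calc ε * n * (n + n') * (t0 + t1) ≤ ε * n * (2 * n / η) * (2 * n') := by
          gcongr; linarith
      _ = (m * n) * (m * n') * (4 * ε / (η * m ^ 2) * n) := by field_simp; ring
      _ ≤ a0 * t1 * (4 * ε / (η * m ^ 2) * n) := by gcongr
  refine le_of_mul_le_mul_left ?_ (mul_pos pa0 pt1)
  linarith

theorem qi_dir {P P' : Finset α} (x y z : α → ℝ) (hxyz : ∀ p, x p + y p + z p = 0) {ρ : ℝ}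
    (ga gb gc : ℝ → ℝ) (ha : Grid ρ ga) (hb : Grid ρ gb) (hc : Grid ρ gc) {ε η m₄ : ℝ}
    (hε : 0 ≤ ε) (hη : 0 < η) (hη1 : η ≤ 1) (hm : 0 < m₄) (hP : P.Nonempty) (hP' : P'.Nonempty)
    (h1 : NonDef P (fun q => ga (x q)) (fun q => gb (y q)) ε)
    (h2 : NonDef P' (fun q => ga (x q)) (fun q => gc (z q)) ε)
    (hPP : η * P'.card ≤ P.card) (x₀ x₁ : ℝ)
    (hm0 : m₄ * P.card ≤ (P.filter (fun q => ga (x q) = x₀)).card)
    (hm0' : m₄ * P'.card ≤ (P'.filter (fun q => ga (x q) = x₀)).card)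
    (hm1' : m₄ * P'.card ≤ (P'.filter (fun q => ga (x q) = x₁)).card) (y₁ y₂ : ℝ)
    (hsafe : ∀ q ∈ P ∪ P', (ga (x q) = x₀ ∨ ga (x q) = x₁) → y₁ ≤ y q → y q ≤ y₂ →
      q ∈ P ∧ q ∈ P')
    (hl : ((P'.filter (fun q => ga (x q) = x₀)).card : ℝ) * (P.filter (fun q => ga (x q) = x₁)).card ≤
      ((P.filter (fun q => ga (x q) = x₀)).card : ℝ) * (P'.filter (fun q => ga (x q) = x₁)).card) :
    QIP P y y₁ y₂ (x₀ - x₁) ρ (4 * ε / (η * m₄ ^ 2)) := by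
  intro Y hY
  have hρ : 0 < ρ := by have := ha.le 0; have := ha.lt 0; linarith
  set S1 : Finset α := P.filter (fun q => ga (x q) ∈ ({x₀} : Set ℝ) ∧ gb (y q) ∈ gb '' Y) with hS1
  set Cs : Set ℝ := {c | ∃ q ∈ S1, gc (z q) = c} with hCs
  set S2 : Finset α := P'.filter (fun q => ga (x q) ∈ ({x₁} : Set ℝ) ∧ gc (z q) ∈ Cs) with hS2
  set Bs : Set ℝ := {c | ∃ q ∈ S2, gb (y q) = c} with hBs
  have f1 : ∀ q ∈ S1, q ∈ P ∧ ga (x q) = x₀ ∧ ∃ u ∈ Y, |y q - u| < ρ := by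
    intro q hq
    obtain ⟨hq1, hq2, u, hu, hq3⟩ := mem_filter.1 hq
    exact ⟨hq1, hq2, u, hu, hb.abs_lt hq3.symm⟩
  have f2 : ∀ q ∈ S2, q ∈ P' ∧ ga (x q) = x₁ ∧ ∃ u ∈ Y, |y q - (u + (x₀ - x₁))| < 3 * ρ := by
    intro q hq
    obtain ⟨hq1, hq2, p, hp, hq3⟩ := mem_filter.1 hq
    obtain ⟨-, hp2, u, hu, hp3⟩ := f1 p hp
    have hq2' : ga (x q) = x₁ := hq2
    refine ⟨hq1, hq2', u, hu, ?_⟩
    have a1 := abs_lt.1 (hc.abs_lt hq3)
    have a2 := abs_lt.1 hp3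
    have a3 := ha.le (x p)
    have a4 := ha.lt (x p)
    have a5 := ha.le (x q)
    have a6 := ha.lt (x q)
    have a7 := hxyz p
    have a8 := hxyz q
    rw [hp2] at a3 a4
    rw [hq2'] at a5 a6
    rw [abs_lt]
    constructor <;> linarith [a1.1, a1.2, a2.1, a2.2]
  have g1 := (abs_le.1 (h1 {x₀} (gb '' Y))).1
  have g2 := (abs_le.1 (h2 {x₀} Cs)).2
  have g3 := (abs_le.1 (h2 {x₁} Cs)).1
  have g4 := (abs_le.1 (h1 {x₁} Bs)).2
  have c1 : ((P.filter (fun q => y q ∈ Y)).card : ℝ) ≤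
      (P.filter (fun q => gb (y q) ∈ gb '' Y)).card := by
    refine Nat.cast_le.2 (card_le_card fun q hq => ?_)
    obtain ⟨hq1, hq2⟩ := mem_filter.1 hq
    exact mem_filter.2 ⟨hq1, _, hq2, rfl⟩
  have c2 : (S1.card : ℝ) ≤
      (P'.filter (fun q => ga (x q) ∈ ({x₀} : Set ℝ) ∧ gc (z q) ∈ Cs)).card := by
    refine Nat.cast_le.2 (card_le_card fun q hq => ?_)
    obtain ⟨hq1, hq2, u, hu, hq3⟩ := f1 q hq
    obtain ⟨u1, u2, -, -⟩ := hY u hu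
    have a := abs_lt.1 hq3
    exact mem_filter.2 ⟨(hsafe q (mem_union_left _ hq1) (Or.inl hq2) (by linarith [a.1])
      (by linarith [a.2])).2, hq2, q, hq, rfl⟩
  have c3 : (S2.card : ℝ) ≤
      (P.filter (fun q => ga (x q) ∈ ({x₁} : Set ℝ) ∧ gb (y q) ∈ Bs)).card := by
    refine Nat.cast_le.2 (card_le_card fun q hq => ?_)
    obtain ⟨hq1, hq2, u, hu, hq3⟩ := f2 q hq
    obtain ⟨-, -, u1, u2⟩ := hY u hu
    have a := abs_lt.1 hq3
    exact mem_filter.2 ⟨(hsafe q (mem_union_right _ hq1) (Or.inr hq2) (by linarith [a.1])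
      (by linarith [a.2])).1, hq2, q, hq, rfl⟩
  have c4 : ((P.filter (fun q => gb (y q) ∈ Bs)).card : ℝ) ≤
      (P.filter (fun q => ∃ u ∈ Y, |y q - (u + (x₀ - x₁))| ≤ 4 * ρ)).card := by
    refine Nat.cast_le.2 (card_le_card fun q hq => ?_)
    obtain ⟨hq1, p, hp, hq2⟩ := mem_filter.1 hq
    obtain ⟨-, -, u, hu, hp3⟩ := f2 p hp
    have a := abs_lt.1 hp3
    have a' := abs_lt.1 (hb.abs_lt hq2)
    refine mem_filter.2 ⟨hq1, u, hu, ?_⟩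
    rw [abs_le]
    constructor <;> linarith [a.1, a.2, a'.1, a'.2]
  have hn : (0 : ℝ) < P.card := by exact_mod_cast hP.card_pos
  have hn' : (0 : ℝ) < P'.card := by exact_mod_cast hP'.card_pos
  have e : ∀ (R : Finset α) (u : ℝ), R.filter (fun q => ga (x q) ∈ ({u} : Set ℝ)) =
      R.filter (fun q => ga (x q) = u) := fun R u => filter_congr fun q _ => Iff.rfl
  simp only [e] at g1 g2 g3 g4
  refine qi_arith (n1 := S1.card) (n2 := S2.card)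
    (γ := (P'.filter (fun q => gc (z q) ∈ Cs)).card) hε hη hη1 hm hn hn' hPP (Nat.cast_nonneg _)
    hm0 hm0' hm1' (Nat.cast_le.2 (card_filter_le _ _)) (Nat.cast_le.2 (card_filter_le _ _)) hl
    ?_ ?_ ?_ ?_
  · have := mul_le_mul_of_nonneg_left c1
      (Nat.cast_nonneg (α := ℝ) (P.filter (fun q => ga (x q) = x₀)).card)
    linarith
  · have := mul_le_mul_of_nonneg_right c2 hn'.le
    linarith
  · linarith
  · have := mul_le_mul_of_nonneg_right c3 hn.le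
    have := mul_le_mul_of_nonneg_left c4
      (Nat.cast_nonneg (α := ℝ) (P.filter (fun q => ga (x q) = x₁)).card)
    linarith

/-- two product structures give quasi-invariance under a translation -/
theorem qi {P P' : Finset α} (x y z : α → ℝ) (hxyz : ∀ p, x p + y p + z p = 0) {ρ : ℝ}
    (ga gb gc : ℝ → ℝ) (ha : Grid ρ ga) (hb : Grid ρ gb) (hc : Grid ρ gc) {ε η m₄ : ℝ}
    (hε : 0 ≤ ε) (hη : 0 < η) (hη1 : η ≤ 1) (hm : 0 < m₄) (hP : P.Nonempty) (hP' : P'.Nonempty)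
    (h1 : NonDef P (fun q => ga (x q)) (fun q => gb (y q)) ε)
    (h2 : NonDef P' (fun q => ga (x q)) (fun q => gc (z q)) ε)
    (hPP : η * P'.card ≤ P.card) (x₀ x₁ : ℝ)
    (hm0 : m₄ * P.card ≤ (P.filter (fun q => ga (x q) = x₀)).card)
    (hm1 : m₄ * P.card ≤ (P.filter (fun q => ga (x q) = x₁)).card)
    (hm0' : m₄ * P'.card ≤ (P'.filter (fun q => ga (x q) = x₀)).card)
    (hm1' : m₄ * P'.card ≤ (P'.filter (fun q => ga (x q) = x₁)).card) (y₁ y₂ : ℝ)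
    (hsafe : ∀ q ∈ P ∪ P', (ga (x q) = x₀ ∨ ga (x q) = x₁) → y₁ ≤ y q → y q ≤ y₂ →
      q ∈ P ∧ q ∈ P') :
    ∃ v : ℝ, (v = x₀ - x₁ ∨ v = x₁ - x₀) ∧ QIP P y y₁ y₂ v ρ (4 * ε / (η * m₄ ^ 2)) := by
  rcases le_total
    (((P'.filter (fun q => ga (x q) = x₀)).card : ℝ) * (P.filter (fun q => ga (x q) = x₁)).card)
    (((P.filter (fun q => ga (x q) = x₀)).card : ℝ) * (P'.filter (fun q => ga (x q) = x₁)).card)
    with hl | hl
  · exact ⟨_, Or.inl rfl, qi_dir x y z hxyz ga gb gc ha hb hc hε hη hη1 hm hP hP' h1 h2 hPP x₀ x₁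
      hm0 hm0' hm1' y₁ y₂ hsafe hl⟩
  · exact ⟨_, Or.inr rfl, qi_dir x y z hxyz ga gb gc ha hb hc hε hη hη1 hm hP hP' h1 h2 hPP x₁ x₀
      hm1 hm1' hm0' y₁ y₂ (fun q hq h => hsafe q hq h.symm) (by linarith)⟩

end
end Crest.Agent.R51
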