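import Crest.Agent.R51.ADrift
import Crest.Agent.R51.ADrift2

set_option autoImplicit false
open Classical Finset

namespace Crest.Agent.R51
noncomputable section

variable {α : Type} {A₀ : Finset α} {ℓ : Fin 3 → α → ℝ} {T : Fin 3 → Finset α → ℝ}
  {s : Finset α → ℝ} {M Q D B : ℝ}

theorem ARefine_fib {β : Type} {A A'' : Finset α} (h : A'' ⊆ A) (f : α → β) (F G : α → ℝ)
    (hc : ∀ p ∈ A, ∑ q ∈ cls A'' f p, F q ≤ ∑ q ∈ cls A f p, G q) :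
    ∑ q ∈ A'', F q ≤ ∑ q ∈ A, G q := by
  rw [← sum_fiberwise_of_maps_to (s := A'') (t := A.image f) (g := f)
      (fun q hq => mem_image_of_mem f (h hq)) F,
    ← sum_fiberwise_of_maps_to (s := A) (t := A.image f) (g := f)
      (fun q hq => mem_image_of_mem f hq) G]
  refine sum_le_sum fun b hb => ?_
  obtain ⟨p, hp, rfl⟩ := mem_image.1 hb
  exact hc p hp

theorem ARefine_c2_mono {A A'' : Finset α} (h : A'' ⊆ A) (g : Fin 3 → ℝ → ℝ) (i j : Fin 3)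
    (p : α) : c2 A'' ℓ g i j p ⊆ c2 A ℓ g i j p := by
  intro q hq
  exact mem_filter.2 ⟨h (mem_filter.1 hq).1, (mem_filter.1 hq).2⟩

theorem ARefine_fib2 {A A'' : Finset α} (h : A'' ⊆ A) (g : Fin 3 → ℝ → ℝ) (i j : Fin 3)
    (F G : α → ℝ) (hc : ∀ p ∈ A, ∑ q ∈ c2 A'' ℓ g i j p, F q ≤ ∑ q ∈ c2 A ℓ g i j p, G q) :
    ∑ q ∈ A'', F q ≤ ∑ q ∈ A, G q := by
  refine ARefine_fib h (fun q => (lab ℓ g i q, lab ℓ g j q)) F G fun p hp => ?_
  rw [← c2_eq_cls, ← c2_eq_cls]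
  exact hc p hp

theorem ARefine_sum_const {A : Finset α} (g : Fin 3 → ℝ → ℝ) (i j : Fin 3) (p : α)
    (F : Finset α → ℝ) :
    ∑ q ∈ c2 A ℓ g i j p, F (c2 A ℓ g i j q) = (c2 A ℓ g i j p).card * F (c2 A ℓ g i j p) := by
  rw [sum_congr rfl fun q hq => by rw [c2_eq_of_mem hq], sum_const, nsmul_eq_mul]

theorem ARefine_self {A : Finset α} (g : Fin 3 → ℝ → ℝ) (i j : Fin 3) {p : α} (hp : p ∈ A) :
    p ∈ c2 A ℓ g i j p := mem_filter.2 ⟨hp, rfl, rfl⟩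

theorem ARefine_PP_nonneg (hS : SysA A₀ ℓ T s M Q D B) (hD : 1 ≤ D) {A : Finset α}
    {g : Fin 3 → ℝ → ℝ} (hA : A ⊆ A₀) (hQ : ∀ p ∈ A, Q ≤ D * (c3 A ℓ g p).card) (i j : Fin 3)
    {p : α} (hp : p ∈ A) : 0 ≤ PP T s Q i j (c2 A ℓ g i j p) := by
  have h1 : ((c3 A ℓ g p).card : ℝ) ≤ (c2 A ℓ g i j p).card := by
    exact_mod_cast card_le_card (c3_sub_c2 A ℓ g i j p)
  have h2 : Q ≤ D * (c2 A ℓ g i j p).card :=
    (hQ p hp).trans (mul_le_mul_of_nonneg_left h1 (by linarith))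
  have h3 := (c2_sub A ℓ g i j p).trans hA
  exact add_nonneg (LL_nonneg hS hD h3 h2 i) (LL_nonneg hS hD h3 h2 j)

theorem ARefine_cls {A'' : Finset α} {g g' : Fin 3 → ℝ → ℝ}
    (href : ∀ i x y, g' i x = g' i y → g i x = g i y) (i j : Fin 3) {p q : α}
    (hq : q ∈ c2 A'' ℓ g i j p) :
    c2 A'' ℓ g' i j q = cls (c2 A'' ℓ g i j p) (fun q => (lab ℓ g' i q, lab ℓ g' j q)) q := by
  rw [← c2_eq_cls, ← c2_eq_of_mem hq]
  ext x
  simp only [c2, mem_filter]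
  constructor
  · rintro ⟨h1, h2, h3⟩
    exact ⟨⟨h1, href _ _ _ h2, href _ _ _ h3⟩, h2, h3⟩
  · rintro ⟨⟨h1, -⟩, h2⟩
    exact ⟨h1, h2⟩

theorem ARefine_nrm (hS : SysA A₀ ℓ T s M Q D B) {A'' : Finset α} {g : Fin 3 → ℝ → ℝ} {r : ℝ}
    (hg : ∀ i, Grid r (g i)) {i j : Fin 3} (hij : i ≠ j) (p : α) :
    ∀ x ∈ c2 A'' ℓ g i j p, ∀ y ∈ c2 A'' ℓ g i j p, nrm ℓ x y ≤ 2 * r := by
  intro x hx y hy
  obtain ⟨-, x1, x2⟩ := mem_filter.1 hx
  obtain ⟨-, y1, y2⟩ := mem_filter.1 hy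
  exact nrm_le_of_two hS.sum0 hij ((hg i).abs_lt (x1.trans y1.symm)).le
    ((hg j).abs_lt (x2.trans y2.symm)).le

theorem ARefine_sep {A'' P'' : Finset α} {g' : Fin 3 → ℝ → ℝ} {r r' w : ℝ}
    (hg' : ∀ i, Grid r' (g' i)) (hw : 0 ≤ w) (htr : ∀ p ∈ A'', ∀ i, ¬ Near (g' i) w (ℓ i p))
    (hM : 4 * M * r ≤ w) (h : P'' ⊆ A'') (i : Fin 3) :
    Sep P'' (lab ℓ g' i) (ℓ i) (2 * M * (2 * r)) :=
  ((hg' i).sep hw A'' (ℓ i) fun p hp => htr p hp i).mono h (by linarith)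

theorem ARefine_pair (hS : SysA A₀ ℓ T s M Q D B) (hD : 1 ≤ D) {A A'' : Finset α}
    {g g' : Fin 3 → ℝ → ℝ} {r r' w : ℝ}
    (hA : A ⊆ A₀) (h : A'' ⊆ A) (hg : ∀ i, Grid r (g i)) (hg' : ∀ i, Grid r' (g' i))
    (href : ∀ i x y, g' i x = g' i y → g i x = g i y) (hw : 0 ≤ w)
    (htr : ∀ p ∈ A'', ∀ i, ¬ Near (g' i) w (ℓ i p))
    (hM : 4 * M * r ≤ w) (hQ : ∀ p ∈ A, Q ≤ D * (c3 A ℓ g p).card) (ε : ℝ) (hε : 0 ≤ ε)
    {i j : Fin 3} (hij : i ≠ j) :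
    ∑ p ∈ A'', PP T s Q i j (c2 A'' ℓ g' i j p) + ε ^ 2 / 64 *
        ((A.filter (fun p => ¬ NonDef (c2 A ℓ g i j p) (lab ℓ g' i) (lab ℓ g' j) ε)).card : ℝ) ≤
      ∑ p ∈ A, PP T s Q i j (c2 A ℓ g i j p) + 5 * ((A.card : ℝ) - A''.card) := by
  have key := ARefine_fib2 (ℓ := ℓ) h g i j (fun q => PP T s Q i j (c2 A'' ℓ g' i j q) + 5)
    (fun q => PP T s Q i j (c2 A ℓ g i j q) + 5 -
      ε ^ 2 / 64 * if ¬ NonDef (c2 A ℓ g i j q) (lab ℓ g' i) (lab ℓ g' j) ε then 1 else 0)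
    (fun p hp => by
      have h1 := pair_drift hS ((c2_sub A ℓ g i j p).trans hA) (ARefine_c2_mono h g i j p) i j
        (lab ℓ g' i) (lab ℓ g' j) (2 * r) ε hε (ARefine_nrm hS hg hij p)
        (ARefine_sep hg' hw htr hM (c2_sub _ _ _ _ _ _) i)
        (ARefine_sep hg' hw htr hM (c2_sub _ _ _ _ _ _) j)
      have h2 := ARefine_sum_const (A := A) (ℓ := ℓ) g i j p fun P => PP T s Q i j P + 5 -
        ε ^ 2 / 64 * if ¬ NonDef P (lab ℓ g' i) (lab ℓ g' j) ε then 1 else 0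
      have h3 : ((c2 A'' ℓ g i j p).card : ℝ) ≤ (c2 A ℓ g i j p).card := by
        exact_mod_cast card_le_card (ARefine_c2_mono h g i j p)
      have h4 := mul_le_mul_of_nonneg_right h3 (ARefine_PP_nonneg hS hD hA hQ i j hp)
      rw [h2, sum_add_distrib, sum_const, nsmul_eq_mul,
        sum_congr rfl fun q hq => by rw [ARefine_cls href i j hq]]
      by_cases hN : NonDef (c2 A ℓ g i j p) (lab ℓ g' i) (lab ℓ g' j) ε
      · rw [if_pos hN] at h1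
        rw [if_neg (not_not.2 hN)]
        linarith
      · rw [if_neg hN] at h1
        rw [if_pos hN]
        linarith)
  rw [sum_add_distrib, sum_sub_distrib, sum_add_distrib, sum_const, sum_const, nsmul_eq_mul,
    nsmul_eq_mul, ← mul_sum, sum_boole] at key
  linarith

theorem ARefine_remove_pair (hS : SysA A₀ ℓ T s M Q D B) (hD : 1 ≤ D) {A A₁ : Finset α}
    {g : Fin 3 → ℝ → ℝ} (hA : A ⊆ A₀) (h : A₁ ⊆ A) (hQ : ∀ p ∈ A, Q ≤ D * (c3 A ℓ g p).card)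
    (i j : Fin 3) :
    ∑ p ∈ A₁, PP T s Q i j (c2 A₁ ℓ g i j p) ≤
      ∑ p ∈ A, PP T s Q i j (c2 A ℓ g i j p) + 4 * ((A.card : ℝ) - A₁.card) := by
  have key := ARefine_fib2 (ℓ := ℓ) h g i j (fun q => PP T s Q i j (c2 A₁ ℓ g i j q) + 4)
    (fun q => PP T s Q i j (c2 A ℓ g i j q) + 4)
    (fun p hp => by
      rw [ARefine_sum_const (A := A) (ℓ := ℓ) g i j p fun P => PP T s Q i j P + 4,
        ARefine_sum_const (A := A₁) (ℓ := ℓ) g i j p fun P => PP T s Q i j P + 4]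
      have h0 := ARefine_PP_nonneg hS hD hA hQ i j hp
      rcases (c2 A₁ ℓ g i j p).eq_empty_or_nonempty with he | hne
      · rw [he, card_empty, Nat.cast_zero, zero_mul]
        positivity
      · have hsub := ARefine_c2_mono (ℓ := ℓ) h g i j p
        have hP := (c2_sub A ℓ g i j p).trans hA
        have h1 := LL_sub_le hS hP hsub hne i
        have h2 := LL_sub_le hS hP hsub hne j
        have h3 : ((c2 A₁ ℓ g i j p).card : ℝ) ≤ (c2 A ℓ g i j p).card := by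
          exact_mod_cast card_le_card hsub
        have h4 : (0 : ℝ) < (c2 A₁ ℓ g i j p).card := by exact_mod_cast hne.card_pos
        have h5 := Real.log_le_sub_one_of_pos (div_pos (h4.trans_le h3) h4)
        have h6 := mul_le_mul_of_nonneg_left h5 h4.le
        rw [mul_sub, mul_div_cancel₀ _ h4.ne'] at h6
        have h7 : PP T s Q i j (c2 A₁ ℓ g i j p) ≤ PP T s Q i j (c2 A ℓ g i j p) +
            4 * Real.log (((c2 A ℓ g i j p).card : ℝ) / (c2 A₁ ℓ g i j p).card) := by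
          unfold PP; linarith
        have h8 := mul_le_mul_of_nonneg_left h7 h4.le
        have h9 := mul_le_mul_of_nonneg_right h3 h0
        linarith)
  rw [sum_add_distrib, sum_add_distrib, sum_const, sum_const, nsmul_eq_mul, nsmul_eq_mul] at key
  linarith

theorem ARefine_W_class {A : Finset α} (g : Fin 3 → ℝ → ℝ) {p : α}
    (hne : (c2 A ℓ g 0 1 p).Nonempty) :
    ∑ q ∈ c2 A ℓ g 0 1 p, Wc T s Q (c2 A ℓ g 0 1 q) / (c2 A ℓ g 0 1 q).card =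
      Wc T s Q (c2 A ℓ g 0 1 p) := by
  have h4 : (0 : ℝ) < (c2 A ℓ g 0 1 p).card := by exact_mod_cast hne.card_pos
  rw [ARefine_sum_const (A := A) (ℓ := ℓ) g 0 1 p fun P => Wc T s Q P / P.card,
    mul_div_cancel₀ _ h4.ne']

theorem refine_Phi (hS : SysA A₀ ℓ T s M Q D B) (hD : 1 ≤ D) {A A'' : Finset α} {g g' : Fin 3 → ℝ → ℝ} {r r' w : ℝ}
    (hA : A ⊆ A₀) (h : A'' ⊆ A) (hg : ∀ i, Grid r (g i)) (hg' : ∀ i, Grid r' (g' i))
    (href : ∀ i x y, g' i x = g' i y → g i x = g i y) (hw : 0 ≤ w)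
    (htr : ∀ p ∈ A'', ∀ i, ¬ Near (g' i) w (ℓ i p))
    (hM : 4 * M * r ≤ w) (hQ : ∀ p ∈ A, Q ≤ D * (c3 A ℓ g p).card) (ε : ℝ) (hε : 0 ≤ ε) :
    PhiTot ℓ T s Q A'' g' + ε ^ 2 / 64 * DefC ℓ A g g' ε ≤
      PhiTot ℓ T s Q A g + 15 * ((A.card : ℝ) - A''.card) := by
  have h1 := ARefine_pair hS hD hA h hg hg' href hw htr hM hQ ε hε (i := 0) (j := 1) (by decide)
  have h2 := ARefine_pair hS hD hA h hg hg' href hw htr hM hQ ε hε (i := 0) (j := 2) (by decide)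
  have h3 := ARefine_pair hS hD hA h hg hg' href hw htr hM hQ ε hε (i := 1) (j := 2) (by decide)
  unfold PhiTot DefC
  simp only [sum_add_distrib]
  linarith

theorem refine_W (hS : SysA A₀ ℓ T s M Q D B) {A A'' : Finset α} {g g' : Fin 3 → ℝ → ℝ} {r r' w : ℝ}
    (hA : A ⊆ A₀) (h : A'' ⊆ A) (hg : ∀ i, Grid r (g i)) (hg' : ∀ i, Grid r' (g' i))
    (href : ∀ i x y, g' i x = g' i y → g i x = g i y) (hw : 0 ≤ w)
    (htr : ∀ p ∈ A'', ∀ i, ¬ Near (g' i) w (ℓ i p))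
    (hM : 4 * M * r ≤ w) : Wtot ℓ T s Q A'' g' ≤ Wtot ℓ T s Q A g := by
  unfold Wtot
  refine ARefine_fib2 (ℓ := ℓ) h g 0 1 _ _ fun p hp => ?_
  rw [ARefine_W_class g ⟨p, ARefine_self g 0 1 hp⟩,
    sum_congr rfl fun q hq => by rw [ARefine_cls href 0 1 hq]]
  exact W_drift hS ((c2_sub A ℓ g 0 1 p).trans hA) (ARefine_c2_mono h g 0 1 p)
    (lab ℓ g' 0) (lab ℓ g' 1) (2 * r) (ARefine_nrm hS hg (by decide) p)
    (ARefine_sep hg' hw htr hM (c2_sub _ _ _ _ _ _) 0)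
    (ARefine_sep hg' hw htr hM (c2_sub _ _ _ _ _ _) 1)

theorem remove_Phi (hS : SysA A₀ ℓ T s M Q D B) (hD : 1 ≤ D) {A A₁ : Finset α}
    {g : Fin 3 → ℝ → ℝ} (hA : A ⊆ A₀) (h : A₁ ⊆ A) (hQ : ∀ p ∈ A, Q ≤ D * (c3 A ℓ g p).card) :
    PhiTot ℓ T s Q A₁ g ≤ PhiTot ℓ T s Q A g + 12 * ((A.card : ℝ) - A₁.card) := by
  have h1 := ARefine_remove_pair hS hD hA h hQ 0 1
  have h2 := ARefine_remove_pair hS hD hA h hQ 0 2
  have h3 := ARefine_remove_pair hS hD hA h hQ 1 2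
  unfold PhiTot
  simp only [sum_add_distrib]
  linarith

theorem remove_W (hS : SysA A₀ ℓ T s M Q D B) {A A₁ : Finset α}
    {g : Fin 3 → ℝ → ℝ} (hA : A ⊆ A₀) (h : A₁ ⊆ A) : Wtot ℓ T s Q A₁ g ≤ Wtot ℓ T s Q A g := by
  unfold Wtot
  refine ARefine_fib2 (ℓ := ℓ) h g 0 1 _ _ fun p hp => ?_
  rw [ARefine_W_class g ⟨p, ARefine_self g 0 1 hp⟩]
  rcases (c2 A₁ ℓ g 0 1 p).eq_empty_or_nonempty with he | hne
  · rw [he, sum_empty]
    exact Real.sqrt_nonneg _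
  · rw [ARefine_W_class g hne]
    exact Wc_mono hS ((c2_sub A ℓ g 0 1 p).trans hA) (ARefine_c2_mono h g 0 1 p)

end
end Crest.Agent.R51
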