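import Crest.Agent.R51.AStepOpt
import Crest.Agent.R51.AOptBound

set_option autoImplicit false
open Classical Finset

namespace Crest.Agent.R51
noncomputable section

variable {α : Type} {A₀ : Finset α} {ℓ : Fin 3 → α → ℝ} {T : Fin 3 → Finset α → ℝ}
  {s : Finset α → ℝ} {M Q D B : ℝ}

variable {κ lam lam₂ κ' m₁ m₅ ε₁ c₁ c₂ c θ ϑ θ₅ θl Ξ β σ₁ : ℝ} {ng n₀ N₁ : ℕ}

theorem stA_sum (n : ℕ) : ∑ t ∈ Finset.Icc 1 n, (t : ℝ) = n * (n + 1) / 2 := by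
  induction n with
  | zero => simp
  | succ n ih =>
    rw [Finset.sum_Icc_succ_top (by omega), ih]
    push_cast
    ring

theorem stA_num {lk N NBv Df NR : ℝ} (e : ℕ → ℝ) (hlk : 1 ≤ lk) (hN : 0 ≤ N) (hNB : 0 ≤ NBv)
    (hD : 0 ≤ Df) (hNR : NR ≤ NBv + N / 2000 + Df) (he0 : ∀ t, 0 ≤ e t)
    (he : ∑ t ∈ Finset.Icc 1 1000, e t ≤ N)
    (h1 : ∀ t ∈ Finset.Icc (1 : ℕ) 1000, 2 * N * ((t : ℝ) / 50 - 2) * lk -
      2 * t * lk * (NR + 3 * N / 2000 + e t) + 2000 * lk * (NBv - 54 / 10 ^ 5 * N) - N ≤ 0)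
    (h2 : 2 * 10 ^ 6 * lk * Df - 4002 * lk * N + 2000 * lk * (NBv - 54 / 10 ^ 5 * N) - N < 0) :
    False := by
  have h3 : ∑ t ∈ Finset.Icc (1 : ℕ) 1000,
      ((N * lk / 25 - 2 * lk * (NR + 3 * N / 2000)) * (t : ℝ) + (2000 * lk *
      (NBv - 54 / 10 ^ 5 * N) - N - 4 * N * lk) - 2000 * lk * e t) ≤ 0 := by
    refine Finset.sum_nonpos fun t ht => ?_
    have h4 : (t : ℝ) ≤ 1000 := by exact_mod_cast (Finset.mem_Icc.1 ht).2
    have h5 : 0 ≤ (1000 - t) * (lk * e t) :=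
      mul_nonneg (by linarith) (mul_nonneg (by linarith) (he0 t))
    have h6 := h1 t ht
    linarith
  rw [Finset.sum_sub_distrib, Finset.sum_add_distrib, ← Finset.mul_sum, ← Finset.mul_sum, stA_sum,
    Finset.sum_const, Nat.card_Icc, nsmul_eq_mul] at h3
  push_cast at h3
  have hl : 0 ≤ lk := by linarith
  have a1 := mul_le_mul_of_nonneg_left he hl
  have a2 := mul_le_mul_of_nonneg_left hNR hl
  have a3 := mul_nonneg hl hNB
  have a4 := mul_nonneg hl hD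
  have a5 := mul_le_mul_of_nonneg_right hlk hN
  linarith

theorem stA_eq (A : Finset α) (g : Fin 3 → ℝ → ℝ) (r : ℝ) :
    ∑ t ∈ Finset.Icc 1 1000, ((A.filter (fun p => EqT ℓ A g m₁ m₅ r t p)).card : ℝ) ≤ A.card := by
  rw [← Nat.cast_sum, ← Finset.card_biUnion]
  · exact_mod_cast Finset.card_le_card
      (Finset.biUnion_subset.2 fun t _ => Finset.filter_subset _ _)
  · intro t ht t' ht' hne
    refine Finset.disjoint_filter.2 fun p _ h h' => ?_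
    rcases lt_or_gt_of_ne hne with hl | hl
    · exact h.2 t' hl (Finset.mem_Icc.1 ht').2 h'.1
    · exact h'.2 t hl (Finset.mem_Icc.1 ht).2 h.1

theorem stepA (hS : SysA A₀ ℓ T s M Q D B)
    (hP : ParA κ lam lam₂ κ' m₁ m₅ ε₁ c₁ c₂ c θ ϑ θ₅ θl Ξ β ng n₀ N₁)
    (hZ : SizA Q D B lam ϑ θl σ₁) (hM : M ≤ Real.exp (-κ)) {n : ℕ}
    (hIH : IH A₀ T s Q D lam c σ₁ n) {A : Finset α} {r rb : ℝ} {g gb : Fin 3 → ℝ → ℝ}
    (hI : Inv A₀ ℓ θ σ₁ n A r g) (hB : Bas r rb g gb)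
    (hv : rb * Real.exp (-κ') * KK ^ 2001 ≤ r) :
    ∃ (A' : Finset α) (r' : ℝ) (g' : Fin 3 → ℝ → ℝ), Inv A₀ ℓ θ σ₁ n A' r' g' ∧ Bas r' rb g' gb ∧
      2 * r' ≤ r ∧ F1 ℓ T s Q lam c σ₁ c₁ c₂ β κ' ng A' r' g' rb gb ≤
        F1 ℓ T s Q lam c σ₁ c₁ c₂ β κ' ng A r g rb gb := by
  have hr := hI.rpos
  have hK : (2 : ℝ) ≤ KK := by unfold KK; norm_num
  have hK1 : (1 : ℝ) ≤ KK := by linarith
  have hK0 : (0 : ℝ) < KK := by linarith
  have hp : ∀ t : ℕ, 0 < KK ^ t := fun t => pow_pos hK0 t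
  have f1 : ∀ t : ℕ, 0 < r / KK ^ t := fun t => div_pos hr (hp t)
  have f2 : ∀ t : ℕ, r / KK ^ t ≤ r := fun t => div_le_self hr.le (one_le_pow₀ hK1)
  have f3 : ∀ t : ℕ, t ≤ 2001 → r ≤ Ξ * (r / KK ^ t) := fun t ht => by
    rw [← mul_div_assoc, le_div_iff₀ (hp t), mul_comm]
    exact mul_le_mul_of_nonneg_right ((pow_le_pow_right₀ hK1 ht).trans hP.ΞK) hr.le
  have f4 : ∀ t : ℕ, 1 ≤ t → KK * (r / KK ^ t) ≤ r := fun t ht => by
    rw [← mul_div_assoc, div_le_iff₀ (hp t), mul_comm]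
    exact mul_le_mul_of_nonneg_left (le_self_pow₀ hK1 (by omega)) hr.le
  have f5 : ∀ t : ℕ, t ≤ 2001 → rb * Real.exp (-κ') ≤ r / KK ^ t := fun t ht => by
    rw [le_div_iff₀ (hp t)]
    exact (mul_le_mul_of_nonneg_left (pow_le_pow_right₀ hK1 ht)
      (mul_pos (hr.trans_le hB.le) (Real.exp_pos _)).le).trans hv
  have f6 : ∀ t : ℕ, Real.log (r / (r / KK ^ t)) = t * Real.log KK := fun t => by
    rw [div_div_cancel₀ hr.ne', Real.log_pow]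
  have ex : ∀ t : ℕ, ∃ o : Fin 3 → ℝ, t ≤ 2001 →
      (A.card : ℝ) - (surv ℓ A g (rfn3 g (r / KK ^ t) o) (θ * (r / KK ^ t)) ϑ).card ≤
        (27 * θ + (Ξ + 2) ^ 3 * ϑ) * A.card ∧
      NB ℓ A (flo3 (r / KK ^ t) o) (3 * (r / KK ^ t) / 10 ^ 6) ≤ 81 / 10 ^ 6 * A.card ∧
      (KK * (r / KK ^ t) ≤ r → varpi ℓ ng A (rfn3 g (r / KK ^ t) o) (r / KK ^ t) +
        NB ℓ A g (r / 10 ^ 5) ≤ varpi ℓ ng A g r + 54 / 10 ^ 5 * A.card) := fun t => by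
    by_cases ht : t ≤ 2001
    · obtain ⟨o, ho⟩ := exists_option (ℓ := ℓ) A g r (r / KK ^ t) θ ϑ Ξ ng (f1 t) (f2 t) (f3 t ht)
        hP.θpos hP.ϑpos.le hP.ngpos hP.ngle hI.grid hI.trim
      exact ⟨o, fun _ => ho⟩
    · exact ⟨0, fun h => absurd h ht⟩
  choose o ho using ex
  by_contra hc
  have hlk := one_le_log_KK
  have hl : 0 ≤ Real.log KK := by linarith
  have hD : ∀ g', 0 ≤ DefC ℓ A g g' ε₁ := fun g' => by unfold DefC; positivity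
  have key : ∀ t : ℕ, 1 ≤ t → t ≤ 2001 → ∀ A' : Finset α,
      A' = rem ℓ (surv ℓ A g (rfn3 g (r / KK ^ t) (o t)) (θ * (r / KK ^ t)) ϑ)
        (rfn3 g (r / KK ^ t) (o t)) m₁ σ₁ →
      2 * 10 ^ 6 * Real.log KK * DefC ℓ A g (rfn3 g (r / KK ^ t) (o t)) ε₁ +
        (∑ p ∈ A', (hh ℓ A g (rfn3 g (r / KK ^ t) (o t)) 0 p +
          hh ℓ A g (rfn3 g (r / KK ^ t) (o t)) 1 p) - 49 / 25 * (t * Real.log KK) * A'.card +
          4002 * Real.log KK * ((A.card : ℝ) - A'.card)) +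
        2000 * Real.log KK * (NB ℓ A g (r / 10 ^ 5) - 54 / 10 ^ 5 * A.card) - A.card < 0 := by
    intro t h1 h2 A' hA'
    obtain ⟨o1, -, o3⟩ := ho t h2
    obtain ⟨k1, k2, k3⟩ := step_opt hS hP hZ hM hIH hI hB (r / KK ^ t) (o t) (f1 t) (f2 t)
      (f3 t h2) (f5 t h2) o1 ε₁ hP.ε₁pos.le A' hA'
    rw [f6] at k3
    by_contra hn
    refine hc ⟨A', _, _, k1, k2, (mul_le_mul_of_nonneg_right hK (f1 t).le).trans (f4 t h1),
      le_trans (le_add_of_nonneg_right ?_) k3⟩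
    have b1 := mul_le_mul_of_nonneg_right hP.c₁le (hD (rfn3 g (r / KK ^ t) (o t)))
    have b2 := mul_le_mul_of_nonneg_left (o3 (f4 t h1)) (mul_nonneg hP.c₁pos.le hl)
    have b3 := mul_nonneg hP.c₁pos.le (not_lt.1 hn)
    linarith
  refine stA_num (fun t => ((A.filter (fun p => EqT ℓ A g m₁ m₅ r t p)).card : ℝ)) hlk
    (Nat.cast_nonneg _) (by unfold NB; positivity) (hD _)
    (notreg_few hS.sum0 A g (rfn3 g (r / KK ^ 2001) (o 2001)) r ε₁ hr hI.grid)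
    (fun t => Nat.cast_nonneg _) (stA_eq A g r) (fun t ht => ?_) ?_
  · obtain ⟨t1, t2⟩ := Finset.mem_Icc.1 ht
    have b1 := key t t1 (by omega) _ rfl
    have b2 := opt_bound (σ₁ := σ₁) hS.sum0 hP A r hr g hI.grid t t1 t2 (o t) (o 2001)
      (ho t (by omega)).2.1 _ rfl
    have b3 := mul_nonneg hl (hD (rfn3 g (r / KK ^ t) (o t)))
    linarith
  · have b1 := key 2001 (by omega) le_rfl _ rfl
    generalize hA' : rem ℓ (surv ℓ A g (rfn3 g (r / KK ^ 2001) (o 2001)) (θ * (r / KK ^ 2001)) ϑ)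
        (rfn3 g (r / KK ^ 2001) (o 2001)) m₁ σ₁ = A' at b1
    have sub : A' ⊆ A := hA' ▸ (rem_sub _ _ _ _).trans (surv_sub _ _ _ _ _)
    have b2 : 0 ≤ ∑ p ∈ A', (hh ℓ A g (rfn3 g (r / KK ^ 2001) (o 2001)) 0 p +
        hh ℓ A g (rfn3 g (r / KK ^ 2001) (o 2001)) 1 p) :=
      Finset.sum_nonneg fun p hp => add_nonneg (hh_nonneg _ _ _ (sub hp)) (hh_nonneg _ _ _ (sub hp))
    have b3 : (A'.card : ℝ) ≤ A.card := by exact_mod_cast Finset.card_le_card sub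
    have b4 := mul_le_mul_of_nonneg_left b3 hl
    have b5 := mul_nonneg hl (Nat.cast_nonneg (α := ℝ) A'.card)
    generalize KK ^ 2001 = K' at *
    push_cast at b1
    linarith

end
end Crest.Agent.R51
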