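import Crest.Agent.R51.ADrift2

set_option autoImplicit false
open Classical Finset

namespace Crest.Agent.R51
noncomputable section

variable {α : Type} {A₀ : Finset α} {ℓ : Fin 3 → α → ℝ} {T : Fin 3 → Finset α → ℝ}
  {s : Finset α → ℝ} {M Q D B : ℝ}

/-- log-sum step -/
theorem ath_logsum {γ : Type} {Th Th'' : Finset α} (h : Th'' ⊆ Th) (v : α → γ) (b : α → ℝ) :
    ∑ p ∈ Th'', Real.log (((cls Th v p).card : ℝ) / (cls (cls Th v p) b p).card) ≤
      ∑ p ∈ Th'', Real.log ((Th.card : ℝ) / (cls Th'' b p).card) := by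
  rcases Th''.eq_empty_or_nonempty with rfl | hne
  · simp
  have hTh : (0 : ℝ) < Th.card := by exact_mod_cast (hne.mono h).card_pos
  let N : γ → ℝ → ℝ := fun c β => ((Th.filter fun z => v z = c ∧ b z = β).card : ℝ)
  have hN : ∀ p, ((cls (cls Th v p) b p).card : ℝ) = N (v p) (b p) := by
    intro p
    simp only [N, cls, filter_filter]
  have key : ∑ p ∈ Th'', ((cls Th'' b p).card : ℝ) * (cls Th v p).card / (Th.card * N (v p) (b p)) ≤
      Th''.card := by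
    have e1 : ∀ p, ((cls Th'' b p).card : ℝ) * (cls Th v p).card / (Th.card * N (v p) (b p)) =
        ∑ q ∈ Th'', ∑ z ∈ Th,
          if v p = v z ∧ b p = b q then 1 / (Th.card * N (v z) (b q)) else 0 := by
      intro p
      simp only [cls, card_filter]
      push_cast
      rw [sum_mul_sum, sum_div]
      refine sum_congr rfl fun q _ => ?_
      rw [sum_div]
      refine sum_congr rfl fun z _ => ?_
      by_cases h1 : b q = b p <;> by_cases h2 : v z = v p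
      · simp [h1, h2]
      · simp [h1, h2, Ne.symm h2]
      · simp [h1, h2, Ne.symm h1]
      · simp [h1, h2, Ne.symm h1]
    simp only [e1]
    rw [sum_comm]
    refine (sum_le_card_nsmul _ _ (1 : ℝ) fun q _ => ?_).trans_eq (by simp)
    rw [sum_comm]
    refine (sum_le_card_nsmul _ _ (1 / Th.card : ℝ) fun z _ => ?_).trans_eq ?_
    · rw [← sum_filter, sum_const, nsmul_eq_mul]
      have h1 : ((Th''.filter fun p => v p = v z ∧ b p = b q).card : ℝ) ≤ N (v z) (b q) :=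
        Nat.cast_le.2 (card_le_card (filter_subset_filter _ h))
      rcases (show 0 ≤ N (v z) (b q) from Nat.cast_nonneg _).eq_or_lt with h0 | h0
      · rw [← h0]
        simp
      · calc _ ≤ N (v z) (b q) * (1 / (Th.card * N (v z) (b q))) := by gcongr
          _ = 1 / Th.card := by field_simp
    · rw [nsmul_eq_mul]
      field_simp
  have e2 : ∀ p ∈ Th'', Real.log (((cls Th v p).card : ℝ) / (cls (cls Th v p) b p).card) ≤
      Real.log ((Th.card : ℝ) / (cls Th'' b p).card) +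
        (((cls Th'' b p).card : ℝ) * (cls Th v p).card / (Th.card * N (v p) (b p)) - 1) := by
    intro p hp
    have a1 : (0 : ℝ) < (cls Th'' b p).card :=
      Nat.cast_pos.2 (card_pos.2 ⟨p, mem_filter.2 ⟨hp, rfl⟩⟩)
    have a2 : (0 : ℝ) < (cls Th v p).card :=
      Nat.cast_pos.2 (card_pos.2 ⟨p, mem_filter.2 ⟨h hp, rfl⟩⟩)
    have a3 : 0 < N (v p) (b p) :=
      Nat.cast_pos.2 (card_pos.2 ⟨p, mem_filter.2 ⟨h hp, rfl, rfl⟩⟩)
    have a4 := Real.log_le_sub_one_of_pos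
      (show 0 < ((cls Th'' b p).card : ℝ) * (cls Th v p).card / (Th.card * N (v p) (b p)) by
        positivity)
    rw [Real.log_div (by positivity) (by positivity), Real.log_mul a1.ne' a2.ne',
      Real.log_mul hTh.ne' a3.ne'] at a4
    rw [hN, Real.log_div a2.ne' a3.ne', Real.log_div hTh.ne' a1.ne']
    linarith
  refine (sum_le_sum e2).trans ?_
  rw [sum_add_distrib, sum_sub_distrib]
  simp only [sum_const, nsmul_eq_mul, mul_one]
  linarith

/-- one coordinate of `refine_Theta` -/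
theorem ath_coord (hS : SysA A₀ ℓ T s M Q D B) {A A'' : Finset α} (hA : A ⊆ A₀) (h : A'' ⊆ A)
    (j : Fin 3) {β β' γ : Type} (u : α → β) (u' : α → β') (v : α → γ) (b : α → ℝ) (R : ℝ)
    (hvu : ∀ p q, v q = v p → u q = u p) (hu' : ∀ p q, u' q = u' p ↔ u q = u p ∧ b q = b p)
    (hR : ∀ p q, u q = u p → nrm ℓ p q ≤ R) (hsep : Sep A'' b (ℓ j) (2 * M * R))
    (hL : ∀ p ∈ A, 0 ≤ LL T s Q j (cls A u p)) :
    ∑ p ∈ A'', LL T s Q j (cls A'' u' p) +
        ∑ p ∈ A'', Real.log (((cls A v p).card : ℝ) / (cls (cls A v p) b p).card) ≤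
      ∑ p ∈ A, LL T s Q j (cls A u p) + 3 * ((A.card : ℝ) - A''.card) := by
  have m1 : ∀ p ∈ A, u p ∈ A.image u := fun p hp => mem_image_of_mem u hp
  have m2 : ∀ p ∈ A'', u p ∈ A.image u := fun p hp => m1 p (h hp)
  have c1 : (A.card : ℝ) = ∑ t ∈ A.image u, ((A.filter fun p => u p = t).card : ℝ) := by
    exact_mod_cast card_eq_sum_card_fiberwise m1
  have c2' : (A''.card : ℝ) = ∑ t ∈ A.image u, ((A''.filter fun p => u p = t).card : ℝ) := by
    exact_mod_cast card_eq_sum_card_fiberwise m2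
  rw [← sum_fiberwise_of_maps_to m2, ← sum_fiberwise_of_maps_to m2 (f := fun p =>
      Real.log (((cls A v p).card : ℝ) / (cls (cls A v p) b p).card)),
    ← sum_fiberwise_of_maps_to m1, c1, c2', ← sum_sub_distrib, mul_sum, ← sum_add_distrib,
    ← sum_add_distrib]
  refine sum_le_sum fun t ht => ?_
  set Th := A.filter fun p => u p = t with hTh
  set Th'' := A''.filter fun p => u p = t with hTh''
  have hsub : Th'' ⊆ Th := filter_subset_filter _ h
  have hd := thin_drift hS ((filter_subset _ _).trans hA) hsub j b R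
    (fun p hp q hq => hR p q ((mem_filter.1 hq).2.trans (mem_filter.1 hp).2.symm))
    (hsep.mono (filter_subset _ _) le_rfl)
  have hl := ath_logsum hsub v b
  have e1 : ∑ p ∈ Th'', LL T s Q j (cls A'' u' p) = ∑ p ∈ Th'', LL T s Q j (cls Th'' b p) := by
    refine sum_congr rfl fun p hp => ?_
    congr 1
    ext q
    simp only [cls, hTh'', mem_filter, hu', (mem_filter.1 hp).2, and_assoc]
  have e2 : ∑ p ∈ Th'', Real.log (((cls A v p).card : ℝ) / (cls (cls A v p) b p).card) =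
      ∑ p ∈ Th'', Real.log (((cls Th v p).card : ℝ) / (cls (cls Th v p) b p).card) := by
    refine sum_congr rfl fun p hp => ?_
    have : cls A v p = cls Th v p := by
      ext q
      simp only [cls, hTh, mem_filter]
      exact ⟨fun hq => ⟨⟨hq.1, (hvu p q hq.2).trans (mem_filter.1 hp).2⟩, hq.2⟩,
        fun hq => ⟨hq.1.1, hq.2⟩⟩
    rw [this]
  have e0 : ∀ p ∈ Th, cls A u p = Th := by
    intro p hp
    simp only [cls, hTh, (mem_filter.1 hp).2]
  have e3 : ∑ p ∈ Th, LL T s Q j (cls A u p) = Th.card * LL T s Q j Th := by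
    rw [sum_congr rfl fun p hp => by rw [e0 p hp], sum_const, nsmul_eq_mul]
  have e4 : 0 ≤ LL T s Q j Th := by
    obtain ⟨p, hp, hpt⟩ := mem_image.1 ht
    rw [← e0 p (mem_filter.2 ⟨hp, hpt⟩)]
    exact hL p hp
  have e5 : (Th''.card : ℝ) * LL T s Q j Th ≤ Th.card * LL T s Q j Th :=
    mul_le_mul_of_nonneg_right (Nat.cast_le.2 (card_le_card hsub)) e4
  rw [e1, e2, e3]
  linarith

theorem ath_LL_nonneg (hS : SysA A₀ ℓ T s M Q D B) (hD : 1 ≤ D) {A : Finset α}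
    {g : Fin 3 → ℝ → ℝ} (hA : A ⊆ A₀) (hQ : ∀ p ∈ A, Q ≤ D * (c3 A ℓ g p).card) {β : Type}
    (u : α → β) (hu : ∀ p q, (∀ i, lab ℓ g i q = lab ℓ g i p) → u q = u p) (j : Fin 3) :
    ∀ p ∈ A, 0 ≤ LL T s Q j (cls A u p) := by
  intro p hp
  refine LL_nonneg hS hD ((filter_subset _ _).trans hA) ((hQ p hp).trans ?_) j
  refine mul_le_mul_of_nonneg_left (Nat.cast_le.2 (card_le_card fun q hq => ?_)) (by linarith)
  exact mem_filter.2 ⟨(mem_filter.1 hq).1, hu p q (mem_filter.1 hq).2⟩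

theorem refine_Theta (hS : SysA A₀ ℓ T s M Q D B) (hD : 1 ≤ D) {A A'' : Finset α} {g g' : Fin 3 → ℝ → ℝ} {r r' w : ℝ}
    (hA : A ⊆ A₀) (h : A'' ⊆ A) (hg : ∀ i, Grid r (g i)) (hg' : ∀ i, Grid r' (g' i))
    (href : ∀ i x y, g' i x = g' i y → g i x = g i y) (hw : 0 ≤ w)
    (htr : ∀ p ∈ A'', ∀ i, ¬ Near (g' i) w (ℓ i p))
    {rb : ℝ} {gb : Fin 3 → ℝ → ℝ} (hb : Bas r rb g gb) (hM : 4 * M * rb ≤ w)
    (hQ : ∀ p ∈ A, Q ≤ D * (c3 A ℓ g p).card) :
    Theta ℓ T s Q A'' gb g' + ∑ p ∈ A'', (hh ℓ A g g' 0 p + hh ℓ A g g' 1 p) ≤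
      Theta ℓ T s Q A gb g + 6 * ((A.card : ℝ) - A''.card) := by
  have hsep : ∀ j, Sep A'' (lab ℓ g' j) (ℓ j) (2 * M * (2 * rb)) := fun j =>
    ((hg' j).sep hw A'' (ℓ j) fun p hp => htr p hp j).mono subset_rfl (by linarith)
  have h0 := ath_coord hS hA h 0 (fun q => (lab ℓ g 0 q, lab ℓ gb 1 q))
    (fun q => (lab ℓ g' 0 q, lab ℓ gb 1 q)) (fun q => (lab ℓ g 0 q, lab ℓ g 1 q)) (lab ℓ g' 0)
    (2 * rb)
    (fun p q hq => Prod.ext (Prod.ext_iff.1 hq).1 (hb.ref 1 _ _ (Prod.ext_iff.1 hq).2))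
    (fun p q => by
      simp only [Prod.mk.injEq]
      exact ⟨fun hq => ⟨⟨href 0 _ _ hq.1, hq.2⟩, hq.1⟩, fun hq => ⟨hq.2, hq.1.2⟩⟩)
    (fun p q hq => nrm_le_of_two hS.sum0 (show (0 : Fin 3) ≠ 1 by decide)
      (((hg 0).abs_lt (Prod.ext_iff.1 hq).1.symm).le.trans hb.le)
      ((hb.grid 1).abs_lt (Prod.ext_iff.1 hq).2.symm).le)
    (hsep 0)
    (ath_LL_nonneg hS hD hA hQ _ (fun p q hq => Prod.ext (hq 0) (hb.ref 1 _ _ (hq 1))) 0)
  have h1 := ath_coord hS hA h 1 (fun q => (lab ℓ gb 0 q, lab ℓ g 1 q))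
    (fun q => (lab ℓ gb 0 q, lab ℓ g' 1 q)) (fun q => (lab ℓ g 0 q, lab ℓ g 1 q)) (lab ℓ g' 1)
    (2 * rb)
    (fun p q hq => Prod.ext (hb.ref 0 _ _ (Prod.ext_iff.1 hq).1) (Prod.ext_iff.1 hq).2)
    (fun p q => by
      simp only [Prod.mk.injEq]
      exact ⟨fun hq => ⟨⟨hq.1, href 1 _ _ hq.2⟩, hq.2⟩, fun hq => ⟨hq.1.1, hq.2⟩⟩)
    (fun p q hq => nrm_le_of_two hS.sum0 (show (0 : Fin 3) ≠ 1 by decide)
      ((hb.grid 0).abs_lt (Prod.ext_iff.1 hq).1.symm).le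
      (((hg 1).abs_lt (Prod.ext_iff.1 hq).2.symm).le.trans hb.le))
    (hsep 1)
    (ath_LL_nonneg hS hD hA hQ _ (fun p q hq => Prod.ext (hb.ref 0 _ _ (hq 0)) (hq 1)) 1)
  simp only [Theta, hh, c2_eq_cls, sum_add_distrib]
  linarith

theorem Theta_nonneg (hS : SysA A₀ ℓ T s M Q D B) (hD : 1 ≤ D) {A : Finset α}
    {g gb : Fin 3 → ℝ → ℝ} (hA : A ⊆ A₀) (href : ∀ i x y, g i x = g i y → gb i x = gb i y)
    (hQ : ∀ p ∈ A, Q ≤ D * (c3 A ℓ g p).card) : 0 ≤ Theta ℓ T s Q A gb g := by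
  refine sum_nonneg fun p hp => add_nonneg ?_ ?_
  · exact ath_LL_nonneg hS hD hA hQ _
      (fun p q hq => Prod.ext (hq 0) (href 1 _ _ (hq 1))) 0 p hp
  · exact ath_LL_nonneg hS hD hA hQ _
      (fun p q hq => Prod.ext (href 0 _ _ (hq 0)) (hq 1)) 1 p hp

theorem Theta_self (A : Finset α) (g : Fin 3 → ℝ → ℝ) :
    Theta ℓ T s Q A g g = ∑ p ∈ A, PP T s Q 0 1 (c2 A ℓ g 0 1 p) := by
  simp only [Theta, PP, c2_eq_cls]

end
end Crest.Agent.R51
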