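import Crest.Agent.R51.ACleanup
import Crest.Agent.R51.ATheta
import Crest.Agent.R51.AOption
import Crest.Agent.R51.APar

set_option autoImplicit false
open Classical Finset

namespace Crest.Agent.R51
noncomputable section

variable {α : Type} {A₀ : Finset α} {ℓ : Fin 3 → α → ℝ} {T : Fin 3 → Finset α → ℝ}
  {s : Finset α → ℝ} {M Q D B : ℝ}

variable {κ lam lam₂ κ' m₁ m₅ ε₁ c₁ c₂ c θ ϑ θ₅ θl Ξ β σ₁ : ℝ} {ng n₀ N₁ : ℕ}

theorem step_opt (hS : SysA A₀ ℓ T s M Q D B)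
    (hP : ParA κ lam lam₂ κ' m₁ m₅ ε₁ c₁ c₂ c θ ϑ θ₅ θl Ξ β ng n₀ N₁)
    (hZ : SizA Q D B lam ϑ θl σ₁) (hM : M ≤ Real.exp (-κ)) {n : ℕ}
    (hIH : IH A₀ T s Q D lam c σ₁ n) {A : Finset α} {r rb : ℝ} {g gb : Fin 3 → ℝ → ℝ}
    (hI : Inv A₀ ℓ θ σ₁ n A r g) (hB : Bas r rb g gb) (r' : ℝ) (o : Fin 3 → ℝ) (hr' : 0 < r')
    (hrr : r' ≤ r) (hΞ : r ≤ Ξ * r') (hmin : rb * Real.exp (-κ') ≤ r')
    (hk : (A.card : ℝ) - (surv ℓ A g (rfn3 g r' o) (θ * r') ϑ).card ≤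
      (27 * θ + (Ξ + 2) ^ 3 * ϑ) * A.card) (ε : ℝ) (hε : 0 ≤ ε) (A' : Finset α)
    (hA' : A' = rem ℓ (surv ℓ A g (rfn3 g r' o) (θ * r') ϑ) (rfn3 g r' o) m₁ σ₁) :
    Inv A₀ ℓ θ σ₁ n A' r' (rfn3 g r' o) ∧ Bas r' rb (rfn3 g r' o) gb ∧
    F1 ℓ T s Q lam c σ₁ c₁ c₂ β κ' ng A' r' (rfn3 g r' o) rb gb +
      (ε ^ 2 / 64 * DefC ℓ A g (rfn3 g r' o) ε +
        c₁ * (∑ p ∈ A', (hh ℓ A g (rfn3 g r' o) 0 p + hh ℓ A g (rfn3 g r' o) 1 p) -
          49 / 25 * Real.log (r / r') * A'.card +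
          4002 * Real.log KK * ((A.card : ℝ) - A'.card) +
          2000 * Real.log KK * (varpi ℓ ng A g r - varpi ℓ ng A (rfn3 g r' o) r') - A.card)) ≤
      F1 ℓ T s Q lam c σ₁ c₁ c₂ β κ' ng A r g rb gb := by
  set g' := rfn3 g r' o with hg'def
  set A'' := surv ℓ A g g' (θ * r') ϑ with hA''
  have hr : 0 < r := hI.rpos
  have hrb : 0 < rb := lt_of_lt_of_le hr hB.le
  have hg' : ∀ i, Grid r' (g' i) := fun i => grid_rfn (hI.grid i) hr' (o i)
  have href : ∀ i x y, g' i x = g' i y → g i x = g i y := fun i x y h =>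
    ((rfn_eq_iff (hI.grid i) hr' (o i) x y).1 h).1
  have hw : 0 ≤ θ * r' := (mul_pos hP.θpos hr').le
  have hsub'' : A'' ⊆ A := surv_sub A g g' _ _
  have hsub' : A' ⊆ A'' := by rw [hA']; exact rem_sub _ _ _ _
  have hsubA : A' ⊆ A := hsub'.trans hsub''
  have htr'' : ∀ p ∈ A'', ∀ i, ¬ Near (g' i) (θ * r') (ℓ i p) := fun p hp i => surv_trim hp i
  have htr' : ∀ p ∈ A', ∀ i, ¬ Near (g' i) (θ * r') (ℓ i p) := fun p hp i => htr'' p (hsub' hp) i
  have hek : 0 < Real.exp (-κ) := Real.exp_pos _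
  have hM1 : 4 * M * r ≤ θ * r' := by
    calc 4 * M * r ≤ 4 * Real.exp (-κ) * r := by gcongr
      _ ≤ 4 * Real.exp (-κ) * (Ξ * r') := by gcongr
      _ = (4 * Real.exp (-κ) * Ξ) * r' := by ring
      _ ≤ θ * r' := by gcongr; exact hP.pair
  have hM2 : 4 * M * rb ≤ θ * r' := by
    have h1 : rb ≤ r' * Real.exp κ' := by
      have h2 : rb = rb * Real.exp (-κ') * Real.exp κ' := by
        rw [mul_assoc, ← Real.exp_add]; simp
      rw [h2]
      gcongr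
    calc 4 * M * rb ≤ 4 * Real.exp (-κ) * rb := by gcongr
      _ ≤ 4 * Real.exp (-κ) * (r' * Real.exp κ') := by gcongr
      _ = (4 * Real.exp (-κ) * Real.exp κ') * r' := by ring
      _ ≤ θ * r' := by gcongr; exact hP.thin
  have hD0 : 0 ≤ D := by linarith [hZ.Dge]
  have hσ : 0 < σ₁ := by linarith [hZ.σge]
  have hϑ := hP.ϑpos
  have hϑσ : 0 < ϑ * σ₁ := mul_pos hϑ hσ
  have hQ : ∀ p ∈ A, Q ≤ D * (c3 A ℓ g p).card := by
    intro p hp
    refine hZ.h1.trans (mul_le_mul_of_nonneg_left ?_ hD0)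
    have h1 := hI.big p hp
    have h2 : ϑ * σ₁ ≤ σ₁ := by nlinarith [hP.ϑle]
    linarith
  have hlow : ∀ p ∈ A'', ϑ * σ₁ ≤ (c3 A'' ℓ g' p).card := by
    intro p hp
    have h1 := (surv_c3 href hp).2.1
    have h2 := hI.big p (hsub'' hp)
    calc ϑ * σ₁ ≤ ϑ * (c3 A ℓ g p).card := by gcongr
      _ ≤ _ := h1
  have hQ'' : ∀ p ∈ A'', Q ≤ D * (c3 A'' ℓ g' p).card := by
    intro p hp
    refine hZ.h1.trans (mul_le_mul_of_nonneg_left ?_ hD0)
    have := hlow p hp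
    linarith
  have hn'' : ∀ p ∈ A'', (c3 A'' ℓ g' p).card < n := fun p hp =>
    lt_of_le_of_lt (card_le_card (surv_c3 href hp).2.2) (hI.small p (hsub'' hp))
  refine ⟨⟨hsubA.trans hI.sub, hr', hg', htr', ?_, ?_⟩,
    ⟨hrr.trans hB.le, hB.grid, fun i x y h => hB.ref i x y (href i x y h)⟩, ?_⟩
  · intro p hp
    rw [hA'] at hp ⊢
    rw [(rem_c3 hp).1]
    exact (rem_c3 hp).2
  · intro p hp
    have hp'' := hsub' hp
    rw [hA'] at hp ⊢
    rw [(rem_c3 hp).1]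
    exact hn'' p hp''
  have hlam := hP.lamge
  have e1 := cleanup hS hZ.Dge (lam := lam) (c := c) (σ₁ := σ₁) (m₁ := m₁) (n := n) (by linarith)
    hP.cpos.le hσ hP.m₁pos.le hP.m₁le hIH (hsub''.trans hI.sub) hQ'' hn''
  rw [← hA'] at e1
  have e2 := refine_Phi hS hZ.Dge hI.sub hsub'' hI.grid hg' href hw htr'' hM1 hQ ε hε
  have e4 := refine_Theta hS hZ.Dge hI.sub hsubA hI.grid hg' href hw htr' hB hM2 hQ
  have e7 : varpi ℓ ng A' g' r' ≤ varpi ℓ ng A g' r' := varpi_mono hsubA ng r'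
  have e8 := refine_W hS hI.sub hsubA hI.grid hg' href hw htr' hM1
  have hlogϑ : 0 ≤ Real.log (1 / ϑ) := by
    apply Real.log_nonneg
    rw [le_div_iff₀ hϑ]
    linarith [hP.ϑle]
  have hN'' : (A''.card : ℝ) ≤ A.card := by exact_mod_cast card_le_card hsub''
  have hN' : (A'.card : ℝ) ≤ A''.card := by exact_mod_cast card_le_card hsub'
  have e3 : ∑ p ∈ A, psi lam c σ₁ (c3 A ℓ g p).card ≤
      ∑ p ∈ A'', psi lam c σ₁ (c3 A'' ℓ g' p).card + c * Real.log (1 / ϑ) * A.card +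
        (lam - 12) * ((A.card : ℝ) - A''.card) := by
    rw [← sum_sdiff hsub'']
    have h1 : ∑ p ∈ A \ A'', psi lam c σ₁ (c3 A ℓ g p).card ≤
        (lam - 12) * ((A.card : ℝ) - A''.card) := by
      calc ∑ p ∈ A \ A'', psi lam c σ₁ (c3 A ℓ g p).card ≤ ∑ p ∈ A \ A'', (lam - 12) :=
            sum_le_sum fun p _ => psi_le _ _ _ _
        _ = (lam - 12) * ((A.card : ℝ) - A''.card) := by
            rw [sum_const, nsmul_eq_mul, card_sdiff_of_subset hsub'',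
              Nat.cast_sub (card_le_card hsub''), mul_comm]
    have h2 : ∑ p ∈ A'', psi lam c σ₁ (c3 A ℓ g p).card ≤
        ∑ p ∈ A'', (psi lam c σ₁ (c3 A'' ℓ g' p).card + c * Real.log (1 / ϑ)) := by
      refine sum_le_sum fun p hp => ?_
      have hy : (0 : ℝ) < (c3 A'' ℓ g' p).card := lt_of_lt_of_le hϑσ (hlow p hp)
      have hyx : ((c3 A'' ℓ g' p).card : ℝ) ≤ (c3 A ℓ g p).card := by
        exact_mod_cast card_le_card (surv_c3 href hp).2.2
      have hx : (0 : ℝ) < (c3 A ℓ g p).card := lt_of_lt_of_le hy hyx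
      have h3 := psi_sub_le (lam := lam) hP.cpos.le hσ hy hyx
      have h4 : Real.log (((c3 A ℓ g p).card : ℝ) / (c3 A'' ℓ g' p).card) ≤ Real.log (1 / ϑ) := by
        apply Real.log_le_log (div_pos hx hy)
        rw [div_le_div_iff₀ hy hϑ]
        have := (surv_c3 href hp).2.1
        linarith
      have h5 := mul_le_mul_of_nonneg_left h4 hP.cpos.le
      linarith
    rw [sum_add_distrib, sum_const, nsmul_eq_mul] at h2
    have h6 : (A''.card : ℝ) * (c * Real.log (1 / ϑ)) ≤ A.card * (c * Real.log (1 / ϑ)) :=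
      mul_le_mul_of_nonneg_right hN'' (mul_nonneg hP.cpos.le hlogϑ)
    linarith
  have hN0 : (0 : ℝ) ≤ A.card := Nat.cast_nonneg _
  have ekill : c * Real.log (1 / ϑ) * A.card + (lam + 3) * ((A.card : ℝ) - A''.card) ≤
      c₁ * A.card := by
    have h1 := mul_le_mul_of_nonneg_right hP.kill hN0
    have h2 := mul_le_mul_of_nonneg_left hk (show 0 ≤ lam + 3 by linarith)
    linarith
  have hlog1 : Real.log (r' / rb) = Real.log (r / rb) - Real.log (r / r') := by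
    rw [Real.log_div hr'.ne' hrb.ne', Real.log_div hr.ne' hrb.ne', Real.log_div hr.ne' hr'.ne']
    ring
  have hlog2 : Real.log (r / rb) ≤ 0 :=
    Real.log_nonpos (div_pos hr hrb).le ((div_le_one hrb).2 hB.le)
  have hc₁ := hP.c₁pos
  have hd : (0 : ℝ) ≤ (A.card : ℝ) - A'.card := by linarith
  have hβ : c₁ * (6 + 2 * κ' + 4002 * Real.log KK) + 3 * lam * m₁ ≤ c₁ * β := by
    have h1 := mul_le_mul_of_nonneg_left hP.βge hc₁.le
    have h2 : c₁ * (3 * lam * m₁ / c₁) = 3 * lam * m₁ := by field_simp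
    linarith
  have hβ' := mul_le_mul_of_nonneg_right hβ hd
  have hlm : 0 ≤ 3 * lam * m₁ := by have := hP.m₁pos; positivity
  have e1' : 3 * lam * m₁ * ((A''.card : ℝ) - A'.card) ≤ 3 * lam * m₁ * ((A.card : ℝ) - A'.card) :=
    mul_le_mul_of_nonneg_left (by linarith) hlm
  have e4' := mul_le_mul_of_nonneg_left e4 hc₁.le
  have hK : 0 ≤ Real.log KK := by linarith [one_le_log_KK]
  have e7' := mul_le_mul_of_nonneg_left e7 (show 0 ≤ c₁ * (2000 * Real.log KK) by positivity)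
  have e8' := mul_le_mul_of_nonneg_left e8 hP.c₂pos.le
  have e5 : c₁ * (49 / 25 * (Real.log (r / rb) + κ') * ((A.card : ℝ) - A'.card)) ≤
      c₁ * (2 * κ' * ((A.card : ℝ) - A'.card)) := by
    refine mul_le_mul_of_nonneg_left (mul_le_mul_of_nonneg_right ?_ hd) hc₁.le
    linarith [hP.κ'pos]
  unfold F1
  rw [hlog1]
  linarith

end
end Crest.Agent.R51
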