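import Crest.Agent.R51.GTools

set_option autoImplicit false
open Classical Finset

namespace Crest.Agent.R51
noncomputable section

variable {α ι : Type} {A₀ : Finset α} {X Y : α → ℝ} {Ta Tc s : Finset α → ℝ} {𝓜 : Finset ι}
  {Tm : ι → Finset α → ℝ} {rich : ι → Finset α} {lw up : ι → ℝ} {μ H Q Qm D B : ℝ}

theorem bb_floor {n a σ Q D : ℝ} (hn : 0 ≤ n) (hD : 1 ≤ D) (hQ : Q ≤ D * n) (ha : n ≤ a)
    (hσ : n ≤ σ) (h : D * n ≤ a ∨ D * n ≤ σ ∨ Q * n ^ 2 ≤ a ^ 2 * σ) : Q * n ^ 2 ≤ a ^ 2 * σ := by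
  have hDn : n ≤ D * n := le_mul_of_one_le_left hn hD
  have h0 : Q * n ^ 2 ≤ D * n * n ^ 2 := mul_le_mul_of_nonneg_right hQ (sq_nonneg n)
  rcases h with h | h | h
  · calc Q * n ^ 2 ≤ D * n * n * n := by nlinarith
      _ ≤ a * a * σ := by
        have ha0 : 0 ≤ a := hn.trans ha
        exact mul_le_mul (mul_le_mul h ha hn ha0) hσ hn (mul_nonneg ha0 ha0)
      _ = a ^ 2 * σ := by ring
  · calc Q * n ^ 2 ≤ n ^ 2 * (D * n) := by nlinarith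
      _ ≤ a ^ 2 * σ := mul_le_mul (pow_le_pow_left₀ hn ha 2) h (hn.trans hDn) (sq_nonneg a)
  · exact h

theorem bb_cs {a₁ a₂ s₁ s₂ k : ℝ} (ha₁ : 0 ≤ a₁) (ha₂ : 0 ≤ a₂) (hs₁ : 0 ≤ s₁) (hs₂ : 0 ≤ s₂)
    (hk : 0 ≤ k) :
    Real.sqrt (a₁ * s₁ * k) + Real.sqrt (a₂ * s₂ * k) ≤ Real.sqrt ((a₁ + a₂) * (s₁ + s₂) * k) := by
  have hsq : ∀ x : ℝ, 0 ≤ x → ∃ p : ℝ, 0 ≤ p ∧ x = p ^ 2 := fun x hx =>
    ⟨Real.sqrt x, Real.sqrt_nonneg x, (Real.sq_sqrt hx).symm⟩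
  obtain ⟨p₁, hp₁, rfl⟩ := hsq a₁ ha₁
  obtain ⟨p₂, hp₂, rfl⟩ := hsq a₂ ha₂
  obtain ⟨q₁, hq₁, rfl⟩ := hsq s₁ hs₁
  obtain ⟨q₂, hq₂, rfl⟩ := hsq s₂ hs₂
  obtain ⟨t, ht, rfl⟩ := hsq k hk
  rw [show p₁ ^ 2 * q₁ ^ 2 * t ^ 2 = (p₁ * q₁ * t) ^ 2 by ring,
    show p₂ ^ 2 * q₂ ^ 2 * t ^ 2 = (p₂ * q₂ * t) ^ 2 by ring,
    Real.sqrt_sq (by positivity), Real.sqrt_sq (by positivity)]
  refine Real.le_sqrt_of_sq_le ?_
  nlinarith [sq_nonneg ((p₁ * q₂ - p₂ * q₁) * t)]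

theorem bb_add {a c σ a₁ c₁ σ₁ a₂ c₂ σ₂ Q : ℝ} (hQ : 0 < Q) (ha₁ : 0 ≤ a₁) (ha₂ : 0 ≤ a₂)
    (hσ₁ : 0 ≤ σ₁) (hσ₂ : 0 ≤ σ₂) (hc : 0 ≤ c) (hc₁ : c₁ ≤ c) (hc₂ : c₂ ≤ c) (ha : a₁ + a₂ ≤ a)
    (hσ : σ₁ + σ₂ ≤ σ) :
    Real.sqrt (a₁ * c₁ * σ₁ / Q) + Real.sqrt (a₂ * c₂ * σ₂ / Q) ≤ Real.sqrt (a * c * σ / Q) := by
  have hk : 0 ≤ c / Q := div_nonneg hc hQ.le
  have h1 : ∀ a' c' σ' : ℝ, 0 ≤ a' → 0 ≤ σ' → c' ≤ c →
      Real.sqrt (a' * c' * σ' / Q) ≤ Real.sqrt (a' * σ' * (c / Q)) := fun a' c' σ' h1 h2 h3 => by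
    refine Real.sqrt_le_sqrt ?_
    calc a' * c' * σ' / Q = a' * σ' * (c' / Q) := by ring
      _ ≤ _ := mul_le_mul_of_nonneg_left (div_le_div_of_nonneg_right h3 hQ.le) (mul_nonneg h1 h2)
  refine (add_le_add (h1 _ _ _ ha₁ hσ₁ hc₁) (h1 _ _ _ ha₂ hσ₂ hc₂)).trans
    ((bb_cs ha₁ ha₂ hσ₁ hσ₂ hk).trans (Real.sqrt_le_sqrt ?_))
  calc (a₁ + a₂) * (σ₁ + σ₂) * (c / Q) ≤ a * σ * (c / Q) :=
        mul_le_mul_of_nonneg_right (mul_le_mul ha hσ (by linarith) (by linarith)) hk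
    _ = _ := by ring

theorem bb_tiny {a c σ a' c' σ' aw σw Q D B Λ n x w : ℝ} (hQ : 0 < Q) (hn : 0 < n) (hΛ : 1 ≤ Λ)
    (hD : 1 ≤ D) (hx : 0 ≤ x) (ha' : 0 ≤ a') (hσ' : 0 ≤ σ') (haw : 0 ≤ aw) (hσw : 0 ≤ σw)
    (hc : 0 ≤ c) (hc' : c' ≤ c) (ha : a' + aw ≤ a) (hσ : σ' + σw ≤ σ) (hna : n ≤ a) (hnσ : n ≤ σ)
    (haB : a ≤ B) (hσB : σ ≤ B) (hB : 32 * Λ * B ≤ D * n) (hW : n ≤ Real.sqrt (a * c * σ / Q))
    (hg : a ^ 2 * σ ≤ Λ ^ 4 * Q * n ^ 2) (hsmall : x ≤ 2 * mB Λ * n) (hw : x ≤ 16 * w)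
    (hfl : D * w ≤ aw ∨ D * w ≤ σw ∨ Q * w ^ 2 ≤ aw ^ 2 * σw) :
    Real.sqrt (a' * c' * σ' / Q) + Λ * x ≤ Real.sqrt (a * c * σ / Q) := by
  have ha0 : 0 < a := hn.trans_le hna
  have hσ0 : 0 < σ := hn.trans_le hnσ
  obtain ⟨τ, hτ⟩ : ∃ τ, τ = aw / a := ⟨_, rfl⟩
  obtain ⟨ς, hς⟩ : ∃ ς, ς = σw / σ := ⟨_, rfl⟩
  have hτa : aw = τ * a := by rw [hτ]; field_simp
  have hςσ : σw = ς * σ := by rw [hς]; field_simp
  have hτ0 : 0 ≤ τ := by rw [hτ]; positivity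
  have hς0 : 0 ≤ ς := by rw [hς]; positivity
  have hτ1 : τ ≤ 1 := by rw [hτ, div_le_one ha0]; linarith
  have hς1 : ς ≤ 1 := by rw [hς, div_le_one hσ0]; linarith
  obtain ⟨W, hWe⟩ : ∃ W, W = Real.sqrt (a * c * σ / Q) := ⟨_, rfl⟩
  have hW2 : W ^ 2 = a * c * σ / Q := by rw [hWe]; exact Real.sq_sqrt (by positivity)
  rw [← hWe] at hW ⊢
  have hW0 : 0 ≤ W := hn.le.trans hW
  -- the loss of `W`
  have h1 : Real.sqrt (a' * c' * σ' / Q) ≤ W * (1 - (τ + ς) / 2) := by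
    refine Real.sqrt_le_iff.2 ⟨mul_nonneg hW0 (by linarith), ?_⟩
    have e1 : a' ≤ (1 - τ) * a := by linarith
    have e2 : σ' ≤ (1 - ς) * σ := by linarith
    have e3 : a' * c' * σ' ≤ (1 - τ) * a * c * ((1 - ς) * σ) :=
      mul_le_mul ((mul_le_mul_of_nonneg_left hc' ha').trans (mul_le_mul_of_nonneg_right e1 hc))
        e2 hσ' (mul_nonneg (mul_nonneg (by linarith) ha0.le) hc)
    have e4 : (1 - τ) * (1 - ς) ≤ (1 - (τ + ς) / 2) ^ 2 := by nlinarith [sq_nonneg (τ - ς)]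
    calc a' * c' * σ' / Q ≤ (1 - τ) * a * c * ((1 - ς) * σ) / Q :=
          div_le_div_of_nonneg_right e3 hQ.le
      _ = W ^ 2 * ((1 - τ) * (1 - ς)) := by rw [hW2]; ring
      _ ≤ W ^ 2 * (1 - (τ + ς) / 2) ^ 2 := mul_le_mul_of_nonneg_left e4 (sq_nonneg W)
      _ = _ := by ring
  -- the gain
  have hlin : ∀ t b : ℝ, 0 ≤ t → 0 < b → b ≤ B → D * w ≤ t * b → 2 * Λ * x ≤ n * t := by
    intro t b ht hb hbB h
    have hB0 : 0 < B := hb.trans_le hbB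
    have e1 : D * x ≤ 16 * (t * B) := by
      have := mul_le_mul_of_nonneg_left hw (by linarith : 0 ≤ D)
      have := mul_le_mul_of_nonneg_left hbB ht
      linarith
    have e2 : 32 * Λ * B * x ≤ D * n * x := mul_le_mul_of_nonneg_right hB hx
    have e3 : n * (D * x) ≤ n * (16 * (t * B)) := mul_le_mul_of_nonneg_left e1 hn.le
    refine le_of_mul_le_mul_left ?_ (by positivity : 0 < 16 * B)
    nlinarith
  have h2 : 2 * Λ * x ≤ n * (τ + ς) := by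
    rcases hfl with h | h | h
    · have := hlin τ a hτ0 ha0 haB (hτa ▸ h)
      nlinarith [mul_nonneg hn.le hς0]
    · have := hlin ς σ hς0 hσ0 hσB (hςσ ▸ h)
      nlinarith [mul_nonneg hn.le hτ0]
    · by_contra hcon
      push Not at hcon
      have hx0 : 0 < x := by
        by_contra h0
        have : x = 0 := le_antisymm (not_lt.1 h0) hx
        rw [this, mul_zero] at hcon
        exact absurd hcon (not_lt.2 (by positivity))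
      have hΛ0 : 0 < Λ := by linarith
      -- `x² ≤ 256 Λ⁴ n² τ² ς`
      have e1 : x ^ 2 ≤ 256 * w ^ 2 := by nlinarith
      have e2 : Q * w ^ 2 ≤ τ ^ 2 * ς * (Λ ^ 4 * Q * n ^ 2) := by
        calc Q * w ^ 2 ≤ aw ^ 2 * σw := h
          _ = τ ^ 2 * ς * (a ^ 2 * σ) := by rw [hτa, hςσ]; ring
          _ ≤ _ := mul_le_mul_of_nonneg_left hg (by positivity)
      have e3 : w ^ 2 ≤ τ ^ 2 * ς * (Λ ^ 4 * n ^ 2) := by
        refine le_of_mul_le_mul_left ?_ hQ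
        linarith
      have e4 : τ ^ 2 * ς ≤ (τ + ς) ^ 3 := by
        have : (τ + ς) ^ 3 = τ ^ 2 * ς + (τ ^ 3 + 2 * τ ^ 2 * ς + 3 * τ * ς ^ 2 + ς ^ 3) := by ring
        rw [this]
        exact le_add_of_nonneg_right (by positivity)
      have e5 : (n * (τ + ς)) ^ 3 < (2 * Λ * x) ^ 3 :=
        pow_lt_pow_left₀ hcon (by positivity) (by norm_num)
      have e6 : 2048 * Λ ^ 7 * x ≤ n := by
        have : 2 * mB Λ * n = n / (2048 * Λ ^ 7) := by unfold mB; field_simp; norm_num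
        rw [this, le_div_iff₀ (by positivity)] at hsmall
        linarith
      have e7 : n * x ^ 2 ≤ 256 * Λ ^ 4 * (n * (τ + ς)) ^ 3 := by
        calc n * x ^ 2 ≤ n * (256 * (τ ^ 2 * ς * (Λ ^ 4 * n ^ 2))) :=
              mul_le_mul_of_nonneg_left (by linarith) hn.le
          _ = 256 * Λ ^ 4 * n ^ 3 * (τ ^ 2 * ς) := by ring
          _ ≤ 256 * Λ ^ 4 * n ^ 3 * (τ + ς) ^ 3 := mul_le_mul_of_nonneg_left e4 (by positivity)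
          _ = _ := by ring
      have e8 : 256 * Λ ^ 4 * (n * (τ + ς)) ^ 3 < 256 * Λ ^ 4 * (2 * Λ * x) ^ 3 :=
        mul_lt_mul_of_pos_left e5 (by positivity)
      have e9 : 256 * Λ ^ 4 * (2 * Λ * x) ^ 3 = (2048 * Λ ^ 7 * x) * x ^ 2 := by ring
      have e10 : (2048 * Λ ^ 7 * x) * x ^ 2 ≤ n * x ^ 2 :=
        mul_le_mul_of_nonneg_right e6 (sq_nonneg x)
      linarith
  have h3 : n * (τ + ς) ≤ W * (τ + ς) := mul_le_mul_of_nonneg_right hW (by linarith)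
  nlinarith

theorem B_floor (hS : SysB A₀ X Y Ta Tc s 𝓜 Tm rich lw up μ H Q Qm D B) (hD : 1 ≤ D) {A : Finset α}
    (hA : A ⊆ A₀) (hQ : Q ≤ D * A.card) :
    Q * (A.card : ℝ) ^ 2 ≤ (Ta A) ^ 2 * s A ∧ Q * (A.card : ℝ) ^ 2 ≤ (Tc A) ^ 2 * s A ∧
      (A.card : ℝ) ≤ WB Ta Tc s Q A := by
  have hn : (0 : ℝ) ≤ A.card := Nat.cast_nonneg _
  have ha := hS.Tacard A hA
  have hc := hS.Tccard A hA
  have hσ := hS.scard A hA
  have h1 := bb_floor hn hD hQ ha hσ (hS.floora A hA)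
  have h2 := bb_floor hn hD hQ hc hσ (hS.floorc A hA)
  refine ⟨h1, h2, Real.le_sqrt_of_sq_le ?_⟩
  have hQ0 := hS.Qpos
  rw [le_div_iff₀ hQ0]
  have h3 : (Q * (A.card : ℝ) ^ 2) ^ 2 ≤ (Ta A * Tc A * s A) ^ 2 := by
    calc (Q * (A.card : ℝ) ^ 2) ^ 2 = (Q * (A.card : ℝ) ^ 2) * (Q * (A.card : ℝ) ^ 2) := sq _
      _ ≤ ((Ta A) ^ 2 * s A) * ((Tc A) ^ 2 * s A) :=
        mul_le_mul h1 h2 (by positivity) (mul_nonneg (sq_nonneg _) (hn.trans hσ))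
      _ = _ := by ring
  have h4 := (pow_le_pow_iff_left₀ (by positivity)
    (mul_nonneg (mul_nonneg (hn.trans ha) (hn.trans hc)) (hn.trans hσ)) two_ne_zero).1 h3
  linarith

theorem B_good (hS : SysB A₀ X Y Ta Tc s 𝓜 Tm rich lw up μ H Q Qm D B) (hD : 1 ≤ D) {A : Finset α}
    (hA : A ⊆ A₀) (hQ : Q ≤ D * A.card) {Λ : ℝ} (hg : GB Ta Tc s Q A ≤ Λ * A.card) :
    (Ta A) ^ 2 * s A ≤ Λ ^ 4 * Q * (A.card : ℝ) ^ 2 ∧
      (Tc A) ^ 2 * s A ≤ Λ ^ 4 * Q * (A.card : ℝ) ^ 2 := by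
  obtain ⟨h1, h2, -⟩ := B_floor hS hD hA hQ
  have hQ0 := hS.Qpos
  have hn0 : (0 : ℝ) ≤ A.card := Nat.cast_nonneg _
  have hn : (0 : ℝ) < A.card := by
    by_contra h
    have : (A.card : ℝ) = 0 := le_antisymm (not_lt.1 h) hn0
    rw [this, mul_zero] at hQ
    linarith
  have ha := hn0.trans (hS.Tacard A hA)
  have hc := hn0.trans (hS.Tccard A hA)
  have hσ := hn0.trans (hS.scard A hA)
  have h3 : Real.sqrt (Ta A * Tc A * s A / Q) ≤ Λ * A.card := by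
    unfold GB WB at hg
    linarith
  have h4 := (Real.sqrt_le_iff.1 h3).2
  rw [div_le_iff₀ hQ0] at h4
  have h5 : (Ta A * Tc A * s A) ^ 2 ≤ ((Λ * A.card) ^ 2 * Q) ^ 2 :=
    pow_le_pow_left₀ (by positivity) h4 2
  have hp : 0 < Q * (A.card : ℝ) ^ 2 := by positivity
  constructor
  · refine le_of_mul_le_mul_right ?_ hp
    calc (Ta A) ^ 2 * s A * (Q * (A.card : ℝ) ^ 2) ≤ (Ta A) ^ 2 * s A * ((Tc A) ^ 2 * s A) :=
          mul_le_mul_of_nonneg_left h2 (by positivity)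
      _ = (Ta A * Tc A * s A) ^ 2 := by ring
      _ ≤ _ := h5
      _ = _ := by ring
  · refine le_of_mul_le_mul_right ?_ hp
    calc (Tc A) ^ 2 * s A * (Q * (A.card : ℝ) ^ 2) ≤ (Tc A) ^ 2 * s A * ((Ta A) ^ 2 * s A) :=
          mul_le_mul_of_nonneg_left h1 (by positivity)
      _ = (Ta A * Tc A * s A) ^ 2 := by ring
      _ ≤ _ := h5
      _ = _ := by ring

/-- superadditivity of `GB` when `s` and one of `Ta`, `Tc` are additive -/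
theorem GB_add (hS : SysB A₀ X Y Ta Tc s 𝓜 Tm rich lw up μ H Q Qm D B) {A A₁ A₂ : Finset α}
    (hA : A ⊆ A₀) (h1 : A₁ ⊆ A) (h2 : A₂ ⊆ A) (hs : s A₁ + s A₂ ≤ s A)
    (hT : Ta A₁ + Ta A₂ ≤ Ta A ∨ Tc A₁ + Tc A₂ ≤ Tc A) :
    GB Ta Tc s Q A₁ + GB Ta Tc s Q A₂ ≤ GB Ta Tc s Q A := by
  have hA₁ := h1.trans hA
  have hA₂ := h2.trans hA
  have hσ₁ := (Nat.cast_nonneg _).trans (hS.scard A₁ hA₁)
  have hσ₂ := (Nat.cast_nonneg _).trans (hS.scard A₂ hA₂)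
  have hW : WB Ta Tc s Q A₁ + WB Ta Tc s Q A₂ ≤ WB Ta Tc s Q A := by
    unfold WB
    rcases hT with hT | hT
    · exact bb_add hS.Qpos ((Nat.cast_nonneg _).trans (hS.Tacard A₁ hA₁))
        ((Nat.cast_nonneg _).trans (hS.Tacard A₂ hA₂)) hσ₁ hσ₂
        ((Nat.cast_nonneg _).trans (hS.Tccard A hA)) (hS.Tcmono _ _ h1 hA) (hS.Tcmono _ _ h2 hA)
        hT hs
    · rw [mul_comm (Ta A₁), mul_comm (Ta A₂), mul_comm (Ta A)]
      exact bb_add hS.Qpos ((Nat.cast_nonneg _).trans (hS.Tccard A₁ hA₁))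
        ((Nat.cast_nonneg _).trans (hS.Tccard A₂ hA₂)) hσ₁ hσ₂
        ((Nat.cast_nonneg _).trans (hS.Tacard A hA)) (hS.Tamono _ _ h1 hA) (hS.Tamono _ _ h2 hA)
        hT hs
  unfold GB
  linarith

/-- strong gain when a tiny part splits off -/
theorem B_tiny (hS : SysB A₀ X Y Ta Tc s 𝓜 Tm rich lw up μ H Q Qm D B) (hD : 1 ≤ D) {Λ : ℝ} (hΛ : 1 ≤ Λ)
    {A A' Wt : Finset α} (hA : A ⊆ A₀) (h1 : A' ⊆ A) (h2 : Wt ⊆ A) (hQ : Q ≤ D * A.card)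
    (hB : 32 * Λ * B ≤ D * A.card) (hg : GB Ta Tc s Q A ≤ Λ * A.card)
    (hsmall : (A.card : ℝ) - A'.card ≤ 2 * mB Λ * A.card)
    (hW : (A.card : ℝ) - A'.card ≤ 16 * Wt.card) (hs : s A' + s Wt ≤ s A)
    (hT : Ta A' + Ta Wt ≤ Ta A ∨ Tc A' + Tc Wt ≤ Tc A) :
    GB Ta Tc s Q A' + Λ * ((A.card : ℝ) - A'.card) ≤ GB Ta Tc s Q A := by
  obtain ⟨-, -, hf⟩ := B_floor hS hD hA hQ
  obtain ⟨hg1, hg2⟩ := B_good hS hD hA hQ hg
  have hQ0 := hS.Qpos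
  have hn0 : (0 : ℝ) ≤ A.card := Nat.cast_nonneg _
  have hn : (0 : ℝ) < A.card := by
    by_contra h
    have : (A.card : ℝ) = 0 := le_antisymm (not_lt.1 h) hn0
    rw [this, mul_zero] at hQ
    linarith
  have hA' := h1.trans hA
  have hWt := h2.trans hA
  have hx : (0 : ℝ) ≤ (A.card : ℝ) - A'.card :=
    sub_nonneg.2 (by exact_mod_cast Finset.card_le_card h1)
  have hσ' := (Nat.cast_nonneg _).trans (hS.scard A' hA')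
  have hσw := (Nat.cast_nonneg _).trans (hS.scard Wt hWt)
  have hσB := (hS.smono _ _ hA Finset.Subset.rfl).trans hS.sle
  have hWB : WB Ta Tc s Q A' + Λ * ((A.card : ℝ) - A'.card) ≤ WB Ta Tc s Q A := by
    unfold WB at hf ⊢
    rcases hT with hT | hT
    · exact bb_tiny hQ0 hn hΛ hD hx ((Nat.cast_nonneg _).trans (hS.Tacard A' hA')) hσ'
        ((Nat.cast_nonneg _).trans (hS.Tacard Wt hWt)) hσw (hn0.trans (hS.Tccard A hA))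
        (hS.Tcmono _ _ h1 hA) hT hs (hS.Tacard A hA) (hS.scard A hA)
        ((hS.Tamono _ _ hA Finset.Subset.rfl).trans hS.Tale) hσB hB hf hg1 hsmall hW
        (hS.floora Wt hWt)
    · rw [mul_comm (Ta A)] at hf ⊢
      rw [mul_comm (Ta A')]
      exact bb_tiny hQ0 hn hΛ hD hx ((Nat.cast_nonneg _).trans (hS.Tccard A' hA')) hσ'
        ((Nat.cast_nonneg _).trans (hS.Tccard Wt hWt)) hσw (hn0.trans (hS.Tacard A hA))
        (hS.Tamono _ _ h1 hA) hT hs (hS.Tccard A hA) (hS.scard A hA)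
        ((hS.Tcmono _ _ hA Finset.Subset.rfl).trans hS.Tcle) hσB hB hf hg2 hsmall hW
        (hS.floorc Wt hWt)
  unfold GB
  linarith

end
end Crest.Agent.R51
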