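import Crest.Agent.R51.GTools

set_option autoImplicit false
open Classical Finset

namespace Crest.Agent.R51
noncomputable section

theorem bgeom_filter_le {α : Type} {A A' : Finset α} (h : A' ⊆ A) (P : α → Prop) :
    ((A.filter P).card : ℝ) ≤ (A'.filter P).card + ((A.card : ℝ) - A'.card) := by
  have h1 : A.filter P ⊆ A'.filter P ∪ (A \ A') := by
    intro p hp
    obtain ⟨hp1, hp2⟩ := Finset.mem_filter.1 hp
    by_cases hp' : p ∈ A'
    · exact Finset.mem_union_left _ (Finset.mem_filter.2 ⟨hp', hp2⟩)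
    · exact Finset.mem_union_right _ (Finset.mem_sdiff.2 ⟨hp1, hp'⟩)
  have h2 := (Finset.card_le_card h1).trans (Finset.card_union_le _ _)
  have h3 := Finset.card_sdiff_add_card_eq_card h
  have h4 : ((A \ A').card : ℝ) + A'.card = A.card := by exact_mod_cast h3
  have h5 : ((A.filter P).card : ℝ) ≤ (A'.filter P).card + (A \ A').card := by exact_mod_cast h2
  linarith

theorem bgeom_out {α : Type} (A : Finset α) (N : α → ℝ) (w : ℝ) :
    (A.card : ℝ) - (A.filter (fun p => N p ≤ w)).card = out A N w := by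
  unfold out
  have h1 := Finset.card_filter_add_card_filter_not (s := A) (fun p => N p ≤ w)
  have h2 : A.filter (fun p => ¬ N p ≤ w) = A.filter (fun p => w < N p) :=
    Finset.filter_congr (fun p _ => not_le)
  rw [h2] at h1
  have h3 : ((A.filter (fun p => N p ≤ w)).card : ℝ) + (A.filter (fun p => w < N p)).card =
      A.card := by exact_mod_cast h1
  linarith

theorem bgeom_sides {α : Type} (B : Finset α) (x y : α → ℝ) (t : ℝ)
    (h : ∀ p ∈ B, t < max |x p| |y p|) :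
    (B.card : ℝ) ≤ 4 * (B.filter (fun p => t < x p)).card ∨
    (B.card : ℝ) ≤ 4 * (B.filter (fun p => t < -x p)).card ∨
    (B.card : ℝ) ≤ 4 * (B.filter (fun p => t < y p)).card ∨
    (B.card : ℝ) ≤ 4 * (B.filter (fun p => t < -y p)).card := by
  have h1 : B ⊆ (B.filter (fun p => t < x p) ∪ B.filter (fun p => t < -x p)) ∪
      (B.filter (fun p => t < y p) ∪ B.filter (fun p => t < -y p)) := by
    intro p hp
    simp only [Finset.mem_union, Finset.mem_filter]
    rcases lt_max_iff.1 (h p hp) with h2 | h2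
    · rcases lt_abs.1 h2 with h3 | h3
      · exact Or.inl (Or.inl ⟨hp, h3⟩)
      · exact Or.inl (Or.inr ⟨hp, h3⟩)
    · rcases lt_abs.1 h2 with h3 | h3
      · exact Or.inr (Or.inl ⟨hp, h3⟩)
      · exact Or.inr (Or.inr ⟨hp, h3⟩)
  have h2 := (Finset.card_le_card h1).trans ((Finset.card_union_le _ _).trans
    (Nat.add_le_add (Finset.card_union_le _ _) (Finset.card_union_le _ _)))
  have h3 : (B.card : ℝ) ≤ ((B.filter (fun p => t < x p)).card +
      (B.filter (fun p => t < -x p)).card) + ((B.filter (fun p => t < y p)).card +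
      (B.filter (fun p => t < -y p)).card) := by exact_mod_cast h2
  by_contra hc
  push Not at hc
  obtain ⟨c1, c2, c3, c4⟩ := hc
  linarith

theorem bgeom_one {α : Type} {A A' : Finset α} (hA' : A' ⊆ A) (u : α → ℝ) {m₀ κ₂ w : ℝ} {N₁ : ℕ}
    (hN : 1 ≤ N₁) (hw : 0 < w) (hκN : 2 ≤ κ₂ * N₁) (hm : 0 < m₀) (hm' : m₀ ≤ 1 / 8) (hκ : 0 < κ₂)
    (htail : (A.card : ℝ) - A'.card ≤ κ₂ / 2 * A.card)
    (hmed : A.card ≤ 2 * (A.filter (fun p => u p ≤ 0)).card)
    (hside : m₀ / 8 * A.card ≤ (A.filter (fun p => w < u p)).card) :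
    ∃ A₁ A₂ : Finset α, A₁ ⊆ A' ∧ A₂ ⊆ A' ∧
      (m₀ / 8 - κ₂) * A.card ≤ A₁.card ∧ (m₀ / 8 - κ₂) * A.card ≤ A₂.card ∧
      (A₁.card : ℝ) ≤ (1 - m₀ / 8) * A.card ∧ (A₂.card : ℝ) ≤ (1 - m₀ / 8) * A.card ∧
      (A.card : ℝ) - A₁.card - A₂.card ≤ κ₂ * A.card ∧
      ∀ p ∈ A₁, ∀ q ∈ A₂, u p + w / N₁ < u q := by
  have hN0 : (0 : ℝ) < N₁ := by exact_mod_cast hN
  have hg : 0 < w / N₁ := div_pos hw hN0
  obtain ⟨j, hj, hs⟩ := slot A u 0 (w / N₁) hg N₁ hN
  set g := w / N₁ with hgdef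
  have hc0 : 0 ≤ (j : ℝ) * g := by positivity
  have hcw : ((j : ℝ) + 1) * g ≤ w := by
    have h1 : (j : ℝ) + 1 ≤ N₁ := by exact_mod_cast hj
    calc ((j : ℝ) + 1) * g ≤ N₁ * g := mul_le_mul_of_nonneg_right h1 hg.le
      _ = w := by rw [hgdef]; field_simp
  have hA0 : (0 : ℝ) ≤ A.card := Nat.cast_nonneg _
  have hmed' : (A.card : ℝ) ≤ 2 * (A.filter (fun p => u p ≤ 0)).card := by exact_mod_cast hmed
  have hs' : (N₁ : ℝ) * (A.filter (fun p => 0 + j * g < u p ∧ u p ≤ 0 + (j + 1) * g)).card ≤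
      A.card := by exact_mod_cast hs
  have hs'' : ((A.filter (fun p => 0 + j * g < u p ∧ u p ≤ 0 + (j + 1) * g)).card : ℝ) ≤
      κ₂ / 2 * A.card := by
    refine le_of_mul_le_mul_left ?_ hN0
    nlinarith
  have hκA : 0 ≤ κ₂ * A.card := by positivity
  have hmA : 0 ≤ m₀ * A.card := by positivity
  have hmA' : m₀ * A.card ≤ 1 / 8 * A.card := mul_le_mul_of_nonneg_right hm' hA0
  refine ⟨A'.filter (fun p => u p ≤ j * g), A'.filter (fun p => (j + 1) * g < u p),
    Finset.filter_subset _ _, Finset.filter_subset _ _, ?_, ?_, ?_, ?_, ?_, ?_⟩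
  · have h1 := bgeom_filter_le hA' (fun p => u p ≤ 0)
    have h2 : (A'.filter (fun p => u p ≤ 0)).card ≤ (A'.filter (fun p => u p ≤ j * g)).card :=
      Finset.card_le_card (Finset.monotone_filter_right _ (fun p _ hp => hp.trans hc0))
    have h3 : ((A'.filter (fun p => u p ≤ 0)).card : ℝ) ≤
        (A'.filter (fun p => u p ≤ j * g)).card := by exact_mod_cast h2
    nlinarith
  · have h1 := bgeom_filter_le hA' (fun p => w < u p)
    have h2 : (A'.filter (fun p => w < u p)).card ≤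
        (A'.filter (fun p => (j + 1) * g < u p)).card :=
      Finset.card_le_card (Finset.monotone_filter_right _ (fun p _ hp => hcw.trans_lt hp))
    have h3 : ((A'.filter (fun p => w < u p)).card : ℝ) ≤
        (A'.filter (fun p => (j + 1) * g < u p)).card := by exact_mod_cast h2
    nlinarith
  · have h1 := bgeom_out A u w
    unfold out at h1
    have h2 : (A'.filter (fun p => u p ≤ j * g)).card ≤ (A.filter (fun p => u p ≤ w)).card := by
      refine Finset.card_le_card (fun p hp => ?_)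
      obtain ⟨hp1, hp2⟩ := Finset.mem_filter.1 hp
      exact Finset.mem_filter.2 ⟨hA' hp1, by nlinarith⟩
    have h3 : ((A'.filter (fun p => u p ≤ j * g)).card : ℝ) ≤
        (A.filter (fun p => u p ≤ w)).card := by exact_mod_cast h2
    nlinarith
  · have h1 := bgeom_out A u 0
    unfold out at h1
    have h2 : (A'.filter (fun p => (j + 1) * g < u p)).card ≤
        (A.filter (fun p => 0 < u p)).card := by
      refine Finset.card_le_card (fun p hp => ?_)
      obtain ⟨hp1, hp2⟩ := Finset.mem_filter.1 hp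
      exact Finset.mem_filter.2 ⟨hA' hp1, by nlinarith⟩
    have h3 : ((A'.filter (fun p => (j + 1) * g < u p)).card : ℝ) ≤
        (A.filter (fun p => 0 < u p)).card := by exact_mod_cast h2
    nlinarith
  · have h1 : A' ⊆ (A'.filter (fun p => u p ≤ j * g) ∪ A'.filter (fun p => (j + 1) * g < u p)) ∪
        A.filter (fun p => 0 + j * g < u p ∧ u p ≤ 0 + (j + 1) * g) := by
      intro p hp
      simp only [Finset.mem_union, Finset.mem_filter]
      by_cases c1 : u p ≤ j * g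
      · exact Or.inl (Or.inl ⟨hp, c1⟩)
      by_cases c2 : (j + 1) * g < u p
      · exact Or.inl (Or.inr ⟨hp, c2⟩)
      push Not at c1 c2
      exact Or.inr ⟨hA' hp, by linarith, by linarith⟩
    have h2 := (Finset.card_le_card h1).trans ((Finset.card_union_le _ _).trans
      (Nat.add_le_add_right (Finset.card_union_le _ _) _))
    have h3 : (A'.card : ℝ) ≤ ((A'.filter (fun p => u p ≤ j * g)).card +
        (A'.filter (fun p => (j + 1) * g < u p)).card) +
        (A.filter (fun p => 0 + j * g < u p ∧ u p ≤ 0 + (j + 1) * g)).card := by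
      exact_mod_cast h2
    linarith
  · intro p hp q hq
    have h1 := (Finset.mem_filter.1 hp).2
    have h2 := (Finset.mem_filter.1 hq).2
    linarith

theorem bgeom_diam {α : Type} {X Y : α → ℝ} {cX cY R : ℝ} {p q : α}
    (hp : max |X p - cX| |Y p - cY| ≤ R) (hq : max |X q - cX| |Y q - cY| ≤ R) :
    |X p - X q| ≤ 2 * R ∧ |Y p - Y q| ≤ 2 * R := by
  obtain ⟨h1, h2⟩ := max_le_iff.1 hp
  obtain ⟨h3, h4⟩ := max_le_iff.1 hq
  rw [abs_le] at h1 h2 h3 h4
  constructor <;> rw [abs_le] <;> constructor <;> linarith [h1.1, h1.2, h2.1, h2.2, h3.1, h3.2,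
    h4.1, h4.2]

/-- geometry of one step of core B -/
theorem geomB (m₀ κ₂ : ℝ) (hm : 0 < m₀) (hm' : m₀ ≤ 1 / 8) (hκ : 0 < κ₂) : ∃ Ξ : ℝ, 5 ≤ Ξ ∧
    ∀ (α : Type) (A : Finset α) (X Y : α → ℝ), 2 ≤ A.card →
      (∀ p ∈ A, ∀ q ∈ A, X p = X q → Y p = Y q → p = q) →
      ∃ g : ℝ, 0 < g ∧ ∃ A₁ A₂ : Finset α, A₁ ⊆ A ∧ A₂ ⊆ A ∧
        (∀ p ∈ A₁ ∪ A₂, ∀ q ∈ A₁ ∪ A₂, |X p - X q| ≤ Ξ * g ∧ |Y p - Y q| ≤ Ξ * g) ∧
        ((A₁.card < A.card ∧ (A.card : ℝ) - A₁.card ≤ 2 * m₀ * A.card ∧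
            (A.card : ℝ) - A₁.card ≤ 16 * A₂.card ∧
            ((∀ p ∈ A₁, ∀ q ∈ A₂, X p + g < X q) ∨ (∀ p ∈ A₁, ∀ q ∈ A₂, X q + g < X p) ∨
             (∀ p ∈ A₁, ∀ q ∈ A₂, Y p + g < Y q) ∨ (∀ p ∈ A₁, ∀ q ∈ A₂, Y q + g < Y p))) ∨
         ((m₀ / 8 - κ₂) * A.card ≤ A₁.card ∧ (m₀ / 8 - κ₂) * A.card ≤ A₂.card ∧
            (A₁.card : ℝ) ≤ (1 - m₀ / 8) * A.card ∧ (A₂.card : ℝ) ≤ (1 - m₀ / 8) * A.card ∧
            (A.card : ℝ) - A₁.card - A₂.card ≤ κ₂ * A.card ∧
            ((∀ p ∈ A₁, ∀ q ∈ A₂, X p + g < X q) ∨ (∀ p ∈ A₁, ∀ q ∈ A₂, Y p + g < Y q)))) := by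
  obtain ⟨n₀, hn₀⟩ := exists_pow_lt_of_lt_one (half_pos hκ) (show (1 / 2 : ℝ) < 1 by norm_num)
  set N₁ : ℕ := ⌈2 / κ₂⌉₊ + 2 with hN₁
  have hN1 : 1 ≤ N₁ := by omega
  have hN2 : (2 : ℝ) ≤ N₁ := by
    have : 2 ≤ N₁ := by omega
    exact_mod_cast this
  have hκN : 2 ≤ κ₂ * N₁ := by
    have h1 : 2 / κ₂ ≤ N₁ := by
      have := Nat.le_ceil (2 / κ₂)
      rw [hN₁]; push_cast; linarith
    rw [div_le_iff₀ hκ] at h1
    linarith
  have hpow : (1 : ℝ) ≤ 2 ^ n₀ := one_le_pow₀ (by norm_num)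
  have hΞ : (8 : ℝ) ≤ 2 ^ (n₀ + 2) * N₁ := by
    rw [pow_add]; nlinarith
  refine ⟨2 ^ (n₀ + 2) * N₁, by linarith, ?_⟩
  intro α A X Y hA hinj
  obtain ⟨cX, hX1, hX2⟩ := exists_median A X
  obtain ⟨cY, hY1, hY2⟩ := exists_median A Y
  set N : α → ℝ := fun p => max |X p - cX| |Y p - cY| with hNdef
  have hne : A.Nonempty := Finset.card_pos.1 (by omega)
  have h0 : 2 * (A.filter (fun p => N p ≤ 0)).card ≤ A.card := by
    have : (A.filter (fun p => N p ≤ 0)).card ≤ 1 := by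
      refine Finset.card_le_one.2 (fun p hp q hq => ?_)
      obtain ⟨hp1, hp2⟩ := Finset.mem_filter.1 hp
      obtain ⟨hq1, hq2⟩ := Finset.mem_filter.1 hq
      obtain ⟨h1, h2⟩ := bgeom_diam hp2 hq2
      rw [mul_zero] at h1 h2
      exact hinj p hp1 q hq1 (sub_eq_zero.1 (abs_nonpos_iff.1 h1))
        (sub_eq_zero.1 (abs_nonpos_iff.1 h2))
    omega
  obtain ⟨w, hw, hout, htail, hcase⟩ := elbow A hne N h0 2 2 m₀ (by norm_num) (by norm_num) hm.le
    (by linarith)
  have hA0 : (0 : ℝ) ≤ A.card := Nat.cast_nonneg _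
  rcases hcase with ⟨hpos, hle⟩ | ⟨hbig, -⟩
  · -- elbow case
    set B : Finset α := (A.filter (fun p => N p ≤ 4 * w)).filter (fun p => 2 * w < N p) with hB
    have hB1 : out A N (2 * w) ≤ B.card + out A N (4 * w) := by
      have h1 := bgeom_filter_le (Finset.filter_subset (fun p => N p ≤ 4 * w) A)
        (fun p => 2 * w < N p)
      rw [bgeom_out] at h1
      exact h1
    have hB2 : 2 * out A N (4 * w) ≤ out A N (2 * w) := by
      have := htail 1
      norm_num at this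
      exact this
    have hB3 : out A N w ≤ 4 * B.card := by linarith
    have hmono : out A N (2 * w) ≤ out A N w := by
      unfold out
      exact_mod_cast Finset.card_le_card
        (Finset.monotone_filter_right _ (fun p _ hp => by linarith))
    have hA1 := bgeom_out A N w
    have hlt : (A.filter (fun p => N p ≤ w)).card < A.card := by
      have : ((A.filter (fun p => N p ≤ w)).card : ℝ) < A.card := by linarith
      exact_mod_cast this
    have hBA : B ⊆ A := (Finset.filter_subset _ _).trans (Finset.filter_subset _ _)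
    have hdiam : ∀ A₂ : Finset α, A₂ ⊆ B → ∀ p ∈ A.filter (fun p => N p ≤ w) ∪ A₂,
        ∀ q ∈ A.filter (fun p => N p ≤ w) ∪ A₂,
        |X p - X q| ≤ 2 ^ (n₀ + 2) * N₁ * w ∧ |Y p - Y q| ≤ 2 ^ (n₀ + 2) * N₁ * w := by
      intro A₂ hA₂
      have hh : ∀ p ∈ A.filter (fun p => N p ≤ w) ∪ A₂, N p ≤ 4 * w := by
        intro p hp
        rcases Finset.mem_union.1 hp with hp | hp
        · have := (Finset.mem_filter.1 hp).2
          linarith
        · exact (Finset.mem_filter.1 (Finset.mem_filter.1 (hA₂ hp)).1).2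
      intro p hp q hq
      obtain ⟨h1, h2⟩ := bgeom_diam (hh p hp) (hh q hq)
      have h3 : 8 * w ≤ 2 ^ (n₀ + 2) * N₁ * w := mul_le_mul_of_nonneg_right hΞ hw.le
      constructor <;> linarith
    have hin : ∀ p ∈ A.filter (fun p => N p ≤ w),
        (-w ≤ X p - cX ∧ X p - cX ≤ w) ∧ (-w ≤ Y p - cY ∧ Y p - cY ≤ w) := by
      intro p hp
      obtain ⟨h1, h2⟩ := max_le_iff.1 (Finset.mem_filter.1 hp).2
      exact ⟨abs_le.1 h1, abs_le.1 h2⟩
    refine ⟨w, hw, A.filter (fun p => N p ≤ w), ?_⟩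
    rcases bgeom_sides B (fun p => X p - cX) (fun p => Y p - cY) (2 * w)
      (fun p hp => (Finset.mem_filter.1 hp).2) with hs | hs | hs | hs
    · refine ⟨_, Finset.filter_subset _ _, (Finset.filter_subset _ _).trans hBA,
        hdiam _ (Finset.filter_subset (fun p => 2 * w < X p - cX) B),
        Or.inl ⟨hlt, by linarith, by linarith, Or.inl (fun p hp q hq => ?_)⟩⟩
      have h1 := hin p hp
      have h2 := (Finset.mem_filter.1 hq).2
      linarith [h1.1.2]
    · refine ⟨_, Finset.filter_subset _ _, (Finset.filter_subset _ _).trans hBA,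
        hdiam _ (Finset.filter_subset (fun p => 2 * w < -(X p - cX)) B),
        Or.inl ⟨hlt, by linarith, by linarith, Or.inr (Or.inl (fun p hp q hq => ?_))⟩⟩
      have h1 := hin p hp
      have h2 := (Finset.mem_filter.1 hq).2
      linarith [h1.1.1]
    · refine ⟨_, Finset.filter_subset _ _, (Finset.filter_subset _ _).trans hBA,
        hdiam _ (Finset.filter_subset (fun p => 2 * w < Y p - cY) B),
        Or.inl ⟨hlt, by linarith, by linarith, Or.inr (Or.inr (Or.inl (fun p hp q hq => ?_)))⟩⟩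
      have h1 := hin p hp
      have h2 := (Finset.mem_filter.1 hq).2
      linarith [h1.2.2]
    · refine ⟨_, Finset.filter_subset _ _, (Finset.filter_subset _ _).trans hBA,
        hdiam _ (Finset.filter_subset (fun p => 2 * w < -(Y p - cY)) B),
        Or.inl ⟨hlt, by linarith, by linarith, Or.inr (Or.inr (Or.inr (fun p hp q hq => ?_)))⟩⟩
      have h1 := hin p hp
      have h2 := (Finset.mem_filter.1 hq).2
      linarith [h1.2.1]
  · -- splitting case
    set R : ℝ := 2 ^ (n₀ + 1) * w with hR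
    set A' : Finset α := A.filter (fun p => N p ≤ R) with hA'
    have hA'A : A' ⊆ A := Finset.filter_subset _ _
    have ht : (A.card : ℝ) - A'.card ≤ κ₂ / 2 * A.card := by
      rw [hA', bgeom_out]
      have h1 := htail n₀
      have h2 : (2 : ℝ) ^ n₀ * out A N R ≤ A.card := by
        have : m₀ * A.card ≤ 1 / 8 * A.card := mul_le_mul_of_nonneg_right hm' hA0
        linarith
      have h3 : (1 : ℝ) ≤ 2 ^ n₀ * (κ₂ / 2) := by
        rw [one_div, inv_pow, inv_lt_iff_one_lt_mul₀' (by positivity)] at hn₀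
        exact hn₀.le
      refine le_of_mul_le_mul_left ?_ (show (0 : ℝ) < 2 ^ n₀ by positivity)
      nlinarith
    have hN0 : (0 : ℝ) < N₁ := by linarith
    have hdiam : ∀ A₁ A₂ : Finset α, A₁ ⊆ A' → A₂ ⊆ A' → ∀ p ∈ A₁ ∪ A₂, ∀ q ∈ A₁ ∪ A₂,
        |X p - X q| ≤ 2 ^ (n₀ + 2) * N₁ * (w / N₁) ∧
        |Y p - Y q| ≤ 2 ^ (n₀ + 2) * N₁ * (w / N₁) := by
      intro A₁ A₂ h1 h2 p hp q hq
      have h3 := Finset.union_subset h1 h2
      have e : (2 : ℝ) ^ (n₀ + 2) * N₁ * (w / N₁) = 2 * R := by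
        rw [hR]; field_simp; ring
      rw [e]
      exact bgeom_diam (Finset.mem_filter.1 (h3 hp)).2 (Finset.mem_filter.1 (h3 hq)).2
    have hmA : 0 ≤ m₀ * A.card := by positivity
    have hsub : ∀ u : α → ℝ, out A N w ≤
        4 * ((A.filter (fun p => w < N p)).filter (fun p => w < u p)).card →
        m₀ / 8 * A.card ≤ (A.filter (fun p => w < u p)).card := by
      intro u hu
      have h1 : ((A.filter (fun p => w < N p)).filter (fun p => w < u p)).card ≤
          (A.filter (fun p => w < u p)).card :=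
        Finset.card_le_card (Finset.filter_subset_filter _ (Finset.filter_subset _ _))
      have h2 : (((A.filter (fun p => w < N p)).filter (fun p => w < u p)).card : ℝ) ≤
          (A.filter (fun p => w < u p)).card := by exact_mod_cast h1
      linarith
    refine ⟨w / N₁, div_pos hw hN0, ?_⟩
    rcases bgeom_sides (A.filter (fun p => w < N p)) (fun p => X p - cX) (fun p => Y p - cY) w
      (fun p hp => (Finset.mem_filter.1 hp).2) with hs | hs | hs | hs
    · obtain ⟨A₁, A₂, h1, h2, h3, h4, h5, h6, h7, h8⟩ := bgeom_one hA'A (fun p => X p - cX) hN1 hw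
        hκN hm hm' hκ ht (by simpa only [sub_nonpos] using hX1) (hsub _ hs)
      refine ⟨A₁, A₂, h1.trans hA'A, h2.trans hA'A, hdiam _ _ h1 h2,
        Or.inr ⟨h3, h4, h5, h6, h7, Or.inl (fun p hp q hq => ?_)⟩⟩
      have := h8 p hp q hq
      linarith
    · obtain ⟨A₁, A₂, h1, h2, h3, h4, h5, h6, h7, h8⟩ := bgeom_one hA'A (fun p => -(X p - cX)) hN1
        hw hκN hm hm' hκ ht (by simpa only [neg_sub, sub_nonpos] using hX2) (hsub _ hs)
      refine ⟨A₂, A₁, h2.trans hA'A, h1.trans hA'A, hdiam _ _ h2 h1,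
        Or.inr ⟨h4, h3, h6, h5, by linarith, Or.inl (fun p hp q hq => ?_)⟩⟩
      have := h8 q hq p hp
      linarith
    · obtain ⟨A₁, A₂, h1, h2, h3, h4, h5, h6, h7, h8⟩ := bgeom_one hA'A (fun p => Y p - cY) hN1 hw
        hκN hm hm' hκ ht (by simpa only [sub_nonpos] using hY1) (hsub _ hs)
      refine ⟨A₁, A₂, h1.trans hA'A, h2.trans hA'A, hdiam _ _ h1 h2,
        Or.inr ⟨h3, h4, h5, h6, h7, Or.inr (fun p hp q hq => ?_)⟩⟩
      have := h8 p hp q hq
      linarith
    · obtain ⟨A₁, A₂, h1, h2, h3, h4, h5, h6, h7, h8⟩ := bgeom_one hA'A (fun p => -(Y p - cY)) hN1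
        hw hκN hm hm' hκ ht (by simpa only [neg_sub, sub_nonpos] using hY2) (hsub _ hs)
      refine ⟨A₂, A₁, h2.trans hA'A, h1.trans hA'A, hdiam _ _ h2 h1,
        Or.inr ⟨h4, h3, h6, h5, by linarith, Or.inr (fun p hp q hq => ?_)⟩⟩
      have := h8 q hq p hp
      linarith

end
end Crest.Agent.R51
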