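import Crest.Agent.R51.GTools

set_option autoImplicit false
open Classical Finset

namespace Crest.Agent.R51
noncomputable section

theorem BInd_count {α ι : Type} (A : Finset α) (𝓜 : Finset ι) (rich : ι → Finset α) (r : ℝ)
    (h : ∀ p ∈ A, r ≤ (𝓜.filter (fun m => p ∈ rich m)).card) :
    r * A.card ≤ ∑ m ∈ 𝓜, ((A ∩ rich m).card : ℝ) := by
  have h1 : ∑ m ∈ 𝓜, ((A ∩ rich m).card : ℝ) =
      ∑ p ∈ A, ((𝓜.filter (fun m => p ∈ rich m)).card : ℝ) := by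
    simp only [← filter_mem_eq_inter, card_filter]
    push_cast
    exact sum_comm
  rw [h1, mul_comm, ← nsmul_eq_mul, ← sum_const]
  exact sum_le_sum h

theorem BInd_log {a b s₀ m₀ : ℝ} (hs : 0 < s₀) (hb : s₀ ≤ b) (hm' : m₀ ≤ 1) (ha : 0 < a)
    (h : b ≤ (1 - m₀ / 8) * a) : Real.log (b / s₀) ≤ Real.log (a / s₀) - m₀ / 8 := by
  have h1 : 0 < 1 - m₀ / 8 := by linarith
  have h2 : Real.log (b / s₀) ≤ Real.log ((1 - m₀ / 8) * (a / s₀)) := by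
    refine Real.log_le_log (div_pos (by linarith) hs) ?_
    rw [← mul_div_assoc]
    exact div_le_div_of_nonneg_right h hs.le
  rw [Real.log_mul h1.ne' (div_pos ha hs).ne'] at h2
  linarith [Real.log_le_sub_one_of_pos h1]

theorem indB {α ι : Type} (A₀ : Finset α) (Gf : Finset α → ℝ) (𝓜 : Finset ι)
    (Tm : ι → Finset α → ℝ) (rich : ι → Finset α) (Λ m₀ κ₁ Nc η σ Γ j₀ ρ₀ : ℝ)
    (hΛ : 0 < Λ) (hm : 0 < m₀) (hm' : m₀ ≤ 1) (hη : 0 ≤ η) (hκ : κ₁ ≤ η * m₀ / 8) (hNc : 0 ≤ Nc)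
    (hσ : 0 < σ) (hΓ : 0 ≤ Γ) (hj : 0 ≤ j₀) (hρ : 0 ≤ ρ₀)
    (hG : ∀ A, A ⊆ A₀ → 0 ≤ Gf A)
    (hnn : ∀ m ∈ 𝓜, ∀ A, A ⊆ A₀ → 0 ≤ Tm m A)
    (hmono : ∀ m ∈ 𝓜, ∀ A A', A ⊆ A' → A' ⊆ A₀ → Tm m A ≤ Tm m A')
    (hstep : ∀ A, A ⊆ A₀ → σ < A.card → Gf A ≤ Λ * A.card → StepB Gf 𝓜 Tm rich Λ m₀ κ₁ Nc A)
    (hleaf : ∀ A, A ⊆ A₀ → (A.card : ℝ) ≤ σ → Gf A ≤ Λ * A.card → ∀ m ∈ 𝓜,
      Γ * (A ∩ rich m).card - j₀ ≤ Tm m (A ∩ rich m)) :
    ∀ A : Finset α, A ⊆ A₀ → m₀ * σ / 16 ≤ A.card → ∀ 𝓜' : Finset ι, 𝓜' ⊆ 𝓜 → ∀ r : ℝ,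
      (∀ p ∈ A, r ≤ (𝓜'.filter (fun m => p ∈ rich m)).card) →
      ρ₀ ≤ r - Nc * (8 / m₀) * Real.log (A.card / (m₀ * σ / 16)) →
      Γ * ρ₀ * (A.card - Gf A / Λ - η * A.card * Real.log (A.card / (m₀ * σ / 16))) -
        𝓜.card * j₀ * (A.card / (m₀ * σ / 16)) ≤ ∑ m ∈ 𝓜', Tm m (A ∩ rich m) := by
  obtain ⟨s₀, hs₀⟩ : ∃ s₀ : ℝ, s₀ = m₀ * σ / 16 := ⟨_, rfl⟩
  have s0 : 0 < s₀ := by rw [hs₀]; positivity
  have s1 : s₀ ≤ σ / 16 := by rw [hs₀]; nlinarith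
  rw [← hs₀]
  have hΓρ : 0 ≤ Γ * ρ₀ := mul_nonneg hΓ hρ
  have hMj : 0 ≤ (𝓜.card : ℝ) * j₀ := mul_nonneg (Nat.cast_nonneg _) hj
  have hN8 : 0 ≤ Nc * (8 / m₀) := by positivity
  intro A
  induction hn : A.card using Nat.strong_induction_on generalizing A with
  | _ n ih =>
  subst hn
  intro hA hs 𝓜' h𝓜 r hr hρr
  have a0 : (0 : ℝ) < A.card := s0.trans_le hs
  have q1 : 1 ≤ (A.card : ℝ) / s₀ := (one_le_div s0).2 hs
  have l0 : 0 ≤ Real.log (A.card / s₀) := Real.log_nonneg q1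
  have hη' : 0 ≤ η * A.card * Real.log (A.card / s₀) := by positivity
  have hint : ∀ {B : Finset α} (m : ι), B ⊆ A₀ → B ∩ rich m ⊆ A₀ := fun _ h =>
    inter_subset_left.trans h
  by_cases hbad : Λ * A.card < Gf A
  · have h1 : (A.card : ℝ) ≤ Gf A / Λ := by rw [le_div_iff₀ hΛ]; linarith
    have h2 := mul_nonneg hΓρ (show 0 ≤ -(A.card - Gf A / Λ -
      η * A.card * Real.log (A.card / s₀)) by linarith)
    have h3 := mul_nonneg hMj (zero_le_one.trans q1)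
    have h4 : 0 ≤ ∑ m ∈ 𝓜', Tm m (A ∩ rich m) :=
      sum_nonneg fun m hm => hnn m (h𝓜 hm) _ (hint m hA)
    linarith
  have hgood := not_lt.1 hbad
  by_cases hl : (A.card : ℝ) ≤ σ
  · have h1 : ∑ m ∈ 𝓜', (Γ * ((A ∩ rich m).card : ℝ) - j₀) ≤ ∑ m ∈ 𝓜', Tm m (A ∩ rich m) :=
      sum_le_sum fun m hm => hleaf A hA hl hgood m (h𝓜 hm)
    rw [sum_sub_distrib, ← mul_sum, sum_const, nsmul_eq_mul] at h1
    have h2 := mul_le_mul_of_nonneg_left (BInd_count A 𝓜' rich r hr) hΓ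
    have h3 : ρ₀ ≤ r := by linarith [mul_nonneg hN8 l0]
    have h4 := mul_le_mul_of_nonneg_left (mul_le_mul_of_nonneg_right h3 a0.le) hΓ
    have h5 : (𝓜'.card : ℝ) * j₀ ≤ 𝓜.card * j₀ :=
      mul_le_mul_of_nonneg_right (Nat.cast_le.2 (card_le_card h𝓜)) hj
    have h6 := mul_le_mul_of_nonneg_left q1 hMj
    have h7 := mul_nonneg hΓρ (add_nonneg (div_nonneg (hG A hA) hΛ.le) hη')
    linarith
  have hl' := not_le.1 hl
  rcases hstep A hA hl' hgood with ⟨A', h1, h2, h3, h4⟩ |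
    ⟨A₁, A₂, h1, h2, hd, Cf, hCf, h3, h4, h5, h6, h7, h8, h9⟩
  · have c1 : (A'.card : ℝ) ≤ A.card := Nat.cast_le.2 h2.le
    have c2 : (A.card : ℝ) ≤ 2 * A'.card := by exact_mod_cast h3
    have c3 : s₀ ≤ A'.card := by linarith
    have c4 : (A'.card : ℝ) / s₀ ≤ A.card / s₀ := div_le_div_of_nonneg_right c1 s0.le
    have c5 : Real.log (A'.card / s₀) ≤ Real.log (A.card / s₀) :=
      Real.log_le_log (div_pos (s0.trans_le c3) s0) c4
    have c6 : 0 ≤ Real.log (A'.card / s₀) := Real.log_nonneg ((one_le_div s0).2 c3)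
    have i1 := ih _ h2 A' rfl (h1.trans hA) c3 𝓜' h𝓜 r (fun p hp => hr p (h1 hp))
      (by linarith [mul_le_mul_of_nonneg_left c5 hN8])
    have i2 : ∑ m ∈ 𝓜', Tm m (A' ∩ rich m) ≤ ∑ m ∈ 𝓜', Tm m (A ∩ rich m) :=
      sum_le_sum fun m hm => hmono m (h𝓜 hm) _ _ (inter_subset_inter_right h1) (hint m hA)
    have c7 : Gf A' / Λ + ((A.card : ℝ) - A'.card) ≤ Gf A / Λ := by
      rw [div_add' _ _ _ hΛ.ne']
      exact div_le_div_of_nonneg_right (by linarith) hΛ.le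
    have c8 : η * A'.card * Real.log (A'.card / s₀) ≤ η * A.card * Real.log (A.card / s₀) :=
      mul_le_mul (mul_le_mul_of_nonneg_left c1 hη) c5 c6 (by positivity)
    have c9 := mul_le_mul_of_nonneg_left (show A.card - Gf A / Λ -
      η * A.card * Real.log (A.card / s₀) ≤ A'.card - Gf A' / Λ -
      η * A'.card * Real.log (A'.card / s₀) by linarith) hΓρ
    have c10 := mul_le_mul_of_nonneg_left c4 hMj
    linarith
  · have hs' : s₀ ≤ m₀ / 16 * A.card := by rw [hs₀]; nlinarith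
    have hma : 0 < m₀ / 8 * A.card := by positivity
    have hNm : Nc * (8 / m₀) * (m₀ / 8) = Nc := by field_simp
    have child : ∀ B : Finset α, B ⊆ A → m₀ / 16 * A.card ≤ B.card →
        (B.card : ℝ) ≤ (1 - m₀ / 8) * A.card →
        0 ≤ Real.log (B.card / s₀) ∧ Real.log (B.card / s₀) ≤ Real.log (A.card / s₀) - m₀ / 8 ∧
        Γ * ρ₀ * (B.card - Gf B / Λ - η * B.card * Real.log (B.card / s₀)) -
          𝓜.card * j₀ * (B.card / s₀) ≤ ∑ m ∈ 𝓜' \ Cf, Tm m (B ∩ rich m) := by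
      intro B b1 b2 b3
      have b4 : s₀ ≤ B.card := hs'.trans b2
      have b5 := BInd_log s0 b4 hm' a0 b3
      refine ⟨Real.log_nonneg ((one_le_div s0).2 b4), b5, ?_⟩
      refine ih _ (Nat.cast_lt.1 (show (B.card : ℝ) < A.card by linarith)) B rfl (b1.trans hA) b4
        (𝓜' \ Cf) (sdiff_subset.trans h𝓜) (r - Nc) (fun p hp => ?_) ?_
      · have e1 : (𝓜'.filter (fun m => p ∈ rich m)).card ≤
            ((𝓜' \ Cf).filter (fun m => p ∈ rich m)).card + Cf.card := by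
          refine le_trans (card_le_card fun m hm => ?_) (card_union_le _ _)
          rw [mem_filter] at hm
          by_cases h : m ∈ Cf
          · exact mem_union_right _ h
          · exact mem_union_left _ (mem_filter.2 ⟨mem_sdiff.2 ⟨hm.1, h⟩, hm.2⟩)
        have e2 : ((𝓜'.filter (fun m => p ∈ rich m)).card : ℝ) ≤
            ((𝓜' \ Cf).filter (fun m => p ∈ rich m)).card + Cf.card := by exact_mod_cast e1
        linarith [hr p (b1 hp)]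
      · have := mul_le_mul_of_nonneg_left b5 hN8
        rw [mul_sub, hNm] at this
        linarith
    obtain ⟨u1, u2, u3⟩ := child A₁ h1 h3 h5
    obtain ⟨v1, v2, v3⟩ := child A₂ h2 h4 h6
    have w1 : ∑ m ∈ 𝓜' \ Cf, Tm m (A₁ ∩ rich m) + ∑ m ∈ 𝓜' \ Cf, Tm m (A₂ ∩ rich m) ≤
        ∑ m ∈ 𝓜', Tm m (A ∩ rich m) := by
      rw [← sum_add_distrib]
      refine le_trans (sum_le_sum fun m hm => h9 m (h𝓜 (mem_sdiff.1 hm).1) (mem_sdiff.1 hm).2) ?_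
      exact sum_le_sum_of_subset_of_nonneg sdiff_subset fun m hm _ => hnn m (h𝓜 hm) _ (hint m hA)
    have w2 : (A₁.card : ℝ) + A₂.card ≤ A.card := by
      have := card_le_card (union_subset h1 h2)
      rw [card_union_of_disjoint hd] at this
      exact_mod_cast this
    have w3 : Gf A₁ / Λ + Gf A₂ / Λ ≤ Gf A / Λ := by
      rw [← add_div]
      exact div_le_div_of_nonneg_right h8 hΛ.le
    have w4 := mul_le_mul_of_nonneg_left u2 (mul_nonneg hη (Nat.cast_nonneg A₁.card))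
    have w5 := mul_le_mul_of_nonneg_left v2 (mul_nonneg hη (Nat.cast_nonneg A₂.card))
    have w6 := mul_le_mul_of_nonneg_right (mul_le_mul_of_nonneg_left w2 hη) (u1.trans u2)
    have w7 := mul_le_mul_of_nonneg_right hκ a0.le
    have w8 := mul_le_mul_of_nonneg_left (show A.card - Gf A / Λ -
      η * A.card * Real.log (A.card / s₀) ≤
      (A₁.card - Gf A₁ / Λ - η * A₁.card * Real.log (A₁.card / s₀)) +
      (A₂.card - Gf A₂ / Λ - η * A₂.card * Real.log (A₂.card / s₀)) by linarith) hΓρ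
    have w9 := mul_le_mul_of_nonneg_left (div_le_div_of_nonneg_right w2 s0.le) hMj
    rw [add_div] at w9
    linarith

end
end Crest.Agent.R51
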