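import Crest.Agent.R51.BStrips
import Crest.Agent.R51.BGeom

set_option autoImplicit false
open Classical Finset

namespace Crest.Agent.R51
noncomputable section

theorem BStep_two {α : Type} {A₀ : Finset α} {T : Finset α → ℝ} {R : Finset α → Finset α → Prop}
    (hmono : ∀ A A', A ⊆ A' → A' ⊆ A₀ → T A ≤ T A')
    (hadd : ∀ (κ : Type) (F : Finset κ) (A : κ → Finset α), (∀ k ∈ F, A k ⊆ A₀) →
      (∀ k ∈ F, ∀ k' ∈ F, k ≠ k' → R (A k) (A k')) → ∑ k ∈ F, T (A k) ≤ T (F.biUnion A))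
    {A A₁ A₂ : Finset α} (hA : A ⊆ A₀) (h1 : A₁ ⊆ A) (h2 : A₂ ⊆ A) (r1 : R A₁ A₂) (r2 : R A₂ A₁) :
    T A₁ + T A₂ ≤ T A := by
  have h := hadd Bool univ (fun b => cond b A₁ A₂) (by
    rintro (_ | _) -
    · exact h2.trans hA
    · exact h1.trans hA) (by
    rintro (_ | _) - (_ | _) - h
    · exact absurd rfl h
    · exact r2
    · exact r1
    · exact absurd rfl h)
  rw [Fintype.sum_bool] at h
  refine h.trans (hmono _ _ (biUnion_subset.2 ?_) hA)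
  rintro (_ | _) -
  · exact h2
  · exact h1

section
variable {α ι : Type} {A₀ : Finset α} {X Y : α → ℝ} {Ta Tc s : Finset α → ℝ} {𝓜 : Finset ι}
  {Tm : ι → Finset α → ℝ} {rich : ι → Finset α} {lw up : ι → ℝ} {μ H Q Qm D B : ℝ}

theorem BStep_s (hS : SysB A₀ X Y Ta Tc s 𝓜 Tm rich lw up μ H Q Qm D B) {A A₁ A₂ : Finset α}
    (hA : A ⊆ A₀) (h1 : A₁ ⊆ A) (h2 : A₂ ⊆ A) {g : ℝ} (hg : 0 < g)
    (h : (∀ p ∈ A₁, ∀ q ∈ A₂, X p + g < X q) ∨ (∀ p ∈ A₁, ∀ q ∈ A₂, X q + g < X p) ∨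
      (∀ p ∈ A₁, ∀ q ∈ A₂, Y p + g < Y q) ∨ (∀ p ∈ A₁, ∀ q ∈ A₂, Y q + g < Y p)) :
    s A₁ + s A₂ ≤ s A := by
  refine BStep_two (R := fun A A' => (∀ p ∈ A, ∀ q ∈ A', X p < X q) ∨ (∀ p ∈ A, ∀ q ∈ A', X q < X p) ∨
      (∀ p ∈ A, ∀ q ∈ A', Y p < Y q) ∨ (∀ p ∈ A, ∀ q ∈ A', Y q < Y p)) hS.smono hS.sadd hA h1 h2 ?_ ?_
  · rcases h with h | h | h | h
    · exact Or.inl fun p hp q hq => by linarith [h p hp q hq]
    · exact Or.inr (Or.inl fun p hp q hq => by linarith [h p hp q hq])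
    · exact Or.inr (Or.inr (Or.inl fun p hp q hq => by linarith [h p hp q hq]))
    · exact Or.inr (Or.inr (Or.inr fun p hp q hq => by linarith [h p hp q hq]))
  · rcases h with h | h | h | h
    · exact Or.inr (Or.inl fun p hp q hq => by linarith [h q hq p hp])
    · exact Or.inl fun p hp q hq => by linarith [h q hq p hp]
    · exact Or.inr (Or.inr (Or.inr fun p hp q hq => by linarith [h q hq p hp]))
    · exact Or.inr (Or.inr (Or.inl fun p hp q hq => by linarith [h q hq p hp]))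

theorem BStep_Tc (hS : SysB A₀ X Y Ta Tc s 𝓜 Tm rich lw up μ H Q Qm D B) {A A₁ A₂ : Finset α}
    (hA : A ⊆ A₀) (h1 : A₁ ⊆ A) (h2 : A₂ ⊆ A) {g Ξ : ℝ} (hg : 0 < g) (hμ : μ ≤ 1)
    (hΞ : 2 * μ * Ξ ≤ 1) (h : ∀ p ∈ A₁, ∀ q ∈ A₂, g < |X p - X q| ∧ |Y p - Y q| ≤ Ξ * g) :
    Tc A₁ + Tc A₂ ≤ Tc A := by
  have μ0 := hS.mupos
  have H0 : 0 < H := by
    by_contra hc
    have := mul_nonpos_of_nonneg_of_nonpos μ0.le (not_lt.1 hc)
    linarith [hS.Hge]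
  have H1 : 1 ≤ H := hS.Hge.trans (mul_le_of_le_one_left H0.le hμ)
  have key : ∀ p ∈ A₁, ∀ q ∈ A₂, μ ^ 2 * |Y p - Y q| < H * |X p - X q| := by
    intro p hp q hq
    obtain ⟨a1, a2⟩ := h p hp q hq
    have a3 := mul_le_mul_of_nonneg_left a2 (sq_nonneg μ)
    have a4 := mul_le_mul_of_nonneg_right hΞ (mul_pos μ0 hg).le
    have a5 := mul_le_mul_of_nonneg_right hμ hg.le
    have a6 := mul_le_mul_of_nonneg_right H1 (abs_nonneg (X p - X q))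
    nlinarith
  exact BStep_two (R := fun A A' => ∀ p ∈ A, ∀ q ∈ A', μ ^ 2 * |Y p - Y q| < H * |X p - X q|)
    hS.Tcmono hS.Tcadd hA h1 h2 key fun p hp q hq => by
      rw [abs_sub_comm (Y p), abs_sub_comm (X p)]; exact key q hq p hp

theorem BStep_Ta (hS : SysB A₀ X Y Ta Tc s 𝓜 Tm rich lw up μ H Q Qm D B) {A A₁ A₂ : Finset α}
    (hA : A ⊆ A₀) (h1 : A₁ ⊆ A) (h2 : A₂ ⊆ A) {g Ξ : ℝ} (hg : 0 < g)
    (hΞ : 2 * μ * Ξ ≤ 1) (h : ∀ p ∈ A₁, ∀ q ∈ A₂, g < |Y p - Y q| ∧ |X p - X q| ≤ Ξ * g) :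
    Ta A₁ + Ta A₂ ≤ Ta A := by
  have key : ∀ p ∈ A₁, ∀ q ∈ A₂, μ * |X p - X q| < |Y p - Y q| := by
    intro p hp q hq
    obtain ⟨a1, a2⟩ := h p hp q hq
    have a3 := mul_le_mul_of_nonneg_left a2 hS.mupos.le
    have a4 := mul_le_mul_of_nonneg_right hΞ hg.le
    linarith
  exact BStep_two (R := fun A A' => ∀ p ∈ A, ∀ q ∈ A', μ * |X p - X q| < |Y p - Y q|)
    hS.Tamono hS.Taadd hA h1 h2 key fun p hp q hq => by
      rw [abs_sub_comm (Y p), abs_sub_comm (X p)]; exact key q hq p hp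

theorem BStep_Tm (hS : SysB A₀ X Y Ta Tc s 𝓜 Tm rich lw up μ H Q Qm D B) {A A₁ A₂ : Finset α}
    (hA : A ⊆ A₀) (h1 : A₁ ⊆ A) (h2 : A₂ ⊆ A) {m : ι} (hm : m ∈ 𝓜)
    (h : ∀ p ∈ A₁, ∀ q ∈ A₂,
      ¬ (lw m * |X p - X q| ≤ |Y p - Y q| ∧ |Y p - Y q| ≤ up m * |X p - X q|)) :
    Tm m (A₁ ∩ rich m) + Tm m (A₂ ∩ rich m) ≤ Tm m (A ∩ rich m) :=
  (hS.Tmadd m hm _ _ (inter_subset_left.trans (h1.trans hA)) (inter_subset_left.trans (h2.trans hA))
    fun p hp q hq => h p (mem_inter.1 hp).1 q (mem_inter.1 hq).1).trans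
    (hS.Tmmono m hm _ _ (union_subset (inter_subset_inter_right h1) (inter_subset_inter_right h2))
      (inter_subset_left.trans hA))

end

theorem BStep_abs {a b g : ℝ} (h : a + g < b) : g < |a - b| := lt_abs.2 (Or.inr (by linarith))

theorem BStep_abs' {a b g : ℝ} (h : b + g < a) : g < |a - b| := lt_abs.2 (Or.inl (by linarith))

theorem stepB (Λ κ₁ : ℝ) (hΛ : 1 ≤ Λ) (hκ : 0 < κ₁) (hκ' : κ₁ ≤ mB Λ / 16) :
    ∃ μ₀ : ℝ, 0 < μ₀ ∧ ∃ D₁ : ℝ, 1 ≤ D₁ ∧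
    ∀ (α ι : Type) (A₀ : Finset α) (X Y : α → ℝ) (Ta Tc s : Finset α → ℝ)
      (𝓜 : Finset ι) (Tm : ι → Finset α → ℝ) (rich : ι → Finset α) (lw up : ι → ℝ)
      (μ H Q Qm D B : ℝ), SysB A₀ X Y Ta Tc s 𝓜 Tm rich lw up μ H Q Qm D B → μ ≤ μ₀ →
      ∀ A : Finset α, A ⊆ A₀ → 2 ≤ A.card → D₁ * B ≤ D * A.card →
        GB Ta Tc s Q A ≤ Λ * A.card →
        StepB (GB Ta Tc s Q) 𝓜 Tm rich Λ (mB Λ) κ₁ ((512 * Λ ^ 4 / κ₁ ^ 3) ^ 2) A := by
  have Λ0 : 0 < Λ := by linarith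
  have m0 : 0 < mB Λ := by unfold mB; positivity
  have m1 : mB Λ ≤ 1 / 8 := by
    unfold mB
    have : 1 ≤ Λ ^ 7 := one_le_pow₀ hΛ
    exact one_div_le_one_div_of_le (by norm_num) (by linarith)
  obtain ⟨Ξ, hΞ, hgeom⟩ := geomB (mB Λ) (κ₁ / 4) m0 m1 (by positivity)
  have Ξ0 : 0 < Ξ := by linarith
  refine ⟨min (1 / (2 * Ξ)) (κ₁ / (48 * Ξ)), lt_min (by positivity) (by positivity),
    max (32 * Λ) (8 / κ₁), le_max_of_le_left (by linarith), ?_⟩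
  intro α ι A₀ X Y Ta Tc s 𝓜 Tm rich lw up μ H Q Qm D B hS hμ A hA hcard hD hG
  have μ0 := hS.mupos
  have μ1 : 2 * μ * Ξ ≤ 1 := by
    have := (le_div_iff₀ (by positivity)).1 (hμ.trans (min_le_left _ _))
    linarith
  have μ2 : μ ≤ 1 := by nlinarith
  have μ3 : 12 * μ ^ 2 * Ξ ≤ κ₁ / 4 := by
    have h1 := (le_div_iff₀ (by positivity)).1 (hμ.trans (min_le_right _ _))
    have h2 := mul_le_mul_of_nonneg_right μ2 (mul_pos μ0 Ξ0).le
    nlinarith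
  have a2 : (2 : ℝ) ≤ A.card := by exact_mod_cast hcard
  have a0 : (0 : ℝ) < A.card := by linarith
  have aB : (A.card : ℝ) ≤ B :=
    (Nat.cast_le.2 (card_le_card hA)).trans ((hS.scard A₀ Subset.rfl).trans hS.sle)
  have B0 : 0 ≤ B := by linarith
  have hB1 : 32 * Λ * B ≤ D * A.card :=
    (mul_le_mul_of_nonneg_right (le_max_left _ _) B0).trans hD
  have hB2 : B ≤ D * A.card := by nlinarith
  have hD1 : 1 ≤ D := le_of_mul_le_mul_right (by linarith) a0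
  have hQ : Q ≤ D * A.card := hS.QB.trans hB2
  have hB3 : B ≤ D * (κ₁ / 8) * A.card := by
    have h1 := (mul_le_mul_of_nonneg_right (le_max_right _ _) B0).trans hD
    rw [div_mul_eq_mul_div, div_le_iff₀ hκ] at h1
    linarith
  obtain ⟨g, g0, A₁, A₂, h1, h2, hbox, hcase⟩ := hgeom α A X Y hcard
    fun p hp q hq => hS.inj p (hA hp) q (hA hq)
  have hb : ∀ p ∈ A₁, ∀ q ∈ A₂, |X p - X q| ≤ Ξ * g ∧ |Y p - Y q| ≤ Ξ * g := fun p hp q hq =>
    hbox p (mem_union_left _ hp) q (mem_union_right _ hq)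
  have ma := mul_le_mul_of_nonneg_right m1 a0.le
  have ka := mul_le_mul_of_nonneg_right hκ' a0.le
  have ka0 := mul_pos hκ a0
  rcases hcase with ⟨c1, c2, c3, c4⟩ | ⟨c1, c2, c3, c4, c5, c6⟩
  · refine Or.inl ⟨A₁, h1, c1, ?_, B_tiny hS hD1 hΛ hA h1 h2 hQ hB1 hG c2 c3
      (BStep_s hS hA h1 h2 g0 c4) ?_⟩
    · exact_mod_cast (show (A.card : ℝ) ≤ 2 * A₁.card by linarith)
    · rcases c4 with h | h | h | h
      · exact Or.inr (BStep_Tc hS hA h1 h2 g0 μ2 μ1 fun p hp q hq =>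
          ⟨BStep_abs (h p hp q hq), (hb p hp q hq).2⟩)
      · exact Or.inr (BStep_Tc hS hA h1 h2 g0 μ2 μ1 fun p hp q hq =>
          ⟨BStep_abs' (h p hp q hq), (hb p hp q hq).2⟩)
      · exact Or.inl (BStep_Ta hS hA h1 h2 g0 μ1 fun p hp q hq =>
          ⟨BStep_abs (h p hp q hq), (hb p hp q hq).1⟩)
      · exact Or.inl (BStep_Ta hS hA h1 h2 g0 μ1 fun p hp q hq =>
          ⟨BStep_abs' (h p hp q hq), (hb p hp q hq).1⟩)
  · rcases c6 with h | h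
    · refine Or.inr ⟨A₁, A₂, h1, h2, disjoint_left.2 fun p hp hq => by linarith [h p hp p hq], ∅,
        by rw [card_empty, Nat.cast_zero]; positivity, by linarith, by linarith, c3, c4, by linarith,
        GB_add hS hA h1 h2 (BStep_s hS hA h1 h2 g0 (Or.inl h))
          (Or.inr (BStep_Tc hS hA h1 h2 g0 μ2 μ1 fun p hp q hq =>
            ⟨BStep_abs (h p hp q hq), (hb p hp q hq).2⟩)),
        fun m hm _ => BStep_Tm hS hA h1 h2 hm fun p hp q hq hc => ?_⟩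
      have e1 := BStep_abs (h p hp q hq)
      have e2 := mul_le_mul_of_nonneg_left (hc.1.trans (hb p hp q hq).2) μ0.le
      have e3 := mul_le_mul_of_nonneg_right (hS.lw_ge m hm) (abs_nonneg (X p - X q))
      have e4 := mul_le_mul_of_nonneg_right μ1 g0.le
      linarith
    · have hd : Disjoint A₁ A₂ := disjoint_left.2 fun p hp hq => by linarith [h p hp p hq]
      obtain ⟨A'', d1, d2, L, d3, d4⟩ := light_strips hS hD1 (ζ := κ₁ / 8)
        (ε₀ := (κ₁ / 8) ^ 3 / Λ ^ 4) hΛ (by positivity) (by positivity)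
        (by rw [div_mul_cancel₀ _ (by positivity)]) g0 Ξ0 hA (card_pos.1 (by omega))
        (union_subset h1 h2) hQ hB3 hG fun p hp q hq => (hbox p hp q hq).2
      have e1 : A₁ ∩ A'' ⊆ A₁ := inter_subset_left
      have e2 : A₂ ∩ A'' ⊆ A₂ := inter_subset_left
      have e3 : A₁ ∩ A'' ∪ A₂ ∩ A'' = A'' := by
        rw [← union_inter_distrib_right, inter_eq_right.2 d1]
      have hd' : Disjoint (A₁ ∩ A'') (A₂ ∩ A'') := hd.mono e1 e2
      have f1 : ((A₁ ∩ A'').card : ℝ) + (A₂ ∩ A'').card = A''.card := by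
        rw [← Nat.cast_add, ← card_union_of_disjoint hd', e3]
      have f2 : ((A₁ ∪ A₂).card : ℝ) = A₁.card + A₂.card := by
        rw [card_union_of_disjoint hd, Nat.cast_add]
      have f3 : ((A₁ ∩ A'').card : ℝ) ≤ A₁.card := Nat.cast_le.2 (card_le_card e1)
      have f4 : ((A₂ ∩ A'').card : ℝ) ≤ A₂.card := Nat.cast_le.2 (card_le_card e2)
      have f5 := mul_le_mul_of_nonneg_right μ3 a0.le
      rw [f2] at d2
      have hY : ∀ p ∈ A₁ ∩ A'', ∀ q ∈ A₂ ∩ A'', g < |Y p - Y q| ∧ |Y p - Y q| ≤ Ξ * g :=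
        fun p hp q hq => ⟨BStep_abs (h p (e1 hp) q (e2 hq)), (hb p (e1 hp) q (e2 hq)).2⟩
      have hc := conflicts hS g0 μ1 (A₁ ∩ A'') (A₂ ∩ A'') L (by rw [e3]; exact d4) hY
      refine Or.inr ⟨A₁ ∩ A'', A₂ ∩ A'', e1.trans h1, e2.trans h2, hd', _,
        (Nat.cast_le.2 hc).trans ?_, by linarith, by linarith, f3.trans c3, f4.trans c4, by linarith,
        GB_add hS hA (e1.trans h1) (e2.trans h2)
          (BStep_s hS hA (e1.trans h1) (e2.trans h2) g0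
            (Or.inr (Or.inr (Or.inl fun p hp q hq => h p (e1 hp) q (e2 hq)))))
          (Or.inl (BStep_Ta hS hA (e1.trans h1) (e2.trans h2) g0 μ1 fun p hp q hq =>
            ⟨(hY p hp q hq).1, (hb p (e1 hp) q (e2 hq)).1⟩)),
        fun m hm hm' => BStep_Tm hS hA (e1.trans h1) (e2.trans h2) hm fun p hp q hq hc =>
          hm' (mem_filter.2 ⟨hm, p, hp, q, hq, hc⟩)⟩
      push_cast
      refine pow_le_pow_left₀ (Nat.cast_nonneg _) ?_ 2
      rw [← mul_div_assoc, div_le_one (by positivity)] at d3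
      rw [le_div_iff₀ (by positivity)]
      linarith

end
end Crest.Agent.R51
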