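import Crest.Agent.R51.BBasic

set_option autoImplicit false
open Classical Finset

namespace Crest.Agent.R51
noncomputable section

variable {α ι : Type} {A₀ : Finset α} {X Y : α → ℝ} {Ta Tc s : Finset α → ℝ} {𝓜 : Finset ι}
  {Tm : ι → Finset α → ℝ} {rich : ι → Finset α} {lw up : ι → ℝ} {μ H Q Qm D B : ℝ}

theorem bstrips_cube {k a b : ℝ} (ha : 0 ≤ a) (hb : 0 ≤ b) (h : k ^ 3 ≤ a ^ 2 * b) :
    k ≤ a + b := by
  by_contra hk
  push Not at hk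
  have h1 : (a + b) ^ 3 < k ^ 3 := pow_lt_pow_left₀ hk (by positivity) (by norm_num)
  have h2 : a ^ 2 * b ≤ (a + b) ^ 3 := by
    have e : (a + b) ^ 3 = a ^ 2 * b + (a ^ 3 + 2 * (a ^ 2 * b) + 3 * (a * b ^ 2) + b ^ 3) := by ring
    rw [e]
    exact le_add_of_nonneg_right (by positivity)
  linarith

/-- a light class is paid by its share of `Tc` and `s` -/
theorem bstrips_light {n T S k t u Q D B Λ ζ ε₀ : ℝ} (hn : 0 < n) (hT : 0 < T) (hS : 0 < S)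
    (hk : 0 ≤ k) (ht : 0 ≤ t) (hu : 0 ≤ u) (hQ : 0 < Q) (hζ : 0 < ζ) (hΛ : 1 ≤ Λ)
    (hεζ : ε₀ * Λ ^ 4 ≤ ζ ^ 3) (hTB : T ≤ B) (hSB : S ≤ B) (hB : B ≤ D * ζ * n)
    (hgood : T ^ 2 * S ≤ Λ ^ 4 * Q * n ^ 2) (hlight : k < ε₀ * n)
    (hfl : D * k ≤ t ∨ D * k ≤ u ∨ Q * k ^ 2 ≤ t ^ 2 * u) :
    k ≤ ζ * n / T * t + ζ * n / S * u := by
  have hx : 0 ≤ ζ * n / T * t := by positivity
  have hy : 0 ≤ ζ * n / S * u := by positivity
  have hzn : 0 < ζ * n := mul_pos hζ hn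
  rcases hfl with h | h | h
  · have h1 : k ≤ ζ * n / T * t := by
      rw [div_mul_eq_mul_div, le_div_iff₀ hT]
      have a1 : k * T ≤ k * (D * ζ * n) := mul_le_mul_of_nonneg_left (hTB.trans hB) hk
      have a2 : ζ * n * (D * k) ≤ ζ * n * t := mul_le_mul_of_nonneg_left h hzn.le
      linarith
    linarith
  · have h1 : k ≤ ζ * n / S * u := by
      rw [div_mul_eq_mul_div, le_div_iff₀ hS]
      have a1 : k * S ≤ k * (D * ζ * n) := mul_le_mul_of_nonneg_left (hSB.trans hB) hk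
      have a2 : ζ * n * (D * k) ≤ ζ * n * u := mul_le_mul_of_nonneg_left h hzn.le
      linarith
    linarith
  · refine bstrips_cube hx hy ?_
    have e : (ζ * n / T * t) ^ 2 * (ζ * n / S * u) = (ζ * n) ^ 3 * (t ^ 2 * u) / (T ^ 2 * S) := by
      field_simp
    rw [e, le_div_iff₀ (by positivity)]
    have hΛ4 : 0 ≤ Λ ^ 4 := by positivity
    have a1 : k ^ 3 * (T ^ 2 * S) ≤ k ^ 3 * (Λ ^ 4 * Q * n ^ 2) :=
      mul_le_mul_of_nonneg_left hgood (by positivity)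
    have a2 : k * Λ ^ 4 ≤ ζ ^ 3 * n := by
      have b1 : k * Λ ^ 4 ≤ ε₀ * n * Λ ^ 4 := mul_le_mul_of_nonneg_right hlight.le hΛ4
      have b2 : ε₀ * Λ ^ 4 * n ≤ ζ ^ 3 * n := mul_le_mul_of_nonneg_right hεζ hn.le
      linarith
    have a3 : k * Λ ^ 4 * (Q * k ^ 2 * n ^ 2) ≤ ζ ^ 3 * n * (Q * k ^ 2 * n ^ 2) :=
      mul_le_mul_of_nonneg_right a2 (by positivity)
    have a4 : (ζ * n) ^ 3 * (Q * k ^ 2) ≤ (ζ * n) ^ 3 * (t ^ 2 * u) :=
      mul_le_mul_of_nonneg_left h (by positivity)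
    have e1 : k ^ 3 * (Λ ^ 4 * Q * n ^ 2) = k * Λ ^ 4 * (Q * k ^ 2 * n ^ 2) := by ring
    have e2 : ζ ^ 3 * n * (Q * k ^ 2 * n ^ 2) = (ζ * n) ^ 3 * (Q * k ^ 2) := by ring
    linarith

theorem light_strips (hS : SysB A₀ X Y Ta Tc s 𝓜 Tm rich lw up μ H Q Qm D B) (hD : 1 ≤ D)
    {Λ ζ ε₀ g Ξ : ℝ} (hΛ : 1 ≤ Λ) (hζ : 0 < ζ) (hε : 0 < ε₀) (hεζ : ε₀ * Λ ^ 4 ≤ ζ ^ 3)
    (hg0 : 0 < g) (hΞ : 0 < Ξ) {A A' : Finset α} (hA : A ⊆ A₀) (hne : A.Nonempty) (h1 : A' ⊆ A)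
    (hQ : Q ≤ D * A.card) (hB : B ≤ D * ζ * A.card) (hg : GB Ta Tc s Q A ≤ Λ * A.card)
    (hY : ∀ p ∈ A', ∀ q ∈ A', |Y p - Y q| ≤ Ξ * g) :
    ∃ A'' : Finset α, A'' ⊆ A' ∧ (A'.card : ℝ) - A''.card ≤ (12 * μ ^ 2 * Ξ + 2 * ζ) * A.card ∧
      ∃ L : Finset ℝ, (L.card : ℝ) * ε₀ ≤ 1 ∧
        ∀ p ∈ A'', ∃ c ∈ L, c ≤ X p ∧ X p < c + g / (4 * H) := by
  have hμ := hS.mupos
  have hH : 0 < H := by
    by_contra h
    push Not at h
    have := mul_nonpos_of_nonneg_of_nonpos hμ.le h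
    linarith [hS.Hge]
  obtain ⟨ξ, hξ⟩ : ∃ ξ : ℝ, ξ = g / (4 * H) := ⟨_, rfl⟩
  have hξ0 : 0 < ξ := by rw [hξ]; positivity
  obtain ⟨w, hw⟩ : ∃ w : ℝ, w = 4 * μ ^ 2 * Ξ := ⟨_, rfl⟩
  have hw0 : 0 < w := by rw [hw]; positivity
  have hwξ : H * (w * ξ) = μ ^ 2 * (Ξ * g) := by
    rw [hw, hξ]
    field_simp
  rw [← hξ]
  obtain ⟨o, ho⟩ := exists_offset A' X ξ hξ0 ({()} : Finset Unit) (fun _ => 1) (fun _ => w)
    (fun _ _ => zero_le_one) (fun _ _ => hw0)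
  simp only [Finset.sum_singleton, one_mul] at ho
  have hgrid := grid_flo hξ0 o
  obtain ⟨A1, hA1⟩ : ∃ A1 : Finset α, A1 = A'.filter (fun p => ¬ Near (flo ξ o) (w * ξ) (X p)) :=
    ⟨_, rfl⟩
  have hA1sub : A1 ⊆ A' := hA1 ▸ Finset.filter_subset _ _
  have hn : (0 : ℝ) < A.card := by exact_mod_cast hne.card_pos
  have hA'card : (A'.card : ℝ) ≤ A.card := by exact_mod_cast Finset.card_le_card h1
  have hA1card : (A'.card : ℝ) - A1.card ≤ 12 * μ ^ 2 * Ξ * A.card := by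
    have e := Finset.card_filter_add_card_filter_not (s := A')
      (fun p => Near (flo ξ o) (w * ξ) (X p))
    rw [← hA1] at e
    have e' : ((A'.filter (fun p => Near (flo ξ o) (w * ξ) (X p))).card : ℝ) + A1.card =
        A'.card := by exact_mod_cast e
    have a1 : 3 * (A'.card : ℝ) * w ≤ 3 * (A.card : ℝ) * w :=
      mul_le_mul_of_nonneg_right (by linarith) hw0.le
    have a2 : 3 * (A.card : ℝ) * w = 12 * μ ^ 2 * Ξ * A.card := by rw [hw]; ring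
    linarith
  obtain ⟨lb, hlb⟩ : ∃ lb : α → ℝ, lb = fun p => flo ξ o (X p) := ⟨_, rfl⟩
  have hsep : Sep A1 lb X (w * ξ) := by
    rw [hlb]
    exact hgrid.sep (mul_pos hw0 hξ0).le A1 X fun p hp => by
      rw [hA1] at hp
      exact (Finset.mem_filter.mp hp).2
  obtain ⟨cl, hcl⟩ : ∃ cl : ℝ → Finset α, cl = fun c => A1.filter (fun p => lb p = c) := ⟨_, rfl⟩
  have hmem : ∀ c p, p ∈ cl c ↔ p ∈ A1 ∧ lb p = c := by
    intro c p
    rw [hcl]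
    exact Finset.mem_filter
  have hclA : ∀ c, cl c ⊆ A := fun c p hp => h1 (hA1sub ((hmem c p).mp hp).1)
  have hcl0 : ∀ c, cl c ⊆ A₀ := fun c => (hclA c).trans hA
  have hlt : ∀ c c', c < c' → ∀ p ∈ cl c, ∀ q ∈ cl c', X p + w * ξ < X q := by
    intro c c' hcc p hp q hq
    obtain ⟨hp1, hp2⟩ := (hmem c p).mp hp
    obtain ⟨hq1, hq2⟩ := (hmem c' q).mp hq
    exact hsep p hp1 q hq1 (by rw [hp2, hq2]; exact hcc)
  have hwξ0 : 0 < w * ξ := mul_pos hw0 hξ0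
  obtain ⟨F, hF⟩ : ∃ F : Finset ℝ, F = (A1.image lb).filter
    (fun c => ((cl c).card : ℝ) < ε₀ * A.card) := ⟨_, rfl⟩
  obtain ⟨L, hL⟩ : ∃ L : Finset ℝ, L = (A1.image lb).filter
    (fun c => ¬ ((cl c).card : ℝ) < ε₀ * A.card) := ⟨_, rfl⟩
  have hbU : F.biUnion cl ⊆ A := Finset.biUnion_subset.mpr fun c _ => hclA c
  have hTc : ∑ c ∈ F, Tc (cl c) ≤ Tc A := by
    refine (hS.Tcadd ℝ F cl (fun c _ => hcl0 c) ?_).trans (hS.Tcmono _ _ hbU hA)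
    intro c _ c' _ hcc p hp q hq
    have hy := hY p (hA1sub ((hmem c p).mp hp).1) q (hA1sub ((hmem c' q).mp hq).1)
    have a1 : μ ^ 2 * |Y p - Y q| ≤ μ ^ 2 * (Ξ * g) := mul_le_mul_of_nonneg_left hy (sq_nonneg _)
    have a2 : w * ξ < |X p - X q| := by
      rcases lt_or_gt_of_ne hcc with h | h
      · have := hlt c c' h p hp q hq
        exact lt_abs.mpr (Or.inr (by linarith))
      · have := hlt c' c h q hq p hp
        exact lt_abs.mpr (Or.inl (by linarith))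
    have a3 : H * (w * ξ) < H * |X p - X q| := mul_lt_mul_of_pos_left a2 hH
    linarith
  have hs : ∑ c ∈ F, s (cl c) ≤ s A := by
    refine (hS.sadd ℝ F cl (fun c _ => hcl0 c) ?_).trans (hS.smono _ _ hbU hA)
    intro c _ c' _ hcc
    rcases lt_or_gt_of_ne hcc with h | h
    · exact Or.inl fun p hp q hq => by linarith [hlt c c' h p hp q hq]
    · exact Or.inr (Or.inl fun p hp q hq => by linarith [hlt c' c h q hq p hp])
  have hT0 : 0 < Tc A := hn.trans_le (hS.Tccard A hA)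
  have hS0 : 0 < s A := hn.trans_le (hS.scard A hA)
  have hlight : ∀ c ∈ F, ((cl c).card : ℝ) ≤
      ζ * A.card / Tc A * Tc (cl c) + ζ * A.card / s A * s (cl c) := by
    intro c hc
    have hc0 : (0 : ℝ) ≤ (cl c).card := Nat.cast_nonneg _
    rw [hF] at hc
    exact bstrips_light hn hT0 hS0 hc0 (hc0.trans (hS.Tccard _ (hcl0 c)))
      (hc0.trans (hS.scard _ (hcl0 c))) hS.Qpos hζ hΛ hεζ
      ((hS.Tcmono _ _ hA le_rfl).trans hS.Tcle) ((hS.smono _ _ hA le_rfl).trans hS.sle) hB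
      (B_good hS hD hA hQ hg).2 (Finset.mem_filter.mp hc).2 (hS.floorc _ (hcl0 c))
  have hFsum : ∑ c ∈ F, ((cl c).card : ℝ) ≤ 2 * ζ * A.card := by
    refine (Finset.sum_le_sum hlight).trans ?_
    rw [Finset.sum_add_distrib, ← Finset.mul_sum, ← Finset.mul_sum]
    have a1 : ζ * A.card / Tc A * ∑ c ∈ F, Tc (cl c) ≤ ζ * A.card / Tc A * Tc A :=
      mul_le_mul_of_nonneg_left hTc (by positivity)
    have a2 : ζ * A.card / s A * ∑ c ∈ F, s (cl c) ≤ ζ * A.card / s A * s A :=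
      mul_le_mul_of_nonneg_left hs (by positivity)
    rw [div_mul_cancel₀ _ hT0.ne'] at a1
    rw [div_mul_cancel₀ _ hS0.ne'] at a2
    linarith
  have htot : ∑ c ∈ F, ((cl c).card : ℝ) + ∑ c ∈ L, ((cl c).card : ℝ) = A1.card := by
    rw [hF, hL, Finset.sum_filter_add_sum_filter_not, Finset.card_eq_sum_card_image lb A1, hcl]
    push_cast
    rfl
  have hLcard : ((A1.filter (fun p => lb p ∈ L)).card : ℝ) = ∑ c ∈ L, ((cl c).card : ℝ) := by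
    rw [Finset.card_eq_sum_card_fiberwise (f := lb) (s := A1.filter (fun p => lb p ∈ L)) (t := L)
      (fun p hp => (Finset.mem_filter.mp hp).2)]
    push_cast
    refine Finset.sum_congr rfl fun c hc => ?_
    congr 2
    ext p
    rw [hmem, Finset.mem_filter, Finset.mem_filter]
    exact ⟨fun h => ⟨h.1.1, h.2⟩, fun h => ⟨⟨h.1, h.2 ▸ hc⟩, h.2⟩⟩
  refine ⟨A1.filter (fun p => lb p ∈ L), (Finset.filter_subset _ _).trans hA1sub, ?_, L, ?_, ?_⟩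
  · rw [hLcard]
    linarith
  · have a1 : ∑ _c ∈ L, ε₀ * (A.card : ℝ) ≤ ∑ c ∈ L, ((cl c).card : ℝ) :=
      Finset.sum_le_sum fun c hc => by
        rw [hL] at hc
        exact not_lt.mp (Finset.mem_filter.mp hc).2
    rw [Finset.sum_const, nsmul_eq_mul] at a1
    have a2 : 0 ≤ ∑ c ∈ F, ((cl c).card : ℝ) := Finset.sum_nonneg fun c _ => Nat.cast_nonneg _
    have a3 : (A1.card : ℝ) ≤ A'.card := by exact_mod_cast Finset.card_le_card hA1sub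
    refine le_of_mul_le_mul_right ?_ hn
    linarith
  · intro p hp
    refine ⟨lb p, (Finset.mem_filter.mp hp).2, ?_, ?_⟩
    · rw [hlb]
      exact hgrid.le _
    · rw [hlb]
      exact hgrid.lt _

theorem conflicts (hS : SysB A₀ X Y Ta Tc s 𝓜 Tm rich lw up μ H Q Qm D B) {g Ξ : ℝ} (hg0 : 0 < g)
    (hΞ : 2 * μ * Ξ ≤ 1) (A₁ A₂ : Finset α) (L : Finset ℝ)
    (hL : ∀ p ∈ A₁ ∪ A₂, ∃ c ∈ L, c ≤ X p ∧ X p < c + g / (4 * H))
    (hY : ∀ p ∈ A₁, ∀ q ∈ A₂, g < |Y p - Y q| ∧ |Y p - Y q| ≤ Ξ * g) :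
    (𝓜.filter (fun m => ∃ p ∈ A₁, ∃ q ∈ A₂,
      lw m * |X p - X q| ≤ |Y p - Y q| ∧ |Y p - Y q| ≤ up m * |X p - X q|)).card ≤ L.card ^ 2 := by
  have hμ := hS.mupos
  have hH : 0 < H := by
    by_contra h
    push Not at h
    have := mul_nonpos_of_nonneg_of_nonpos hμ.le h
    linarith [hS.Hge]
  obtain ⟨ξ, hξ⟩ : ∃ ξ : ℝ, ξ = g / (4 * H) := ⟨_, rfl⟩
  have hξg : H * (4 * ξ) = g := by
    rw [hξ]
    field_simp
  rw [← hξ] at hL
  let W : ι → ℝ × ℝ → Prop := fun m c => ∃ p ∈ A₁, ∃ q ∈ A₂,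
    (lw m * |X p - X q| ≤ |Y p - Y q| ∧ |Y p - Y q| ≤ up m * |X p - X q|) ∧
      (c.1 ≤ X p ∧ X p < c.1 + ξ) ∧ (c.2 ≤ X q ∧ X q < c.2 + ξ)
  have key : ∀ m ∈ 𝓜, ∀ m' ∈ 𝓜, ∀ c, W m c → W m' c → ¬ up m ≤ μ * lw m' := by
    rintro m hm m' hm' c ⟨p, hp, q, hq, ⟨-, a2⟩, ⟨a3, a4⟩, a5, a6⟩
      ⟨p', hp', q', hq', ⟨b1, b2⟩, ⟨b3, b4⟩, b5, b6⟩ hle
    obtain ⟨y1, -⟩ := hY p hp q hq
    obtain ⟨y3, y4⟩ := hY p' hp' q' hq'
    have c1 : up m' * |X p' - X q'| ≤ H * |X p' - X q'| :=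
      mul_le_mul_of_nonneg_right (hS.up_le m' hm') (abs_nonneg _)
    have c2 : 4 * ξ < |X p' - X q'| := lt_of_mul_lt_mul_left (by linarith) hH.le
    have c3 : |X p - X q| ≤ |X p' - X q'| + 2 * ξ := by
      have d1 := le_abs_self (X p' - X q')
      have d2 := neg_abs_le (X p' - X q')
      exact abs_le.mpr ⟨by linarith, by linarith⟩
    have c4 : |X p - X q| ≤ 3 / 2 * |X p' - X q'| := by linarith
    have c5 : 0 ≤ μ * lw m' := zero_le_one.trans (hS.lw_ge m' hm')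
    have c6 : up m * |X p - X q| ≤ μ * lw m' * |X p - X q| :=
      mul_le_mul_of_nonneg_right hle (abs_nonneg _)
    have c7 : μ * lw m' * |X p - X q| ≤ μ * lw m' * (3 / 2 * |X p' - X q'|) :=
      mul_le_mul_of_nonneg_left c4 c5
    have c8 : μ * (lw m' * |X p' - X q'|) ≤ μ * (Ξ * g) :=
      mul_le_mul_of_nonneg_left (b1.trans y4) hμ.le
    have c9 : 2 * μ * Ξ * g ≤ 1 * g := mul_le_mul_of_nonneg_right hΞ hg0.le
    linarith
  rw [sq, ← Finset.card_product]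
  refine Finset.card_le_card_of_forall_subsingleton W ?_ ?_
  · intro m hm
    obtain ⟨-, p, hp, q, hq, h⟩ := Finset.mem_filter.mp hm
    obtain ⟨c, hc, hc'⟩ := hL p (Finset.mem_union_left _ hp)
    obtain ⟨d, hd, hd'⟩ := hL q (Finset.mem_union_right _ hq)
    exact ⟨(c, d), Finset.mem_product.mpr ⟨hc, hd⟩, p, hp, q, hq, h, hc', hd'⟩
  · intro c _ m hm m' hm'
    have h1 := (Finset.mem_filter.mp hm.1).1
    have h2 := (Finset.mem_filter.mp hm'.1).1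
    by_contra hne
    rcases hS.sep m h1 m' h2 hne with h | h
    · exact key m h1 m' h2 c hm.2 hm'.2 h
    · exact key m' h2 m h1 c hm'.2 hm.2 h

end
end Crest.Agent.R51
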