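import Crest.Agent.R51.Defs

/-! Row 51: windows API (first half of `Cuts.lean`). -/

set_option autoImplicit false
open Classical Finset

namespace Crest.Agent.R51
noncomputable section

variable {G : ℕ} {C C' : Finset ℕ}

theorem mem_wins_A {w : ℕ × ℕ} : w ∈ wins C ↔ IsWin C w.1 w.2 := by
  unfold wins
  rw [mem_filter, mem_product]
  exact ⟨fun h => h.2, fun h => ⟨⟨h.1, h.2.1⟩, h⟩⟩

theorem win_disj_A {w w' : ℕ × ℕ} (hw : w ∈ wins C) (hw' : w' ∈ wins C) (h : w ≠ w') :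
    w.2 ≤ w'.1 ∨ w'.2 ≤ w.1 := by
  obtain ⟨a1, a2, a3, a4⟩ := mem_wins_A.1 hw
  obtain ⟨b1, b2, b3, b4⟩ := mem_wins_A.1 hw'
  have c1 := a4 _ b1
  have c2 := a4 _ b2
  have c3 := b4 _ a1
  have c4 := b4 _ a2
  by_contra hc
  exact h (Prod.ext (by omega) (by omega))

theorem card_wins_le_A (C : Finset ℕ) : (wins C).card ≤ C.card := by
  refine card_le_card_of_injOn (fun w => w.1) (fun w hw => (mem_wins_A.1 hw).1) ?_
  intro w hw w' hw' h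
  by_contra hne
  have h1 := (mem_wins_A.1 hw).2.2.1
  have h2 := (mem_wins_A.1 hw').2.2.1
  have h3 := win_disj_A hw hw' hne
  have h4 : w.1 = w'.1 := h
  omega

theorem lo_le_A (C : Finset ℕ) (i : ℕ) : lo C i ≤ i :=
  Finset.sup_le fun _ hc => (mem_filter.1 hc).2

theorem hi_spec_A (hC : Cuts G C) {i : ℕ} (hi' : i < G) : hi C i ∈ C ∧ i < hi C i :=
  Nat.sInf_mem (s := {c | c ∈ C ∧ i < c}) ⟨G, hC.top, hi'⟩

theorem lt_hi_A (hC : Cuts G C) {i : ℕ} (hi' : i < G) : i < hi C i := (hi_spec_A hC hi').2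

theorem hi_mem_A (hC : Cuts G C) {i : ℕ} (hi' : i < G) : hi C i ∈ C := (hi_spec_A hC hi').1

theorem hi_le_A (hC : Cuts G C) {i : ℕ} (hi' : i < G) : hi C i ≤ G := hC.le _ (hi_mem_A hC hi')

theorem lo_mem_A (hC : Cuts G C) (i : ℕ) : lo C i ∈ C := by
  obtain ⟨c, hc, h⟩ := Finset.exists_mem_eq_sup (C.filter fun c => c ≤ i)
    ⟨0, mem_filter.2 ⟨hC.zero, Nat.zero_le _⟩⟩ id
  unfold lo
  rw [h]
  exact (mem_filter.1 hc).1

theorem le_lo_A {c i : ℕ} (hc : c ∈ C) (h : c ≤ i) : c ≤ lo C i :=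
  Finset.le_sup (f := id) (mem_filter.2 ⟨hc, h⟩)

theorem hi_le_of_mem_A {c i : ℕ} (hc : c ∈ C) (h : i < c) : hi C i ≤ c :=
  Nat.sInf_le (s := {c | c ∈ C ∧ i < c}) ⟨hc, h⟩

theorem lo_mono_A (C : Finset ℕ) {i j : ℕ} (h : i ≤ j) : lo C i ≤ lo C j :=
  Finset.sup_le fun _ hc => le_lo_A (mem_filter.1 hc).1 ((mem_filter.1 hc).2.trans h)

theorem winOf_mem_A (hC : Cuts G C) {i : ℕ} (hi' : i < G) : winOf C i ∈ wins C := by
  refine mem_wins_A.2 ⟨lo_mem_A hC i, hi_mem_A hC hi', (lo_le_A C i).trans_lt (lt_hi_A hC hi'),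
    fun c hc => ?_⟩
  rcases le_or_gt c i with h | h
  · exact Or.inl (le_lo_A hc h)
  · exact Or.inr (hi_le_of_mem_A hc h)

theorem win_le_A (hC : Cuts G C) {w : ℕ × ℕ} (hw : w ∈ wins C) : w.1 < w.2 ∧ w.2 ≤ G :=
  ⟨(mem_wins_A.1 hw).2.2.1, hC.le _ (mem_wins_A.1 hw).2.1⟩

theorem winOf_eq_A (hC : Cuts G C) {w : ℕ × ℕ} (hw : w ∈ wins C) {i : ℕ} (h1 : w.1 ≤ i)
    (h2 : i < w.2) : winOf C i = w := by
  have hG : i < G := h2.trans_le (win_le_A hC hw).2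
  by_contra hne
  have h3 := win_disj_A (winOf_mem_A hC hG) hw hne
  have h4 : (winOf C i).1 ≤ i := lo_le_A C i
  have h5 : i < (winOf C i).2 := lt_hi_A hC hG
  omega

theorem win_nest_A (hC : Cuts G C) (h : C ⊆ C') {i : ℕ} (hi' : i < G) :
    lo C i ≤ lo C' i ∧ hi C' i ≤ hi C i :=
  ⟨le_lo_A (h (lo_mem_A hC i)) (lo_le_A C i), hi_le_of_mem_A (h (hi_mem_A hC hi')) (lt_hi_A hC hi')⟩

theorem sum_wins_A {M : Type} [AddCommMonoid M] (hC : Cuts G C) (f : ℕ → M) :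
    ∑ i ∈ Finset.range G, f i = ∑ w ∈ wins C, ∑ i ∈ Finset.Ico w.1 w.2, f i := by
  rw [← Finset.sum_fiberwise_of_maps_to (g := winOf C) (t := wins C)
    fun i hi' => winOf_mem_A hC (mem_range.1 hi')]
  refine sum_congr rfl fun w hw => sum_congr ?_ fun _ _ => rfl
  ext i
  rw [mem_filter, mem_range, mem_Ico]
  constructor
  · rintro ⟨h1, rfl⟩
    exact ⟨lo_le_A C i, lt_hi_A hC h1⟩
  · rintro ⟨h1, h2⟩
    exact ⟨h2.trans_le (win_le_A hC hw).2, winOf_eq_A hC hw h1 h2⟩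

end
end Crest.Agent.R51
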