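import Crest.Agent.R51.Defs

/-! Row 51 (k-sets): the basic API of chains. -/

set_option autoImplicit false
open Classical Finset

namespace Crest.Agent.R51
noncomputable section

variable {G : ℕ} {P : Finset Pt} {τ : ℕ → ℝ} {S : ℕ → Finset Pt}

theorem Chain.le_B (h : Chain P τ S G) {i j : ℕ} (hij : i ≤ j) (hj : j ≤ G) : τ i ≤ τ j := by
  rcases hij.eq_or_lt with rfl | hlt
  · exact le_rfl
  · exact (h.mono i j hlt hj).le

theorem card_sdiff_comm_B (h : Chain P τ S G) {i j : ℕ} (hi' : i ≤ G) (hj : j ≤ G) :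
    (S i \ S j).card = (S j \ S i).card :=
  Finset.card_sdiff_comm ((h.card i hi').trans (h.card j hj).symm)

theorem card_U_eq_V_B (h : Chain P τ S G) {i : ℕ} (hi' : i < G) : (U S i).card = (V S i).card :=
  card_sdiff_comm_B h hi'.le hi'

theorem mem_act_B {a b : ℕ} {p : Pt} :
    p ∈ act S a b ↔ ∃ i, a ≤ i ∧ i < b ∧ (p ∈ U S i ∨ p ∈ V S i) := by
  simp only [act, mem_biUnion, mem_Ico, mem_union, and_assoc]

theorem act_sub_B (h : Chain P τ S G) {a b : ℕ} (hb : b ≤ G) : act S a b ⊆ P := by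
  intro p hp
  obtain ⟨i, -, h2, h3 | h3⟩ := mem_act_B.1 hp
  · exact h.sub i (by omega) (mem_sdiff.1 h3).1
  · exact h.sub (i + 1) (by omega) (mem_sdiff.1 h3).1

theorem act_mono_B (S : ℕ → Finset Pt) {a b a' b' : ℕ} (ha : a ≤ a') (hb : b' ≤ b) :
    act S a' b' ⊆ act S a b := by
  intro p hp
  obtain ⟨i, h1, h2, h3⟩ := mem_act_B.1 hp
  exact mem_act_B.2 ⟨i, by omega, by omega, h3⟩

theorem mem_act_of_deg_B {a b : ℕ} {p : Pt} (h : 0 < deg S a b p) : p ∈ act S a b := by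
  obtain ⟨i, hi⟩ := card_pos.1 h
  rw [mem_filter, mem_Ico] at hi
  exact mem_act_B.2 ⟨i, hi.1.1, hi.1.2, Or.inl hi.2⟩

theorem change_B (q : ℕ → Prop) {i j : ℕ} (hij : i ≤ j) (hi : q i) (hj : ¬ q j) :
    ∃ k, i ≤ k ∧ k < j ∧ q k ∧ ¬ q (k + 1) := by
  induction j, hij using Nat.le_induction with
  | base => exact absurd hi hj
  | succ j hij ih =>
    by_cases h : q j
    · exact ⟨j, hij, Nat.lt_succ_self j, h, hj⟩
    · obtain ⟨k, h1, h2, h3⟩ := ih h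
      exact ⟨k, h1, by omega, h3⟩

theorem mem_act_iff_B {a b : ℕ} {p : Pt} :
    p ∈ act S a b ↔ (∃ i, a ≤ i ∧ i ≤ b ∧ p ∈ S i) ∧ (∃ i, a ≤ i ∧ i ≤ b ∧ p ∉ S i) := by
  rw [mem_act_B]
  constructor
  · rintro ⟨i, h1, h2, h3 | h3⟩
    · exact ⟨⟨i, h1, h2.le, (mem_sdiff.1 h3).1⟩, ⟨i + 1, by omega, h2, (mem_sdiff.1 h3).2⟩⟩
    · exact ⟨⟨i + 1, by omega, h2, (mem_sdiff.1 h3).1⟩, ⟨i, h1, h2.le, (mem_sdiff.1 h3).2⟩⟩
  · rintro ⟨⟨i, h1, h2, h3⟩, ⟨j, h4, h5, h6⟩⟩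
    rcases le_total i j with hij | hij
    · obtain ⟨k, k1, k2, k3, k4⟩ := change_B (fun i => p ∈ S i) hij h3 h6
      exact ⟨k, by omega, by omega, Or.inl (mem_sdiff.2 ⟨k3, k4⟩)⟩
    · obtain ⟨k, k1, k2, k3, k4⟩ := change_B (fun i => p ∉ S i) hij h6 (not_not.2 h3)
      exact ⟨k, by omega, by omega, Or.inr (mem_sdiff.2 ⟨not_not.1 k4, k3⟩)⟩

theorem sum_deg_B {a b : ℕ} {A : Finset Pt} (hA : act S a b ⊆ A) :
    ∑ p ∈ A, deg S a b p = ∑ i ∈ Finset.Ico a b, (U S i).card := by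
  simp only [deg, card_filter]
  rw [sum_comm]
  refine sum_congr rfl fun i hi => ?_
  rw [← card_filter]
  congr 1
  ext p
  rw [mem_filter, and_iff_right_iff_imp]
  exact fun hp => hA (mem_act_B.2 ⟨i, (mem_Ico.1 hi).1, (mem_Ico.1 hi).2, Or.inl hp⟩)

theorem card_events_B (h : Chain P τ S G) :
    (events P S G).card = ∑ i ∈ Finset.range G, (U S i).card := by
  rw [events, card_filter, sum_product_right]
  refine sum_congr rfl fun i hi => ?_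
  rw [← card_filter]
  congr 1
  ext p
  rw [mem_filter, and_iff_right_iff_imp]
  exact fun hp => h.sub i (mem_range.1 hi).le (mem_sdiff.1 hp).1

theorem sdiff_left_B (h : Chain P τ S G) {i j : ℕ} (hij : i < j) (hj : j ≤ G) {p q : Pt}
    (hp : p ∈ S i \ S j) (hq : q ∈ S j \ S i) :
    p.1 < q.1 ∧ ph (τ i) p < ph (τ i) q ∧ ph (τ j) q < ph (τ j) p := by
  rw [mem_sdiff] at hp hq
  have hi : i ≤ G := by omega
  have h1 := h.cut i hi p hp.1 q (h.sub j hj hq.1) hq.2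
  have h2 := h.cut j hj q hq.1 p (h.sub i hi hp.1) hp.2
  refine ⟨?_, h1, h2⟩
  have h3 := h.mono i j hij hj
  unfold ph at h1 h2
  by_contra hc
  have := mul_nonneg (sub_pos.2 h3).le (sub_nonneg.2 (not_lt.1 hc))
  nlinarith

theorem conv_B (h : Chain P τ S G) {i j k : ℕ} (hij : i ≤ j) (hjk : j ≤ k) (hk : k ≤ G) {p q : Pt}
    (p1 : p ∉ S i) (p2 : p ∈ S j) (p3 : p ∉ S k) (q1 : q ∈ S i) (q2 : q ∉ S j) (q3 : q ∈ S k) :
    False := by
  have hj : j ≤ G := hjk.trans hk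
  have hi : i ≤ G := hij.trans hj
  have h1 := h.cut i hi q q1 p (h.sub j hj p2) p1
  have h2 := h.cut j hj p p2 q (h.sub i hi q1) q2
  have h3 := h.cut k hk q q3 p (h.sub j hj p2) p3
  have h4 := h.le_B hij hj
  have h5 := h.le_B hjk hk
  unfold ph at h1 h2 h3
  rcases le_total p.1 q.1 with hc | hc
  · have := mul_nonneg (sub_nonneg.2 h4) (sub_nonneg.2 hc)
    nlinarith
  · have := mul_nonneg (sub_nonneg.2 h5) (sub_nonneg.2 hc)
    nlinarith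

theorem net_mono_B (h : Chain P τ S G) {a a' b' b : ℕ} (h1 : a ≤ a') (h2 : a' ≤ b') (h3 : b' ≤ b)
    (hb : b ≤ G) : (S a' \ S b').card ≤ (S a \ S b).card := by
  have s1 : (S a' \ S b').card ≤ (S a \ S b').card := by
    by_contra hc
    have hc1 := not_le.1 hc
    have hc2 := hc1
    rw [card_sdiff_comm_B h (i := a) (by omega) (by omega),
      card_sdiff_comm_B h (i := a') (by omega) (by omega)] at hc2
    obtain ⟨p, p1, p2⟩ := exists_mem_notMem_of_card_lt_card hc1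
    obtain ⟨q, q1, q2⟩ := exists_mem_notMem_of_card_lt_card hc2
    rw [mem_sdiff] at p1 p2 q1 q2
    exact conv_B h h1 h2 (by omega) (fun e => p2 ⟨e, p1.2⟩) p1.1 p1.2
      (by_contra fun e => q2 ⟨q1.1, e⟩) q1.2 q1.1
  have s2 : (S a \ S b').card ≤ (S a \ S b).card := by
    by_contra hc
    have hc1 := not_le.1 hc
    have hc2 := hc1
    rw [card_sdiff_comm_B h (i := a) (j := b) (by omega) (by omega),
      card_sdiff_comm_B h (i := a) (j := b') (by omega) (by omega)] at hc2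
    obtain ⟨q, q1, q2⟩ := exists_mem_notMem_of_card_lt_card hc1
    obtain ⟨p, p1, p2⟩ := exists_mem_notMem_of_card_lt_card hc2
    rw [mem_sdiff] at p1 p2 q1 q2
    exact conv_B h (h1.trans h2) h3 hb p1.2 p1.1 (fun e => p2 ⟨e, p1.2⟩) q1.1 q1.2
      (by_contra fun e => q2 ⟨q1.1, e⟩)
  exact s1.trans s2

theorem cone_x_B {s t : ℝ} (hst : s < t) {p q : Pt} (h : Cone s t p q) : p.1 ≤ q.1 := by
  obtain ⟨h1, h2⟩ := h
  unfold ph at h1 h2
  by_contra hc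
  have := mul_pos (sub_pos.2 hst) (sub_pos.2 (not_le.1 hc))
  nlinarith

theorem cone_lo_B {s t u : ℝ} (hst : s < t) (hu : u ≤ s) {p q : Pt} (h : Cone s t p q) :
    ph u p ≤ ph u q := by
  have h0 := cone_x_B hst h
  have h1 := h.1
  unfold ph at h1 ⊢
  have := mul_nonneg (sub_nonneg.2 hu) (sub_nonneg.2 h0)
  nlinarith

theorem cone_hi_B {s t u : ℝ} (hst : s < t) (hu : t ≤ u) {p q : Pt} (h : Cone s t p q) :
    ph u q ≤ ph u p := by
  have h0 := cone_x_B hst h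
  have h1 := h.2
  unfold ph at h1 ⊢
  have := mul_nonneg (sub_nonneg.2 hu) (sub_nonneg.2 h0)
  nlinarith

theorem mem_of_le_B (h : Chain P τ S G) {i : ℕ} (hi : i ≤ G) {p q : Pt} (hq : q ∈ P)
    (hle : ph (τ i) q ≤ ph (τ i) p) (hp : p ∈ S i) : q ∈ S i := by
  by_contra hc
  exact absurd (h.cut i hi p hp q hq hc) (not_lt.2 hle)

theorem between_B (h : Chain P τ S G) {a b c d : ℕ} (hab : a < b) (hb : b ≤ G) (hd : d ≤ G)
    (hsep : b ≤ c ∨ d ≤ a) {p v q : Pt} (hp : p ∈ P) (hv : v ∈ P) (hq : q ∈ P)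
    (h1 : Cone (τ a) (τ b) p v) (h2 : Cone (τ a) (τ b) v q) :
    (∀ i, c ≤ i → i ≤ d → (p ∈ S i → v ∈ S i) ∧ (v ∈ S i → q ∈ S i)) ∨
    (∀ i, c ≤ i → i ≤ d → (q ∈ S i → v ∈ S i) ∧ (v ∈ S i → p ∈ S i)) := by
  have hst := h.mono a b hab hb
  rcases hsep with hs | hs
  · refine Or.inl fun i hc hi => ?_
    have hiG : i ≤ G := hi.trans hd
    have hu := h.le_B (hs.trans hc) hiG
    exact ⟨mem_of_le_B h hiG hv (cone_hi_B hst hu h1), mem_of_le_B h hiG hq (cone_hi_B hst hu h2)⟩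
  · refine Or.inr fun i _ hi => ?_
    have hiG : i ≤ G := hi.trans hd
    have hu := h.le_B (hi.trans hs) (hab.le.trans hb)
    exact ⟨mem_of_le_B h hiG hv (cone_lo_B hst hu h2), mem_of_le_B h hiG hp (cone_lo_B hst hu h1)⟩

theorem status_between_B (h : Chain P τ S G) {a b c d : ℕ} (hab : a < b) (hb : b ≤ G) (hd : d ≤ G)
    (hsep : b ≤ c ∨ d ≤ a) {p v q : Pt} (hp : p ∈ P) (hv : v ∈ P) (hq : q ∈ P)
    (h1 : Cone (τ a) (τ b) p v) (h2 : Cone (τ a) (τ b) v q) :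
    (((∀ i, c ≤ i → i ≤ d → p ∈ S i) ↔ (∀ i, c ≤ i → i ≤ d → q ∈ S i)) →
      ((∀ i, c ≤ i → i ≤ d → v ∈ S i) ↔ (∀ i, c ≤ i → i ≤ d → p ∈ S i))) ∧
    (((∃ i, c ≤ i ∧ i ≤ d ∧ p ∈ S i) ↔ (∃ i, c ≤ i ∧ i ≤ d ∧ q ∈ S i)) →
      ((∃ i, c ≤ i ∧ i ≤ d ∧ v ∈ S i) ↔ (∃ i, c ≤ i ∧ i ≤ d ∧ p ∈ S i))) := by
  rcases between_B h hab hb hd hsep hp hv hq h1 h2 with H | H
  · refine ⟨fun e => ⟨fun hv' => e.2 fun i i1 i2 => (H i i1 i2).2 (hv' i i1 i2),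
      fun hp' i i1 i2 => (H i i1 i2).1 (hp' i i1 i2)⟩, fun e => ⟨?_, ?_⟩⟩
    · rintro ⟨i, i1, i2, i3⟩
      exact e.2 ⟨i, i1, i2, (H i i1 i2).2 i3⟩
    · rintro ⟨i, i1, i2, i3⟩
      exact ⟨i, i1, i2, (H i i1 i2).1 i3⟩
  · refine ⟨fun e => ⟨fun hv' i i1 i2 => (H i i1 i2).2 (hv' i i1 i2),
      fun hp' i i1 i2 => (H i i1 i2).1 (e.1 hp' i i1 i2)⟩, fun e => ⟨?_, fun hp' => ?_⟩⟩
    · rintro ⟨i, i1, i2, i3⟩
      exact ⟨i, i1, i2, (H i i1 i2).2 i3⟩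
    · obtain ⟨i, i1, i2, i3⟩ := e.1 hp'
      exact ⟨i, i1, i2, (H i i1 i2).1 i3⟩

theorem act_between_B (h : Chain P τ S G) {a b c d : ℕ} (hab : a < b) (hb : b ≤ G) (hd : d ≤ G)
    (hsep : b ≤ c ∨ d ≤ a) {p v q : Pt} (hv : v ∈ P)
    (hp : p ∈ act S c d) (hq : q ∈ act S c d)
    (h1 : Cone (τ a) (τ b) p v) (h2 : Cone (τ a) (τ b) v q) : v ∈ act S c d := by
  have H := between_B h hab hb hd hsep (act_sub_B h hd hp) hv (act_sub_B h hd hq) h1 h2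
  rw [mem_act_iff_B] at hp hq ⊢
  rcases H with H | H
  · obtain ⟨i, i1, i2, i3⟩ := hp.1
    obtain ⟨j, j1, j2, j3⟩ := hq.2
    exact ⟨⟨i, i1, i2, (H i i1 i2).1 i3⟩, ⟨j, j1, j2, fun e => j3 ((H j j1 j2).2 e)⟩⟩
  · obtain ⟨i, i1, i2, i3⟩ := hq.1
    obtain ⟨j, j1, j2, j3⟩ := hp.2
    exact ⟨⟨i, i1, i2, (H i i1 i2).1 i3⟩, ⟨j, j1, j2, fun e => j3 ((H j j1 j2).2 e)⟩⟩

theorem Chain.comp_B (h : Chain P τ S G) (c : ℕ → ℕ) (G' : ℕ)
    (hc : ∀ i j, i < j → j ≤ G' → c i < c j) (hG : c G' ≤ G) :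
    Chain P (fun i => τ (c i)) (fun i => S (c i)) G' := by
  have hle : ∀ i, i ≤ G' → c i ≤ G := by
    intro i hi
    rcases hi.eq_or_lt with rfl | hlt
    · exact hG
    · exact (hc i G' hlt le_rfl).le.trans hG
  exact ⟨fun i j hij hj => h.mono _ _ (hc i j hij hj) (hle j hj), fun i hi => h.sub _ (hle i hi),
    fun i hi => h.cut _ (hle i hi),
    fun i hi => (h.card _ (hle i hi)).trans (h.card _ (hle 0 (Nat.zero_le _))).symm⟩

theorem GP.subset_B {P' : Finset Pt} (h : GP P) (hP : P' ⊆ P) : GP P' :=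
  fun p hp q hq r hr => h p (hP hp) q (hP hq) r (hP hr)

theorem XInj.subset_B {P' : Finset Pt} (h : XInj P) (hP : P' ⊆ P) : XInj P' :=
  fun p hp q hq => h p (hP hp) q (hP hq)

end
end Crest.Agent.R51
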