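import Crest.Agent.R51.Defs
import Crest.Agent.R51.CutsB
import Crest.Agent.R51.CutsA

set_option autoImplicit false
open Classical Finset

namespace Crest.Agent.R51
noncomputable section

variable {G : ℕ} {C C' : Finset ℕ}

theorem mem_wins {w : ℕ × ℕ} : w ∈ wins C ↔ IsWin C w.1 w.2 := by
  exact mem_wins_A

theorem card_wins_le (C : Finset ℕ) : (wins C).card ≤ C.card := by
  exact card_wins_le_A C

theorem lo_le (C : Finset ℕ) (i : ℕ) : lo C i ≤ i := by
  exact lo_le_A C i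

theorem lt_hi (hC : Cuts G C) {i : ℕ} (hi' : i < G) : i < hi C i := by
  exact lt_hi_A hC hi'

theorem hi_le (hC : Cuts G C) {i : ℕ} (hi' : i < G) : hi C i ≤ G := by
  exact hi_le_A hC hi'

theorem lo_mem (hC : Cuts G C) (i : ℕ) : lo C i ∈ C := by
  exact lo_mem_A hC i

theorem hi_mem (hC : Cuts G C) {i : ℕ} (hi' : i < G) : hi C i ∈ C := by
  exact hi_mem_A hC hi'

theorem le_lo {c i : ℕ} (hc : c ∈ C) (h : c ≤ i) : c ≤ lo C i := by
  exact le_lo_A hc h

theorem hi_le_of_mem {c i : ℕ} (hc : c ∈ C) (h : i < c) : hi C i ≤ c := by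
  exact hi_le_of_mem_A hc h

theorem lo_mono (C : Finset ℕ) {i j : ℕ} (h : i ≤ j) : lo C i ≤ lo C j := by
  exact lo_mono_A C h

theorem winOf_mem (hC : Cuts G C) {i : ℕ} (hi' : i < G) : winOf C i ∈ wins C := by
  exact winOf_mem_A hC hi'

theorem win_le (hC : Cuts G C) {w : ℕ × ℕ} (hw : w ∈ wins C) : w.1 < w.2 ∧ w.2 ≤ G := by
  exact win_le_A hC hw

theorem winOf_eq (hC : Cuts G C) {w : ℕ × ℕ} (hw : w ∈ wins C) {i : ℕ} (h1 : w.1 ≤ i)
    (h2 : i < w.2) : winOf C i = w := by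
  exact winOf_eq_A hC hw h1 h2

/-- two different windows are disjoint intervals -/
theorem win_disj {w w' : ℕ × ℕ} (hw : w ∈ wins C) (hw' : w' ∈ wins C) (h : w ≠ w') :
    w.2 ≤ w'.1 ∨ w'.2 ≤ w.1 := by
  exact win_disj_A hw hw' h

/-- a window of a finer system lies in a window of the coarser system -/
theorem win_nest (hC : Cuts G C) (hC' : Cuts G C') (h : C ⊆ C') {i : ℕ} (hi' : i < G) :
    lo C i ≤ lo C' i ∧ hi C' i ≤ hi C i := by
  exact win_nest_A hC h hi'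

theorem sum_wins {M : Type} [AddCommMonoid M] (hC : Cuts G C) (f : ℕ → M) :
    ∑ i ∈ Finset.range G, f i = ∑ w ∈ wins C, ∑ i ∈ Finset.Ico w.1 w.2, f i := by
  exact sum_wins_A hC f

variable {P : Finset Pt} {τ : ℕ → ℝ} {S : ℕ → Finset Pt}

theorem Chain.le (h : Chain P τ S G) {i j : ℕ} (hij : i ≤ j) (hj : j ≤ G) : τ i ≤ τ j := by
  exact h.le_B hij hj

theorem card_U_eq_V (h : Chain P τ S G) {i : ℕ} (hi' : i < G) : (U S i).card = (V S i).card := by
  exact card_U_eq_V_B h hi'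

theorem card_sdiff_comm (h : Chain P τ S G) {i j : ℕ} (hi' : i ≤ G) (hj : j ≤ G) :
    (S i \ S j).card = (S j \ S i).card := by
  exact card_sdiff_comm_B h hi' hj

theorem act_sub (h : Chain P τ S G) {a b : ℕ} (hb : b ≤ G) : act S a b ⊆ P := by
  exact act_sub_B h hb

theorem act_mono (S : ℕ → Finset Pt) {a b a' b' : ℕ} (ha : a ≤ a') (hb : b' ≤ b) :
    act S a' b' ⊆ act S a b := by
  exact act_mono_B S ha hb

theorem mem_act_of_deg {a b : ℕ} {p : Pt} (h : 0 < deg S a b p) : p ∈ act S a b := by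
  exact mem_act_of_deg_B h

/-- a point is active iff its membership is not constant on `[a,b]` -/
theorem mem_act_iff {a b : ℕ} {p : Pt} :
    p ∈ act S a b ↔ (∃ i, a ≤ i ∧ i ≤ b ∧ p ∈ S i) ∧ (∃ i, a ≤ i ∧ i ≤ b ∧ p ∉ S i) := by
  exact mem_act_iff_B

theorem sum_deg (h : Chain P τ S G) {a b : ℕ} (hb : b ≤ G) {A : Finset Pt} (hA : act S a b ⊆ A) :
    ∑ p ∈ A, deg S a b p = ∑ i ∈ Finset.Ico a b, (U S i).card := by
  have _ := h.card b hb
  exact sum_deg_B hA

theorem card_events (h : Chain P τ S G) :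
    (events P S G).card = ∑ i ∈ Finset.range G, (U S i).card := by
  exact card_events_B h

/-- a leaving point is to the left of an entering point -/
theorem sdiff_left (h : Chain P τ S G) {i j : ℕ} (hij : i < j) (hj : j ≤ G) {p q : Pt}
    (hp : p ∈ S i \ S j) (hq : q ∈ S j \ S i) :
    p.1 < q.1 ∧ ph (τ i) p < ph (τ i) q ∧ ph (τ j) q < ph (τ j) p := by
  exact sdiff_left_B h hij hj hp hq

/-- net change is monotone under nesting -/
theorem net_mono (h : Chain P τ S G) {a a' b' b : ℕ} (h1 : a ≤ a') (h2 : a' ≤ b') (h3 : b' ≤ b)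
    (hb : b ≤ G) : (S a' \ S b').card ≤ (S a \ S b).card := by
  exact net_mono_B h h1 h2 h3 hb

theorem cone_x {s t : ℝ} (hst : s < t) {p q : Pt} (h : Cone s t p q) : p.1 ≤ q.1 := by
  exact cone_x_B hst h

theorem cone_lo {s t u : ℝ} (hst : s < t) (hu : u ≤ s) {p q : Pt} (h : Cone s t p q) :
    ph u p ≤ ph u q := by
  exact cone_lo_B hst hu h

theorem cone_hi {s t u : ℝ} (hst : s < t) (hu : t ≤ u) {p q : Pt} (h : Cone s t p q) :
    ph u q ≤ ph u p := by
  exact cone_hi_B hst hu h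

/-- the status with respect to another window is monotone along a cone -/
theorem status_between (h : Chain P τ S G) {a b c d : ℕ} (hab : a < b) (hb : b ≤ G) (hd : d ≤ G)
    (hsep : b ≤ c ∨ d ≤ a) {p v q : Pt} (hp : p ∈ P) (hv : v ∈ P) (hq : q ∈ P)
    (h1 : Cone (τ a) (τ b) p v) (h2 : Cone (τ a) (τ b) v q) :
    (((∀ i, c ≤ i → i ≤ d → p ∈ S i) ↔ (∀ i, c ≤ i → i ≤ d → q ∈ S i)) →
      ((∀ i, c ≤ i → i ≤ d → v ∈ S i) ↔ (∀ i, c ≤ i → i ≤ d → p ∈ S i))) ∧
    (((∃ i, c ≤ i ∧ i ≤ d ∧ p ∈ S i) ↔ (∃ i, c ≤ i ∧ i ≤ d ∧ q ∈ S i)) →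
      ((∃ i, c ≤ i ∧ i ≤ d ∧ v ∈ S i) ↔ (∃ i, c ≤ i ∧ i ≤ d ∧ p ∈ S i))) := by
  exact status_between_B h hab hb hd hsep hp hv hq h1 h2

/-- in particular activity in another window is convex along a cone -/
theorem act_between (h : Chain P τ S G) {a b c d : ℕ} (hab : a < b) (hb : b ≤ G) (hd : d ≤ G)
    (hsep : b ≤ c ∨ d ≤ a) {p v q : Pt} (hv : v ∈ P)
    (hp : p ∈ act S c d) (hq : q ∈ act S c d)
    (h1 : Cone (τ a) (τ b) p v) (h2 : Cone (τ a) (τ b) v q) : v ∈ act S c d := by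
  exact act_between_B h hab hb hd hsep hv hp hq h1 h2

/-- subchain along a strictly increasing index map -/
theorem Chain.comp (h : Chain P τ S G) (c : ℕ → ℕ) (G' : ℕ)
    (hc : ∀ i j, i < j → j ≤ G' → c i < c j) (hG : c G' ≤ G) :
    Chain P (fun i => τ (c i)) (fun i => S (c i)) G' := by
  exact h.comp_B c G' hc hG

theorem GP.subset {P' : Finset Pt} (h : GP P) (hP : P' ⊆ P) : GP P' := by
  exact h.subset_B hP

theorem XInj.subset {P' : Finset Pt} (h : XInj P) (hP : P' ⊆ P) : XInj P' := by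
  exact h.subset_B hP

end
end Crest.Agent.R51
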