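import Crest.Agent.R51.Planar
import Crest.Agent.R51.Cuts

set_option autoImplicit false
open Classical Finset

namespace Crest.Agent.R51
noncomputable section

theorem cross_ne {P : Finset Pt} (hgp : GP P) {e e' : Pt × Pt}
    (he : e.1 ∈ P ∧ e.2 ∈ P ∧ e.1.1 < e.2.1) (he' : e'.1 ∈ P ∧ e'.2 ∈ P ∧ e'.1.1 < e'.2.1)
    (h : Cross e e') : e.1 ≠ e'.1 ∧ e.2 ≠ e'.2 := by
  obtain ⟨hne, x, h1, h2, h3, h4, h5⟩ := h
  obtain ⟨p, q⟩ := e
  obtain ⟨p', q'⟩ := e'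
  simp only [hgt] at *
  obtain ⟨hp, hq, hpq⟩ := he
  obtain ⟨hp', hq', hpq'⟩ := he'
  have d1 : q.1 - p.1 ≠ 0 := (sub_pos.2 hpq).ne'
  have d2 : q'.1 - p'.1 ≠ 0 := (sub_pos.2 hpq').ne'
  constructor
  · rintro rfl
    have hqq : q ≠ q' := fun h => hne (by rw [h])
    refine hgp p hp q hq q' hq' (fun h => hpq.ne (by rw [h])) (fun h => hpq'.ne (by rw [h])) hqq ?_
    have h6 : (q.2 - p.2) / (q.1 - p.1) = (q'.2 - p.2) / (q'.1 - p.1) :=
      mul_left_cancel₀ (sub_pos.2 h1).ne' (by linarith)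
    rw [div_eq_div_iff d1 d2] at h6
    linarith
  · rintro rfl
    have hpp : p ≠ p' := fun h => hne (by rw [h])
    refine hgp q hq p hp p' hp' (fun h => hpq.ne (by rw [h])) (fun h => hpq'.ne (by rw [h])) hpp ?_
    have e1 : (q.1 - p.1) * ((q.2 - p.2) / (q.1 - p.1)) = q.2 - p.2 := mul_div_cancel₀ _ d1
    have e2 : (q.1 - p'.1) * ((q.2 - p'.2) / (q.1 - p'.1)) = q.2 - p'.2 := mul_div_cancel₀ _ d2
    have h6 : (q.2 - p.2) / (q.1 - p.1) = (q.2 - p'.2) / (q.1 - p'.1) :=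
      mul_left_cancel₀ (sub_pos.2 h2).ne' (by linarith)
    rw [div_eq_div_iff d1 d2] at h6
    linarith

theorem card_le_cr (P : Finset Pt) (hgp : GP P) (hx : XInj P) (E : Finset (Pt × Pt))
    (hE : ∀ e ∈ E, e.1 ∈ P ∧ e.2 ∈ P ∧ e.1.1 < e.2.1) : E.card ≤ 3 * P.card + cr E := by
  set B := ((E ×ˢ E).filter (fun z => Cross z.1 z.2)).image Prod.fst with hB
  have h1 : (E \ B).card ≤ 3 * P.card := by
    refine planar P hgp hx _ (fun e he => hE e (Finset.mem_sdiff.1 he).1) fun e he e' he' hc => ?_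
    exact (Finset.mem_sdiff.1 he).2 (Finset.mem_image.2 ⟨(e, e'), Finset.mem_filter.2
      ⟨Finset.mem_product.2 ⟨(Finset.mem_sdiff.1 he).1, (Finset.mem_sdiff.1 he').1⟩, hc⟩, rfl⟩)
  have h2 : B.card ≤ cr E := Finset.card_image_le
  have h3 := Finset.le_card_sdiff B E
  omega

namespace CL2Aux

variable {α : Type}

/-- Bernoulli weights -/
def w (a : ℝ) (A X : Finset α) : ℝ := a ^ X.card * (1 - a) ^ (A \ X).card

/-- indicator of inclusion -/
def I (K X : Finset α) : ℝ := if K ⊆ X then 1 else 0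

theorem w_nonneg {a : ℝ} (h0 : 0 ≤ a) (h1 : a ≤ 1) (A X : Finset α) : 0 ≤ w a A X :=
  mul_nonneg (pow_nonneg h0 _) (pow_nonneg (sub_nonneg.2 h1) _)

theorem sum_w (a : ℝ) {A K : Finset α} (hK : K ⊆ A) :
    ∑ X ∈ A.powerset, w a A X * I K X = a ^ K.card := by
  have h := Finset.prod_add (fun _ => a) (fun p => if p ∈ K then 0 else 1 - a) A
  have h1 : ∏ p ∈ A, (a + if p ∈ K then 0 else 1 - a) = a ^ K.card := by
    rw [← Finset.prod_sdiff hK, Finset.prod_eq_one, one_mul, Finset.prod_eq_pow_card]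
    · intro p hp
      simp [hp]
    · intro p hp
      simp [(Finset.mem_sdiff.1 hp).2]
  rw [← h1, h]
  refine Finset.sum_congr rfl fun X _ => ?_
  rw [Finset.prod_const, w, I, mul_assoc]
  congr 1
  split_ifs with hX
  · rw [mul_one, eq_comm, Finset.prod_eq_pow_card]
    intro p hp
    rw [if_neg fun h' => (Finset.mem_sdiff.1 hp).2 (hX h')]
  · obtain ⟨p, hp, hp'⟩ := Finset.not_subset.1 hX
    rw [mul_zero, eq_comm]
    exact Finset.prod_eq_zero (Finset.mem_sdiff.2 ⟨hK hp, hp'⟩) (if_pos hp)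

/-- expectation -/
def Ex (a b : ℝ) (A Z : Finset α) (f : Finset α → Finset α → ℝ) : ℝ :=
  ∑ X ∈ A.powerset, ∑ Y ∈ Z.powerset, w a A X * w b Z Y * f X Y

theorem Ex_mono {a b : ℝ} (ha0 : 0 ≤ a) (ha1 : a ≤ 1) (hb0 : 0 ≤ b) (hb1 : b ≤ 1) (A Z : Finset α)
    {f g : Finset α → Finset α → ℝ} (h : ∀ X ⊆ A, ∀ Y ⊆ Z, f X Y ≤ g X Y) :
    Ex a b A Z f ≤ Ex a b A Z g :=
  Finset.sum_le_sum fun X hX => Finset.sum_le_sum fun Y hY =>
    mul_le_mul_of_nonneg_left (h X (Finset.mem_powerset.1 hX) Y (Finset.mem_powerset.1 hY))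
      (mul_nonneg (w_nonneg ha0 ha1 _ _) (w_nonneg hb0 hb1 _ _))

theorem Ex_add (a b : ℝ) (A Z : Finset α) (f g : Finset α → Finset α → ℝ) :
    Ex a b A Z (fun X Y => f X Y + g X Y) = Ex a b A Z f + Ex a b A Z g := by
  simp only [Ex, mul_add, Finset.sum_add_distrib]

theorem Ex_mul (a b c : ℝ) (A Z : Finset α) (f : Finset α → Finset α → ℝ) :
    Ex a b A Z (fun X Y => c * f X Y) = c * Ex a b A Z f := by
  simp only [Ex, Finset.mul_sum]
  exact Finset.sum_congr rfl fun _ _ => Finset.sum_congr rfl fun _ _ => by ring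

theorem Ex_sum {ι : Type} (a b : ℝ) (A Z : Finset α) (s : Finset ι) (K L : ι → Finset α) (k l : ℕ)
    (h : ∀ i ∈ s, K i ⊆ A ∧ L i ⊆ Z ∧ (K i).card = k ∧ (L i).card = l) :
    Ex a b A Z (fun X Y => ∑ i ∈ s, I (K i) X * I (L i) Y) = s.card * (a ^ k * b ^ l) := by
  have : ∀ i ∈ s, ∑ X ∈ A.powerset, ∑ Y ∈ Z.powerset,
      w a A X * w b Z Y * (I (K i) X * I (L i) Y) = a ^ k * b ^ l := by
    intro i hi
    obtain ⟨h1, h2, h3, h4⟩ := h i hi
    rw [← h3, ← h4, ← sum_w a h1, ← sum_w b h2, Finset.sum_mul_sum]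
    exact Finset.sum_congr rfl fun _ _ => Finset.sum_congr rfl fun _ _ => by ring
  rw [← nsmul_eq_mul, ← Finset.sum_const, ← Finset.sum_congr rfl this]
  simp only [Ex, Finset.mul_sum]
  rw [Finset.sum_comm (s := s)]
  exact Finset.sum_congr rfl fun _ _ => Finset.sum_comm

theorem card_eq {ι : Type} (s : Finset ι) (K L : ι → Finset α) (X Y : Finset α) :
    ∑ i ∈ s, I (K i) X * I (L i) Y = ((s.filter fun i => K i ⊆ X ∧ L i ⊆ Y).card : ℝ) := by
  rw [Finset.card_filter]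
  push_cast
  refine Finset.sum_congr rfl fun i _ => ?_
  by_cases h : K i ⊆ X <;> by_cases h' : L i ⊆ Y <;> simp [I, h, h']

theorem anchor_CL2 : True := by
  have := @w.eq_1
  have := @I.eq_1
  have := @Ex.eq_1
  trivial

end CL2Aux

open CL2Aux in
theorem cl2_sample (P : Finset Pt) (hgp : GP P) (hx : XInj P) (A Z : Finset Pt) (hA : A ⊆ P)
    (hZ : Z ⊆ P) (E : Finset (Pt × Pt)) (hE : ∀ e ∈ E, e.1 ∈ A ∧ e.2 ∈ Z ∧ e.1.1 < e.2.1)
    {a b : ℝ} (ha0 : 0 ≤ a) (ha1 : a ≤ 1) (hb0 : 0 ≤ b) (hb1 : b ≤ 1) :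
    E.card * (a * b) ≤ 3 * (A.card * a + Z.card * b) + cr E * (a ^ 2 * b ^ 2) := by
  have hE' : ∀ e ∈ E, e.1 ∈ P ∧ e.2 ∈ P ∧ e.1.1 < e.2.1 := fun e he =>
    ⟨hA (hE e he).1, hZ (hE e he).2.1, (hE e he).2.2⟩
  have h1 := Ex_sum a b A Z E (fun e => {e.1}) (fun e => {e.2}) 1 1 fun e he =>
    ⟨by simpa using (hE e he).1, by simpa using (hE e he).2.1, by simp, by simp⟩
  have h2 := Ex_sum a b A Z A (fun p => {p}) (fun _ => ∅) 1 0 fun p hp =>
    ⟨by simpa using hp, by simp, by simp, by simp⟩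
  have h3 := Ex_sum a b A Z Z (fun _ => ∅) (fun p => {p}) 0 1 fun p hp =>
    ⟨by simp, by simpa using hp, by simp, by simp⟩
  have h4 := Ex_sum a b A Z ((E ×ˢ E).filter (fun z => Cross z.1 z.2))
    (fun z => {z.1.1, z.2.1}) (fun z => {z.1.2, z.2.2}) 2 2 fun z hz => by
      obtain ⟨hz, hc⟩ := Finset.mem_filter.1 hz
      obtain ⟨hz1, hz2⟩ := Finset.mem_product.1 hz
      obtain ⟨n1, n2⟩ := cross_ne hgp (hE' _ hz1) (hE' _ hz2) hc
      refine ⟨?_, ?_, Finset.card_pair n1, Finset.card_pair n2⟩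
      · simp [Finset.insert_subset_iff, (hE _ hz1).1, (hE _ hz2).1]
      · simp [Finset.insert_subset_iff, (hE _ hz1).2.1, (hE _ hz2).2.1]
  simp only [pow_one, pow_zero, mul_one, one_mul] at h1 h2 h3
  unfold cr
  rw [← h1, ← h2, ← h3, ← h4, ← Ex_add, ← Ex_mul, ← Ex_add]
  refine Ex_mono ha0 ha1 hb0 hb1 A Z fun X hX Y hY => ?_
  simp only [card_eq]
  have hXY : X ∪ Y ⊆ P := Finset.union_subset (hX.trans hA) (hY.trans hZ)
  have h5 := card_le_cr (X ∪ Y) (fun p hp q hq r hr => hgp p (hXY hp) q (hXY hq) r (hXY hr))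
    (fun p hp q hq => hx p (hXY hp) q (hXY hq))
    (E.filter fun e => ({e.1} : Finset Pt) ⊆ X ∧ ({e.2} : Finset Pt) ⊆ Y) (fun e he => by
      simp only [Finset.mem_filter, Finset.singleton_subset_iff] at he
      exact ⟨Finset.mem_union_left _ he.2.1, Finset.mem_union_right _ he.2.2, (hE e he.1).2.2⟩)
  have h6 : (X ∪ Y).card ≤ (A.filter fun p => ({p} : Finset Pt) ⊆ X ∧ (∅ : Finset Pt) ⊆ Y).card +
      (Z.filter fun p => (∅ : Finset Pt) ⊆ X ∧ ({p} : Finset Pt) ⊆ Y).card := by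
    refine (Finset.card_union_le _ _).trans (add_le_add (Finset.card_le_card fun p hp => ?_)
      (Finset.card_le_card fun p hp => ?_))
    · simp [hp, hX hp]
    · simp [hp, hY hp]
  have h7 : cr (E.filter fun e => ({e.1} : Finset Pt) ⊆ X ∧ ({e.2} : Finset Pt) ⊆ Y) ≤
      (((E ×ˢ E).filter (fun z => Cross z.1 z.2)).filter fun z =>
        ({z.1.1, z.2.1} : Finset Pt) ⊆ X ∧ ({z.1.2, z.2.2} : Finset Pt) ⊆ Y).card := by
    refine Finset.card_le_card fun z hz => ?_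
    simp only [Finset.mem_filter, Finset.mem_product, Finset.singleton_subset_iff,
      Finset.insert_subset_iff] at hz ⊢
    tauto
  have h8 := h5.trans (add_le_add (Nat.mul_le_mul_left 3 h6) h7)
  have h9 := (Nat.cast_le (α := ℝ)).2 h8
  push_cast at h9
  convert h9 <;> rfl

/-- two-rate crossing lemma -/
theorem cl2 (P : Finset Pt) (hgp : GP P) (hx : XInj P) (A Z : Finset Pt) (hA : A ⊆ P) (hZ : Z ⊆ P)
    (E : Finset (Pt × Pt)) (hE : ∀ e ∈ E, e.1 ∈ A ∧ e.2 ∈ Z ∧ e.1.1 < e.2.1)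
    (hAZ : A.card ≤ Z.card) (h12 : 12 * Z.card ≤ E.card) :
    (E.card : ℝ) ^ 3 ≤ 288 * A.card * Z.card * cr E := by
  rcases E.eq_empty_or_nonempty with rfl | ⟨e, he⟩
  · simp [cr]
  have he0 : (0 : ℝ) < E.card := by exact_mod_cast Finset.card_pos.2 ⟨e, he⟩
  have ha0 : (0 : ℝ) < A.card := by exact_mod_cast Finset.card_pos.2 ⟨_, (hE e he).1⟩
  have hz0 : (0 : ℝ) < Z.card := by exact_mod_cast Finset.card_pos.2 ⟨_, (hE e he).2.1⟩
  have h12' : (12 : ℝ) * Z.card ≤ E.card := by exact_mod_cast h12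
  have hAZ' : (A.card : ℝ) ≤ Z.card := by exact_mod_cast hAZ
  have h := cl2_sample P hgp hx A Z hA hZ E hE (a := 12 * Z.card / E.card) (b := 12 * A.card / E.card)
    (by positivity) ((div_le_one he0).2 h12') (by positivity) ((div_le_one he0).2 (by linarith))
  set e : ℝ := (E.card : ℝ)
  set a : ℝ := (A.card : ℝ)
  set z : ℝ := (Z.card : ℝ)
  set c : ℝ := (cr E : ℝ)
  have e1 : e * (12 * z / e * (12 * a / e)) - 3 * (a * (12 * z / e) + z * (12 * a / e)) =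
      72 * a * z / e ^ 4 * e ^ 3 := by
    field_simp
    ring
  have e2 : c * ((12 * z / e) ^ 2 * (12 * a / e) ^ 2) = 72 * a * z / e ^ 4 * (288 * a * z * c) := by
    field_simp
    ring
  exact le_of_mul_le_mul_left (a := 72 * a * z / e ^ 4) (by linarith) (by positivity)

end
end Crest.Agent.R51
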