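import Crest.Agent.R51.Defs

set_option autoImplicit false
open Classical Finset

namespace Crest.Agent.R51
noncomputable section

namespace SampleAux

variable {ι : Type}

theorem avg (s : Finset (Finset ι)) (w F : Finset ι → ℝ) (hw : ∀ t ∈ s, 0 ≤ w t)
    (h1 : ∑ t ∈ s, w t = 1) (a : ℝ) (h : a ≤ ∑ t ∈ s, w t * F t) : ∃ t ∈ s, a ≤ F t := by
  by_contra hc
  push Not at hc
  have h2 : ∃ t ∈ s, 0 < w t := by
    by_contra h0
    push Not at h0
    have := Finset.sum_nonpos h0
    linarith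
  obtain ⟨t₀, ht₀, hpos⟩ := h2
  have h3 : ∑ t ∈ s, w t * F t < ∑ t ∈ s, w t * a :=
    Finset.sum_lt_sum (fun t ht => mul_le_mul_of_nonneg_left (hc t ht).le (hw t ht))
      ⟨t₀, ht₀, mul_lt_mul_of_pos_left (hc t₀ ht₀) hpos⟩
  rw [← Finset.sum_mul, h1, one_mul] at h3
  linarith

theorem tot (W : Finset ι) (p : ℝ) :
    ∑ t ∈ W.powerset, (∏ _i ∈ t, p) * ∏ _i ∈ W \ t, (1 - p) = 1 := by
  rw [← Finset.prod_add]
  simp

theorem miss (W K : Finset ι) (hK : K ⊆ W) (p : ℝ) :
    ∑ t ∈ W.powerset, ((∏ _i ∈ t, p) * ∏ _i ∈ W \ t, (1 - p)) *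
      (if (K ∩ t).Nonempty then (0 : ℝ) else 1) = (1 - p) ^ K.card := by
  have h := Finset.prod_add (fun i => if i ∈ K then (0 : ℝ) else p) (fun _ => 1 - p) W
  have h1 : ∏ i ∈ W, ((if i ∈ K then (0 : ℝ) else p) + (1 - p)) = (1 - p) ^ K.card := by
    have : ∀ i ∈ W, ((if i ∈ K then (0 : ℝ) else p) + (1 - p)) = if i ∈ K then 1 - p else 1 := by
      intro i _
      split_ifs <;> ring
    rw [Finset.prod_congr rfl this, Finset.prod_ite_mem, Finset.inter_eq_right.mpr hK,
      Finset.prod_const]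
  rw [← h1, h]
  refine Finset.sum_congr rfl fun t _ => ?_
  split_ifs with ht
  · obtain ⟨i, hi⟩ := ht
    rw [mul_zero, Finset.prod_eq_zero (f := fun i => if i ∈ K then (0 : ℝ) else p)
      (mem_inter.mp hi).2 (if_pos (mem_inter.mp hi).1), zero_mul]
  · rw [mul_one]
    congr 1
    refine Finset.prod_congr rfl fun i hi => ?_
    rw [if_neg fun h => ht ⟨i, mem_inter.mpr ⟨h, hi⟩⟩]

theorem cnt (W K : Finset ι) (hK : K ⊆ W) (p : ℝ) :
    ∑ t ∈ W.powerset, ((∏ _i ∈ t, p) * ∏ _i ∈ W \ t, (1 - p)) * ((K ∩ t).card : ℝ) =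
      p * K.card := by
  have h1 : ∀ t : Finset ι, ((K ∩ t).card : ℝ) =
      ∑ a ∈ K, (1 - if (({a} : Finset ι) ∩ t).Nonempty then (0 : ℝ) else 1) := by
    intro t
    rw [← Finset.filter_mem_eq_inter, Finset.card_filter]
    push_cast
    refine Finset.sum_congr rfl fun a _ => ?_
    by_cases ha : a ∈ t
    · simp [ha]
    · simp [ha]
  simp_rw [h1, Finset.mul_sum]
  rw [Finset.sum_comm]
  have h2 : ∀ a ∈ K, ∑ t ∈ W.powerset, ((∏ _i ∈ t, p) * ∏ _i ∈ W \ t, (1 - p)) *
      (1 - if (({a} : Finset ι) ∩ t).Nonempty then (0 : ℝ) else 1) = p := by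
    intro a ha
    have e1 := miss W {a} (singleton_subset_iff.mpr (hK ha)) p
    have e2 := tot W p
    rw [card_singleton, pow_one] at e1
    rw [Finset.sum_congr rfl fun t _ => mul_one_sub _ _, Finset.sum_sub_distrib, e1, e2]
    ring
  rw [Finset.sum_congr rfl h2, Finset.sum_const, nsmul_eq_mul, mul_comm]

theorem pow_le (r : ℝ) (hr : 0 < r) (k : ℕ) (hk : r ≤ k) : (1 - min 1 (3 / r)) ^ k ≤ 1 / 20 := by
  rcases le_total 1 (3 / r) with h | h
  · have hk0 : k ≠ 0 := by
      rintro rfl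
      rw [Nat.cast_zero] at hk
      linarith
    rw [min_eq_left h, sub_self, zero_pow hk0]
    norm_num
  · rw [min_eq_right h]
    have h1 : (1 - 3 / r) ^ k ≤ Real.exp (-(3 / r)) ^ k :=
      pow_le_pow_left₀ (by linarith) (by linarith [Real.add_one_le_exp (-(3 / r))]) k
    have h2 : Real.exp (-(3 / r)) ^ k ≤ Real.exp (-3) := by
      rw [← Real.exp_nat_mul]
      refine Real.exp_le_exp.mpr ?_
      have : 3 ≤ (k : ℝ) * (3 / r) := by
        rw [← mul_div_assoc, le_div_iff₀ hr]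
        linarith
      linarith
    have h3 : Real.exp (-3) ≤ 1 / 20 := by
      rw [Real.exp_neg, one_div]
      refine inv_anti₀ (by norm_num) ?_
      have e1 : Real.exp 3 = Real.exp 1 ^ 3 := by
        rw [← Real.exp_nat_mul]
        norm_num
      have e2 : (2.7182818283 : ℝ) ^ 3 ≤ Real.exp 1 ^ 3 :=
        pow_le_pow_left₀ (by norm_num) Real.exp_one_gt_d9.le 3
      rw [e1]
      refine le_trans ?_ e2
      norm_num
    linarith

end SampleAux

theorem sample {α ι : Type} (W : Finset ι) (hW : W.Nonempty) (G' : Finset α) (hG : G'.Nonempty)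
    (rich : Fin 3 → α → Finset ι) (actv : α → Finset ι) (r c : ℝ) (hr : 0 < r) (hc : 0 < c)
    (hrich : ∀ p ∈ G', ∀ j, rich j p ⊆ W ∧ r ≤ (rich j p).card)
    (hact : ∀ p ∈ G', actv p ⊆ W ∧ ((actv p).card : ℝ) ≤ c * r) :
    ∃ R : Finset ι, R ⊆ W ∧ (R.card : ℝ) * r ≤ 6 * W.card ∧
      G'.card ≤ 2 * (G'.filter (fun p => (∀ j, (rich j p ∩ R).Nonempty) ∧
        ((actv p ∩ R).card : ℝ) ≤ 30 * c)).card := by
  set p : ℝ := min 1 (3 / r) with hp
  have hp0 : 0 ≤ p := le_min zero_le_one (by positivity)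
  have hp1 : p ≤ 1 := min_le_left _ _
  have hp3 : p * r ≤ 3 := (le_div_iff₀ hr).mp (min_le_right _ _)
  set w : Finset ι → ℝ := fun t => (∏ _i ∈ t, p) * ∏ _i ∈ W \ t, (1 - p) with hw
  have hw0 : ∀ t ∈ W.powerset, 0 ≤ w t := fun t _ =>
    mul_nonneg (Finset.prod_nonneg fun _ _ => hp0) (Finset.prod_nonneg fun _ _ => by linarith)
  have hw1 : ∑ t ∈ W.powerset, w t = 1 := SampleAux.tot W p
  have hWpos : (0 : ℝ) < W.card := by exact_mod_cast hW.card_pos
  have hGpos : (0 : ℝ) < G'.card := by exact_mod_cast hG.card_pos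
  set ok : Finset ι → α → Prop := fun R q => (∀ j, (rich j q ∩ R).Nonempty) ∧
    ((actv q ∩ R).card : ℝ) ≤ 30 * c with hok
  have h1 : ∀ q ∈ G', 3 / 4 ≤ ∑ t ∈ W.powerset, w t * (if ok t q then (1 : ℝ) else 0) := by
    intro q hq
    have e1 : ∀ t ∈ W.powerset, w t - ∑ j, w t * (if (rich j q ∩ t).Nonempty then (0 : ℝ) else 1) -
        w t * ((actv q ∩ t).card : ℝ) / (30 * c) ≤ w t * (if ok t q then (1 : ℝ) else 0) := by
      intro t ht
      have f0 : ∀ j, (0 : ℝ) ≤ if (rich j q ∩ t).Nonempty then (0 : ℝ) else 1 := fun j => by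
        split_ifs <;> norm_num
      have f1 : (0 : ℝ) ≤ ((actv q ∩ t).card : ℝ) / (30 * c) := by positivity
      have f2 : 1 - ∑ j, (if (rich j q ∩ t).Nonempty then (0 : ℝ) else 1) -
          ((actv q ∩ t).card : ℝ) / (30 * c) ≤ if ok t q then (1 : ℝ) else 0 := by
        have f3 := Finset.sum_nonneg (s := univ) fun j _ => f0 j
        by_cases hk : ok t q
        · rw [if_pos hk]
          linarith
        · rw [if_neg hk]
          rcases not_and_or.mp hk with hk | hk
          · obtain ⟨j, hj⟩ := not_forall.mp hk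
            have := Finset.single_le_sum (fun j _ => f0 j) (mem_univ j)
            rw [if_neg hj] at this
            linarith
          · have : 1 ≤ ((actv q ∩ t).card : ℝ) / (30 * c) := by
              rw [le_div_iff₀ (by positivity)]
              linarith [not_le.mp hk]
            linarith
      have f4 := mul_le_mul_of_nonneg_left f2 (hw0 t ht)
      rw [mul_sub, mul_sub, mul_one, Finset.mul_sum, ← mul_div_assoc] at f4
      exact f4
    refine le_trans ?_ (Finset.sum_le_sum e1)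
    rw [Finset.sum_sub_distrib, Finset.sum_sub_distrib, hw1, Finset.sum_comm, ← Finset.sum_div,
      SampleAux.cnt W _ (hact q hq).1 p]
    have e2 : ∑ j, ∑ t ∈ W.powerset, w t * (if (rich j q ∩ t).Nonempty then (0 : ℝ) else 1) ≤
        ∑ _j : Fin 3, (1 / 20 : ℝ) := by
      refine Finset.sum_le_sum fun j _ => ?_
      rw [SampleAux.miss W _ (hrich q hq j).1 p]
      exact SampleAux.pow_le r hr _ (hrich q hq j).2
    have e3 : p * ((actv q).card : ℝ) / (30 * c) ≤ 1 / 10 := by
      rw [div_le_iff₀ (by positivity)]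
      have := mul_le_mul_of_nonneg_left (hact q hq).2 hp0
      nlinarith
    rw [Finset.sum_const, card_univ, Fintype.card_fin, nsmul_eq_mul] at e2
    push_cast at e2
    linarith
  have h2 : 3 / 4 * (G'.card : ℝ) ≤ ∑ t ∈ W.powerset, w t * ((G'.filter (ok t)).card : ℝ) := by
    have e1 : ∀ t ∈ W.powerset, w t * ((G'.filter (ok t)).card : ℝ) =
        ∑ q ∈ G', w t * (if ok t q then (1 : ℝ) else 0) := by
      intro t _
      rw [← Finset.mul_sum, Finset.card_filter]
      push_cast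
      rfl
    rw [Finset.sum_congr rfl e1, Finset.sum_comm, mul_comm, ← nsmul_eq_mul]
    exact Finset.card_nsmul_le_sum _ _ _ h1
  have h3 : ∑ t ∈ W.powerset, w t * (t.card : ℝ) = p * W.card := by
    rw [← SampleAux.cnt W W subset_rfl p]
    refine Finset.sum_congr rfl fun t ht => ?_
    rw [Finset.inter_eq_right.mpr (mem_powerset.mp ht)]
  obtain ⟨R, hR, hs⟩ := SampleAux.avg W.powerset w
    (fun t => 12 * W.card * ((G'.filter (ok t)).card : ℝ) - G'.card * r * (t.card : ℝ)) hw0 hw1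
    (6 * W.card * G'.card) (by
      have e1 : ∀ t ∈ W.powerset, w t * (12 * W.card * ((G'.filter (ok t)).card : ℝ) -
          G'.card * r * (t.card : ℝ)) = 12 * W.card * (w t * ((G'.filter (ok t)).card : ℝ)) -
          G'.card * r * (w t * (t.card : ℝ)) := fun t _ => by ring
      rw [Finset.sum_congr rfl e1, Finset.sum_sub_distrib, ← Finset.mul_sum, ← Finset.mul_sum, h3]
      have e2 := mul_le_mul_of_nonneg_left h2 (by positivity : (0 : ℝ) ≤ 12 * W.card)
      have e3 := mul_le_mul_of_nonneg_left hp3 (mul_pos hWpos hGpos).le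
      nlinarith)
  have h4 : ((G'.filter (ok R)).card : ℝ) ≤ G'.card := by exact_mod_cast card_filter_le _ _
  have h5 : (0 : ℝ) ≤ G'.card * r * (R.card : ℝ) := by positivity
  refine ⟨R, mem_powerset.mp hR, ?_, ?_⟩
  · refine le_of_mul_le_mul_left ?_ hGpos
    have := mul_le_mul_of_nonneg_left h4 (by positivity : (0 : ℝ) ≤ 12 * W.card)
    nlinarith
  · have : (G'.card : ℝ) ≤ 2 * ((G'.filter (ok R)).card : ℝ) := by
      refine le_of_mul_le_mul_left ?_ hWpos
      nlinarith
    exact_mod_cast this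

end
end Crest.Agent.R51
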