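import Crest.Agent.R51.VC
import Crest.Agent.R51.Sample

set_option autoImplicit false
open Classical Finset

namespace Crest.Agent.R51
noncomputable section

namespace ClassAux

theorem mem_act_status {S : ℕ → Finset Pt} {R : Finset (ℕ × ℕ)} {w : ℕ × ℕ} (hw : w ∈ R)
    (p : Pt) : p ∈ act S w.1 w.2 ↔ w ∈ (status S R p).2 \ (status S R p).1 := by
  rw [mem_act_iff, mem_sdiff]
  simp only [status, mem_filter, hw, true_and]
  constructor
  · rintro ⟨h1, i, i1, i2, i3⟩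
    exact ⟨h1, fun h => i3 (h i i1 i2)⟩
  · rintro ⟨h1, h2⟩
    refine ⟨h1, ?_⟩
    by_contra hc
    apply h2
    intro i i1 i2
    by_contra h3
    exact hc ⟨i, i1, i2, h3⟩

theorem status_eq_iff {S : ℕ → Finset Pt} {R : Finset (ℕ × ℕ)} {p q : Pt} :
    status S R p = status S R q ↔ ∀ w ∈ R,
      ((∀ i, w.1 ≤ i → i ≤ w.2 → p ∈ S i) ↔ (∀ i, w.1 ≤ i → i ≤ w.2 → q ∈ S i)) ∧
      ((∃ i, w.1 ≤ i ∧ i ≤ w.2 ∧ p ∈ S i) ↔ (∃ i, w.1 ≤ i ∧ i ≤ w.2 ∧ q ∈ S i)) := by
  constructor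
  · intro h w hw
    have h1 : w ∈ (status S R p).1 ↔ w ∈ (status S R q).1 := by rw [h]
    have h2 : w ∈ (status S R p).2 ↔ w ∈ (status S R q).2 := by rw [h]
    simp only [status, mem_filter, hw, true_and] at h1 h2
    exact ⟨h1, h2⟩
  · intro h
    unfold status
    congr 1
    · exact filter_congr fun w hw => (h w hw).1
    · exact filter_congr fun w hw => (h w hw).2

/-- a class is closed along the cones of a window in which it is active -/
theorem closure {P : Finset Pt} {τ : ℕ → ℝ} {S : ℕ → Finset Pt} {G : ℕ} {C : Finset ℕ}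
    (h : Chain P τ S G) (hC : Cuts G C) {R : Finset (ℕ × ℕ)} (hR : R ⊆ wins C) {w : ℕ × ℕ}
    (hw : w ∈ wins C) {p v q : Pt} (hp : p ∈ P) (hq : q ∈ P) (hpq : status S R p = status S R q)
    (hpa : p ∈ act S w.1 w.2) (hv : v ∈ act S w.1 w.2) (h1 : Cone (τ w.1) (τ w.2) p v)
    (h2 : Cone (τ w.1) (τ w.2) v q) : v ∈ P ∧ status S R v = status S R p := by
  have l1 := win_le hC hw
  have hvP : v ∈ P := act_sub h l1.2 hv
  refine ⟨hvP, status_eq_iff.mpr fun w' hw' => ?_⟩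
  by_cases e : w = w'
  · subst e
    obtain ⟨a1, i, i1, i2, i3⟩ := mem_act_iff.mp hpa
    obtain ⟨b1, j, j1, j2, j3⟩ := mem_act_iff.mp hv
    exact ⟨⟨fun hh => (j3 (hh j j1 j2)).elim, fun hh => (i3 (hh i i1 i2)).elim⟩,
      ⟨fun _ => a1, fun _ => b1⟩⟩
  · have l2 := win_le hC (hR hw')
    have hs := status_between h l1.1 l1.2 l2.2 (win_disj hw (hR hw') e) hp hvP hq h1 h2
    have hh := status_eq_iff.mp hpq w' hw'
    exact ⟨hs.1 hh.1, hs.2 hh.2⟩

end ClassAux

theorem class_pick (γ c' C' : ℝ) (hγ : 0 < γ) (hc' : 0 < c') (hC' : 0 < C') :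
    ∃ c : ℝ, 0 < c ∧ ∀ (P : Finset Pt) (τ : ℕ → ℝ) (S : ℕ → Finset Pt) (G : ℕ) (C : Finset ℕ)
      (J : ℝ), Chain P τ S G → Scale P S G C J → 1 ≤ J → P.Nonempty →
      ∀ (G' : Finset Pt) (rich : Fin 3 → Pt → Finset (ℕ × ℕ)), G' ⊆ P → γ * P.card ≤ G'.card →
      (∀ p ∈ G', ∀ j, rich j p ⊆ actW S C p ∧ c' * J ≤ (rich j p).card) →
      (∀ p ∈ G', ((actW S C p).card : ℝ) ≤ C' * J) →
      ∃ (w : Fin 3 → ℕ × ℕ) (z A₀ : Finset Pt), A₀ ⊆ G' ∧ A₀ ⊆ z ∧ (∀ j, w j ∈ wins C) ∧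
        (∀ j, z ⊆ act S (w j).1 (w j).2) ∧ (∀ p ∈ A₀, ∀ j, w j ∈ rich j p) ∧
        (∀ j, ∀ p ∈ z, ∀ q ∈ z, ∀ v ∈ act S (w j).1 (w j).2,
          Cone (τ (w j).1) (τ (w j).2) p v → Cone (τ (w j).1) (τ (w j).2) v q → v ∈ z) ∧
        c * z.card ≤ A₀.card ∧ c * P.card ≤ A₀.card * J ^ 6 := by
  set K : ℝ := (12 * 2 ^ 45 / c' + 1) ^ 2 with hK
  set L : ℝ := (30 * (C' / c')) ^ 3 with hL
  have hK1 : 1 ≤ K := one_le_pow₀ (by
    have : 0 ≤ 12 * 2 ^ 45 / c' := by positivity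
    linarith)
  have hL0 : 0 < L := by positivity
  refine ⟨γ / (4 * K * L), by positivity, ?_⟩
  intro P τ S G C J h hsc hJ hP G' rich hG' hγn hrich hact
  have hn : (0 : ℝ) < P.card := by exact_mod_cast hP.card_pos
  have hJ0 : 0 < J := by linarith
  have hGne : G'.Nonempty := by
    rw [← card_pos]
    have : (0 : ℝ) < G'.card := lt_of_lt_of_le (by positivity) hγn
    exact_mod_cast this
  have hactW : ∀ p, actW S C p ⊆ wins C := fun p => filter_subset _ _
  have hW : (wins C).Nonempty := by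
    obtain ⟨p, hp⟩ := hGne
    have h1 := hrich p hp 0
    have h2 : (0 : ℝ) < (rich 0 p).card := lt_of_lt_of_le (by positivity) h1.2
    have h3 : (rich 0 p).Nonempty := card_pos.mp (by exact_mod_cast h2)
    exact h3.mono (h1.1.trans (hactW p))
  obtain ⟨R, hR, hRc, hok⟩ := sample (wins C) hW G' hGne rich (actW S C) (c' * J) (C' / c')
    (by positivity) (by positivity)
    (fun p hp j => ⟨(hrich p hp j).1.trans (hactW p), (hrich p hp j).2⟩)
    (fun p hp => ⟨hactW p, (hact p hp).trans (le_of_eq (by field_simp))⟩)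
  set ok := G'.filter (fun p => (∀ j, (rich j p ∩ R).Nonempty) ∧
    ((actW S C p ∩ R).card : ℝ) ≤ 30 * (C' / c')) with hokdef
  have hokP : ok ⊆ P := (filter_subset _ _).trans hG'
  set Sg := P.image (status S R) with hSg
  have hSgne : Sg.Nonempty := hP.image _
  have hN0 : (0 : ℝ) < Sg.card := by exact_mod_cast hSgne.card_pos
  have hN : (Sg.card : ℝ) ≤ K * J ^ 6 := by
    have h1 : (Sg.card : ℝ) ≤ (2 * R.card + 1) ^ 2 := by
      exact_mod_cast card_status h hsc.cuts R hR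
    have h2 : ((wins C).card : ℝ) ≤ 2 ^ 45 * J ^ 4 :=
      le_trans (by exact_mod_cast card_wins_le C) hsc.card
    have h3 : (R.card : ℝ) ≤ 6 * 2 ^ 45 / c' * J ^ 3 := by
      rw [div_mul_eq_mul_div, le_div_iff₀ hc']
      have h4 : (R.card : ℝ) * c' * J ≤ 6 * 2 ^ 45 * J ^ 3 * J := by nlinarith
      exact le_of_mul_le_mul_right h4 hJ0
    have h5 : (1 : ℝ) ≤ J ^ 3 := one_le_pow₀ hJ
    have h6 : (2 * R.card + 1 : ℝ) ≤ (12 * 2 ^ 45 / c' + 1) * J ^ 3 := by
      have e : (12 * 2 ^ 45 / c' + 1) * J ^ 3 = 2 * (6 * 2 ^ 45 / c' * J ^ 3) + J ^ 3 := by ring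
      linarith
    calc (Sg.card : ℝ) ≤ (2 * R.card + 1) ^ 2 := h1
      _ ≤ ((12 * 2 ^ 45 / c' + 1) * J ^ 3) ^ 2 := by gcongr
      _ = K * J ^ 6 := by rw [hK]; ring
  have hs1 : ∑ σ ∈ Sg, ((P.filter fun p => status S R p = σ).card : ℝ) = P.card := by
    exact_mod_cast (card_eq_sum_card_fiberwise (f := status S R) (s := P) (t := Sg)
      fun p hp => mem_image_of_mem _ hp).symm
  have hs2 : ∑ σ ∈ Sg, ((ok.filter fun p => status S R p = σ).card : ℝ) = ok.card := by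
    exact_mod_cast (card_eq_sum_card_fiberwise (f := status S R) (s := ok) (t := Sg)
      fun p hp => mem_image_of_mem _ (hokP hp)).symm
  have hok' : (G'.card : ℝ) ≤ 2 * ok.card := by
    have h1 : G'.card ≤ 2 * ok.card := by rw [hokdef]; convert hok
    exact_mod_cast h1
  obtain ⟨σ, hσ, hσle⟩ := exists_le_of_sum_le (s := Sg)
    (f := fun σ => γ / 4 * ((P.filter fun p => status S R p = σ).card : ℝ) +
      γ * P.card / (4 * Sg.card))
    (g := fun σ => ((ok.filter fun p => status S R p = σ).card : ℝ)) hSgne (by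
      rw [sum_add_distrib, ← mul_sum, hs1, hs2, sum_const, nsmul_eq_mul]
      have e : (Sg.card : ℝ) * (γ * P.card / (4 * Sg.card)) = γ / 4 * P.card := by field_simp
      rw [e]; linarith)
  set z := P.filter fun p => status S R p = σ with hz
  set oz := ok.filter fun p => status S R p = σ with hoz
  have hz0 : (0 : ℝ) ≤ γ / 4 * z.card := by positivity
  have hpos : 0 < γ * P.card / (4 * Sg.card) := by positivity
  have hozne : oz.Nonempty := by
    rw [← card_pos]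
    have : (0 : ℝ) < oz.card := by linarith
    exact_mod_cast this
  set B := σ.2 \ σ.1 with hB
  have hBeq : ∀ p, status S R p = σ → actW S C p ∩ R = B := by
    intro p hp
    ext w
    rw [mem_inter, hB, ← hp]
    constructor
    · rintro ⟨h1, h2⟩
      exact (ClassAux.mem_act_status h2 p).mp (mem_filter.mp h1).2
    · intro h1
      have h2 : w ∈ R := (mem_filter.mp (mem_sdiff.mp h1).1).1
      exact ⟨mem_filter.mpr ⟨hR h2, (ClassAux.mem_act_status h2 p).mpr h1⟩, h2⟩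
  obtain ⟨p₀, hp₀⟩ := hozne
  have hp₀' := mem_filter.mp hp₀
  have hBc : (B.card : ℝ) ≤ 30 * (C' / c') := by
    rw [← hBeq p₀ hp₀'.2]
    exact (mem_filter.mp hp₀'.1).2.2
  set Pi := Fintype.piFinset fun _ : Fin 3 => B with hPi
  have hPic : (Pi.card : ℝ) ≤ L := by
    have : Pi.card = B.card ^ 3 := by simp [hPi]
    rw [this, hL]
    push_cast
    gcongr
  have hcov : ∀ p ∈ oz, ∃ w ∈ Pi, ∀ j, w j ∈ rich j p := by
    intro p hp
    have hp' := mem_filter.mp hp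
    have hp'' := mem_filter.mp hp'.1
    choose w hw using hp''.2.1
    refine ⟨w, Fintype.mem_piFinset.mpr fun j => ?_, fun j => (mem_inter.mp (hw j)).1⟩
    rw [← hBeq p hp'.2]
    exact mem_inter.mpr ⟨(hrich p hp''.1 j).1 (mem_inter.mp (hw j)).1, (mem_inter.mp (hw j)).2⟩
  have hPine : Pi.Nonempty := by
    obtain ⟨w, hw, -⟩ := hcov p₀ hp₀
    exact ⟨w, hw⟩
  have hsum : (oz.card : ℝ) ≤ ∑ w ∈ Pi, ((oz.filter fun p => ∀ j, w j ∈ rich j p).card : ℝ) := by
    have h1 : oz ⊆ Pi.biUnion fun w => oz.filter fun p => ∀ j, w j ∈ rich j p := by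
      intro p hp
      obtain ⟨w, hw, hw'⟩ := hcov p hp
      exact mem_biUnion.mpr ⟨w, hw, mem_filter.mpr ⟨hp, hw'⟩⟩
    exact_mod_cast (card_le_card h1).trans card_biUnion_le
  obtain ⟨w, hw, hwle⟩ := exists_le_of_sum_le (s := Pi) (f := fun _ => (oz.card : ℝ) / L)
    (g := fun w => ((oz.filter fun p => ∀ j, w j ∈ rich j p).card : ℝ)) hPine (by
      rw [sum_const, nsmul_eq_mul]
      refine le_trans ?_ hsum
      calc (Pi.card : ℝ) * (oz.card / L) ≤ L * (oz.card / L) := by gcongr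
        _ = oz.card := by field_simp)
  have hwB : ∀ j, w j ∈ B := Fintype.mem_piFinset.mp hw
  have hza : ∀ j, ∀ p ∈ z, w j ∈ actW S C p ∩ R := fun j p hp => by
    rw [hBeq p (mem_filter.mp hp).2]; exact hwB j
  have hp₀z : p₀ ∈ z := mem_filter.mpr ⟨hokP hp₀'.1, hp₀'.2⟩
  have hwin : ∀ j, w j ∈ wins C := fun j => hR (mem_inter.mp (hza j p₀ hp₀z)).2
  have hzact : ∀ j, z ⊆ act S (w j).1 (w j).2 := fun j p hp =>
    (mem_filter.mp (mem_inter.mp (hza j p hp)).1).2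
  set A₀ := oz.filter fun p => ∀ j, w j ∈ rich j p with hA₀
  have hA : (oz.card : ℝ) ≤ A₀.card * L := by rwa [div_le_iff₀ hL0] at hwle
  refine ⟨w, z, A₀, ?_, ?_, hwin, hzact, fun p hp => (mem_filter.mp hp).2, ?_, ?_, ?_⟩
  · exact (filter_subset _ _).trans ((filter_subset _ _).trans (filter_subset _ _))
  · exact (filter_subset _ _).trans (filter_subset_filter _ hokP)
  · intro j p hp q hq v hv h1 h2
    have hp' := mem_filter.mp hp
    have hq' := mem_filter.mp hq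
    have := ClassAux.closure h hsc.cuts hR (hwin j) hp'.1 hq'.1 (hp'.2.trans hq'.2.symm)
      (hzact j hp) hv h1 h2
    exact mem_filter.mpr ⟨this.1, this.2.trans hp'.2⟩
  · rw [div_mul_eq_mul_div, div_le_iff₀ (by positivity)]
    have h1 : γ * z.card ≤ 4 * (A₀.card * L) := by linarith
    have h2 : (0 : ℝ) ≤ A₀.card * L := by positivity
    nlinarith
  · rw [div_mul_eq_mul_div, div_le_iff₀ (by positivity)]
    have h1 : γ * P.card / (4 * Sg.card) ≤ A₀.card * L := by linarith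
    rw [div_le_iff₀ (by positivity)] at h1
    calc γ * P.card ≤ A₀.card * L * (4 * Sg.card) := h1
      _ ≤ A₀.card * L * (4 * (K * J ^ 6)) := by gcongr
      _ = _ := by ring

end
end Crest.Agent.R51
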