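import Crest.Agent.R51.SysAOf
import Crest.Agent.R51.ClassPick

set_option autoImplicit false
open Classical Finset

namespace Crest.Agent.R51
noncomputable section

theorem caseA_exp (s : ℕ) :
    ((1024 : ℝ) ^ s) ^ 3 * (1 + 4 / 5 * (s * Real.log 2)) ≤
      Real.exp (88 / 100 * (35 * s * Real.log 2)) := by
  have h1 : ((1024 : ℝ) ^ s) ^ 3 = Real.exp (30 * (s * Real.log 2)) := by
    have : (30 : ℝ) * (s * Real.log 2) = ((30 * s : ℕ) : ℝ) * Real.log 2 := by push_cast; ring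
    rw [this, Real.exp_nat_mul, Real.exp_log (by norm_num), ← pow_mul,
      show (1024 : ℝ) = 2 ^ 10 by norm_num, ← pow_mul]
    congr 1
    ring
  have h2 : 88 / 100 * (35 * s * Real.log 2) =
      30 * (s * Real.log 2) + 4 / 5 * (s * Real.log 2) := by ring
  rw [h2, Real.exp_add, h1]
  refine mul_le_mul_of_nonneg_left ?_ (Real.exp_pos _).le
  linarith [Real.add_one_le_exp (4 / 5 * (s * Real.log 2))]

theorem caseA_exp' (s : ℕ) : Real.exp (-(35 * s * Real.log 2)) = 1 / 2 ^ (35 * s) := by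
  have : (35 : ℝ) * s * Real.log 2 = ((35 * s : ℕ) : ℝ) * Real.log 2 := by push_cast; ring
  rw [this, Real.exp_neg, Real.exp_nat_mul, Real.exp_log (by norm_num), one_div]

theorem caseA (hA : CoreA) (γ c' C' θ : ℝ) (hγ : 0 < γ) (hc' : 0 < c') (hC' : 0 < C')
    (hθ : 0 < θ) (hθ1 : θ ≤ 1) :
    ∃ s₁ : ℕ, ∀ s : ℕ, s₁ ≤ s → ∃ Δ₀ : ℝ, ∀ (P : Finset Pt) (τ : ℕ → ℝ) (S : ℕ → Finset Pt)
      (G Q : ℕ) (Δ : ℝ) (C : Finset ℕ), Base P τ S G Q Δ → Δ₀ ≤ Δ → Scale P S G C (1024 ^ s) →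
      ∀ (G' : Finset Pt) (rich : Fin 3 → Pt → Finset (ℕ × ℕ)), G' ⊆ P → γ * P.card ≤ G'.card →
      (∀ p ∈ G', ∀ j, c' * 1024 ^ s ≤ (rich j p).card ∧
        ∀ w ∈ rich j p, w ∈ wins C ∧ θ * Δ / 1024 ^ s ≤ deg S w.1 w.2 p) →
      (∀ p ∈ G', ((actW S C p).card : ℝ) ≤ C' * 1024 ^ s) →
      (∀ p ∈ G', ∀ w : Fin 3 → ℕ × ℕ, (∀ j, w j ∈ rich j p) → Far3 τ w (1 / 2 ^ (35 * s))) →
      False := by
  obtain ⟨κ₀, hκ⟩ := hA
  obtain ⟨c, hc, hpick⟩ := class_pick γ c' C' hγ hc' hC'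
  have hl2 : 0 < Real.log 2 := Real.log_pos (by norm_num)
  set K : ℝ := 256 * 4608 / (c ^ 2 * θ ^ 3) with hK
  have hK0 : 0 < K := by positivity
  obtain ⟨s₁, hs₁⟩ := exists_nat_ge (max (|κ₀| / Real.log 2) (2 * K / Real.log 2))
  refine ⟨s₁, fun s hs => ?_⟩
  have hss : (s₁ : ℝ) ≤ s := by exact_mod_cast hs
  have hs1 : |κ₀| ≤ s * Real.log 2 := by
    have := le_trans (le_max_left _ _) (le_trans hs₁ hss)
    rwa [div_le_iff₀ hl2] at this
  have hs2 : 2 * K ≤ s * Real.log 2 := by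
    have := le_trans (le_max_right _ _) (le_trans hs₁ hss)
    rwa [div_le_iff₀ hl2] at this
  obtain ⟨D₀, hD⟩ := hκ (35 * s * Real.log 2) (by
    have := le_abs_self κ₀
    have := abs_nonneg κ₀
    nlinarith)
  set J : ℝ := 1024 ^ s with hJ
  have hJ1 : 1 ≤ J := one_le_pow₀ (by norm_num)
  have hJ0 : 0 < J := by linarith
  refine ⟨max 1 (max (384 * J ^ 4 * |D₀| / (θ * c)) (|D₀| * J ^ 6 / c)), ?_⟩
  intro P τ S G Q Δ C hB hΔ hS G' rich hG' hγ' hrich hact hfar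
  have hΔ1 : 1 ≤ Δ := le_trans (le_max_left _ _) hΔ
  have hΔ2 : 384 * J ^ 4 * |D₀| ≤ Δ * (θ * c) := by
    have := le_trans (le_max_left _ _) (le_trans (le_max_right _ _) hΔ)
    rwa [div_le_iff₀ (by positivity)] at this
  have hΔ3 : |D₀| * J ^ 6 ≤ Δ * c := by
    have := le_trans (le_max_right _ _) (le_trans (le_max_right _ _) hΔ)
    rwa [div_le_iff₀ hc] at this
  have hΔ0 : 0 < Δ := hB.Dpos
  have hQ1 : (1 : ℝ) ≤ Q := by exact_mod_cast hB.Qpos
  set n : ℝ := (P.card : ℝ) with hn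
  have hneq : Δ ^ 3 * Q = n := hB.Deq
  have hnΔ : Δ ≤ n := by
    have h1 : Δ ≤ Δ ^ 3 := by
      calc Δ = Δ ^ 1 := (pow_one _).symm
        _ ≤ Δ ^ 3 := pow_le_pow_right₀ hΔ1 (by norm_num)
    have h2 : 0 < Δ ^ 3 := by positivity
    nlinarith
  have hn0 : 0 < n := by linarith
  have hPne : P.Nonempty := by
    rw [← Finset.card_pos]
    exact Nat.cast_pos.1 (hn ▸ hn0)
  have hd : 0 < θ * Δ / J := by positivity
  obtain ⟨w, z, A₀, hAG, hAz, hw, hz, hwr, hcl, hcz, hcn⟩ :=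
    hpick P τ S G C J hB.chain hS hJ1 hPne G' rich hG' hγ' (by
      intro p hp j
      refine ⟨?_, (hrich p hp j).1⟩
      intro w hw
      obtain ⟨h1, h2⟩ := (hrich p hp j).2 w hw
      rw [actW, Finset.mem_filter]
      refine ⟨h1, mem_act_of_deg ?_⟩
      have : (0 : ℝ) < deg S w.1 w.2 p := lt_of_lt_of_le hd h2
      exact_mod_cast this) hact
  set a : ℝ := (A₀.card : ℝ) with ha
  have ha0 : 0 < a := by
    have h1 : 0 < c * n := by positivity
    have h2 : 0 < a * J ^ 6 := lt_of_lt_of_le h1 hcn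
    exact (pos_iff_pos_of_mul_pos h2).2 (by positivity)
  obtain ⟨p₀, hp₀⟩ : A₀.Nonempty := by
    rw [← Finset.card_pos]
    exact Nat.cast_pos.1 (ha ▸ ha0)
  have hF := hfar p₀ (hAG hp₀) w (hwr p₀ hp₀)
  have hQ' : (Q : ℝ) * (θ * Δ / J) ^ 3 / 4608 = θ ^ 3 * n / (4608 * J ^ 3) := by
    rw [← hneq]; field_simp
  obtain ⟨ℓ, T, sf, hsys, hsz⟩ := sysA_of hB w (fun j => win_le hS.cuts (hw j))
    (1 / 2 ^ (35 * s)) hF z A₀ hAz hz hcl (θ * Δ / J) (16 * n / J ^ 3) hd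
    (fun p hp j => ((hrich p (hAG hp) j).2 _ (hwr p hp j)).2)
    (fun j => by
      rw [le_div_iff₀ (by positivity)]
      exact hS.act_le _ (hw j))
    (by
      rw [hQ', div_le_div_iff₀ (by positivity) (by positivity)]
      have h1 : θ ^ 3 ≤ 1 := pow_le_one₀ hθ.le hθ1
      have h2 : 0 < n * J ^ 3 := by positivity
      nlinarith)
  refine hD Pt A₀ ℓ T sf _ _ _ _ hsys (caseA_exp' s).ge ?_ ?_ ?_
  · intro i
    have hT := hsys.Tle i
    have hT0 : 0 ≤ T i A₀ := le_trans ha0.le (hsys.Tcard i A₀ le_rfl)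
    have hs0 : 0 ≤ sf A₀ := le_trans ha0.le (hsys.scard A₀ le_rfl)
    have h1 : (T i A₀) ^ 2 ≤ (16 * n / J ^ 3) ^ 2 := pow_le_pow_left₀ hT0 hT 2
    have h2 : sf A₀ ≤ a / c := by
      rw [le_div_iff₀ hc]
      nlinarith
    have h3 : (T i A₀) ^ 2 * sf A₀ ≤ (16 * n / J ^ 3) ^ 2 * (a / c) :=
      mul_le_mul h1 h2 hs0 (by positivity)
    have h4 := caseA_exp s
    rw [← hJ] at h4
    have h5 : J ^ 3 * K ≤ Real.exp (88 / 100 * (35 * s * Real.log 2)) := by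
      refine le_trans (mul_le_mul_of_nonneg_left ?_ (by positivity)) h4
      linarith
    have h6 : c * n / J ^ 6 ≤ a := by
      rw [div_le_iff₀ (by positivity)]
      exact hcn
    rw [hQ']
    calc (T i A₀) ^ 2 * sf A₀ ≤ (16 * n / J ^ 3) ^ 2 * (a / c) := h3
      _ = (J ^ 3 * K) * (θ ^ 3 * n / (4608 * J ^ 3)) * (a * (c * n / J ^ 6)) := by
          rw [hK]; field_simp; ring
      _ ≤ (J ^ 3 * K) * (θ ^ 3 * n / (4608 * J ^ 3)) * (a * a) := by
          refine mul_le_mul_of_nonneg_left (mul_le_mul_of_nonneg_left h6 ha0.le) (by positivity)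
      _ ≤ Real.exp (88 / 100 * (35 * s * Real.log 2)) * (θ ^ 3 * n / (4608 * J ^ 3)) * a ^ 2 := by
          rw [sq]
          exact mul_le_mul_of_nonneg_right (mul_le_mul_of_nonneg_right h5 (by positivity))
            (by positivity)
  · have h6 : c * n / J ^ 6 ≤ a := by
      rw [div_le_iff₀ (by positivity)]
      exact hcn
    calc D₀ * (16 * n / J ^ 3) ≤ |D₀| * (16 * n / J ^ 3) :=
          mul_le_mul_of_nonneg_right (le_abs_self _) (by positivity)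
      _ = (384 * J ^ 4 * |D₀|) * (n / (24 * J ^ 7)) := by field_simp; ring
      _ ≤ (Δ * (θ * c)) * (n / (24 * J ^ 7)) := mul_le_mul_of_nonneg_right hΔ2 (by positivity)
      _ = θ * Δ / J / 24 * (c * n / J ^ 6) := by field_simp
      _ ≤ θ * Δ / J / 24 * a := mul_le_mul_of_nonneg_left h6 (by positivity)
  · have h1 : |D₀| * J ^ 6 ≤ a * J ^ 6 := by nlinarith
    have h2 : |D₀| ≤ a := le_of_mul_le_mul_right h1 (by positivity)
    exact le_trans (le_abs_self _) h2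

end
end Crest.Agent.R51
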