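import Crest.Agent.R51.Match

set_option autoImplicit false
open Classical Finset

namespace Crest.Agent.R51
noncomputable section

variable {P : Finset Pt} {τ : ℕ → ℝ} {S : ℕ → Finset Pt} {G a b Q : ℕ}
  {mt : ℕ → ℕ → Pt → Pt}

/-- the slope of an edge -/
def ccSl (e : Pt × Pt) : ℝ := (e.2.2 - e.1.2) / (e.2.1 - e.1.1)

theorem cc_hgt (e : Pt × Pt) (x : ℝ) : hgt e x = ccSl e * x + ph (ccSl e) e.1 := by
  unfold hgt ph ccSl
  ring

theorem cc_ph {p q : Pt} (h : p.1 < q.1) (t : ℝ) :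
    ph t q - ph t p = (q.1 - p.1) * (ccSl (p, q) - t) := by
  have : q.1 - p.1 ≠ 0 := (sub_pos.2 h).ne'
  unfold ph ccSl
  field_simp
  ring

theorem cc_above {p q : Pt} {s c x : ℝ} (h1 : p.1 < x) (h2 : x < q.1) (hp : c ≤ ph s p)
    (hq : c ≤ ph s q) (hs : ccSl (p, q) ≠ s) : s * x + c < hgt (p, q) x := by
  have e := cc_ph (h1.trans h2) s
  have e1 : hgt (p, q) x = s * x + ph s p + (x - p.1) * (ccSl (p, q) - s) := by
    unfold hgt ph ccSl
    ring
  rcases hs.lt_or_gt with h | h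
  · have : 0 < (q.1 - x) * (s - ccSl (p, q)) := mul_pos (by linarith) (by linarith)
    nlinarith
  · have : 0 < (x - p.1) * (ccSl (p, q) - s) := mul_pos (by linarith) (by linarith)
    linarith

theorem cc_below {p q : Pt} {s c x : ℝ} (h1 : p.1 < x) (h2 : x < q.1) (hp : ph s p ≤ c)
    (hq : ph s q ≤ c) (hs : ccSl (p, q) ≠ s) : hgt (p, q) x < s * x + c := by
  have e := cc_ph (h1.trans h2) s
  have e1 : hgt (p, q) x = s * x + ph s p + (x - p.1) * (ccSl (p, q) - s) := by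
    unfold hgt ph ccSl
    ring
  rcases hs.lt_or_gt with h | h
  · have : 0 < (x - p.1) * (s - ccSl (p, q)) := mul_pos (by linarith) (by linarith)
    linarith
  · have : 0 < (q.1 - x) * (ccSl (p, q) - s) := mul_pos (by linarith) (by linarith)
    nlinarith

theorem cc_step (h : Chain P τ S G) {i : ℕ} (hi : i < G) {u v : Pt} (hu : u ∈ U S i)
    (hv : v ∈ V S i) : τ i < ccSl (u, v) ∧ ccSl (u, v) < τ (i + 1) ∧
      ph (ccSl (u, v)) v = ph (ccSl (u, v)) u := by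
  obtain ⟨h1, h2, h3⟩ := sdiff_left h (Nat.lt_succ_self i) hi hu hv
  have e1 := cc_ph h1 (τ i)
  have e2 := cc_ph h1 (τ (i + 1))
  have e3 := cc_ph h1 (ccSl (u, v))
  have h0 := sub_pos.2 h1
  refine ⟨?_, ?_, by linarith⟩
  · by_contra hc
    nlinarith [mul_nonneg h0.le (sub_nonneg.2 (not_lt.1 hc))]
  · by_contra hc
    nlinarith [mul_nonneg h0.le (sub_nonneg.2 (not_lt.1 hc))]

theorem cc_ne (h : Chain P τ S G) {i j : ℕ} (hi : i < G) (hj : j < G) (hij : i ≠ j) {s t : ℝ}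
    (h1 : τ i < s) (h2 : s < τ (i + 1)) (h3 : τ j < t) (h4 : t < τ (j + 1)) : s ≠ t := by
  rcases hij.lt_or_gt with hl | hl
  · have := h.le (i := i + 1) (j := j) hl hj.le
    exact (by linarith : s < t).ne
  · have := h.le (i := j + 1) (j := i) hl hi.le
    exact (by linarith : t < s).ne'

/-- `e` is a move of the token `(w, x)` -/
def ccTok (S : ℕ → Finset Pt) (mt : ℕ → ℕ → Pt → Pt) (a b w : ℕ) (x : Pt) (e : Pt × Pt) : Prop :=
  x ∈ S a ∧ ∃ j, a + j < b ∧ pos mt w a j x ∈ U S (a + j) ∧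
    e = (pos mt w a j x, pos mt w a (j + 1) x)

/-- `e` is a move of the hole `(w, x)` -/
def ccHol (S : ℕ → Finset Pt) (mt : ℕ → ℕ → Pt → Pt) (a b w : ℕ) (x : Pt) (e : Pt × Pt) : Prop :=
  x ∉ S a ∧ ∃ j, a + j < b ∧ pos mt w a j x ∈ V S (a + j) ∧
    e = (pos mt w a (j + 1) x, pos mt w a j x)

theorem cc_tok (h : Chain P τ S G) (hb : b ≤ G) (hm : Mt S a b Q mt) {w : ℕ} {x : Pt}
    {e e' : Pt × Pt} (he : ccTok S mt a b w x e) (he' : ccTok S mt a b w x e') {y : ℝ}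
    (h1 : e.1.1 < y) (h2 : y < e.2.1) : e = e' ∨ hgt e' y < hgt e y := by
  obtain ⟨hx, j, hj, hu, rfl⟩ := he
  obtain ⟨-, j', hj', hu', rfl⟩ := he'
  by_cases hjj : j = j'
  · exact Or.inl (by rw [hjj])
  right
  obtain ⟨a1, a2, -⟩ := cc_step h (by omega) hu (hm.toV w _ (by omega) hj _ hu)
  obtain ⟨b1, b2, b3⟩ := cc_step h (by omega) hu' (hm.toV w _ (by omega) hj' _ hu')
  have key : ∀ k, a + k ≤ b → ph (ccSl (pos mt w a j' x, pos mt w a (j' + 1) x)) (pos mt w a j' x) ≤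
      ph (ccSl (pos mt w a j' x, pos mt w a (j' + 1) x)) (pos mt w a k x) := by
    intro k hk
    rcases le_or_gt k j' with hl | hl
    · exact (token_mono h hb hm w hl hj'.le hx).2.2 _ b1.le
    · exact b3.symm.trans_le ((token_mono h hb hm w (j := j' + 1) hl hk hx).2.1 _ b2.le)
  rw [cc_hgt (pos mt w a j' x, pos mt w a (j' + 1) x)]
  exact cc_above h1 h2 (key j hj.le) (key (j + 1) hj)
    (cc_ne h (by omega) (by omega) (by omega) a1 a2 b1 b2)

theorem cc_hol (h : Chain P τ S G) (hb : b ≤ G) (hm : Mt S a b Q mt) {w : ℕ} {x : Pt}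
    {e e' : Pt × Pt} (he : ccHol S mt a b w x e) (he' : ccHol S mt a b w x e') {y : ℝ}
    (h1 : e.1.1 < y) (h2 : y < e.2.1) : e = e' ∨ hgt e y < hgt e' y := by
  obtain ⟨hx, j, hj, hu, rfl⟩ := he
  obtain ⟨-, j', hj', hu', rfl⟩ := he'
  by_cases hjj : j = j'
  · exact Or.inl (by rw [hjj])
  right
  obtain ⟨a1, a2, -⟩ := cc_step h (by omega) (hm.toU w _ (by omega) hj _ hu) hu
  obtain ⟨b1, b2, b3⟩ := cc_step h (by omega) (hm.toU w _ (by omega) hj' _ hu') hu'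
  have key : ∀ k, a + k ≤ b → ph (ccSl (pos mt w a (j' + 1) x, pos mt w a j' x)) (pos mt w a k x) ≤
      ph (ccSl (pos mt w a (j' + 1) x, pos mt w a j' x)) (pos mt w a (j' + 1) x) := by
    intro k hk
    rcases le_or_gt k j' with hl | hl
    · exact ((hole_mono h hb hm w hl hj'.le hx).2.2 _ b1.le).trans_eq b3
    · exact (hole_mono h hb hm w (j := j' + 1) hl hk hx).2.1 _ b2.le
  rw [cc_hgt (pos mt w a (j' + 1) x, pos mt w a j' x)]
  exact cc_below h1 h2 (key (j + 1) hj) (key j hj.le)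
    (cc_ne h (by omega) (by omega) (by omega) a1 a2 b1 b2)

theorem cc_edge (h : Chain P τ S G) (hb : b ≤ G) (hm : Mt S a b Q mt) {A Z : Finset Pt}
    {e : Pt × Pt} (he : e ∈ edges S mt a b Q A Z) : ∃ w ∈ Finset.range Q,
      (∃ x ∈ P.filter (fun x => ∃ j, a + j ≤ b ∧ pos mt w a j x ∈ A), ccTok S mt a b w x e) ∧
      ∃ x ∈ P.filter (fun x => ∃ j, a + j ≤ b ∧ pos mt w a j x ∈ A), ccHol S mt a b w x e := by
  simp only [edges, Finset.mem_biUnion, Finset.mem_product, Finset.mem_Ico, Finset.mem_image,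
    Finset.mem_filter, Finset.mem_inter] at he
  obtain ⟨⟨w, i⟩, ⟨hw, h1, h2⟩, u, ⟨⟨hu, hA⟩, -⟩, rfl⟩ := he
  obtain ⟨j, rfl⟩ := Nat.exists_eq_add_of_le h1
  dsimp only at hw h2 hu ⊢
  have hv := hm.toV w _ h1 h2 _ hu
  refine ⟨w, hw, ?_, ?_⟩
  · have huS := (Finset.mem_sdiff.1 hu).1
    obtain ⟨x, hx, rfl⟩ := pos_surj h hb hm w h2.le (h.sub _ (by omega) huS)
    exact ⟨x, Finset.mem_filter.2 ⟨hx, j, h2.le, hA⟩, (pos_token hm w h2.le x).1 huS, j, h2, hu,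
      rfl⟩
  · obtain ⟨hv1, hv2⟩ := Finset.mem_sdiff.1 hv
    obtain ⟨x, hx, hxv⟩ := pos_surj h hb hm w h2.le (h.sub _ (by omega) hv1)
    have e1 : pos mt w a (j + 1) x = u := by
      change mt w (a + j) (pos mt w a j x) = u
      rw [hxv, hm.invol]
    refine ⟨x, Finset.mem_filter.2 ⟨hx, j + 1, h2, e1 ▸ hA⟩, fun hxS => hv2 ?_, j, h2,
      hxv ▸ hv, by rw [e1, hxv]⟩
    rw [← hxv]
    exact (pos_token hm w h2.le x).2 hxS

/-- a convex token chain and a concave hole chain cross at most twice -/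
theorem cr_edges_le (h : Chain P τ S G) (hb : b ≤ G) (hm : Mt S a b Q mt) (A Z : Finset Pt) :
    cr (edges S mt a b Q A Z) ≤ 2 * (∑ w ∈ Finset.range Q, Tw P mt a b w A) ^ 2 := by
  set T : Finset (Σ _ : ℕ, Pt) := (Finset.range Q).sigma
    fun w => P.filter (fun x => ∃ j, a + j ≤ b ∧ pos mt w a j x ∈ A) with hT
  have hc : T.card = ∑ w ∈ Finset.range Q, Tw P mt a b w A := by
    rw [hT, Finset.card_sigma]
    rfl
  have e : 2 * (∑ w ∈ Finset.range Q, Tw P mt a b w A) ^ 2 =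
      ((T ×ˢ T) ×ˢ (Finset.univ : Finset Bool)).card := by
    rw [Finset.card_product, Finset.card_product, hc, Finset.card_univ, Fintype.card_bool]
    ring
  rw [e]
  refine Finset.card_le_card_of_forall_subsingleton
    (fun z t => ccTok S mt a b t.1.1.1 t.1.1.2 z.1 ∧ ccHol S mt a b t.1.2.1 t.1.2.2 z.2 ∧
      (t.2 = true ↔ ccSl z.1 < ccSl z.2)) ?_ ?_
  · intro z hz
    obtain ⟨h1, h2⟩ := Finset.mem_product.1 (Finset.mem_filter.1 hz).1
    obtain ⟨w, hw, ⟨x, hx, ht⟩, -⟩ := cc_edge h hb hm h1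
    obtain ⟨w', hw', -, x', hx', ht'⟩ := cc_edge h hb hm h2
    exact ⟨((⟨w, x⟩, ⟨w', x'⟩), decide (ccSl z.1 < ccSl z.2)), Finset.mem_product.2
      ⟨Finset.mem_product.2 ⟨Finset.mem_sigma.2 ⟨hw, hx⟩, Finset.mem_sigma.2 ⟨hw', hx'⟩⟩,
        Finset.mem_univ _⟩, ht, ht', decide_eq_true_iff⟩
  · rintro t - ⟨e1, f1⟩ ⟨hz1, a1, b1, c1⟩ ⟨e2, f2⟩ ⟨hz2, a2, b2, c2⟩
    obtain ⟨-, x1, p1, p2, p3, p4, p5⟩ := (Finset.mem_filter.1 hz1).2
    obtain ⟨-, x2, q1, q2, q3, q4, q5⟩ := (Finset.mem_filter.1 hz2).2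
    dsimp only at a1 b1 c1 a2 b2 c2 p1 p2 p3 p4 p5 q1 q2 q3 q4 q5
    by_contra hne
    have k1 : hgt e2 x1 < hgt f2 x1 := by
      rcases cc_tok h hb hm a1 a2 p1 p2 with r | r <;> rcases cc_hol h hb hm b1 b2 p3 p4 with r' | r'
      · exact absurd (by rw [r, r']) hne
      · rw [← r]; linarith
      · rw [← r']; linarith
      · linarith
    have k2 : hgt e1 x2 < hgt f1 x2 := by
      rcases cc_tok h hb hm a2 a1 q1 q2 with r | r <;> rcases cc_hol h hb hm b2 b1 q3 q4 with r' | r'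
      · exact absurd (by rw [r, r']) hne
      · rw [← r]; linarith
      · rw [← r']; linarith
      · linarith
    simp only [cc_hgt] at k1 k2 p5 q5
    have l1 : (ccSl e2 - ccSl f2) * (x1 - x2) < 0 := by linarith
    have l2 : (ccSl e1 - ccSl f1) * (x2 - x1) < 0 := by linarith
    have hc' : ccSl e1 < ccSl f1 ↔ ccSl e2 < ccSl f2 := c1.symm.trans c2
    by_cases hs : ccSl e1 < ccSl f1
    · have hs' := hc'.1 hs
      nlinarith
    · have hs' := fun h => hs (hc'.2 h)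
      rw [not_lt] at hs
      have hs'' := not_lt.1 hs'
      rcases le_total x1 x2 with hx | hx
      · nlinarith
      · nlinarith

theorem anchor_ConvCross : True := by
  have := @ccSl.eq_1
  have := @ccTok.eq_1
  have := @ccHol.eq_1
  trivial

end
end Crest.Agent.R51
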