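import Crest.Agent.R51.AFirst
import Crest.Agent.R51.AElbow

set_option autoImplicit false
open Classical Finset

namespace Crest.Agent.R51
noncomputable section

variable {α : Type} {A₀ : Finset α} {ℓ : Fin 3 → α → ℝ} {T : Fin 3 → Finset α → ℝ}
  {s : Finset α → ℝ} {M Q D B : ℝ}

variable {κ lam lam₂ κ' m₁ m₅ ε₁ c₁ c₂ c θ ϑ θ₅ θl Ξ β σ₁ : ℝ} {ng n₀ N₁ : ℕ}

theorem outer_step (hS : SysA A₀ ℓ T s M Q D B)
    (hP : ParA κ lam lam₂ κ' m₁ m₅ ε₁ c₁ c₂ c θ ϑ θ₅ θl Ξ β ng n₀ N₁)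
    (hZ : SizA Q D B lam ϑ θl σ₁) (hM : M ≤ Real.exp (-κ)) {A : Finset α}
    (hIH : IH A₀ T s Q D lam c σ₁ A.card) (hA : A ⊆ A₀) (hQ : Q ≤ D * A.card)
    (hPP : PP T s Q 0 1 A ≤ Phi T s Q A / 3) : psi lam c σ₁ A.card ≤ Phi T s Q A := by
  have hc0 : (0 : ℝ) < A.card := by
    by_contra h
    have h' : (A.card : ℝ) = 0 := le_antisymm (not_lt.1 h) (Nat.cast_nonneg _)
    rw [h', mul_zero] at hQ
    linarith [hS.Qpos]
  have hl : 0 ≤ lam := by linarith [hP.lamge]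
  have hσ0 : 0 < σ₁ := by linarith [hZ.σge]
  by_cases hσ : (A.card : ℝ) ≤ σ₁
  · rw [psi_small hl hP.cpos.le hσ0 hc0 hσ, Phi_eq]
    have := Finset.sum_nonneg (s := Finset.univ)
      (fun i _ => LL_nonneg hS hZ.Dge hA hQ i)
    linarith
  push Not at hσ
  by_cases hgood : Phi T s Q A ≤ lam
  swap
  · have := psi_le lam c σ₁ A.card
    push Not at hgood
    linarith
  obtain ⟨c0, hc0'⟩ := exists_median A (ℓ 0)
  obtain ⟨c1, hc1'⟩ := exists_median A (ℓ 1)
  set cc : Fin 3 → ℝ := ![c0, c1, -c0 - c1] with hccdef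
  have hcc : cc 0 + cc 1 + cc 2 = 0 := by simp [hccdef]
  have hmed : ∀ i : Fin 3, i = 0 ∨ i = 1 →
      A.card ≤ 2 * (A.filter (fun p => ℓ i p ≤ cc i)).card ∧
      A.card ≤ 2 * (A.filter (fun p => cc i ≤ ℓ i p)).card := by
    rintro i (rfl | rfl)
    · exact hc0'
    · exact hc1'
  have hne : A.Nonempty := Finset.card_pos.1 (by exact_mod_cast hc0)
  have h2A : 2 ≤ A.card := by
    have : (2 : ℝ) ≤ A.card := by linarith [hZ.σge]
    exact_mod_cast this
  have hz : ∀ p, Nc ℓ cc p ≤ 0 → ∀ i, ℓ i p = cc i := by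
    intro p hp i
    unfold Nc at hp
    have a0 : |ℓ 0 p - cc 0| ≤ 0 := (le_max_left _ _).trans ((le_max_left _ _).trans hp)
    have a1 : |ℓ 1 p - cc 1| ≤ 0 := (le_max_right _ _).trans ((le_max_left _ _).trans hp)
    have a2 : |ℓ 2 p - cc 2| ≤ 0 := (le_max_right _ _).trans hp
    fin_cases i
    · exact sub_eq_zero.1 (abs_nonpos_iff.1 a0)
    · exact sub_eq_zero.1 (abs_nonpos_iff.1 a1)
    · exact sub_eq_zero.1 (abs_nonpos_iff.1 a2)
  have h0 : 2 * (A.filter (fun p => Nc ℓ cc p ≤ 0)).card ≤ A.card := by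
    have : (A.filter (fun p => Nc ℓ cc p ≤ 0)).card ≤ 1 := by
      rw [Finset.card_le_one]
      intro p hp q hq
      rw [Finset.mem_filter] at hp hq
      apply hS.inj p (hA hp.1) q (hA hq.1)
      unfold nrm
      simp [hz p hp.2, hz q hq.2]
    omega
  obtain ⟨w, hw, h1, h2, h3⟩ := elbow A hne (Nc ℓ cc) h0 5 (9 / 8) (1 / 10 ^ 12)
    (by norm_num) (by norm_num) (by norm_num) (by norm_num)
  rcases h3 with ⟨h3, h4⟩ | ⟨h3, h4⟩
  · by_cases h5 : out A (Nc ℓ cc) w ≤ Real.exp (-lam) / 10 ^ 7 * A.card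
    · refine tiny_step hS hP hZ hM hIH hA hσ hgood cc w hw h3 ?_ h4 h5
      have := h2 1
      norm_num at this ⊢
      exact this
    · exact elbow_step hS hP hZ hM hIH hA hσ cc hcc w hw h1 (h2 n₀) h4 (not_le.1 h5).le
  · exact first_level hS hP hZ hM hIH hA hσ (by linarith) cc hcc hmed w hw h1 (h2 n₀) h3 h4

theorem outer (hS : SysA A₀ ℓ T s M Q D B)
    (hP : ParA κ lam lam₂ κ' m₁ m₅ ε₁ c₁ c₂ c θ ϑ θ₅ θl Ξ β ng n₀ N₁)
    (hZ : SizA Q D B lam ϑ θl σ₁) (hM : M ≤ Real.exp (-κ)) (n : ℕ) :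
    IH A₀ T s Q D lam c σ₁ n := by
  induction n with
  | zero => intro A _ h; omega
  | succ n ih =>
    intro A hA hn hQ
    rcases Nat.lt_or_ge A.card n with h | h
    · exact ih A hA h hQ
    have hn' : A.card = n := by omega
    obtain ⟨π, hπ⟩ := exists_perm T s Q A
    have hIH : IH A₀ (fun i => T (π i)) s Q D lam c σ₁ A.card := by
      intro A' hA' h1 h2
      rw [Phi_perm]
      exact ih A' hA' (hn' ▸ h1) h2
    have := outer_step (sysA_perm hS π) hP hZ hM hIH hA hQ (by rw [Phi_perm]; exact hπ)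
    rwa [Phi_perm] at this

theorem coreA : CoreA := by
  obtain ⟨κ₀, hκ₀⟩ := exists_parA
  refine ⟨κ₀, fun κ hκ => ?_⟩
  obtain ⟨lam, lam₂, κ', m₁, m₅, ε₁, c₁, c₂, c, θ, ϑ, θ₅, θl, Ξ, β, ng, n₀, N₁, hP⟩ := hκ₀ κ hκ
  have hϑ := hP.ϑpos
  have hθl := hP.θlpos
  have hc := hP.cpos
  set E : ℝ := Real.exp (lam / c) with hE
  have hE1 : 1 ≤ E := Real.one_le_exp (div_nonneg (by linarith [hP.lamge]) hc.le)
  have hE0 : 0 < E := by linarith
  set G : ℝ := 700 + 2 / ϑ + 10 ^ 7 * Real.exp lam / θl with hG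
  have g1 : 0 ≤ 2 / ϑ := by positivity
  have g2 : 0 ≤ 10 ^ 7 * Real.exp lam / θl := by positivity
  have hG1 : 700 ≤ G := by linarith
  have hG2 : 2 / ϑ ≤ G := by linarith
  have hG3 : 10 ^ 7 * Real.exp lam / θl ≤ G := by linarith
  refine ⟨E * G, fun α A₀ ℓ T s M Q D B hS hM hT hDB hN => ?_⟩
  set N : ℝ := (A₀.card : ℝ) with hNdef
  have hEG : 700 ≤ E * G := by nlinarith
  have hN0 : 0 < N := by linarith
  have hNB : N ≤ B := (hS.scard A₀ subset_rfl).trans hS.sle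
  have hB0 : 0 < B := by linarith
  have hD : E * G ≤ D := by
    have : E * G * N ≤ D * N := (mul_le_mul_of_nonneg_left hNB (by linarith)).trans hDB
    exact le_of_mul_le_mul_right this hN0
  set σ₁ : ℝ := N / E with hσ₁
  have hkey : G * B ≤ D * σ₁ := by
    rw [hσ₁, ← mul_div_assoc, le_div_iff₀ hE0]
    linarith
  have hQB := hS.QB
  have hZ : SizA Q D B lam ϑ θl σ₁ := by
    refine ⟨by linarith, ?_, ?_, ?_, ?_⟩
    · rw [hσ₁, le_div_iff₀ hE0]
      nlinarith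
    · have a1 : 2 / ϑ * B ≤ D * σ₁ := (mul_le_mul_of_nonneg_right hG2 hB0.le).trans hkey
      have a2 : B = ϑ / 2 * (2 / ϑ * B) := by field_simp
      have a3 : ϑ / 2 * (2 / ϑ * B) ≤ ϑ / 2 * (D * σ₁) :=
        mul_le_mul_of_nonneg_left a1 (by positivity)
      calc Q ≤ B := hQB
        _ ≤ ϑ / 2 * (D * σ₁) := a2.le.trans a3
        _ = D * (ϑ * σ₁ / 2) := by ring
    · have a1 : 10 ^ 7 * Real.exp lam / θl * B ≤ D * σ₁ :=
        (mul_le_mul_of_nonneg_right hG3 hB0.le).trans hkey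
      have he := Real.exp_pos lam
      have a2 : θl * (Real.exp (-lam) / 10 ^ 7) * (10 ^ 7 * Real.exp lam / θl * B) = B := by
        rw [Real.exp_neg]; field_simp
      have a3 := mul_le_mul_of_nonneg_left a1
        (show 0 ≤ θl * (Real.exp (-lam) / 10 ^ 7) by positivity)
      rw [a2] at a3
      calc Q ≤ B := hQB
        _ ≤ _ := a3
        _ = _ := by ring
    · nlinarith
  have hQN : Q ≤ D * A₀.card := by nlinarith
  have hmain := outer hS hP hZ hM (A₀.card + 1) A₀ subset_rfl (Nat.lt_succ_self _) hQN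
  have hpsi : psi lam c σ₁ A₀.card = lam - 12 := by
    unfold psi
    have : (A₀.card : ℝ) / σ₁ = E := by
      rw [hσ₁, ← hNdef]; field_simp
    rw [this, hE, Real.log_exp, mul_div_cancel₀ _ hc.ne', max_eq_right (by linarith [hP.lamge]),
      min_self]
  have hLL : ∀ i, LL T s Q i A₀ ≤ 88 / 100 * κ := by
    intro i
    have hTi : 0 < T i A₀ := lt_of_lt_of_le hN0 (hS.Tcard i A₀ subset_rfl)
    have hs : 0 < s A₀ := lt_of_lt_of_le hN0 (hS.scard A₀ subset_rfl)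
    have hQ := hS.Qpos
    have h1 := Real.log_le_log (by positivity) (hT i)
    rw [Real.log_mul (by positivity) hs.ne', Real.log_mul (by positivity) (by positivity),
      Real.log_mul (by positivity) hQ.ne', Real.log_pow, Real.log_pow, Real.log_exp] at h1
    unfold LL
    push_cast at h1
    linarith
  rw [hpsi, Phi_eq, Fin.sum_univ_three] at hmain
  linarith [hLL 0, hLL 1, hLL 2, hP.lamgt]

end
end Crest.Agent.R51
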