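import Crest.Agent.R51.BStep
import Crest.Agent.R51.BInd

set_option autoImplicit false
open Classical Finset

namespace Crest.Agent.R51
noncomputable section

namespace CB

/-- `log^7` is eventually small -/
theorem exists_J (a K : ℝ) (ha : 1 ≤ a) (hK : 0 < K) : ∃ J₁ : ℝ, ∀ J : ℝ, J₁ ≤ J →
    1 ≤ J ∧ 1 ≤ Real.log (a * J ^ 3) ∧ K * Real.log (a * J ^ 3) ^ 7 ≤ J := by
  have h1 := (Real.isLittleO_pow_log_id_atTop (n := 7)).bound
    (show 0 < 1 / (K * 4 ^ 7) by positivity)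
  have h2 := Real.tendsto_log_atTop.eventually_ge_atTop 1
  obtain ⟨J₁, hJ₁⟩ := Filter.eventually_atTop.1 (h1.and (h2.and (Filter.eventually_ge_atTop a)))
  refine ⟨J₁, fun J hJ => ?_⟩
  obtain ⟨b1, b2, b3⟩ := hJ₁ J hJ
  have hJ1 : 1 ≤ J := ha.trans b3
  have hJ0 : 0 < J := by linarith
  have e : Real.log (a * J ^ 3) = Real.log a + 3 * Real.log J := by
    rw [Real.log_mul (by positivity) (by positivity), Real.log_pow]
    norm_num
  have l1 : 0 ≤ Real.log a := Real.log_nonneg ha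
  have l2 : Real.log a ≤ Real.log J := Real.log_le_log (by linarith) b3
  refine ⟨hJ1, by rw [e]; linarith, ?_⟩
  rw [Real.norm_of_nonneg (by positivity), id, Real.norm_of_nonneg hJ0.le] at b1
  have l3 : Real.log (a * J ^ 3) ^ 7 ≤ (4 * Real.log J) ^ 7 :=
    pow_le_pow_left₀ (by rw [e]; linarith) (by rw [e]; linarith) 7
  calc K * Real.log (a * J ^ 3) ^ 7 ≤ K * (4 * Real.log J) ^ 7 :=
        mul_le_mul_of_nonneg_left l3 hK.le
    _ = K * 4 ^ 7 * Real.log J ^ 7 := by ring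
    _ ≤ K * 4 ^ 7 * (1 / (K * 4 ^ 7) * J) := mul_le_mul_of_nonneg_left b1 (by positivity)
    _ = J := by field_simp

variable {α ι : Type} {A₀ : Finset α} {X Y : α → ℝ} {Ta Tc s : Finset α → ℝ} {𝓜 : Finset ι}
  {Tm : ι → Finset α → ℝ} {rich : ι → Finset α} {lw up : ι → ℝ} {μ H Q Qm D B : ℝ}

theorem s_le_GB (A : Finset α) : s A ≤ GB Ta Tc s Q A :=
  le_add_of_nonneg_left (Real.sqrt_nonneg _)

theorem GB_nonneg (hS : SysB A₀ X Y Ta Tc s 𝓜 Tm rich lw up μ H Q Qm D B) {A : Finset α}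
    (hA : A ⊆ A₀) : 0 ≤ GB Ta Tc s Q A :=
  le_trans (le_trans (Nat.cast_nonneg _) (hS.scard A hA)) (s_le_GB A)

theorem GB_top (hS : SysB A₀ X Y Ta Tc s 𝓜 Tm rich lw up μ H Q Qm D B) {C : ℝ} (hC : 1 ≤ C)
    (h1 : B ≤ C * A₀.card) (h2 : (A₀.card : ℝ) ≤ C * Q) :
    GB Ta Tc s Q A₀ ≤ 2 * C ^ 2 * A₀.card := by
  have hN : (0 : ℝ) ≤ A₀.card := Nat.cast_nonneg _
  have ha := hS.Tacard A₀ le_rfl
  have hc := hS.Tccard A₀ le_rfl
  have hs := hS.scard A₀ le_rfl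
  have ha' := hS.Tale.trans h1
  have hc' := hS.Tcle.trans h1
  have hs' := hS.sle.trans h1
  have hW : WB Ta Tc s Q A₀ ≤ C ^ 2 * A₀.card := by
    unfold WB
    rw [Real.sqrt_le_left (by positivity), div_le_iff₀ hS.Qpos]
    calc Ta A₀ * Tc A₀ * s A₀ ≤ (C * A₀.card) * (C * A₀.card) * (C * A₀.card) :=
          mul_le_mul (mul_le_mul ha' hc' (hN.trans hc) (by positivity)) hs' (hN.trans hs)
            (by positivity)
      _ = C ^ 3 * (A₀.card : ℝ) ^ 2 * A₀.card := by ring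
      _ ≤ C ^ 3 * (A₀.card : ℝ) ^ 2 * (C * Q) := mul_le_mul_of_nonneg_left h2 (by positivity)
      _ = _ := by ring
  have h3 : C * A₀.card ≤ C ^ 2 * A₀.card := mul_le_mul_of_nonneg_right (by nlinarith) hN
  unfold GB
  linarith

theorem leaf (hS : SysB A₀ X Y Ta Tc s 𝓜 Tm rich lw up μ H Q Qm D B) {Λ σ Γ : ℝ} (hΛ : 0 < Λ)
    (hσ : 0 < σ) (hΓ : 0 < Γ) (hD : Γ ≤ D) (hQm : Γ ^ 2 * Λ * σ ≤ Qm) {A : Finset α}
    (hA : A ⊆ A₀) (h1 : (A.card : ℝ) ≤ σ) (h2 : GB Ta Tc s Q A ≤ Λ * A.card) {m : ι}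
    (hm : m ∈ 𝓜) : Γ * (A ∩ rich m).card - Γ * Λ * σ / D ≤ Tm m (A ∩ rich m) := by
  have hA' : A ∩ rich m ⊆ A₀ := inter_subset_left.trans hA
  have hD0 : 0 < D := hΓ.trans_le hD
  have hj : 0 ≤ Γ * Λ * σ / D := by positivity
  have hT := hS.Tmnn m hm _ hA'
  have hx : (0 : ℝ) ≤ (A ∩ rich m).card := Nat.cast_nonneg _
  have hs : s (A ∩ rich m) ≤ Λ * σ :=
    (hS.smono _ _ inter_subset_left hA).trans
      ((s_le_GB A).trans (h2.trans (mul_le_mul_of_nonneg_left h1 hΛ.le)))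
  rcases hS.floorm m hm _ hA' inter_subset_right with h | h | h
  · have := mul_le_mul_of_nonneg_right hD hx
    linarith
  · have h3 : Γ * (A ∩ rich m).card ≤ Γ * Λ * σ / D := by
      rw [le_div_iff₀ hD0]
      have := mul_le_mul_of_nonneg_left (h.trans hs) hΓ.le
      linarith
    linarith
  · have h3 : (Γ * (A ∩ rich m).card) ^ 2 * (Λ * σ) ≤ (Tm m (A ∩ rich m)) ^ 2 * (Λ * σ) := by
      calc (Γ * (A ∩ rich m).card) ^ 2 * (Λ * σ)
          = (Γ ^ 2 * Λ * σ) * ((A ∩ rich m).card : ℝ) ^ 2 := by ring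
        _ ≤ Qm * ((A ∩ rich m).card : ℝ) ^ 2 := mul_le_mul_of_nonneg_right hQm (by positivity)
        _ ≤ _ := h
        _ ≤ _ := mul_le_mul_of_nonneg_left hs (by positivity)
    have h4 := le_of_mul_le_mul_right h3 (by positivity)
    have h5 := le_of_pow_le_pow_left₀ (by norm_num) hT h4
    linarith

end CB

theorem coreB : CoreB := by
  intro C hC
  have hC0 : 0 < C := by linarith
  obtain ⟨Λ, hΛe⟩ : ∃ Λ : ℝ, Λ = 8 * C ^ 2 := ⟨_, rfl⟩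
  obtain ⟨Γ, hΓe⟩ : ∃ Γ : ℝ, Γ = 16 * C ^ 2 := ⟨_, rfl⟩
  have hC2 : 1 ≤ C ^ 2 := one_le_pow₀ hC
  have hΛ1 : 1 ≤ Λ := by linarith
  have hΓ1 : 1 ≤ Γ := by linarith
  have hΛ0 : 0 < Λ := by linarith
  have hΓ0 : 0 < Γ := by linarith
  obtain ⟨m₀, hme⟩ : ∃ m : ℝ, m = mB Λ := ⟨_, rfl⟩
  have hm0 : 0 < m₀ := by rw [hme, mB]; positivity
  have hm1 : m₀ ≤ 1 := by
    rw [hme, mB, div_le_one (by positivity)]
    have : 1 ≤ Λ ^ 7 := one_le_pow₀ hΛ1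
    linarith
  obtain ⟨a, hae⟩ : ∃ a : ℝ, a = 16 * C * Γ ^ 2 * Λ / m₀ := ⟨_, rfl⟩
  have hCΓΛ : 1 ≤ C * Γ ^ 2 * Λ :=
    one_le_mul_of_one_le_of_one_le (one_le_mul_of_one_le_of_one_le hC (one_le_pow₀ hΓ1)) hΛ1
  have ha1 : 1 ≤ a := by
    rw [hae, le_div_iff₀ hm0]
    linarith
  obtain ⟨J₁, HJ⟩ := CB.exists_J a (2 * C * ((512 * Λ ^ 4 * 32 ^ 3 / m₀ ^ 3) ^ 2 * (8 / m₀))) ha1
    (by positivity)
  refine ⟨J₁, fun J hJ => ?_⟩
  obtain ⟨hJ1, hH1, hH7⟩ := HJ J hJ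
  have hJ0 : 0 < J := by linarith
  obtain ⟨Hh, hHe⟩ : ∃ Hh : ℝ, Hh = Real.log (a * J ^ 3) := ⟨_, rfl⟩
  rw [← hHe] at hH1 hH7
  have hH0 : 0 < Hh := by linarith
  obtain ⟨μ₀, hμ₀, D₁, hD₁, Hstep⟩ := stepB Λ (1 / (4 * Hh) * m₀ / 8) hΛ1 (by positivity) (by
    rw [← hme]
    have : 1 / (4 * Hh) ≤ 1 / 2 := one_div_le_one_div_of_le (by norm_num) (by linarith)
    nlinarith)
  obtain ⟨E, hEe⟩ : ∃ E : ℝ, E = C * J ^ 3 * Γ ^ 2 * Λ := ⟨_, rfl⟩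
  have hE0 : 0 < E := by rw [hEe]; positivity
  refine ⟨μ₀, hμ₀, Γ + E + D₁ * C * E + 16 * J ^ 3 * Γ * Λ / m₀, ?_⟩
  intro α ι A₀ X Y Ta Tc s 𝓜 Tm rich lw up μ H Q Qm D B hS hμ hB hQ hQm hr hM hsum hD hN
  have p1 : 0 < D₁ * C * E := by positivity
  have p2 : 0 < 16 * J ^ 3 * Γ * Λ / m₀ := by positivity
  have hDΓ : Γ ≤ D := by linarith
  have hD0 : 0 < D := by linarith
  have hD2 : D₁ * C * E ≤ D := by linarith
  have hD3 : 16 * J ^ 3 * Γ * Λ / m₀ ≤ D := by linarith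
  have hNE : E ≤ A₀.card := by linarith
  have hN0 : (0 : ℝ) < A₀.card := by linarith
  obtain ⟨σ, hσe⟩ : ∃ σ : ℝ, σ = A₀.card / E := ⟨_, rfl⟩
  have hσ1 : 1 ≤ σ := by rw [hσe, le_div_iff₀ hE0]; linarith
  have hσ0 : 0 < σ := by linarith
  have hσE : σ * E = A₀.card := by rw [hσe]; field_simp
  have hrat : (A₀.card : ℝ) / (m₀ * σ / 16) = a * J ^ 3 := by
    rw [← hσE, hae, hEe]
    field_simp
  have key := indB A₀ (GB Ta Tc s Q) 𝓜 Tm rich Λ m₀ (1 / (4 * Hh) * m₀ / 8)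
    ((512 * Λ ^ 4 / (1 / (4 * Hh) * m₀ / 8) ^ 3) ^ 2) (1 / (4 * Hh)) σ Γ (Γ * Λ * σ / D)
    (J / (2 * C)) hΛ0 hm0 hm1 (by positivity) le_rfl (by positivity) hσ0 hΓ0.le (by positivity)
    (by positivity) (fun A hA => CB.GB_nonneg hS hA) hS.Tmnn hS.Tmmono
    (fun A hA h1 h2 => by
      rw [hme]
      rw [hme] at Hstep
      refine Hstep α ι A₀ X Y Ta Tc s 𝓜 Tm rich lw up μ H Q Qm D B hS hμ A hA ?_ ?_ h2
      · have : (1 : ℝ) < A.card := lt_of_le_of_lt hσ1 h1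
        exact_mod_cast this
      · calc D₁ * B ≤ D₁ * (C * A₀.card) := mul_le_mul_of_nonneg_left hB (by linarith)
          _ = D₁ * C * E * σ := by rw [← hσE]; ring
          _ ≤ D * σ := mul_le_mul_of_nonneg_right hD2 hσ0.le
          _ ≤ D * A.card := mul_le_mul_of_nonneg_left h1.le hD0.le)
    (fun A hA h1 h2 m hm => CB.leaf hS hΛ0 hσ0 hΓ0 hDΓ (by
      have h3 : (C * J ^ 3) * (Γ ^ 2 * Λ * σ) ≤ (C * J ^ 3) * Qm := by
        calc (C * J ^ 3) * (Γ ^ 2 * Λ * σ) = σ * E := by rw [hEe]; ring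
          _ ≤ _ := hσE ▸ hQm
      exact le_of_mul_le_mul_left h3 (by positivity)) hA h1 h2 hm)
    A₀ le_rfl (by
      have h1 : 1 ≤ a * J ^ 3 := one_le_mul_of_one_le_of_one_le ha1 (one_le_pow₀ hJ1)
      rw [← hrat, le_div_iff₀ (by positivity)] at h1
      linarith)
    𝓜 le_rfl (J / C) (fun p hp => by
      rw [div_le_iff₀ hC0]
      linarith [hr p hp])
    (by
      rw [hrat, ← hHe]
      have h1 : (512 * Λ ^ 4 / (1 / (4 * Hh) * m₀ / 8) ^ 3) ^ 2 * (8 / m₀) * Hh =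
          (2 * C * ((512 * Λ ^ 4 * 32 ^ 3 / m₀ ^ 3) ^ 2 * (8 / m₀)) * Hh ^ 7) / (2 * C) := by
        field_simp
        ring
      have h2 : J / C = J / (2 * C) + J / (2 * C) := by field_simp; ring
      have h3 := div_le_div_of_nonneg_right hH7 (show 0 ≤ 2 * C by positivity)
      rw [h1, h2]
      linarith)
  rw [hrat, ← hHe] at key
  have t1 : GB Ta Tc s Q A₀ / Λ ≤ A₀.card / 4 := by
    rw [div_le_iff₀ hΛ0, hΛe]
    have := CB.GB_top hS hC hB hQ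
    linarith
  have t2 : 1 / (4 * Hh) * A₀.card * Hh = A₀.card / 4 := by field_simp
  have t3 : Γ * (J / (2 * C)) = 8 * C * J := by rw [hΓe]; field_simp; ring
  have t4 : 𝓜.card * (Γ * Λ * σ / D) * (a * J ^ 3) ≤ C * J * A₀.card := by
    calc 𝓜.card * (Γ * Λ * σ / D) * (a * J ^ 3) ≤ C * J ^ 4 * (Γ * Λ * σ / D) * (a * J ^ 3) := by
          gcongr
      _ = C * J * (σ * E) * (16 * J ^ 3 * Γ * Λ / m₀ / D) := by
          rw [hae, hEe]
          field_simp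
      _ ≤ C * J * (σ * E) * 1 :=
          mul_le_mul_of_nonneg_left ((div_le_one hD0).2 hD3) (by positivity)
      _ = _ := by rw [hσE, mul_one]
  rw [t2, t3] at key
  have t5 : 8 * C * J * (A₀.card / 2) ≤
      8 * C * J * (A₀.card - GB Ta Tc s Q A₀ / Λ - A₀.card / 4) :=
    mul_le_mul_of_nonneg_left (by linarith) (by positivity)
  have t6 : 0 < C * J * A₀.card := by positivity
  linarith

end
end Crest.Agent.R51
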