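import Mathlib

/-! Row 51 (k-sets): definitions. -/

set_option autoImplicit false
open Classical Finset

namespace Crest.Agent.R51
noncomputable section

abbrev Pt := ℝ × ℝ

/-- the linear form `y - t x` -/
def ph (t : ℝ) (p : Pt) : ℝ := p.2 - t * p.1

/-- no three collinear -/
def GP (P : Finset Pt) : Prop :=
  ∀ p ∈ P, ∀ q ∈ P, ∀ r ∈ P, p ≠ q → p ≠ r → q ≠ r →
    (q.1 - p.1) * (r.2 - p.2) - (q.2 - p.2) * (r.1 - p.1) ≠ 0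

/-- distinct abscissae -/
def XInj (P : Finset Pt) : Prop := ∀ p ∈ P, ∀ q ∈ P, p.1 = q.1 → p = q

/-- `S` is cut from `P` by a line of slope `t` (it lies strictly below the rest) -/
def IsCut (P : Finset Pt) (t : ℝ) (S : Finset Pt) : Prop :=
  ∀ p ∈ S, ∀ q ∈ P, q ∉ S → ph t p < ph t q

/-- a chain of lower sets of equal size at increasing slopes -/
structure Chain (P : Finset Pt) (τ : ℕ → ℝ) (S : ℕ → Finset Pt) (G : ℕ) : Prop where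
  mono : ∀ i j, i < j → j ≤ G → τ i < τ j
  sub : ∀ i, i ≤ G → S i ⊆ P
  cut : ∀ i, i ≤ G → IsCut P (τ i) (S i)
  card : ∀ i, i ≤ G → (S i).card = (S 0).card

/-- leaving points -/
def U (S : ℕ → Finset Pt) (i : ℕ) : Finset Pt := S i \ S (i + 1)
/-- entering points -/
def V (S : ℕ → Finset Pt) (i : ℕ) : Finset Pt := S (i + 1) \ S i
/-- active points of the steps `a ≤ i < b` -/
def act (S : ℕ → Finset Pt) (a b : ℕ) : Finset Pt :=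
  (Finset.Ico a b).biUnion (fun i => U S i ∪ V S i)
/-- number of steps `a ≤ i < b` at which `p` leaves -/
def deg (S : ℕ → Finset Pt) (a b : ℕ) (p : Pt) : ℕ :=
  ((Finset.Ico a b).filter (fun i => p ∈ U S i)).card
/-- `q - p` points to the right with slope in `[s,t]` (or vanishes), when `s < t` -/
def Cone (s t : ℝ) (p q : Pt) : Prop := ph s p ≤ ph s q ∧ ph t q ≤ ph t p

/-- the sets of a chain -/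
def sets (S : ℕ → Finset Pt) (G : ℕ) : Finset (Finset Pt) := (Finset.range (G + 1)).image S

/-! ### crossings -/

def hgt (e : Pt × Pt) (x : ℝ) : ℝ :=
  e.1.2 + (x - e.1.1) * ((e.2.2 - e.1.2) / (e.2.1 - e.1.1))
def Cross (e e' : Pt × Pt) : Prop :=
  e ≠ e' ∧ ∃ x : ℝ, e.1.1 < x ∧ x < e.2.1 ∧ e'.1.1 < x ∧ x < e'.2.1 ∧ hgt e x = hgt e' x
/-- number of ordered crossing pairs -/
def cr (E : Finset (Pt × Pt)) : ℕ := ((E ×ˢ E).filter (fun z => Cross z.1 z.2)).card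

/-! ### matchings and particles -/

structure Mt (S : ℕ → Finset Pt) (a b Q : ℕ) (mt : ℕ → ℕ → Pt → Pt) : Prop where
  invol : ∀ w i p, mt w i (mt w i p) = p
  toV : ∀ w i, a ≤ i → i < b → ∀ p ∈ U S i, mt w i p ∈ V S i
  toU : ∀ w i, a ≤ i → i < b → ∀ p ∈ V S i, mt w i p ∈ U S i
  fix : ∀ w i p, p ∉ U S i → p ∉ V S i → mt w i p = p
  col : ∀ w, w < Q → ∀ w', w' < Q → ∀ i, a ≤ i → i < b → ∀ p ∈ U S i,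
    mt w i p = mt w' i p → w = w'

/-- position after `j` steps of the particle of colour `w` starting at `x` at time `a` -/
def pos (mt : ℕ → ℕ → Pt → Pt) (w a : ℕ) : ℕ → Pt → Pt
  | 0, x => x
  | j + 1, x => mt w (a + j) (pos mt w a j x)

def Tw (P : Finset Pt) (mt : ℕ → ℕ → Pt → Pt) (a b w : ℕ) (A : Finset Pt) : ℕ :=
  (P.filter (fun x => ∃ j, a + j ≤ b ∧ pos mt w a j x ∈ A)).card

def edges (S : ℕ → Finset Pt) (mt : ℕ → ℕ → Pt → Pt) (a b Q : ℕ) (A Z : Finset Pt) :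
    Finset (Pt × Pt) :=
  (Finset.range Q ×ˢ Finset.Ico a b).biUnion (fun wi =>
    ((U S wi.2 ∩ A).filter (fun u => mt wi.1 wi.2 u ∈ Z)).image (fun u => (u, mt wi.1 wi.2 u)))

/-- window functional -/
structure WF (P : Finset Pt) (τ : ℕ → ℝ) (S : ℕ → Finset Pt) (a b Q : ℕ)
    (T : Finset Pt → ℝ) : Prop where
  mono : ∀ A B, A ⊆ B → T A ≤ T B
  nonneg : ∀ A, 0 ≤ T A
  card_le : ∀ A, A ⊆ P → (A.card : ℝ) ≤ T A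
  le_act : ∀ A, A ⊆ act S a b → T A ≤ (act S a b).card
  add : ∀ (ι : Type) (F : Finset ι) (A : ι → Finset Pt),
    (∀ i ∈ F, ∀ j ∈ F, i ≠ j → ∀ p ∈ A i, ∀ q ∈ A j, ¬ Cone (τ a) (τ b) p q) →
    ∑ i ∈ F, T (A i) ≤ T (F.biUnion A)
  fl : ∀ A Z : Finset Pt, A ⊆ Z → Z ⊆ P →
    (∀ p ∈ A, ∀ q ∈ A, ∀ v ∈ act S a b, Cone (τ a) (τ b) p v → Cone (τ a) (τ b) v q → v ∈ Z) →
    (∑ p ∈ A, (deg S a b p : ℝ)) ≤ 2 * T A ∨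
    (Q : ℝ) * (∑ p ∈ A, (deg S a b p : ℝ)) ≤ 24 * Z.card ∨
    (Q : ℝ) * (∑ p ∈ A, (deg S a b p : ℝ)) ^ 3 ≤ 4608 * A.card * Z.card * (T A) ^ 2

/-! ### cut sets and windows -/

structure Cuts (G : ℕ) (C : Finset ℕ) : Prop where
  zero : 0 ∈ C
  top : G ∈ C
  le : ∀ c ∈ C, c ≤ G

def IsWin (C : Finset ℕ) (a b : ℕ) : Prop :=
  a ∈ C ∧ b ∈ C ∧ a < b ∧ ∀ c ∈ C, c ≤ a ∨ b ≤ c

def wins (C : Finset ℕ) : Finset (ℕ × ℕ) := (C ×ˢ C).filter (fun w => IsWin C w.1 w.2)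

/-- largest cut `≤ i` -/
def lo (C : Finset ℕ) (i : ℕ) : ℕ := (C.filter (fun c => c ≤ i)).sup id
/-- smallest cut `> i` -/
def hi (C : Finset ℕ) (i : ℕ) : ℕ := sInf {c | c ∈ C ∧ i < c}
/-- the window containing step `i` -/
def winOf (C : Finset ℕ) (i : ℕ) : ℕ × ℕ := (lo C i, hi C i)

/-- leaving events -/
def events (P : Finset Pt) (S : ℕ → Finset Pt) (G : ℕ) : Finset (Pt × ℕ) :=
  (P ×ˢ Finset.range G).filter (fun e => e.1 ∈ U S e.2)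
/-- degree of the point of an event in the window of the event -/
def dW (S : ℕ → Finset Pt) (C : Finset ℕ) (e : Pt × ℕ) : ℕ := deg S (lo C e.2) (hi C e.2) e.1
/-- windows in which `p` is active -/
def actW (S : ℕ → Finset Pt) (C : Finset ℕ) (p : Pt) : Finset (ℕ × ℕ) :=
  (wins C).filter (fun w => p ∈ act S w.1 w.2)

/-- windows at scale `J`: at most `2^45 J^4` cuts, at most `16 n / J^3` active points -/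
structure Scale (P : Finset Pt) (S : ℕ → Finset Pt) (G : ℕ) (C : Finset ℕ) (J : ℝ) : Prop where
  cuts : Cuts G C
  card : (C.card : ℝ) ≤ 2 ^ 45 * J ^ 4
  act_le : ∀ w ∈ wins C, ((act S w.1 w.2).card : ℝ) * J ^ 3 ≤ 16 * P.card

/-- the main qualitative statement -/
def MainSt : Prop :=
  ∀ ε : ℝ, 0 < ε → ∃ A₀ : ℝ, ∀ (P : Finset Pt) (τ : ℕ → ℝ) (S : ℕ → Finset Pt) (G Q : ℕ),
    GP P → XInj P → Chain P τ S G → 1 ≤ Q →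
    (∀ i, i < G → Q ≤ (U S i).card ∧ (U S i).card ≤ 2 * Q) → A₀ * Q ≤ P.card →
    (G : ℝ) ^ 3 * (Q : ℝ) ^ 4 ≤ ε * (P.card : ℝ) ^ 4

/-- power saving for chains with unit steps -/
def PowSt (ε₀ C₀ : ℝ) : Prop :=
  ∀ (P : Finset Pt) (τ : ℕ → ℝ) (S : ℕ → Finset Pt) (G : ℕ),
    GP P → XInj P → Chain P τ S G → (∀ i, i < G → (U S i).card ≤ 1) →
    ((sets S G).card : ℝ) ≤ C₀ * ((P.card : ℝ) + 1) ^ ((4 : ℝ) / 3 - ε₀)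

/-- the lower `k`-sets -/
def lowerSets (P : Finset Pt) (k : ℕ) : Finset (Finset Pt) :=
  (P.powersetCard k).filter (fun S => ∃ t, IsCut P t S)

/-- a basic chain: steps of size at least `Q`, `Δ^3 = n / Q` -/
structure Base (P : Finset Pt) (τ : ℕ → ℝ) (S : ℕ → Finset Pt) (G Q : ℕ) (Δ : ℝ) : Prop where
  gp : GP P
  xinj : XInj P
  chain : Chain P τ S G
  Qpos : 1 ≤ Q
  step : ∀ i, i < G → Q ≤ (U S i).card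
  Dpos : 0 < Δ
  Deq : Δ ^ 3 * Q = P.card

/-- a hypothetical counterexample to `MainSt` with its nested window systems -/
structure Setup (P : Finset Pt) (τ : ℕ → ℝ) (S : ℕ → Finset Pt) (G Q : ℕ) (Δ : ℝ)
    (𝒞 : ℕ → Finset ℕ) (ε₁ : ℝ) : Prop extends Base P τ S G Q Δ where
  many : ε₁ * P.card * Δ ≤ (events P S G).card
  nest : ∀ s s', s ≤ s' → 𝒞 s ⊆ 𝒞 s'
  zero : 𝒞 0 = {0, G}
  scale : ∀ s : ℕ, 2 * (1024 : ℝ) ^ s ≤ Δ → Scale P S G (𝒞 s) (1024 ^ s)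

/-- the projective parameter of a slope -/
def Rr (em ep t : ℝ) : ℝ := (t - em) / (ep - t)

/-- step `i` lies in an inner block of `C₀` and in a window of `C` which is wide relative to the
far ends of the neighbouring blocks -/
def Wide (τ : ℕ → ℝ) (G : ℕ) (C₀ C : Finset ℕ) (M : ℝ) (i : ℕ) : Prop :=
  0 < lo C₀ i ∧ hi C₀ i < G ∧
    (1 + M) * Rr (τ (lo C₀ (lo C₀ i - 1))) (τ (hi C₀ (hi C₀ i))) (τ (lo C i)) <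
      Rr (τ (lo C₀ (lo C₀ i - 1))) (τ (hi C₀ (hi C₀ i))) (τ (hi C i))

/-- three mutually narrow windows -/
structure Far3 (τ : ℕ → ℝ) (w : Fin 3 → ℕ × ℕ) (M : ℝ) : Prop where
  lt01 : τ (w 0).2 < τ (w 1).1
  lt12 : τ (w 1).2 < τ (w 2).1
  n0 : τ (w 0).2 - τ (w 0).1 ≤ M * (τ (w 1).1 - τ (w 0).2)
  n1 : (τ (w 1).2 - τ (w 1).1) / (τ (w 1).1 - τ (w 0).1) +
    (τ (w 1).2 - τ (w 1).1) / (τ (w 2).1 - τ (w 1).2) ≤ M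
  n2 : τ (w 2).2 - τ (w 2).1 ≤ M * (τ (w 2).1 - τ (w 1).1)

/-- a set of windows with lacunary slopes -/
structure Lac (τ : ℕ → ℝ) (a b : ℕ) (em ep μ : ℝ) (𝓜 : Finset (ℕ × ℕ)) : Prop where
  em_lt : em < τ a
  lt_ep : τ b < ep
  inside : ∀ m ∈ 𝓜, a ≤ m.1 ∧ m.2 ≤ b
  long : ∀ m ∈ 𝓜, Rr em ep (τ m.1) ≤ μ ^ 2 * Rr em ep (τ m.2)
  gap : ∀ m ∈ 𝓜, ∀ m' ∈ 𝓜, m.1 < m'.1 → Rr em ep (τ m.2) ≤ μ ^ 2 * Rr em ep (τ m'.1)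

/-! ### the two abstract geometric systems -/

def nrm {α : Type} (ℓ : Fin 3 → α → ℝ) (p q : α) : ℝ :=
  max (max |ℓ 0 p - ℓ 0 q| |ℓ 1 p - ℓ 1 q|) |ℓ 2 p - ℓ 2 q|

structure SysA {α : Type} (A₀ : Finset α) (ℓ : Fin 3 → α → ℝ) (T : Fin 3 → Finset α → ℝ)
    (s : Finset α → ℝ) (M Q D B : ℝ) : Prop where
  sum0 : ∀ p, ℓ 0 p + ℓ 1 p + ℓ 2 p = 0
  inj : ∀ p ∈ A₀, ∀ q ∈ A₀, nrm ℓ p q = 0 → p = q
  Mnn : 0 ≤ M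
  Qpos : 0 < Q
  QB : Q ≤ B
  Tmono : ∀ i A A', A ⊆ A' → A' ⊆ A₀ → T i A ≤ T i A'
  smono : ∀ A A', A ⊆ A' → A' ⊆ A₀ → s A ≤ s A'
  Tcard : ∀ i A, A ⊆ A₀ → (A.card : ℝ) ≤ T i A
  scard : ∀ A, A ⊆ A₀ → (A.card : ℝ) ≤ s A
  Tle : ∀ i, T i A₀ ≤ B
  sle : s A₀ ≤ B
  Tadd : ∀ (i : Fin 3) (ι : Type) (F : Finset ι) (A : ι → Finset α), (∀ k ∈ F, A k ⊆ A₀) →
    (∀ k ∈ F, ∀ k' ∈ F, k ≠ k' → ∀ p ∈ A k, ∀ q ∈ A k', M * nrm ℓ p q < |ℓ i p - ℓ i q|) →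
    ∑ k ∈ F, T i (A k) ≤ T i (F.biUnion A)
  sadd : ∀ (r : ℝ) (ι : Type) (F : Finset ι) (A : ι → Finset α), (∀ k ∈ F, A k ⊆ A₀) →
    (∀ p ∈ F.biUnion A, ∀ q ∈ F.biUnion A, nrm ℓ p q ≤ r) →
    (∀ k ∈ F, ∀ k' ∈ F, k ≠ k' → ∃ j,
      (∀ p ∈ A k, ∀ q ∈ A k', ℓ j p + 2 * M * r < ℓ j q) ∨
      (∀ p ∈ A k, ∀ q ∈ A k', ℓ j q + 2 * M * r < ℓ j p)) →
    ∑ k ∈ F, s (A k) ≤ s (F.biUnion A)
  floor : ∀ i A, A ⊆ A₀ → D * A.card ≤ T i A ∨ D * A.card ≤ s A ∨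
    Q * (A.card : ℝ) ^ 2 ≤ (T i A) ^ 2 * s A

structure SysB {α ι : Type} (A₀ : Finset α) (X Y : α → ℝ) (Ta Tc s : Finset α → ℝ)
    (𝓜 : Finset ι) (Tm : ι → Finset α → ℝ) (rich : ι → Finset α) (lw up : ι → ℝ)
    (μ H Q Qm D B : ℝ) : Prop where
  inj : ∀ p ∈ A₀, ∀ q ∈ A₀, X p = X q → Y p = Y q → p = q
  mupos : 0 < μ
  Hge : 1 ≤ μ * H
  Qpos : 0 < Q
  QB : Q ≤ B
  Qmpos : 0 < Qm
  lw_ge : ∀ m ∈ 𝓜, 1 ≤ μ * lw m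
  up_le : ∀ m ∈ 𝓜, up m ≤ H
  sep : ∀ m ∈ 𝓜, ∀ m' ∈ 𝓜, m ≠ m' → up m ≤ μ * lw m' ∨ up m' ≤ μ * lw m
  Tamono : ∀ A A', A ⊆ A' → A' ⊆ A₀ → Ta A ≤ Ta A'
  Tcmono : ∀ A A', A ⊆ A' → A' ⊆ A₀ → Tc A ≤ Tc A'
  smono : ∀ A A', A ⊆ A' → A' ⊆ A₀ → s A ≤ s A'
  Tmmono : ∀ m ∈ 𝓜, ∀ A A', A ⊆ A' → A' ⊆ A₀ → Tm m A ≤ Tm m A'
  Tacard : ∀ A, A ⊆ A₀ → (A.card : ℝ) ≤ Ta A
  Tccard : ∀ A, A ⊆ A₀ → (A.card : ℝ) ≤ Tc A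
  scard : ∀ A, A ⊆ A₀ → (A.card : ℝ) ≤ s A
  Tmnn : ∀ m ∈ 𝓜, ∀ A, A ⊆ A₀ → 0 ≤ Tm m A
  Tale : Ta A₀ ≤ B
  Tcle : Tc A₀ ≤ B
  sle : s A₀ ≤ B
  Taadd : ∀ (κ : Type) (F : Finset κ) (A : κ → Finset α), (∀ k ∈ F, A k ⊆ A₀) →
    (∀ k ∈ F, ∀ k' ∈ F, k ≠ k' → ∀ p ∈ A k, ∀ q ∈ A k', μ * |X p - X q| < |Y p - Y q|) →
    ∑ k ∈ F, Ta (A k) ≤ Ta (F.biUnion A)
  Tcadd : ∀ (κ : Type) (F : Finset κ) (A : κ → Finset α), (∀ k ∈ F, A k ⊆ A₀) →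
    (∀ k ∈ F, ∀ k' ∈ F, k ≠ k' → ∀ p ∈ A k, ∀ q ∈ A k', μ ^ 2 * |Y p - Y q| < H * |X p - X q|) →
    ∑ k ∈ F, Tc (A k) ≤ Tc (F.biUnion A)
  Tmadd : ∀ m ∈ 𝓜, ∀ A A' : Finset α, A ⊆ A₀ → A' ⊆ A₀ →
    (∀ p ∈ A, ∀ q ∈ A', ¬ (lw m * |X p - X q| ≤ |Y p - Y q| ∧ |Y p - Y q| ≤ up m * |X p - X q|)) →
    Tm m A + Tm m A' ≤ Tm m (A ∪ A')
  sadd : ∀ (κ : Type) (F : Finset κ) (A : κ → Finset α), (∀ k ∈ F, A k ⊆ A₀) →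
    (∀ k ∈ F, ∀ k' ∈ F, k ≠ k' →
      (∀ p ∈ A k, ∀ q ∈ A k', X p < X q) ∨ (∀ p ∈ A k, ∀ q ∈ A k', X q < X p) ∨
      (∀ p ∈ A k, ∀ q ∈ A k', Y p < Y q) ∨ (∀ p ∈ A k, ∀ q ∈ A k', Y q < Y p)) →
    ∑ k ∈ F, s (A k) ≤ s (F.biUnion A)
  floora : ∀ A, A ⊆ A₀ → D * A.card ≤ Ta A ∨ D * A.card ≤ s A ∨
    Q * (A.card : ℝ) ^ 2 ≤ (Ta A) ^ 2 * s A
  floorc : ∀ A, A ⊆ A₀ → D * A.card ≤ Tc A ∨ D * A.card ≤ s A ∨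
    Q * (A.card : ℝ) ^ 2 ≤ (Tc A) ^ 2 * s A
  floorm : ∀ m ∈ 𝓜, ∀ A, A ⊆ A₀ → A ⊆ rich m → D * A.card ≤ Tm m A ∨ D * A.card ≤ s A ∨
    Qm * (A.card : ℝ) ^ 2 ≤ (Tm m A) ^ 2 * s A

def CoreA : Prop :=
  ∃ κ₀ : ℝ, ∀ κ : ℝ, κ₀ ≤ κ → ∃ D₀ : ℝ, ∀ (α : Type) (A₀ : Finset α) (ℓ : Fin 3 → α → ℝ)
    (T : Fin 3 → Finset α → ℝ) (s : Finset α → ℝ) (M Q D B : ℝ), SysA A₀ ℓ T s M Q D B →
    M ≤ Real.exp (-κ) →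
    (∀ i, (T i A₀) ^ 2 * s A₀ ≤ Real.exp (88 / 100 * κ) * Q * (A₀.card : ℝ) ^ 2) →
    D₀ * B ≤ D * A₀.card → D₀ ≤ A₀.card → False

def CoreB : Prop :=
  ∀ C : ℝ, 1 ≤ C → ∃ J₁ : ℝ, ∀ J : ℝ, J₁ ≤ J → ∃ μ₀ : ℝ, 0 < μ₀ ∧ ∃ D₀ : ℝ,
    ∀ (α ι : Type) (A₀ : Finset α) (X Y : α → ℝ) (Ta Tc s : Finset α → ℝ)
      (𝓜 : Finset ι) (Tm : ι → Finset α → ℝ) (rich : ι → Finset α) (lw up : ι → ℝ)
      (μ H Q Qm D B : ℝ), SysB A₀ X Y Ta Tc s 𝓜 Tm rich lw up μ H Q Qm D B →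
    μ ≤ μ₀ → B ≤ C * A₀.card → (A₀.card : ℝ) ≤ C * Q → (A₀.card : ℝ) ≤ C * J ^ 3 * Qm →
    (∀ p ∈ A₀, J ≤ C * (𝓜.filter (fun m => p ∈ rich m)).card) →
    (𝓜.card : ℝ) ≤ C * J ^ 4 →
    (∑ m ∈ 𝓜, Tm m (A₀ ∩ rich m)) ≤ C * J * A₀.card →
    D₀ ≤ D → D₀ ≤ A₀.card → False

end
end Crest.Agent.R51
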