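import Crest.Agent.R51.WFun

set_option autoImplicit false
open Classical Finset

namespace Crest.Agent.R51
noncomputable section

variable {P : Finset Pt} {τ : ℕ → ℝ} {S : ℕ → Finset Pt} {G a b Q : ℕ}

/-- Dey's bound for a window -/
theorem dey (hgp : GP P) (hx : XInj P) (h : Chain P τ S G) (hab : a ≤ b) (hb : b ≤ G)
    (hQ1 : 1 ≤ Q) (hQ : ∀ i, a ≤ i → i < b → Q ≤ (U S i).card) (L : ℝ)
    (hL : ((act S a b).card : ℝ) ≤ L) (hQL : (Q : ℝ) ≤ L) :
    (∑ i ∈ Finset.Ico a b, ((U S i).card : ℝ)) ^ 3 * Q ≤ 14000 * L ^ 4 := by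
  obtain ⟨T, hT⟩ := exists_WF hgp hx h hab hb hQ1 hQ
  have hsum : (∑ p ∈ act S a b, (deg S a b p : ℝ)) =
      ∑ i ∈ Finset.Ico a b, ((U S i).card : ℝ) := by
    exact_mod_cast sum_deg h hb (Finset.Subset.refl (act S a b))
  have hfl := hT.fl (act S a b) (act S a b) (Finset.Subset.refl _) (act_sub h hb)
    (fun _ _ _ _ v hv _ _ => hv)
  rw [hsum] at hfl
  set x := ∑ i ∈ Finset.Ico a b, ((U S i).card : ℝ) with hxdef
  have hx0 : 0 ≤ x := Finset.sum_nonneg fun i _ => Nat.cast_nonneg _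
  clear_value x
  have hQ' : (1 : ℝ) ≤ Q := by exact_mod_cast hQ1
  have hL1 : 1 ≤ L := hQ'.trans hQL
  have hL0 : 0 ≤ L := by linarith
  have hT0 := hT.nonneg (act S a b)
  have hTL : T (act S a b) ≤ L := (hT.le_act _ (Finset.Subset.refl _)).trans hL
  have hc0 : (0 : ℝ) ≤ (act S a b).card := Nat.cast_nonneg _
  have hL4 : 0 ≤ L ^ 4 := by positivity
  rcases hfl with h1 | h1 | h1
  · have h2 : x ≤ 2 * L := by linarith
    calc x ^ 3 * Q ≤ (2 * L) ^ 3 * L := by gcongr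
      _ = 8 * L ^ 4 := by ring
      _ ≤ 14000 * L ^ 4 := by linarith
  · have h2 : (Q : ℝ) * x ≤ 24 * L := by linarith
    have h3 : x ≤ 24 * L := by nlinarith
    calc x ^ 3 * Q = x ^ 2 * (Q * x) * 1 := by ring
      _ ≤ (24 * L) ^ 2 * (24 * L) * L := by gcongr
      _ = 13824 * L ^ 4 := by ring
      _ ≤ 14000 * L ^ 4 := by linarith
  · calc x ^ 3 * Q = Q * x ^ 3 := by ring
      _ ≤ 4608 * (act S a b).card * (act S a b).card * T (act S a b) ^ 2 := h1
      _ ≤ 4608 * L * L * L ^ 2 := by gcongr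
      _ = 4608 * L ^ 4 := by ring
      _ ≤ 14000 * L ^ 4 := by linarith

/-- events at points of high degree -/
theorem hd_win (hgp : GP P) (hx : XInj P) (h : Chain P τ S G) (hab : a ≤ b) (hb : b ≤ G)
    (hQ1 : 1 ≤ Q) (hQ : ∀ i, a ≤ i → i < b → Q ≤ (U S i).card) (L : ℝ)
    (hL : ((act S a b).card : ℝ) ≤ L) (d : ℝ) (hd : 0 < d) :
    (∑ p ∈ P.filter (fun p => d < deg S a b p), (deg S a b p : ℝ)) ≤ 24 * L ∨
    Q * d * (∑ p ∈ P.filter (fun p => d < deg S a b p), (deg S a b p : ℝ)) ^ 2 ≤ 4608 * L ^ 3 := by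
  obtain ⟨T, hT⟩ := exists_WF hgp hx h hab hb hQ1 hQ
  set H := P.filter (fun p => d < deg S a b p) with hH
  have hsub : H ⊆ act S a b := by
    intro p hp
    have h1 : d < deg S a b p := (Finset.mem_filter.1 hp).2
    refine mem_act_of_deg ?_
    have : (0 : ℝ) < deg S a b p := hd.trans h1
    exact_mod_cast this
  have hfl := hT.fl H (act S a b) hsub (act_sub h hb) (fun _ _ _ _ v hv _ _ => hv)
  set x := ∑ p ∈ H, (deg S a b p : ℝ) with hxdef
  have hx0 : 0 ≤ x := Finset.sum_nonneg fun i _ => Nat.cast_nonneg _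
  have hQ' : (1 : ℝ) ≤ Q := by exact_mod_cast hQ1
  have hc0 : (0 : ℝ) ≤ (act S a b).card := Nat.cast_nonneg _
  have hL0 : 0 ≤ L := hc0.trans hL
  have hT0 := hT.nonneg H
  have hTL : T H ≤ L := (hT.le_act _ hsub).trans hL
  have hHd : (H.card : ℝ) * d ≤ x := by
    have := Finset.card_nsmul_le_sum H (fun p => (deg S a b p : ℝ)) d
      (fun p hp => (Finset.mem_filter.1 hp).2.le)
    simpa [nsmul_eq_mul] using this
  clear_value x
  rcases hfl with h1 | h1 | h1
  · left; linarith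
  · left; nlinarith
  · rcases hx0.eq_or_lt with h0 | h0
    · left; rw [← h0]; positivity
    · right
      have h2 : (Q : ℝ) * x ^ 3 ≤ 4608 * H.card * L * L ^ 2 :=
        h1.trans (by gcongr)
      have h3 : (Q * d * x ^ 2) * x ≤ (4608 * L ^ 3) * x := by
        calc (Q * d * x ^ 2) * x = (Q * x ^ 3) * d := by ring
          _ ≤ (4608 * H.card * L * L ^ 2) * d := by gcongr
          _ = 4608 * L ^ 3 * (H.card * d) := by ring
          _ ≤ 4608 * L ^ 3 * x := by gcongr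
      exact le_of_mul_le_mul_right h3 h0

end
end Crest.Agent.R51
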