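import Crest.Agent.R51.Dey

set_option autoImplicit false
open Classical Finset

namespace Crest.Agent.R51
noncomputable section

theorem ev_card_win {P : Finset Pt} {S : ℕ → Finset Pt} {G : ℕ} {C : Finset ℕ} (hC : Cuts G C)
    {w : ℕ × ℕ} (hw : w ∈ wins C) {p : Pt} (hp : p ∈ P) :
    ((events P S G).filter (fun e => e.1 = p ∧ winOf C e.2 = w)).card = deg S w.1 w.2 p := by
  refine Finset.card_nbij' (fun e => e.2) (fun i => (p, i)) (fun e he => ?_) (fun i hi' => ?_)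
    (fun e he => ?_) (fun i _ => rfl)
  · obtain ⟨h1, h2, h3⟩ := mem_filter.1 (mem_coe.1 he)
    obtain ⟨h4, h5⟩ := mem_filter.1 h1
    have h6 := mem_range.1 (mem_product.1 h4).2
    subst h3
    exact mem_coe.2 (mem_filter.2 ⟨mem_Ico.2 ⟨lo_le C _, lt_hi hC h6⟩, h2 ▸ h5⟩)
  · obtain ⟨h1, h2⟩ := mem_filter.1 (mem_coe.1 hi')
    obtain ⟨h3, h4⟩ := mem_Ico.1 h1
    exact mem_coe.2 (mem_filter.2 ⟨mem_filter.2 ⟨mem_product.2
      ⟨hp, mem_range.2 (h4.trans_le (win_le hC hw).2)⟩, h2⟩, rfl, winOf_eq hC hw h3 h4⟩)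
  · exact Prod.ext (mem_filter.1 (mem_coe.1 he)).2.1.symm rfl

theorem ev_decomp {P : Finset Pt} {S : ℕ → Finset Pt} {G : ℕ} {C : Finset ℕ} (hC : Cuts G C)
    (R : Pt → ℕ × ℕ → Prop) [∀ p w, Decidable (R p w)] :
    (((events P S G).filter (fun e => R e.1 (winOf C e.2))).card : ℝ) =
      ∑ w ∈ wins C, ∑ p ∈ P.filter (fun p => R p w), (deg S w.1 w.2 p : ℝ) := by
  rw [card_eq_sum_card_fiberwise (f := fun e => (winOf C e.2, e.1)) (t := wins C ×ˢ P)
    (fun e he => ?_), sum_product, Nat.cast_sum]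
  · refine sum_congr rfl fun w hw => ?_
    rw [Nat.cast_sum, sum_filter]
    refine sum_congr rfl fun p hp => ?_
    rw [filter_filter]
    split_ifs with h
    · rw [← ev_card_win hC hw hp]
      refine congrArg _ (congrArg _ (filter_congr fun e _ => ?_))
      rw [Prod.mk.injEq]
      exact ⟨fun h' => ⟨h'.2.2, h'.2.1⟩, fun h' => ⟨by rw [h'.1, h'.2]; exact h, h'.2, h'.1⟩⟩
    · rw [Nat.cast_eq_zero, card_eq_zero, filter_eq_empty_iff]
      rintro e - ⟨h1, h2⟩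
      rw [Prod.mk.injEq] at h2
      rw [h2.1, h2.2] at h1
      exact h h1
  · obtain ⟨h1, h2⟩ := mem_product.1 (mem_filter.1 (mem_filter.1 (mem_coe.1 he)).1).1
    exact mem_coe.2 (mem_product.2 ⟨winOf_mem hC (mem_range.1 h2), h1⟩)

theorem ev_sum_wins {P : Finset Pt} {S : ℕ → Finset Pt} {G : ℕ} {C : Finset ℕ} {J : ℝ}
    (hJ : 1 ≤ J) (hC : Scale P S G C J) {f : ℕ × ℕ → ℝ} {y : ℝ} (hy : 0 ≤ y)
    (h : ∀ w ∈ wins C, f w * (2 ^ 45 * J ^ 4) ≤ y) : ∑ w ∈ wins C, f w ≤ y := by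
  have hp : (0 : ℝ) < 2 ^ 45 * J ^ 4 := by positivity
  have h1 := sum_le_card_nsmul (wins C) f (y / (2 ^ 45 * J ^ 4)) fun w hw =>
    (le_div_iff₀ hp).2 (h w hw)
  have h2 : ((wins C).card : ℝ) ≤ 2 ^ 45 * J ^ 4 :=
    (Nat.cast_le.2 (card_wins_le C)).trans hC.card
  rw [nsmul_eq_mul] at h1
  refine h1.trans ((mul_le_mul_of_nonneg_right h2 (div_nonneg hy hp.le)).trans (le_of_eq ?_))
  exact mul_div_cancel₀ y hp.ne'

theorem hd_events (ζ : ℝ) (hζ : 0 < ζ) : ∃ h : ℝ, 1 ≤ h ∧ ∃ K : ℝ, 1 ≤ K ∧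
    ∀ (P : Finset Pt) (τ : ℕ → ℝ) (S : ℕ → Finset Pt) (G Q : ℕ) (Δ : ℝ) (C : Finset ℕ) (J : ℝ),
      Base P τ S G Q Δ → 1 ≤ J → K * J ≤ Δ → Scale P S G C J →
      (((events P S G).filter (fun e => h * Δ / J < dW S C e)).card : ℝ) ≤ ζ * P.card * Δ := by
  obtain ⟨h, h1, h2⟩ : ∃ h : ℝ, 1 ≤ h ∧ 2 ^ 90 * (4608 * 4096) ≤ ζ ^ 2 * h := by
    refine ⟨2 ^ 90 * (4608 * 4096) / ζ ^ 2 + 1, le_add_of_nonneg_left (by positivity), ?_⟩
    rw [mul_add, mul_div_cancel₀ _ (pow_pos hζ 2).ne']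
    exact le_add_of_nonneg_right (by positivity)
  obtain ⟨K, k1, k2⟩ : ∃ K : ℝ, 1 ≤ K ∧ 384 * 2 ^ 45 ≤ ζ * K := by
    refine ⟨384 * 2 ^ 45 / ζ + 1, le_add_of_nonneg_left (by positivity), ?_⟩
    rw [mul_add, mul_div_cancel₀ _ hζ.ne']
    exact le_add_of_nonneg_right (by positivity)
  refine ⟨h, h1, K, k1, fun P τ S G Q Δ C J hB hJ hK hC => ?_⟩
  have hΔ := hB.Dpos
  have hJ0 : 0 < J := by linarith
  have hn : (0 : ℝ) ≤ P.card := Nat.cast_nonneg _
  have hQ : (0 : ℝ) < Q := Nat.cast_pos.2 hB.Qpos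
  refine (ev_decomp hC.cuts fun p w => h * Δ / J < deg S w.1 w.2 p).trans_le
    (ev_sum_wins hJ hC (by positivity) fun w hw => ?_)
  obtain ⟨w1, w2⟩ := win_le hC.cuts hw
  have hx := hd_win hB.gp hB.xinj hB.chain w1.le w2 hB.Qpos
    (fun i _ hi' => hB.step i (hi'.trans_le w2)) (16 * P.card / J ^ 3)
    ((le_div_iff₀ (by positivity)).2 (hC.act_le w hw)) (h * Δ / J) (by positivity)
  generalize (∑ p ∈ P.filter (fun p => h * Δ / J < deg S w.1 w.2 p), (deg S w.1 w.2 p : ℝ)) = x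
    at hx ⊢
  generalize hn' : (P.card : ℝ) = n at *
  rcases hx with hx | hx
  · have e1 : x * (2 ^ 45 * J ^ 4) ≤ 24 * (16 * n / J ^ 3) * (2 ^ 45 * J ^ 4) :=
      mul_le_mul_of_nonneg_right hx (by positivity)
    have e2 : 24 * (16 * n / J ^ 3) * (2 ^ 45 * J ^ 4) = 384 * 2 ^ 45 * (J * n) := by
      field_simp
      ring
    have e3 := mul_le_mul_of_nonneg_right k2 (mul_nonneg hJ0.le hn)
    have e4 := mul_le_mul_of_nonneg_left hK (mul_nonneg hζ.le hn)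
    linarith
  · have hD : Δ ^ 3 * Q = n := hB.Deq.trans hn'
    refine abs_le_of_sq_le_sq' ?_ (by positivity) |>.2
    have e1 := mul_le_mul_of_nonneg_right hx (by positivity : 0 ≤ J ^ 9 * 2 ^ 90)
    have e2 : Q * (h * Δ / J) * x ^ 2 * (J ^ 9 * 2 ^ 90) =
        (Q * h * Δ) * (x * (2 ^ 45 * J ^ 4)) ^ 2 := by
      field_simp
    have e3 : 4608 * (16 * n / J ^ 3) ^ 3 * (J ^ 9 * 2 ^ 90) =
        2 ^ 90 * (4608 * 4096) * (n ^ 2 * n) := by
      field_simp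
      ring
    have e4 := mul_le_mul_of_nonneg_right h2 (by positivity : 0 ≤ n ^ 2 * n)
    have e5 : ζ ^ 2 * h * (n ^ 2 * n) = (Q * h * Δ) * (ζ * n * Δ) ^ 2 := by
      linear_combination (-(ζ ^ 2 * h * n ^ 2)) * hD
    refine le_of_mul_le_mul_left ?_ (by positivity : 0 < Q * h * Δ)
    linarith

variable {P : Finset Pt} {τ : ℕ → ℝ} {S : ℕ → Finset Pt} {G Q : ℕ} {Δ J : ℝ} {C : Finset ℕ}

theorem sum_act_le (hJ : 1 ≤ J) (hC : Scale P S G C J) :
    (∑ w ∈ wins C, ((act S w.1 w.2).card : ℝ)) ≤ 2 ^ 49 * P.card * J := by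
  refine ev_sum_wins hJ hC (by positivity) fun w hw => ?_
  have h := mul_le_mul_of_nonneg_right (hC.act_le w hw) (by positivity : 0 ≤ 2 ^ 45 * J)
  linarith

theorem low_events (hB : Base P τ S G Q Δ) (hJ : 1 ≤ J) (hC : Scale P S G C J) (θ : ℝ)
    (hθ : 0 ≤ θ) :
    (((events P S G).filter (fun e => (dW S C e : ℝ) < θ * Δ / J)).card : ℝ) ≤
      2 ^ 49 * θ * P.card * Δ := by
  have hΔ := hB.Dpos
  have hJ0 : 0 < J := by linarith
  have hx : 0 ≤ θ * Δ / J := by positivity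
  refine (ev_decomp hC.cuts fun p w => (deg S w.1 w.2 p : ℝ) < θ * Δ / J).trans_le ?_
  have h1 : ∀ w ∈ wins C, ∑ p ∈ P.filter (fun p => (deg S w.1 w.2 p : ℝ) < θ * Δ / J),
      (deg S w.1 w.2 p : ℝ) ≤ ((act S w.1 w.2).card : ℝ) * (θ * Δ / J) := by
    intro w _
    rw [← sum_filter_ne_zero]
    refine (sum_le_card_nsmul _ _ (θ * Δ / J) fun p hp =>
      (mem_filter.1 (mem_filter.1 hp).1).2.le).trans ?_
    rw [nsmul_eq_mul]
    refine mul_le_mul_of_nonneg_right (Nat.cast_le.2 (card_le_card fun p hp => ?_)) hx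
    exact mem_act_of_deg (Nat.pos_of_ne_zero (Nat.cast_ne_zero.1 (mem_filter.1 hp).2))
  refine (sum_le_sum h1).trans ?_
  rw [← sum_mul]
  refine (mul_le_mul_of_nonneg_right (sum_act_le hJ hC) hx).trans (le_of_eq ?_)
  field_simp

theorem win_events (hB : Base P τ S G Q Δ) (hJ : 1 ≤ J) (hJD : J ≤ Δ) (hC : Scale P S G C J)
    {w : ℕ × ℕ} (hw : w ∈ wins C) :
    (((events P S G).filter (fun e => winOf C e.2 = w)).card : ℝ) * J ^ 4 ≤
      1000 * P.card * Δ := by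
  have hΔ := hB.Dpos
  have hJ0 : 0 < J := by linarith
  have hn : (0 : ℝ) ≤ P.card := Nat.cast_nonneg _
  have hQ : (0 : ℝ) < Q := Nat.cast_pos.2 hB.Qpos
  have hD := hB.Deq
  obtain ⟨w1, w2⟩ := win_le hC.cuts hw
  have e : ((events P S G).filter (fun e => winOf C e.2 = w)).card =
      ∑ i ∈ Finset.Ico w.1 w.2, (U S i).card := by
    rw [← sum_deg hB.chain w2 (act_sub hB.chain w2),
      card_eq_sum_card_fiberwise (f := fun e : Pt × ℕ => e.1)
        (s := (events P S G).filter (fun e => winOf C e.2 = w)) (t := P) fun e he =>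
        mem_coe.2 (mem_product.1 (mem_filter.1 (mem_filter.1 (mem_coe.1 he)).1).1).1]
    refine sum_congr rfl fun p hp => ?_
    rw [filter_filter, ← ev_card_win hC.cuts hw hp]
    exact congrArg _ (filter_congr fun e _ => and_comm)
  have hx := dey hB.gp hB.xinj hB.chain w1.le w2 hB.Qpos
    (fun i _ hi' => hB.step i (hi'.trans_le w2)) (16 * P.card / J ^ 3)
    ((le_div_iff₀ (by positivity)).2 (hC.act_le w hw)) (by
      rw [le_div_iff₀ (by positivity)]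
      have := mul_le_mul_of_nonneg_left (pow_le_pow_left₀ hJ0.le hJD 3) hQ.le
      linarith)
  rw [e, Nat.cast_sum]
  generalize (∑ i ∈ Finset.Ico w.1 w.2, ((U S i).card : ℝ)) = x at hx ⊢
  generalize (P.card : ℝ) = n at *
  refine le_of_pow_le_pow_left₀ three_ne_zero (by positivity) (le_of_mul_le_mul_right ?_ hQ)
  have e1 := mul_le_mul_of_nonneg_right hx (by positivity : 0 ≤ J ^ 12)
  have e2 : 14000 * (16 * n / J ^ 3) ^ 4 * J ^ 12 = 14000 * 16 ^ 4 * n ^ 4 := by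
    field_simp
  have e3 : (1000 * n * Δ) ^ 3 * Q = 1000 ^ 3 * n ^ 4 := by
    linear_combination (1000 ^ 3 * n ^ 3) * hD
  have e4 : 0 ≤ n ^ 4 := by positivity
  have e5 : (x * J ^ 4) ^ 3 * Q = x ^ 3 * Q * J ^ 12 := by ring
  linarith

theorem many_active (hB : Base P τ S G Q Δ) (hJ : 1 ≤ J) (hC : Scale P S G C J) (C' : ℝ)
    (hC' : 0 < C') :
    ((P.filter (fun p => C' * J < (actW S C p).card)).card : ℝ) * C' ≤ 2 ^ 49 * P.card := by
  have hJ0 : 0 < J := by linarith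
  have h1 := card_nsmul_le_sum (P.filter (fun p => C' * J < (actW S C p).card))
    (fun p => ((actW S C p).card : ℝ)) (C' * J) fun p hp => (mem_filter.1 hp).2.le
  have h2 : ∑ p ∈ P.filter (fun p => C' * J < (actW S C p).card), ((actW S C p).card : ℝ) ≤
      ∑ p ∈ P, ((actW S C p).card : ℝ) :=
    sum_le_sum_of_subset_of_nonneg (filter_subset _ _) fun _ _ _ => Nat.cast_nonneg _
  have h3 : ∑ p ∈ P, (actW S C p).card ≤ ∑ w ∈ wins C, (act S w.1 w.2).card := by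
    have e := sum_card_bipartiteAbove_eq_sum_card_bipartiteBelow (s := P) (t := wins C)
      fun p w => p ∈ act S w.1 w.2
    exact e.trans_le (sum_le_sum fun w _ => card_le_card fun p hp => (mem_filter.1 hp).2)
  have h4 : ∑ p ∈ P, ((actW S C p).card : ℝ) ≤ ∑ w ∈ wins C, ((act S w.1 w.2).card : ℝ) := by
    exact_mod_cast h3
  have h5 := sum_act_le hJ hC
  rw [nsmul_eq_mul] at h1
  refine le_of_mul_le_mul_right ?_ hJ0
  linarith

/-- the events of a point in a window are counted by the degree -/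
theorem card_events_win (hC : Cuts G C) {w : ℕ × ℕ} (hw : w ∈ wins C) {p : Pt} (hp : p ∈ P) :
    ((events P S G).filter (fun e => e.1 = p ∧ winOf C e.2 = w)).card = deg S w.1 w.2 p :=
  ev_card_win hC hw hp

end
end Crest.Agent.R51
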