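import Crest.Agent.R51.WinSys

set_option autoImplicit false
open Classical Finset

namespace Crest.Agent.R51
noncomputable section

namespace FewWinAux

/-- the main statement for `ε = 2⁻¹⁵⁴` -/
def MS (A₀ : ℝ) : Prop :=
  ∀ (P : Finset Pt) (τ : ℕ → ℝ) (S : ℕ → Finset Pt) (G Q : ℕ),
    GP P → XInj P → Chain P τ S G → 1 ≤ Q →
    (∀ i, i < G → Q ≤ (U S i).card ∧ (U S i).card ≤ 2 * Q) → A₀ * Q ≤ P.card →
    (G : ℝ) ^ 3 * (Q : ℝ) ^ 4 ≤ (1 / 2 ^ 154 : ℝ) * (P.card : ℝ) ^ 4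

theorem step {A₀ : ℝ} (hA : MS A₀) {P : Finset Pt} {τ : ℕ → ℝ} {S : ℕ → Finset Pt} {G : ℕ}
    (hgp : GP P) (hx : XInj P) (h : Chain P τ S G) (hs : ∀ i, i < G → (U S i).card ≤ 1)
    (j : ℕ) (hj : 1024 ≤ j) (hAj : A₀ ≤ (j : ℝ) ^ 3) (hn : (1024 * j) ^ 3 ≤ P.card) (x : ℝ)
    (C : Finset ℕ) (hC : Cuts G C) (hcard : (C.card : ℝ) ≤ x * (j : ℝ) ^ 4)
    (hact : ∀ w ∈ wins C, (act S w.1 w.2).card * j ^ 3 ≤ 16 * P.card) :
    ∃ C' : Finset ℕ, Cuts G C' ∧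
      (C'.card : ℝ) ≤ (x / 4 + 1 / 2 ^ 12 + 1 / 2 ^ 41) * ((1024 * j : ℕ) : ℝ) ^ 4 ∧
      ∀ w ∈ wins C', (act S w.1 w.2).card * (1024 * j) ^ 3 ≤ 16 * P.card := by
  set n := P.card with hndef
  have hj0 : 0 < j := by omega
  have hK0 : 0 < (1024 * j) ^ 3 := by positivity
  have hk0 : 0 < j ^ 3 := by positivity
  set ρ := n / (1024 * j) ^ 3 with hρ
  set L := 16 * n / j ^ 3 with hL
  have hρ1 : 1 ≤ ρ := (Nat.le_div_iff_mul_le hK0).2 (by simpa using hn)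
  have hρ2 : ρ * (1024 * j) ^ 3 ≤ n := Nat.div_mul_le_self _ _
  have hρ3 : n ≤ 2 * ρ * (1024 * j) ^ 3 := by
    have h1 : n < (ρ + 1) * (1024 * j) ^ 3 := by
      rw [hρ, mul_comm]
      exact Nat.lt_mul_div_succ _ hK0
    have h2 : (ρ + 1) * (1024 * j) ^ 3 ≤ 2 * ρ * (1024 * j) ^ 3 :=
      Nat.mul_le_mul_right _ (by omega)
    omega
  have hL2 : L * j ^ 3 ≤ 16 * n := Nat.div_mul_le_self _ _
  have hρL : ρ ≤ L := by
    refine (Nat.le_div_iff_mul_le hk0).2 ?_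
    have : ρ * j ^ 3 ≤ ρ * (1024 * j) ^ 3 :=
      Nat.mul_le_mul_left _ (Nat.pow_le_pow_left (by omega) 3)
    omega
  have hjR : (1024 : ℝ) ≤ j := by exact_mod_cast hj
  have hjR0 : (0 : ℝ) < j := by linarith
  have hρR : (1 : ℝ) ≤ ρ := by exact_mod_cast hρ1
  have hρ2R : (ρ : ℝ) * (1024 * j) ^ 3 ≤ n := by exact_mod_cast hρ2
  have hρ3R : (n : ℝ) ≤ 2 * ρ * (1024 * j) ^ 3 := by exact_mod_cast hρ3
  have hL2R : (L : ℝ) * j ^ 3 ≤ 16 * n := by exact_mod_cast hL2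
  obtain ⟨C', -, hC', hcard', hact'⟩ := refine_cuts h ρ L hρ1 hρL
    (fun i hi => (hs i hi).trans hρ1) C hC
    (fun w hw => (Nat.le_div_iff_mul_le hk0).2 (hact w hw))
    (1 / 2 ^ 50 * (1024 * (j : ℝ)) ^ 4) (fun c G' hc hG hst => by
      have h1 := hA P (fun i => τ (c i)) (fun i => S (c i)) G' ρ hgp hx (h.comp c G' hc hG) hρ1
        hst (by
          have h2 : (j : ℝ) ^ 3 ≤ (1024 * j) ^ 3 :=
            pow_le_pow_left₀ hjR0.le (by linarith) 3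
          have h3 : A₀ * ρ ≤ (1024 * j) ^ 3 * ρ :=
            mul_le_mul_of_nonneg_right (hAj.trans h2) (by linarith)
          linarith)
      have h4 : (n : ℝ) ^ 4 ≤ (2 * ρ * (1024 * j) ^ 3) ^ 4 :=
        pow_le_pow_left₀ (Nat.cast_nonneg _) hρ3R 4
      have h5 : (G' : ℝ) ^ 3 * (ρ : ℝ) ^ 4 ≤
          (1 / 2 ^ 50 * (1024 * (j : ℝ)) ^ 4) ^ 3 * (ρ : ℝ) ^ 4 := by
        calc (G' : ℝ) ^ 3 * (ρ : ℝ) ^ 4 ≤ (1 / 2 ^ 154 : ℝ) * (n : ℝ) ^ 4 := h1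
          _ ≤ (1 / 2 ^ 154 : ℝ) * (2 * ρ * (1024 * j) ^ 3) ^ 4 :=
            mul_le_mul_of_nonneg_left h4 (by positivity)
          _ = (1 / 2 ^ 50 * (1024 * (j : ℝ)) ^ 4) ^ 3 * (ρ : ℝ) ^ 4 := by ring
      have h6 := le_of_mul_le_mul_right h5 (by positivity)
      exact le_of_pow_le_pow_left₀ (by norm_num) (by positivity) h6)
  refine ⟨C', hC', ?_, fun w hw => ?_⟩
  · have hLρ : (L : ℝ) ≤ 2 ^ 35 * ρ := by
      have : (L : ℝ) * j ^ 3 ≤ (2 ^ 35 * ρ) * j ^ 3 := by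
        calc (L : ℝ) * j ^ 3 ≤ 16 * n := hL2R
          _ ≤ 16 * (2 * ρ * (1024 * j) ^ 3) := by linarith
          _ = (2 ^ 35 * ρ) * j ^ 3 := by ring
      exact le_of_mul_le_mul_right this (by positivity)
    have h7 : (C'.card : ℝ) * ρ ≤
        (2 ^ 38 * (C.card + 1 / 2 ^ 50 * (1024 * (j : ℝ)) ^ 4 + 2)) * ρ := by
      calc (C'.card : ℝ) * ρ ≤ 8 * L * (C.card + 1 / 2 ^ 50 * (1024 * (j : ℝ)) ^ 4 + 2) := hcard'
        _ ≤ 8 * (2 ^ 35 * ρ) * (C.card + 1 / 2 ^ 50 * (1024 * (j : ℝ)) ^ 4 + 2) :=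
          mul_le_mul_of_nonneg_right (by linarith) (by positivity)
        _ = _ := by ring
    have h8 := le_of_mul_le_mul_right h7 (by linarith)
    have h9 : (1024 : ℝ) ^ 4 ≤ (j : ℝ) ^ 4 := pow_le_pow_left₀ (by norm_num) hjR 4
    push_cast
    rw [mul_pow] at h8 ⊢
    nlinarith
  · calc (act S w.1 w.2).card * (1024 * j) ^ 3 ≤ 16 * ρ * (1024 * j) ^ 3 :=
        Nat.mul_le_mul_right _ (hact' w hw)
      _ = 16 * (ρ * (1024 * j) ^ 3) := by ring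
      _ ≤ 16 * n := Nat.mul_le_mul_left _ hρ2

theorem iter {A₀ : ℝ} (hA : MS A₀) {P : Finset Pt} {τ : ℕ → ℝ} {S : ℕ → Finset Pt} {G : ℕ}
    (hgp : GP P) (hx : XInj P) (h : Chain P τ S G) (hs : ∀ i, i < G → (U S i).card ≤ 1)
    (j : ℕ) (hj : 1024 ≤ j) (hAj : A₀ ≤ (j : ℝ) ^ 3)
    (C : Finset ℕ) (hC : Cuts G C) (hcard : (C.card : ℝ) ≤ 2 ^ 45 * (j : ℝ) ^ 4)
    (hact : ∀ w ∈ wins C, (act S w.1 w.2).card * j ^ 3 ≤ 16 * P.card) (k : ℕ)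
    (hn : (1024 ^ k * j) ^ 3 ≤ P.card) :
    ∃ C' : Finset ℕ, Cuts G C' ∧
      (C'.card : ℝ) ≤ (2 ^ 45 / 4 ^ k + 1 / 2 ^ 11) * ((1024 ^ k * j : ℕ) : ℝ) ^ 4 ∧
      ∀ w ∈ wins C', (act S w.1 w.2).card * (1024 ^ k * j) ^ 3 ≤ 16 * P.card := by
  induction k with
  | zero =>
    refine ⟨C, hC, ?_, by simpa using hact⟩
    simp only [pow_zero, one_mul, div_one]
    refine hcard.trans (mul_le_mul_of_nonneg_right (by norm_num) (by positivity))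
  | succ k ih =>
    have e : 1024 ^ (k + 1) * j = 1024 * (1024 ^ k * j) := by ring
    rw [e] at hn ⊢
    have hle : j ≤ 1024 ^ k * j := Nat.le_mul_of_pos_left _ (by positivity)
    obtain ⟨C₁, hC₁, hc₁, ha₁⟩ := ih ((Nat.pow_le_pow_left (by omega) 3).trans hn)
    obtain ⟨C₂, hC₂, hc₂, ha₂⟩ := step hA hgp hx h hs (1024 ^ k * j) (hj.trans hle)
      (hAj.trans (pow_le_pow_left₀ (Nat.cast_nonneg _) (by exact_mod_cast hle) 3)) hn _ C₁ hC₁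
      hc₁ ha₁
    refine ⟨C₂, hC₂, hc₂.trans (mul_le_mul_of_nonneg_right ?_ (by positivity)), ha₂⟩
    have : (2 ^ 45 / 4 ^ (k + 1) : ℝ) = 2 ^ 45 / 4 ^ k / 4 := by
      rw [pow_succ (4 : ℝ) k, div_div]
    rw [this]
    have h2 : (1 / 2 ^ 11 : ℝ) / 4 + 1 / 2 ^ 12 + 1 / 2 ^ 41 ≤ 1 / 2 ^ 11 := by norm_num
    linarith

end FewWinAux

open FewWinAux in
/-- with the main statement the number of windows beats Dey's bound at one scale -/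
theorem few_windows (hM : MainSt) : ∃ R : ℝ, 4 ≤ R ∧ ∃ n₀ : ℕ,
    ∀ (P : Finset Pt) (τ : ℕ → ℝ) (S : ℕ → Finset Pt) (G : ℕ), GP P → XInj P → Chain P τ S G →
      (∀ i, i < G → (U S i).card ≤ 1) → n₀ ≤ P.card →
      ∃ C : Finset ℕ, Cuts G C ∧ (C.card : ℝ) ^ 3 * 128 ≤ R ^ 4 ∧
        ∀ w ∈ wins C, ((act S w.1 w.2).card : ℝ) * R ≤ P.card := by
  obtain ⟨A₀, hA⟩ := hM (1 / 2 ^ 154) (by positivity)
  obtain ⟨s, hs⟩ := pow_unbounded_of_one_lt A₀ (by norm_num : (1 : ℝ) < 1024)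
  set j : ℕ := 1024 ^ (s + 1) with hjdef
  have hj : 1024 ≤ j := Nat.le_self_pow (by omega) _
  have hjR : (1024 : ℝ) ≤ j := by exact_mod_cast hj
  have hAj : A₀ ≤ (j : ℝ) ^ 3 := by
    have h1 : (1024 : ℝ) ^ s ≤ j := by
      rw [hjdef]
      push_cast
      exact pow_le_pow_right₀ (by norm_num) (by omega)
    have h2 : (j : ℝ) ≤ (j : ℝ) ^ 3 := le_self_pow₀ (by linarith) (by norm_num)
    linarith
  set J : ℕ := 1024 ^ 28 * j with hJ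
  have hjJ : j ≤ J := Nat.le_mul_of_pos_left _ (by positivity)
  have hJR : (1024 : ℝ) ≤ J := by exact_mod_cast hj.trans hjJ
  refine ⟨(J : ℝ) ^ 3 / 16, ?_, 4 * J ^ 3, fun P τ S G hgp hx h hU hn => ?_⟩
  · have : (1024 : ℝ) ^ 3 ≤ (J : ℝ) ^ 3 := pow_le_pow_left₀ (by norm_num) hJR 3
    linarith
  obtain ⟨𝒞, -, -, hsc⟩ := winsys hgp hx h 1 le_rfl fun i hi => (hU i hi).trans (by norm_num)
  have ej : ((1024 : ℝ) ^ (s + 1)) = j := by rw [hjdef]; push_cast; rfl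
  have hsc' := hsc (s + 1) (by
    rw [ej]
    have h1 : 4 * j ^ 3 ≤ P.card :=
      (Nat.mul_le_mul_left _ (Nat.pow_le_pow_left hjJ 3)).trans hn
    exact_mod_cast (by simpa using h1 : 4 * 1 * j ^ 3 ≤ P.card))
  rw [ej] at hsc'
  obtain ⟨C, hC, hc, ha⟩ := iter hA hgp hx h hU j hj hAj _ hsc'.cuts hsc'.card
    (fun w hw => by exact_mod_cast hsc'.act_le w hw) 28 (by rw [← hJ]; omega)
  rw [← hJ] at hc ha
  refine ⟨C, hC, ?_, fun w hw => ?_⟩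
  · have h1 : (C.card : ℝ) ≤ 1 / 2 ^ 10 * (J : ℝ) ^ 4 :=
      hc.trans (mul_le_mul_of_nonneg_right (by norm_num) (by positivity))
    have h2 : (C.card : ℝ) ^ 3 ≤ (1 / 2 ^ 10 * (J : ℝ) ^ 4) ^ 3 :=
      pow_le_pow_left₀ (Nat.cast_nonneg _) h1 3
    have h3 : (0 : ℝ) ≤ (J : ℝ) ^ 12 := by positivity
    have e1 : (1 / 2 ^ 10 * (J : ℝ) ^ 4) ^ 3 = 1 / 2 ^ 30 * (J : ℝ) ^ 12 := by ring
    have e2 : ((J : ℝ) ^ 3 / 16) ^ 4 = 1 / 2 ^ 16 * (J : ℝ) ^ 12 := by ring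
    rw [e2]
    rw [e1] at h2
    linarith
  · have h1 : ((act S w.1 w.2).card : ℝ) * (J : ℝ) ^ 3 ≤ 16 * P.card := by
      exact_mod_cast ha w hw
    linarith

end
end Crest.Agent.R51
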