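import Crest.Agent.R51.Cuts

set_option autoImplicit false
open Classical Finset

namespace Crest.Agent.R51
noncomputable section

/-- shear followed by a possible reflection -/
def finalMap (η σ : ℝ) (p : Pt) : Pt := (p.1 + η * p.2, σ * p.2)

theorem finalMap_injective (η : ℝ) {σ : ℝ} (hσ : σ ≠ 0) : Function.Injective (finalMap η σ) := by
  intro p q h
  simp only [finalMap, Prod.mk.injEq] at h
  have h2 : p.2 = q.2 := mul_left_cancel₀ hσ h.2
  have h1 : p.1 = q.1 := by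
    have := h.1
    rw [h2] at this
    linarith
  exact Prod.ext h1 h2

theorem final_count {e C₁ : ℝ}
    (h : ∀ (P : Finset Pt) (k : ℕ), GP P → XInj P → 1 ≤ k → k ≤ P.card →
      ((lowerSets P k).card : ℝ) ≤ C₁ * P.card * ((k : ℝ) + 1) ^ e)
    {Q : Finset Pt} {k : ℕ} (hk : 1 ≤ k) (hkQ : k ≤ Q.card) (hgp : GP Q) {η σ : ℝ} (hσ : σ ≠ 0)
    (hη : ∀ p ∈ Q, ∀ q ∈ Q, p.1 + η * p.2 = q.1 + η * q.2 → p = q) :
    (((Q.powersetCard k).filter (fun S => ∃ t, ∀ p ∈ S, ∀ q ∈ Q, q ∉ S →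
      ph t (finalMap η σ p) < ph t (finalMap η σ q))).card : ℝ) ≤
        C₁ * Q.card * ((k : ℝ) + 1) ^ e := by
  have hinj := finalMap_injective η hσ
  have hc : (Q.image (finalMap η σ)).card = Q.card := card_image_of_injective _ hinj
  have h1 := h (Q.image (finalMap η σ)) k ?_ ?_ hk (by rwa [hc])
  · rw [hc] at h1
    refine le_trans ?_ h1
    refine Nat.cast_le.2 (card_le_card_of_injOn (fun S => S.image (finalMap η σ)) ?_
      (image_injective hinj).injOn)
    intro S hS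
    rw [mem_coe, mem_filter, mem_powersetCard] at hS
    obtain ⟨⟨hsub, hcard⟩, t, ht⟩ := hS
    rw [mem_coe, lowerSets, mem_filter, mem_powersetCard]
    refine ⟨⟨image_subset_image hsub, by rw [card_image_of_injective _ hinj, hcard]⟩, t, ?_⟩
    intro p hp q hq hq'
    obtain ⟨p', hp', rfl⟩ := mem_image.1 hp
    obtain ⟨q', hq1, rfl⟩ := mem_image.1 hq
    exact ht p' hp' q' hq1 fun h' => hq' (mem_image_of_mem _ h')
  · intro p' hp' q' hq' r' hr' hpq hpr hqr
    obtain ⟨p, hp, rfl⟩ := mem_image.1 hp'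
    obtain ⟨q, hq, rfl⟩ := mem_image.1 hq'
    obtain ⟨r, hr, rfl⟩ := mem_image.1 hr'
    have := hgp p hp q hq r hr (fun h' => hpq (by rw [h'])) (fun h' => hpr (by rw [h']))
      (fun h' => hqr (by rw [h']))
    intro h0
    apply mul_ne_zero hσ this
    simp only [finalMap] at h0
    linear_combination h0
  · intro p' hp' q' hq' hpq
    obtain ⟨p, hp, rfl⟩ := mem_image.1 hp'
    obtain ⟨q, hq, rfl⟩ := mem_image.1 hq'
    rw [hη p hp q hq hpq]

theorem final_perturb {Q S : Finset Pt} (η : ℝ) {a b c : ℝ}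
    (h1 : ∀ p ∈ S, a * p.1 + b * p.2 + c < 0)
    (h2 : ∀ p ∈ Q, p ∉ S → 0 < a * p.1 + b * p.2 + c) :
    ∃ β : ℝ, β ≠ 0 ∧ ∀ p ∈ S, ∀ q ∈ Q, q ∉ S →
      a * (p.1 + η * p.2) + β * p.2 < a * (q.1 + η * q.2) + β * q.2 := by
  have hev : ∀ᶠ β in nhds (b - a * η), ∀ p ∈ S, ∀ q ∈ Q, q ∉ S →
      a * (p.1 + η * p.2) + β * p.2 < a * (q.1 + η * q.2) + β * q.2 := by
    rw [Filter.eventually_all_finset]
    intro p hp
    rw [Filter.eventually_all_finset]
    intro q hq
    by_cases hqS : q ∈ S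
    · exact Filter.Eventually.of_forall fun _ h => absurd hqS h
    · have : ∀ᶠ β in nhds (b - a * η),
          a * (p.1 + η * p.2) + β * p.2 < a * (q.1 + η * q.2) + β * q.2 := by
        refine ContinuousAt.eventually_lt (f := fun β => a * (p.1 + η * p.2) + β * p.2)
          (g := fun β => a * (q.1 + η * q.2) + β * q.2) (by fun_prop) (by fun_prop) ?_
        have := h1 p hp
        have := h2 q hq hqS
        linarith
      exact this.mono fun _ h _ => h
  have hfr : ∃ᶠ β in nhds (b - a * η), β ∈ ({0}ᶜ : Set ℝ) :=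
    mem_closure_iff_frequently.1 (dense_compl_singleton (0 : ℝ) _)
  obtain ⟨β, hβ, h⟩ := (hfr.and_eventually hev).exists
  exact ⟨β, hβ, h⟩

theorem final_of (e C₁ : ℝ)
    (h : ∀ (P : Finset Pt) (k : ℕ), GP P → XInj P → 1 ≤ k → k ≤ P.card →
      ((lowerSets P k).card : ℝ) ≤ C₁ * P.card * ((k : ℝ) + 1) ^ e) :
    ∀ n : ℕ, 2 ≤ n → ∀ k : ℕ, 1 ≤ k → 2 * k ≤ n →
      ∀ Q : Finset (ℝ × ℝ), Q.card = n →
        (∀ p ∈ Q, ∀ q ∈ Q, ∀ r ∈ Q, p ≠ q → p ≠ r → q ≠ r →
          (q.1 - p.1) * (r.2 - p.2) - (q.2 - p.2) * (r.1 - p.1) ≠ 0) →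
        (((Q.powersetCard k).filter (fun S => ∃ a b c : ℝ, (a ≠ 0 ∨ b ≠ 0) ∧
            (∀ p ∈ S, a * p.1 + b * p.2 + c < 0) ∧
            (∀ p ∈ Q, p ∉ S → 0 < a * p.1 + b * p.2 + c))).card : ℝ)
          ≤ (2 * C₁) * (n : ℝ) * ((k : ℝ) + 1) ^ e := by
  intro n _ k hk hkn Q hQ hgp
  obtain ⟨η, hη⟩ := Infinite.exists_notMem_finset
    ((Q ×ˢ Q).image (fun z : Pt × Pt => (z.2.1 - z.1.1) / (z.1.2 - z.2.2)))
  have hη' : ∀ p ∈ Q, ∀ q ∈ Q, p.1 + η * p.2 = q.1 + η * q.2 → p = q := by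
    intro p hp q hq hpq
    by_cases h2 : p.2 = q.2
    · refine Prod.ext ?_ h2
      rw [h2] at hpq
      linarith
    · exfalso
      apply hη
      refine mem_image.2 ⟨(p, q), mem_product.2 ⟨hp, hq⟩, ?_⟩
      have : p.2 - q.2 ≠ 0 := sub_ne_zero.2 h2
      rw [div_eq_iff this]
      linarith
  have hkQ : k ≤ Q.card := by omega
  have c1 := final_count h hk hkQ hgp (σ := 1) one_ne_zero hη'
  have c2 := final_count h hk hkQ hgp (σ := -1) (by norm_num) hη'
  rw [hQ] at c1 c2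
  refine le_trans ?_ ((add_le_add c1 c2).trans (le_of_eq (by ring)))
  rw [← Nat.cast_add, Nat.cast_le]
  refine le_trans (card_le_card ?_) (card_union_le _ _)
  intro S hS
  rw [mem_filter] at hS
  obtain ⟨hS, a, b, c, -, h1, h2⟩ := hS
  obtain ⟨β, hβ, hlt⟩ := final_perturb η h1 h2
  rw [mem_union, mem_filter, mem_filter]
  rcases lt_or_gt_of_ne hβ with hneg | hpos
  · refine Or.inr ⟨hS, a / β, fun p hp q hq hq' => ?_⟩
    have := hlt p hp q hq hq'
    simp only [ph, finalMap]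
    have e1 : ∀ r : Pt, -1 * r.2 - a / β * (r.1 + η * r.2) =
        (a * (r.1 + η * r.2) + β * r.2) / (-β) := by
      intro r
      field_simp
      ring
    rw [e1, e1]
    exact div_lt_div_of_pos_right this (by linarith)
  · refine Or.inl ⟨hS, -a / β, fun p hp q hq hq' => ?_⟩
    have := hlt p hp q hq hq'
    simp only [ph, finalMap]
    have e1 : ∀ r : Pt, 1 * r.2 - -a / β * (r.1 + η * r.2) =
        (a * (r.1 + η * r.2) + β * r.2) / β := by
      intro r
      field_simp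
      ring
    rw [e1, e1]
    exact div_lt_div_of_pos_right this hpos

end
end Crest.Agent.R51
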