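import Crest.Agent.R51.Cuts

set_option autoImplicit false
open Classical Finset

namespace Crest.Agent.R51
noncomputable section

theorem fine_exists_thr (A : Finset ℝ) : ∀ b : ℝ, (∀ a ∈ A, a < b) → ∀ i, i ≤ A.card →
    ∃ t, t < b ∧ t ∉ A ∧ (A.filter (fun a => a < t)).card = i := by
  induction A using Finset.induction_on_max with
  | empty =>
    intro b _ i hi
    exact ⟨b - 1, by linarith, by simp, by simpa using (Nat.le_zero.1 hi).symm⟩
  | insert m A hm ih =>
    intro b hb i hi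
    have hmA : m ∉ A := fun h => lt_irrefl _ (hm m h)
    have hmb : m < b := hb m (mem_insert_self _ _)
    rw [card_insert_of_notMem hmA] at hi
    rcases Nat.lt_or_ge A.card i with h | h
    · refine ⟨(m + b) / 2, by linarith, ?_, ?_⟩
      · intro h'
        rcases mem_insert.1 h' with h' | h'
        · linarith
        · linarith [hm _ h']
      · rw [filter_true_of_mem, card_insert_of_notMem hmA]
        · omega
        · intro a ha
          rcases mem_insert.1 ha with h' | h'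
          · rw [h']; linarith
          · linarith [hm _ h']
    · obtain ⟨t, ht, htA, hc⟩ := ih m hm i h
      refine ⟨t, by linarith, ?_, ?_⟩
      · intro h'
        rcases mem_insert.1 h' with h' | h'
        · linarith
        · exact htA h'
      · rw [filter_insert, if_neg (by linarith), hc]

theorem fine_exists_thr' (A : Finset ℝ) (i : ℕ) (hi : i ≤ A.card) :
    ∃ t, t ∉ A ∧ (A.filter (fun a => a < t)).card = i := by
  obtain ⟨b, hb⟩ := A.bddAbove
  obtain ⟨t, -, h1, h2⟩ := fine_exists_thr A (b + 1)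
    (fun a ha => by linarith [hb (mem_coe.2 ha)]) i hi
  exact ⟨t, h1, h2⟩

theorem fine_count_lt {A : Finset ℝ} {s t a : ℝ} (ha : a ∈ A) (h1 : s ≤ a) (h2 : a < t) :
    (A.filter (fun a => a < s)).card < (A.filter (fun a => a < t)).card := by
  refine card_lt_card ⟨fun x hx => ?_, fun h => ?_⟩
  · rw [mem_filter] at hx ⊢
    exact ⟨hx.1, by linarith [hx.2]⟩
  · have := h (mem_filter.2 ⟨ha, h2⟩)
    rw [mem_filter] at this
    linarith [this.2]

theorem fine_count_le (A : Finset ℝ) {s t : ℝ} (h : s ≤ t) :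
    (A.filter (fun a => a < s)).card ≤ (A.filter (fun a => a < t)).card := by
  refine card_le_card fun x hx => ?_
  rw [mem_filter] at hx ⊢
  exact ⟨hx.1, by linarith [hx.2]⟩

theorem fine_between {p q : Pt} (hx : p.1 ≠ q.1) {s t : ℝ} (h1 : ph s p < ph s q)
    (h2 : ph t q < ph t p) :
    (s < (p.2 - q.2) / (p.1 - q.1) ∧ (p.2 - q.2) / (p.1 - q.1) < t) ∨
      (t < (p.2 - q.2) / (p.1 - q.1) ∧ (p.2 - q.2) / (p.1 - q.1) < s) := by
  unfold ph at h1 h2
  rcases lt_or_gt_of_ne hx with h | h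
  · left
    have h' : p.1 - q.1 < 0 := by linarith
    rw [lt_div_iff_of_neg h', div_lt_iff_of_neg h']
    constructor <;> linarith
  · right
    have h' : 0 < p.1 - q.1 := by linarith
    rw [lt_div_iff₀ h', div_lt_iff₀ h']
    constructor <;> linarith

theorem fine_cut_unique {P S S' : Finset Pt} {t : ℝ} (hS : S ⊆ P) (hS' : S' ⊆ P)
    (h : IsCut P t S) (h' : IsCut P t S') (hc : S.card = S'.card) : S = S' := by
  by_contra hne
  have h1 : ¬ S ⊆ S' := fun hs => hne (eq_of_subset_of_card_le hs hc.ge)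
  have h2 : ¬ S' ⊆ S := fun hs => hne (eq_of_subset_of_card_le hs hc.le).symm
  obtain ⟨p, hp, hp'⟩ := not_subset.1 h1
  obtain ⟨q, hq, hq'⟩ := not_subset.1 h2
  exact lt_asymm (h p hp q (hS' hq) hq') (h' q hq p (hS hp) hp')

theorem fine_exists_cut {P : Finset Pt} {t : ℝ} (hinj : Set.InjOn (ph t) (P : Set Pt)) {k : ℕ}
    (hk : k ≤ P.card) : ∃ S, S ⊆ P ∧ IsCut P t S ∧ S.card = k := by
  obtain ⟨c, -, hc⟩ := fine_exists_thr' (P.image (ph t)) k (by rwa [card_image_of_injOn hinj])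
  refine ⟨P.filter (fun p => ph t p < c), filter_subset _ _, ?_, ?_⟩
  · intro p hp q hq hq'
    rw [mem_filter] at hp hq'
    have : ¬ ph t q < c := fun h => hq' ⟨hq, h⟩
    linarith [hp.2, not_lt.1 this]
  · rw [← hc, filter_image, card_image_of_injOn (hinj.mono (coe_subset.2 (filter_subset _ _)))]

theorem fine_chain (P : Finset Pt) (hgp : GP P) (hx : XInj P) (k : ℕ) (hk : k ≤ P.card) :
    ∃ (τ : ℕ → ℝ) (S : ℕ → Finset Pt) (G : ℕ), Chain P τ S G ∧ (S 0).card = k ∧
      (∀ i, i < G → (U S i).card ≤ 1) ∧ lowerSets P k ⊆ sets S G := by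
  set Sl : Finset ℝ := (P ×ˢ P).image (fun z => (z.1.2 - z.2.2) / (z.1.1 - z.2.1)) with hSl
  have hmem : ∀ p ∈ P, ∀ q ∈ P, (p.2 - q.2) / (p.1 - q.1) ∈ Sl := fun p hp q hq =>
    mem_image.2 ⟨(p, q), mem_product.2 ⟨hp, hq⟩, rfl⟩
  have hτ : ∀ i : ℕ, ∃ t, t ∉ Sl ∧ (i ≤ Sl.card → (Sl.filter (fun a => a < t)).card = i) := by
    intro i
    obtain ⟨t, h1, h2⟩ := fine_exists_thr' Sl (min i Sl.card) (min_le_right _ _)
    exact ⟨t, h1, fun h => by rw [h2, min_eq_left h]⟩
  choose τ hτ1 hτ2 using hτ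
  have hinj : ∀ i, Set.InjOn (ph (τ i)) (P : Set Pt) := by
    intro i p hp q hq h
    by_contra hne
    have hx' : p.1 - q.1 ≠ 0 := fun h' => hne (hx p hp q hq (by linarith))
    apply hτ1 i
    have : τ i = (p.2 - q.2) / (p.1 - q.1) := by
      unfold ph at h
      rw [eq_div_iff hx']
      linarith
    rw [this]
    exact hmem p hp q hq
  have hS := fun i => fine_exists_cut (hinj i) hk
  choose S hS1 hS2 hS3 using hS
  have hmono : ∀ i j, i < j → j ≤ Sl.card → τ i < τ j := by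
    intro i j hij hj
    by_contra h
    have := fine_count_le Sl (not_lt.1 h)
    rw [hτ2 i (by omega), hτ2 j hj] at this
    omega
  refine ⟨τ, S, Sl.card, ⟨hmono, fun i _ => hS1 i, fun i _ => hS2 i,
    fun i _ => by rw [hS3, hS3]⟩, hS3 0, ?_, ?_⟩
  · intro i hi
    by_contra hU
    have hU' := not_le.1 hU
    have hV : 0 < (S (i + 1) \ S i).card := by
      rw [← Finset.card_sdiff_comm (by rw [hS3, hS3] : (S i).card = (S (i + 1)).card)]
      exact lt_trans Nat.zero_lt_one hU'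
    obtain ⟨v, hv⟩ := card_pos.1 hV
    rw [mem_sdiff] at hv
    have hvP := hS1 _ hv.1
    have hsl : ∀ u ∈ U S i, u ∈ P ∧ u ≠ v ∧ τ i < (u.2 - v.2) / (u.1 - v.1) ∧
        (u.2 - v.2) / (u.1 - v.1) < τ (i + 1) := by
      intro u hu
      rw [U, mem_sdiff] at hu
      have huP := hS1 _ hu.1
      have huv : u ≠ v := fun h => hv.2 (h ▸ hu.1)
      refine ⟨huP, huv, ?_⟩
      rcases fine_between (fun h => huv (hx u huP v hvP h)) (hS2 i u hu.1 v hvP hv.2)
        (hS2 (i + 1) v hv.1 u huP hu.2) with h | h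
      · exact h
      · linarith [h.1, h.2, hmono i (i + 1) (Nat.lt_succ_self i) hi]
    obtain ⟨u₁, hu₁, u₂, hu₂, hne⟩ := one_lt_card.1 hU'
    obtain ⟨h1P, h1v, h1a, h1b⟩ := hsl u₁ hu₁
    obtain ⟨h2P, h2v, h2a, h2b⟩ := hsl u₂ hu₂
    have key : ∀ s ∈ Sl, ∀ s' ∈ Sl, τ i < s → s < s' → s' < τ (i + 1) → False := by
      intro s hs s' hs' h1 h2 h3
      have a1 := fine_count_lt hs h1.le h2
      have a2 := fine_count_lt hs' le_rfl h3
      rw [hτ2 i hi.le] at a1
      rw [hτ2 (i + 1) hi] at a2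
      omega
    have heq : (u₁.2 - v.2) / (u₁.1 - v.1) = (u₂.2 - v.2) / (u₂.1 - v.1) := by
      rcases lt_trichotomy ((u₁.2 - v.2) / (u₁.1 - v.1)) ((u₂.2 - v.2) / (u₂.1 - v.1)) with
        h | h | h
      · exact (key _ (hmem _ h1P _ hvP) _ (hmem _ h2P _ hvP) h1a h h2b).elim
      · exact h
      · exact (key _ (hmem _ h2P _ hvP) _ (hmem _ h1P _ hvP) h2a h h1b).elim
    have hx1 : u₁.1 - v.1 ≠ 0 := fun h' => h1v (hx _ h1P _ hvP (by linarith))
    have hx2 : u₂.1 - v.1 ≠ 0 := fun h' => h2v (hx _ h2P _ hvP (by linarith))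
    rw [div_eq_div_iff hx1 hx2] at heq
    exact hgp v hvP u₁ h1P u₂ h2P h1v.symm h2v.symm hne (by linarith)
  · intro S' hS'
    rw [lowerSets, mem_filter, mem_powersetCard] at hS'
    obtain ⟨⟨hsub, hcard⟩, t, ht⟩ := hS'
    set i := (Sl.filter (fun a => a < t)).card with hi
    have hiG : i ≤ Sl.card := card_filter_le _ _
    refine mem_image.2 ⟨i, mem_range.2 (Nat.lt_succ_of_le hiG), ?_⟩
    refine fine_cut_unique (hS1 i) hsub (hS2 i) ?_ (by rw [hS3, hcard])
    intro p hp q hq hq'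
    have hpP := hsub hp
    have hpq : p ≠ q := fun h => hq' (h ▸ hp)
    by_contra hlt
    have hlt' : ph (τ i) q < ph (τ i) p :=
      lt_of_le_of_ne (not_lt.1 hlt) fun h => hpq (hinj i hpP hq h.symm)
    rcases fine_between (fun h => hpq (hx p hpP q hq h)) (ht p hp q hq hq') hlt' with h | h
    · have := fine_count_lt (hmem p hpP q hq) h.1.le h.2
      rw [hτ2 i hiG] at this
      omega
    · have := fine_count_lt (hmem p hpP q hq) h.1.le h.2
      rw [hτ2 i hiG] at this
      omega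

end
end Crest.Agent.R51
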