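import Crest.Agent.R51.Defs

/-! Row 51: definitions for the two geometric cores. -/

set_option autoImplicit false
open Classical Finset

namespace Crest.Agent.R51
noncomputable section

/-! ### grids on the line (a class is labelled by its left endpoint) -/

structure Grid (r : ℝ) (g : ℝ → ℝ) : Prop where
  le : ∀ x, g x ≤ x
  lt : ∀ x, x < g x + r
  eq : ∀ x y, g y ≤ x → x ≤ y → g x = g y

def flo (ρ o x : ℝ) : ℝ := o + ρ * (⌊(x - o) / ρ⌋ : ℤ)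
def rfn (g : ℝ → ℝ) (ρ o : ℝ) (x : ℝ) : ℝ := max (g x) (flo ρ o x)
def Near (g : ℝ → ℝ) (w x : ℝ) : Prop := g (x - w) ≠ g (x + w)

variable {α : Type}

/-- class of `p` for the labelling `f` -/
def cls {β : Type} (A : Finset α) (f : α → β) (p : α) : Finset α := A.filter (fun q => f q = f p)

/-- number of points with `N p > w` -/
def out (A : Finset α) (N : α → ℝ) (w : ℝ) : ℝ := ((A.filter (fun p => w < N p)).card : ℝ)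

/-! ### core B -/

def WB (Ta Tc s : Finset α → ℝ) (Q : ℝ) (A : Finset α) : ℝ := Real.sqrt (Ta A * Tc A * s A / Q)
def GB (Ta Tc s : Finset α → ℝ) (Q : ℝ) (A : Finset α) : ℝ := WB Ta Tc s Q A + s A
def mB (Λ : ℝ) : ℝ := 1 / (4096 * Λ ^ 7)

/-- outcome of one step of the process of core B -/
def StepB {ι : Type} (Gf : Finset α → ℝ) (𝓜 : Finset ι) (Tm : ι → Finset α → ℝ)
    (rich : ι → Finset α) (Λ m₀ κ₁ Nc : ℝ) (A : Finset α) : Prop :=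
  (∃ A' : Finset α, A' ⊆ A ∧ A'.card < A.card ∧ A.card ≤ 2 * A'.card ∧
    Gf A' + Λ * ((A.card : ℝ) - A'.card) ≤ Gf A) ∨
  (∃ A₁ A₂ : Finset α, A₁ ⊆ A ∧ A₂ ⊆ A ∧ Disjoint A₁ A₂ ∧ ∃ Cf : Finset ι, (Cf.card : ℝ) ≤ Nc ∧
    m₀ / 16 * A.card ≤ A₁.card ∧ m₀ / 16 * A.card ≤ A₂.card ∧
    (A₁.card : ℝ) ≤ (1 - m₀ / 8) * A.card ∧ (A₂.card : ℝ) ≤ (1 - m₀ / 8) * A.card ∧
    (A.card : ℝ) - A₁.card - A₂.card ≤ κ₁ * A.card ∧ Gf A₁ + Gf A₂ ≤ Gf A ∧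
    ∀ m ∈ 𝓜, m ∉ Cf → Tm m (A₁ ∩ rich m) + Tm m (A₂ ∩ rich m) ≤ Tm m (A ∩ rich m))

/-! ### core A -/

/-- approximate independence of two labellings on `P` -/
def NonDef (P : Finset α) (a b : α → ℝ) (ε : ℝ) : Prop :=
  ∀ 𝒜 ℬ : Set ℝ,
    |((P.filter (fun q => a q ∈ 𝒜 ∧ b q ∈ ℬ)).card : ℝ) * P.card -
      ((P.filter (fun q => a q ∈ 𝒜)).card : ℝ) * (P.filter (fun q => b q ∈ ℬ)).card|
      ≤ ε * (P.card : ℝ) ^ 2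

/-- quasi-invariance of the distribution of `f` on `P` under the translation by `v` -/
def QIP (P : Finset α) (f : α → ℝ) (y₁ y₂ v ρ err : ℝ) : Prop :=
  ∀ Y : Set ℝ, (∀ y ∈ Y, y₁ + ρ ≤ y ∧ y + ρ ≤ y₂ ∧ y₁ + 4 * ρ ≤ y + v ∧ y + v + 4 * ρ ≤ y₂) →
    ((P.filter (fun q => f q ∈ Y)).card : ℝ) ≤
      (P.filter (fun q => ∃ y ∈ Y, |f q - (y + v)| ≤ 4 * ρ)).card + err * P.card

/-- labels `f` are ordered like the values `x`, with gap `d` -/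
def Sep (A : Finset α) (f x : α → ℝ) (d : ℝ) : Prop :=
  ∀ p ∈ A, ∀ q ∈ A, f p < f q → x p + d < x q

def lab (ℓ : Fin 3 → α → ℝ) (g : Fin 3 → ℝ → ℝ) (i : Fin 3) (p : α) : ℝ := g i (ℓ i p)
/-- pair cell -/
def c2 (A : Finset α) (ℓ : Fin 3 → α → ℝ) (g : Fin 3 → ℝ → ℝ) (i j : Fin 3) (p : α) : Finset α :=
  A.filter (fun q => lab ℓ g i q = lab ℓ g i p ∧ lab ℓ g j q = lab ℓ g j p)
/-- triple cell -/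
def c3 (A : Finset α) (ℓ : Fin 3 → α → ℝ) (g : Fin 3 → ℝ → ℝ) (p : α) : Finset α :=
  A.filter (fun q => ∀ i, lab ℓ g i q = lab ℓ g i p)

def LL (T : Fin 3 → Finset α → ℝ) (s : Finset α → ℝ) (Q : ℝ) (i : Fin 3) (A : Finset α) : ℝ :=
  2 * Real.log (T i A) + Real.log (s A) - 2 * Real.log A.card - Real.log Q
def PP (T : Fin 3 → Finset α → ℝ) (s : Finset α → ℝ) (Q : ℝ) (i j : Fin 3) (A : Finset α) : ℝ :=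
  LL T s Q i A + LL T s Q j A
def Phi (T : Fin 3 → Finset α → ℝ) (s : Finset α → ℝ) (Q : ℝ) (A : Finset α) : ℝ :=
  PP T s Q 0 1 A + PP T s Q 0 2 A + PP T s Q 1 2 A
def PhiTot (ℓ : Fin 3 → α → ℝ) (T : Fin 3 → Finset α → ℝ) (s : Finset α → ℝ) (Q : ℝ)
    (A : Finset α) (g : Fin 3 → ℝ → ℝ) : ℝ :=
  ∑ p ∈ A, (PP T s Q 0 1 (c2 A ℓ g 0 1 p) + PP T s Q 0 2 (c2 A ℓ g 0 2 p) +
    PP T s Q 1 2 (c2 A ℓ g 1 2 p))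
/-- thin-strip potential: base grids `gb`, current grids `g` -/
def Theta (ℓ : Fin 3 → α → ℝ) (T : Fin 3 → Finset α → ℝ) (s : Finset α → ℝ) (Q : ℝ)
    (A : Finset α) (gb g : Fin 3 → ℝ → ℝ) : ℝ :=
  ∑ p ∈ A, (LL T s Q 0 (cls A (fun q => (lab ℓ g 0 q, lab ℓ gb 1 q)) p) +
    LL T s Q 1 (cls A (fun q => (lab ℓ gb 0 q, lab ℓ g 1 q)) p))
def Wc (T : Fin 3 → Finset α → ℝ) (s : Finset α → ℝ) (Q : ℝ) (A : Finset α) : ℝ :=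
  Real.sqrt (T 0 A * T 1 A * s A / Q)
def Wtot (ℓ : Fin 3 → α → ℝ) (T : Fin 3 → Finset α → ℝ) (s : Finset α → ℝ) (Q : ℝ)
    (A : Finset α) (g : Fin 3 → ℝ → ℝ) : ℝ :=
  ∑ p ∈ A, Wc T s Q (c2 A ℓ g 0 1 p) / (c2 A ℓ g 0 1 p).card

/-- the value function -/
def psi (lam c σ₁ x : ℝ) : ℝ := min lam (max 0 (c * Real.log (x / σ₁))) - 12

def KK : ℝ := 10 ^ 9

def varpi (ℓ : Fin 3 → α → ℝ) (ng : ℕ) (A : Finset α) (g : Fin 3 → ℝ → ℝ) (r : ℝ) : ℝ :=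
  ∑ k ∈ Finset.range ng, ∑ i : Fin 3,
    ((A.filter (fun p => Near (g i) (r / 10 ^ 5 / KK ^ k) (ℓ i p))).card : ℝ)

/-- number of (point, coordinate) pairs near a boundary -/
def NB (ℓ : Fin 3 → α → ℝ) (A : Finset α) (g : Fin 3 → ℝ → ℝ) (w : ℝ) : ℝ :=
  ∑ i : Fin 3, ((A.filter (fun p => Near (g i) w (ℓ i p))).card : ℝ)

/-- number of (point, pair) incidences with a defective pair cell -/
def DefC (ℓ : Fin 3 → α → ℝ) (A : Finset α) (g g' : Fin 3 → ℝ → ℝ) (ε : ℝ) : ℝ :=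
  ((A.filter (fun p => ¬ NonDef (c2 A ℓ g 0 1 p) (lab ℓ g' 0) (lab ℓ g' 1) ε)).card : ℝ) +
  ((A.filter (fun p => ¬ NonDef (c2 A ℓ g 0 2 p) (lab ℓ g' 0) (lab ℓ g' 2) ε)).card : ℝ) +
  ((A.filter (fun p => ¬ NonDef (c2 A ℓ g 1 2 p) (lab ℓ g' 1) (lab ℓ g' 2) ε)).card : ℝ)

/-- information gained in coordinate `j` inside the pair cell `(0,1)` -/
def hh (ℓ : Fin 3 → α → ℝ) (A : Finset α) (g g' : Fin 3 → ℝ → ℝ) (j : Fin 3) (p : α) : ℝ :=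
  Real.log (((c2 A ℓ g 0 1 p).card : ℝ) / (cls (c2 A ℓ g 0 1 p) (lab ℓ g' j) p).card)

def rfn3 (g : Fin 3 → ℝ → ℝ) (ρ : ℝ) (o : Fin 3 → ℝ) : Fin 3 → ℝ → ℝ :=
  fun i => rfn (g i) ρ (o i)
def flo3 (ρ : ℝ) (o : Fin 3 → ℝ) : Fin 3 → ℝ → ℝ := fun i => flo ρ (o i)

/-- trimmed set -/
def trimS (ℓ : Fin 3 → α → ℝ) (A : Finset α) (g' : Fin 3 → ℝ → ℝ) (w : ℝ) : Finset α :=
  A.filter (fun p => ∀ i, ¬ Near (g' i) w (ℓ i p))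
/-- trimmed set without light triple cells -/
def surv (ℓ : Fin 3 → α → ℝ) (A : Finset α) (g g' : Fin 3 → ℝ → ℝ) (w ϑ : ℝ) : Finset α :=
  (trimS ℓ A g' w).filter
    (fun p => ϑ * (c3 A ℓ g p).card ≤ (c3 (trimS ℓ A g' w) ℓ g' p).card)
/-- the triple cell of `p` is heavy in its three pair cells -/
def Ended (ℓ : Fin 3 → α → ℝ) (A : Finset α) (g : Fin 3 → ℝ → ℝ) (m₁ : ℝ) (p : α) : Prop :=
  ∀ i j, i ≠ j → ((c2 A ℓ g i j p).card : ℝ) ≤ (1 + m₁) * (c3 A ℓ g p).card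
/-- points staying in the epoch -/
def rem (ℓ : Fin 3 → α → ℝ) (A : Finset α) (g : Fin 3 → ℝ → ℝ) (m₁ σ₁ : ℝ) : Finset α :=
  A.filter (fun p => σ₁ ≤ (c3 A ℓ g p).card ∧
    ∀ q ∈ A, Ended ℓ A g m₁ q → ∀ i j, i ≠ j → p ∉ c2 A ℓ g i j q)

def n01 (ℓ : Fin 3 → α → ℝ) (p q : α) : ℝ := max |ℓ 0 p - ℓ 0 q| |ℓ 1 p - ℓ 1 q|
def ball (ℓ : Fin 3 → α → ℝ) (A : Finset α) (p : α) (w : ℝ) : Finset α :=
  A.filter (fun q => n01 ℓ p q ≤ w)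
/-- not atomic at scale `ρ` -/
def NonAt (ℓ : Fin 3 → α → ℝ) (A : Finset α) (m₁ ρ : ℝ) (p : α) : Prop :=
  m₁ * (ball ℓ A p (ρ / 10 ^ 6 / 2)).card <
    ((ball ℓ A p (2 * ρ)).card : ℝ) - (ball ℓ A p (ρ / 10 ^ 6)).card
def Thin (ℓ : Fin 3 → α → ℝ) (A : Finset α) (g : Fin 3 → ℝ → ℝ) (m₅ ρ : ℝ) (p : α) : Prop :=
  ((ball ℓ A p (ρ / 10 ^ 6 / 2)).card : ℝ) < m₅ * (c2 A ℓ g 0 1 p).card
/-- there is a witness of scale `ρ` near `p` -/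
def HW (ℓ : Fin 3 → α → ℝ) (A : Finset α) (g : Fin 3 → ℝ → ℝ) (m₁ m₅ r ρ : ℝ) (p : α) : Prop :=
  ∃ q ∈ A, n01 ℓ p q ≤ r / 10 ^ 6 ∧ NonAt ℓ A m₁ ρ q ∧ ¬ Thin ℓ A g m₅ ρ q
/-- regular point: interior, comparable cells, no defect at the probe grids `gp` -/
structure Reg (ℓ : Fin 3 → α → ℝ) (A : Finset α) (g gp : Fin 3 → ℝ → ℝ) (r ε : ℝ) (p : α) :
    Prop where
  int : ∀ i, ¬ Near (g i) (r / 10 ^ 5) (ℓ i p)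
  comp : ∀ i j, i ≠ j → ((c2 A ℓ g i j p).card : ℝ) ≤ 10 ^ 10 * (c3 A ℓ g p).card
  d01 : NonDef (c2 A ℓ g 0 1 p) (lab ℓ gp 0) (lab ℓ gp 1) ε
  d02 : NonDef (c2 A ℓ g 0 2 p) (lab ℓ gp 0) (lab ℓ gp 2) ε
  d12 : NonDef (c2 A ℓ g 1 2 p) (lab ℓ gp 1) (lab ℓ gp 2) ε
/-- the strip of `p` (mesh `r'`, coordinate `j`) is too heavy in the pair cell `(0,1)` -/
def Bad (ℓ : Fin 3 → α → ℝ) (A : Finset α) (g g' : Fin 3 → ℝ → ℝ) (r r' : ℝ) (j : Fin 3)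
    (p : α) : Prop :=
  2 * 10 ^ 17 * r' * (c2 A ℓ g 0 1 p).card < r * (cls (c2 A ℓ g 0 1 p) (lab ℓ g' j) p).card

/-- parameters of core A -/
structure ParA (κ lam lam₂ κ' m₁ m₅ ε₁ c₁ c₂ c θ ϑ θ₅ θl Ξ β : ℝ) (ng n₀ N₁ : ℕ) : Prop where
  θpos : 0 < θ
  θle : θ ≤ 1 / 10 ^ 6
  ϑpos : 0 < ϑ
  ϑle : ϑ ≤ 1
  m₁pos : 0 < m₁
  m₁le : m₁ ≤ 1 / 2
  m₅pos : 0 < m₅
  m₅le : m₅ * (3 * 10 ^ 6 * KK ^ 1000) ^ 2 ≤ 1 / 2000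
  cpos : 0 < c
  cle : c ≤ 1 / 100
  c₁pos : 0 < c₁
  c₂pos : 0 < c₂
  lamge : 100 ≤ lam
  κ'pos : 0 < κ'
  ε₁pos : 0 < ε₁
  ε₁le : ε₁ ≤ (m₁ * m₅ ^ 2 / (KK ^ 2001) ^ 2 / 10 ^ 13) ^ 3 / 10 ^ 22 / KK ^ 1000
  c₁le : 128 * 10 ^ 6 * Real.log KK * c₁ ≤ ε₁ ^ 2
  kill : c * Real.log (1 / ϑ) + (lam + 3) * (27 * θ + (Ξ + 2) ^ 3 * ϑ) ≤ c₁
  βge : 6 + 2 * κ' + 3 * lam * m₁ / c₁ + 4002 * Real.log KK ≤ β
  lam₂le : lam₂ + 4002 * Real.log KK ≤ 49 / 25 * κ'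
  c₂ge : lam ≤ c₂ * Real.exp (lam₂ / 4)
  thin : 4 * Real.exp (-κ) * Real.exp κ' ≤ θ
  pair : 4 * Real.exp (-κ) * Ξ ≤ θ
  ΞK : KK ^ 2001 ≤ Ξ
  Ξ5 : 3000 * 5 ^ (n₀ + 1) ≤ Ξ
  ngpos : 1 ≤ ng
  ngle : 1 / 10 ^ 5 / KK ^ ng ≤ θ
  first : c₁ + 3 * lam * m₁ + c₁ * (β + 6000 * Real.log KK * ng) +
    c₂ * Real.exp (lam / 12 + 1 / 4) + 26 * (8 / 9) ^ n₀ ≤ 1 / 10 ^ 80
  N₁pos : 1 ≤ N₁
  θlpos : 0 < θl
  θ₅ge : 6 / (N₁ : ℝ) + (8 / 9) ^ n₀ + 27 * θl ≤ θ₅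
  θ₅le : θ₅ * lam ≤ 1
  elb : 4 * Real.exp (-κ) * 5 ^ (n₀ + 1) * N₁ ≤ 1
  lamgt : 528 / 100 * κ + 12 < lam

/-- size conditions -/
structure SizA (Q D B lam ϑ θl σ₁ : ℝ) : Prop where
  Dge : 1 ≤ D
  σge : 2 ≤ σ₁
  h1 : Q ≤ D * (ϑ * σ₁ / 2)
  h2 : Q ≤ D * (θl * (Real.exp (-lam) / 10 ^ 7) * σ₁)
  h3 : 700 * B ≤ D * σ₁

/-- induction hypothesis of the outer induction -/
def IH (A₀ : Finset α) (T : Fin 3 → Finset α → ℝ) (s : Finset α → ℝ) (Q D lam c σ₁ : ℝ)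
    (n : ℕ) : Prop :=
  ∀ A : Finset α, A ⊆ A₀ → A.card < n → Q ≤ D * A.card → psi lam c σ₁ A.card ≤ Phi T s Q A

/-- state inside an epoch -/
structure Inv (A₀ : Finset α) (ℓ : Fin 3 → α → ℝ) (θ σ₁ : ℝ) (n : ℕ) (A : Finset α) (r : ℝ)
    (g : Fin 3 → ℝ → ℝ) : Prop where
  sub : A ⊆ A₀
  rpos : 0 < r
  grid : ∀ i, Grid r (g i)
  trim : ∀ p ∈ A, ∀ i, ¬ Near (g i) (θ * r) (ℓ i p)
  big : ∀ p ∈ A, σ₁ ≤ (c3 A ℓ g p).card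
  small : ∀ p ∈ A, (c3 A ℓ g p).card < n

/-- base grids -/
structure Bas (r rb : ℝ) (g gb : Fin 3 → ℝ → ℝ) : Prop where
  le : r ≤ rb
  grid : ∀ i, Grid rb (gb i)
  ref : ∀ i x y, g i x = g i y → gb i x = gb i y

/-- functional without base -/
def F0 (ℓ : Fin 3 → α → ℝ) (T : Fin 3 → Finset α → ℝ) (s : Finset α → ℝ)
    (Q lam c σ₁ c₁ c₂ β : ℝ) (ng : ℕ) (A : Finset α) (r : ℝ) (g : Fin 3 → ℝ → ℝ) : ℝ :=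
  PhiTot ℓ T s Q A g - ∑ p ∈ A, psi lam c σ₁ (c3 A ℓ g p).card +
    c₁ * ((β - 4002 * Real.log KK) * A.card + 2000 * Real.log KK * varpi ℓ ng A g r) +
    c₂ * Wtot ℓ T s Q A g

/-- functional with base -/
def F1 (ℓ : Fin 3 → α → ℝ) (T : Fin 3 → Finset α → ℝ) (s : Finset α → ℝ)
    (Q lam c σ₁ c₁ c₂ β κ' : ℝ) (ng : ℕ) (A : Finset α) (r : ℝ) (g : Fin 3 → ℝ → ℝ) (rb : ℝ)
    (gb : Fin 3 → ℝ → ℝ) : ℝ :=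
  PhiTot ℓ T s Q A g - ∑ p ∈ A, psi lam c σ₁ (c3 A ℓ g p).card +
    c₁ * (Theta ℓ T s Q A gb g - 49 / 25 * (Real.log (r / rb) + κ') * A.card + β * A.card +
      2000 * Real.log KK * varpi ℓ ng A g r) +
    c₂ * Wtot ℓ T s Q A g

/-- sup norm around a centre -/
def Nc (ℓ : Fin 3 → α → ℝ) (cc : Fin 3 → ℝ) (p : α) : ℝ :=
  max (max |ℓ 0 p - cc 0| |ℓ 1 p - cc 1|) |ℓ 2 p - cc 2|

end
end Crest.Agent.R51
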