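import Crest.Agent.R51.GDefs

/-! Row 51: median, first elbow, slot, and the value function. -/

set_option autoImplicit false
open Classical Finset

namespace Crest.Agent.R51
noncomputable section

variable {α : Type}

theorem exists_median_A (A : Finset α) (f : α → ℝ) :
    ∃ c : ℝ, A.card ≤ 2 * (A.filter (fun p => f p ≤ c)).card ∧
      A.card ≤ 2 * (A.filter (fun p => c ≤ f p)).card := by
  rcases A.eq_empty_or_nonempty with rfl | hA
  · exact ⟨0, by simp⟩
  obtain ⟨p1, hp1, h1⟩ := A.exists_max_image f hA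
  obtain ⟨p, hp, hmin⟩ := exists_min_image
    (A.filter fun p => A.card ≤ 2 * (A.filter fun q => f q ≤ f p).card) f
    ⟨p1, mem_filter.2 ⟨hp1, by rw [filter_true_of_mem h1]; omega⟩⟩
  refine ⟨f p, (mem_filter.1 hp).2, ?_⟩
  have h2 := card_filter_add_card_filter_not (s := A) (fun q => f p ≤ f q)
  rcases (A.filter fun q => ¬ f p ≤ f q).eq_empty_or_nonempty with h3 | h3
  · rw [h3, card_empty] at h2
    omega
  obtain ⟨q, hq, hmax⟩ := exists_max_image _ f h3
  obtain ⟨hq1, hq2⟩ := mem_filter.1 hq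
  have h4 : ¬ A.card ≤ 2 * (A.filter fun z => f z ≤ f q).card := fun h =>
    hq2 (hmin q (mem_filter.2 ⟨hq1, h⟩))
  have h5 : (A.filter fun z => ¬ f p ≤ f z).card ≤ (A.filter fun z => f z ≤ f q).card :=
    card_le_card fun z hz => mem_filter.2 ⟨(mem_filter.1 hz).1, hmax z hz⟩
  omega

theorem elbow_A (A : Finset α) (hA : A.Nonempty) (N : α → ℝ)
    (h0 : 2 * (A.filter (fun p => N p ≤ 0)).card ≤ A.card) (ϱ β m₀ : ℝ) (hϱ : 1 < ϱ) (hβ : 1 < β)
    (hm : 0 ≤ m₀) (hm' : m₀ < 1 / 2) :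
    ∃ w : ℝ, 0 < w ∧ out A N (ϱ * w) ≤ m₀ * A.card ∧
      (∀ k : ℕ, β ^ k * out A N (ϱ ^ (k + 1) * w) ≤ out A N (ϱ * w)) ∧
      ((0 < out A N (ϱ * w) ∧ out A N w ≤ β * out A N (ϱ * w)) ∨
        (m₀ * A.card < out A N w ∧ β * out A N (ϱ * w) ≤ out A N w)) := by
  have ϱ0 : 0 < ϱ := by linarith
  have β0 : 0 < β := by linarith
  have A0 : (0 : ℝ) < A.card := by exact_mod_cast hA.card_pos
  have o0 : ∀ w, 0 ≤ out A N w := fun w => Nat.cast_nonneg _
  obtain ⟨r, r0, hr⟩ : ∃ r : ℝ, 0 < r ∧ ∀ w, r ≤ w → out A N w = 0 := by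
    obtain ⟨p, -, hp⟩ := A.exists_max_image N hA
    refine ⟨max 1 (N p), lt_max_of_lt_left one_pos, fun w hw => ?_⟩
    rw [out, filter_false_of_mem, card_empty, Nat.cast_zero]
    exact fun q hq => not_lt.2 ((hp q hq).trans ((le_max_right _ _).trans hw))
  have hex : ∃ i : ℕ, m₀ * A.card < out A N (r / ϱ ^ (i + 1)) ∨
      (0 < out A N (r / ϱ ^ i) ∧ out A N (r / ϱ ^ (i + 1)) ≤ β * out A N (r / ϱ ^ i)) := by
    have t1 : Filter.Tendsto (fun i : ℕ => r / ϱ ^ (i + 1)) Filter.atTop (nhds 0) :=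
      ((tendsto_pow_atTop_atTop_of_one_lt hϱ).comp (Filter.tendsto_add_atTop_nat 1)).const_div_atTop r
    have t2 : ∀ᶠ i : ℕ in Filter.atTop, ∀ p ∈ A.filter (fun p => ¬ N p ≤ 0),
        r / ϱ ^ (i + 1) < N p :=
      (Filter.eventually_all_finset _).2 fun p hp =>
        t1.eventually_lt_const (not_le.1 (mem_filter.1 hp).2)
    obtain ⟨i, hi⟩ := t2.exists
    refine ⟨i, Or.inl ?_⟩
    have a1 := card_filter_add_card_filter_not (s := A) (fun p => N p ≤ 0)
    have a2 : (A.filter fun p => ¬ N p ≤ 0).card ≤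
        (A.filter fun p => r / ϱ ^ (i + 1) < N p).card :=
      card_le_card fun p hp => mem_filter.2 ⟨(mem_filter.1 hp).1, hi p hp⟩
    have a3 : A.card ≤ 2 * (A.filter fun p => r / ϱ ^ (i + 1) < N p).card := by omega
    have a4 : (A.card : ℝ) ≤ 2 * out A N (r / ϱ ^ (i + 1)) := by
      unfold out
      exact_mod_cast a3
    linarith [mul_lt_mul_of_pos_right hm' A0]
  obtain ⟨i, hi, hmin⟩ : ∃ i : ℕ, (m₀ * A.card < out A N (r / ϱ ^ (i + 1)) ∨
      (0 < out A N (r / ϱ ^ i) ∧ out A N (r / ϱ ^ (i + 1)) ≤ β * out A N (r / ϱ ^ i))) ∧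
      ∀ j < i, out A N (r / ϱ ^ (j + 1)) ≤ m₀ * A.card ∧
        β * out A N (r / ϱ ^ j) ≤ out A N (r / ϱ ^ (j + 1)) := by
    refine ⟨Nat.find hex, Nat.find_spec hex, fun j hj => ?_⟩
    obtain ⟨a1, a2⟩ := not_or.1 (Nat.find_min hex hj)
    refine ⟨not_lt.1 a1, ?_⟩
    rcases (o0 (r / ϱ ^ j)).eq_or_lt with a3 | a3
    · rw [← a3, mul_zero]
      exact o0 _
    · exact (not_le.1 fun a4 => a2 ⟨a3, a4⟩).le
  have e1 : ϱ * (r / ϱ ^ (i + 1)) = r / ϱ ^ i := by field_simp; ring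
  refine ⟨r / ϱ ^ (i + 1), by positivity, ?_, fun k => ?_, ?_⟩
  · rw [e1]
    cases i with
    | zero =>
      rw [hr _ (by simp)]
      positivity
    | succ j => exact (hmin j (Nat.lt_succ_self j)).1
  · induction k with
    | zero => simp
    | succ k ih =>
      refine le_trans ?_ ih
      rw [pow_succ β, mul_assoc]
      refine mul_le_mul_of_nonneg_left ?_ (by positivity)
      rcases le_or_gt (k + 1) i with a1 | a1
      · obtain ⟨j, rfl⟩ := Nat.exists_eq_add_of_le a1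
        have e2 : ϱ ^ (k + 1 + 1) * (r / ϱ ^ (k + 1 + j + 1)) = r / ϱ ^ j := by field_simp; ring
        have e3 : ϱ ^ (k + 1) * (r / ϱ ^ (k + 1 + j + 1)) = r / ϱ ^ (j + 1) := by field_simp; ring
        rw [e2, e3]
        exact (hmin j (by omega)).2
      · rw [hr, mul_zero]
        · exact o0 _
        · rw [← mul_div_assoc, le_div_iff₀ (by positivity), mul_comm]
          exact mul_le_mul_of_nonneg_right (pow_le_pow_right₀ hϱ.le (by omega)) r0.le
  · rw [e1]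
    rcases hi with hi | hi
    · rcases le_or_gt (β * out A N (r / ϱ ^ i)) (out A N (r / ϱ ^ (i + 1))) with a1 | a1
      · exact Or.inr ⟨hi, a1⟩
      · exact Or.inl ⟨(mul_pos_iff_of_pos_left β0).1 ((o0 _).trans_lt a1), a1.le⟩
    · exact Or.inl hi

theorem slot_A (A : Finset α) (f : α → ℝ) (u g : ℝ) (hg : 0 < g) (N : ℕ) (hN : 1 ≤ N) :
    ∃ j : ℕ, j < N ∧
      N * (A.filter (fun p => u + j * g < f p ∧ f p ≤ u + (j + 1) * g)).card ≤ A.card := by
  have key : ∀ i j : ℕ, i < j → ∀ x, x ≤ u + (i + 1) * g → ¬ u + j * g < x := fun i j h x hx => by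
    have a1 : (i + 1 : ℝ) ≤ j := by exact_mod_cast h
    linarith [mul_le_mul_of_nonneg_right a1 hg.le]
  have h1 : ∑ j ∈ range N,
      (A.filter (fun p => u + j * g < f p ∧ f p ≤ u + (j + 1) * g)).card ≤ A.card := by
    rw [← card_biUnion]
    · exact card_le_card (biUnion_subset.2 fun j _ => filter_subset _ _)
    · intro i _ j _ hij
      refine disjoint_filter.2 fun p _ hi hj => ?_
      rcases lt_or_gt_of_ne hij with h | h
      · exact key i j h _ hi.2 hj.1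
      · exact key j i h _ hj.2 hi.1
  obtain ⟨j, hj, h⟩ := exists_le_of_sum_le (s := range N) (f := fun j : ℕ =>
    N * (A.filter (fun p => u + j * g < f p ∧ f p ≤ u + (j + 1) * g)).card)
    (g := fun _ => A.card) ⟨0, mem_range.2 hN⟩ (by
      rw [← mul_sum, sum_const, card_range, smul_eq_mul]
      exact Nat.mul_le_mul_left _ h1)
  exact ⟨j, mem_range.1 hj, h⟩

theorem psi_le_A (lam c σ₁ x : ℝ) : psi lam c σ₁ x ≤ lam - 12 :=
  sub_le_sub_right (min_le_left _ _) _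

theorem psi_ge_A {lam : ℝ} (hl : 0 ≤ lam) (c σ₁ x : ℝ) : -12 ≤ psi lam c σ₁ x := by
  have := le_min hl (le_max_left 0 (c * Real.log (x / σ₁)))
  unfold psi
  linarith

theorem psi_small_A {lam c σ₁ x : ℝ} (hl : 0 ≤ lam) (hc : 0 ≤ c) (hσ : 0 < σ₁) (hx : 0 < x)
    (h : x ≤ σ₁) : psi lam c σ₁ x = -12 := by
  have a1 : Real.log (x / σ₁) ≤ 0 :=
    Real.log_nonpos (by positivity) ((div_le_one hσ).2 h)
  rw [psi, max_eq_left (mul_nonpos_of_nonneg_of_nonpos hc a1), min_eq_right hl, zero_sub]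

theorem psi_sub_le_A {lam c σ₁ x y : ℝ} (hc : 0 ≤ c) (hσ : 0 < σ₁) (hy : 0 < y) (h : y ≤ x) :
    psi lam c σ₁ x ≤ psi lam c σ₁ y + c * Real.log (x / y) := by
  have hx : 0 < x := hy.trans_le h
  have a1 : 0 ≤ c * Real.log (x / y) := mul_nonneg hc (Real.log_nonneg ((one_le_div hy).2 h))
  have a2 : c * Real.log (x / σ₁) = c * Real.log (y / σ₁) + c * Real.log (x / y) := by
    rw [Real.log_div hx.ne' hσ.ne', Real.log_div hy.ne' hσ.ne', Real.log_div hx.ne' hy.ne']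
    ring
  simp only [psi, a2, min_def, max_def]
  split_ifs <;> linarith

end
end Crest.Agent.R51
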