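import Crest.Agent.R51.GDefs

/-! Row 51: grids on the line. -/

set_option autoImplicit false
open Classical Finset

namespace Crest.Agent.R51
noncomputable section

variable {α : Type}

theorem grid_flo_B {ρ : ℝ} (hρ : 0 < ρ) (o : ℝ) : Grid ρ (flo ρ o) := by
  refine ⟨fun x => ?_, fun x => ?_, fun x y h1 h2 => ?_⟩
  · have := (le_div_iff₀ hρ).mp (Int.floor_le ((x - o) / ρ))
    unfold flo
    linarith
  · have := (div_lt_iff₀ hρ).mp (Int.lt_floor_add_one ((x - o) / ρ))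
    unfold flo
    linarith
  · unfold flo at h1 ⊢
    have e : ⌊(x - o) / ρ⌋ = ⌊(y - o) / ρ⌋ := by
      refine le_antisymm (Int.floor_mono (div_le_div_of_nonneg_right (by linarith) hρ.le)) ?_
      rw [Int.le_floor, le_div_iff₀ hρ]
      linarith
    rw [e]

theorem grid_rfn_B {r ρ : ℝ} {g : ℝ → ℝ} (hg : Grid r g) (hρ : 0 < ρ) (o : ℝ) :
    Grid ρ (rfn g ρ o) := by
  have hf := grid_flo_B hρ o
  refine ⟨fun x => max_le (hg.le x) (hf.le x), fun x => ?_, fun x y h1 h2 => ?_⟩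
  · have h1 := hf.lt x
    have h2 : flo ρ o x ≤ rfn g ρ o x := le_max_right _ _
    linarith
  · unfold rfn at h1 ⊢
    rw [hg.eq x y (le_trans (le_max_left _ _) h1) h2, hf.eq x y (le_trans (le_max_right _ _) h1) h2]

theorem rfn_eq_iff_B {r ρ : ℝ} {g : ℝ → ℝ} (hg : Grid r g) (hρ : 0 < ρ) (o x y : ℝ) :
    rfn g ρ o x = rfn g ρ o y ↔ g x = g y ∧ flo ρ o x = flo ρ o y := by
  have hf := grid_flo_B hρ o
  have key : ∀ x y, x ≤ y → rfn g ρ o x = rfn g ρ o y → g x = g y ∧ flo ρ o x = flo ρ o y := by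
    intro x y hxy h
    have h1 : rfn g ρ o y ≤ x := h ▸ (grid_rfn_B hg hρ o).le x
    exact ⟨hg.eq x y (le_trans (le_max_left _ _) h1) hxy,
      hf.eq x y (le_trans (le_max_right _ _) h1) hxy⟩
  constructor
  · intro h
    rcases le_total x y with hxy | hxy
    · exact key x y hxy h
    · exact ⟨(key y x hxy h.symm).1.symm, (key y x hxy h.symm).2.symm⟩
  · rintro ⟨h1, h2⟩
    unfold rfn
    rw [h1, h2]

theorem Grid.mono_B {r : ℝ} {g : ℝ → ℝ} (hg : Grid r g) {x y : ℝ} (h : x ≤ y) : g x ≤ g y := by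
  rcases le_total (g y) x with h1 | h1
  · exact (hg.eq x y h1 h).le
  · exact (hg.le x).trans h1

theorem Grid.abs_lt_B {r : ℝ} {g : ℝ → ℝ} (hg : Grid r g) {x y : ℝ} (h : g x = g y) :
    |x - y| < r := by
  have := hg.le x
  have := hg.lt x
  have := hg.le y
  have := hg.lt y
  rw [abs_lt]
  constructor <;> linarith

theorem Grid.eq_of_not_near_B {r w : ℝ} {g : ℝ → ℝ} (hg : Grid r g) {x y : ℝ} (h : ¬ Near g w x)
    (hxy : |y - x| ≤ w) : g y = g x := by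
  have h0 : g (x - w) = g (x + w) := not_not.mp h
  have hw : 0 ≤ w := (abs_nonneg _).trans hxy
  obtain ⟨h1, h2⟩ := abs_le.mp hxy
  have e1 : g (x - w) ≤ g y := hg.mono_B (by linarith)
  have e2 : g y ≤ g (x + w) := hg.mono_B (by linarith)
  have e3 : g (x - w) ≤ g x := hg.mono_B (by linarith)
  have e4 : g x ≤ g (x + w) := hg.mono_B (by linarith)
  linarith

theorem Grid.near_mono_B {r w w' : ℝ} {g : ℝ → ℝ} (hg : Grid r g) {x : ℝ} (hw0 : 0 ≤ w)
    (hw : w ≤ w') (h : Near g w x) : Near g w' x := by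
  by_contra h'
  refine h ((hg.eq_of_not_near_B h' ?_).trans (hg.eq_of_not_near_B h' ?_).symm)
  · rw [abs_le]
    constructor <;> linarith
  · rw [abs_le]
    constructor <;> linarith

theorem near_rfn_B {r ρ w : ℝ} {g : ℝ → ℝ} (hg : Grid r g) (hρ : 0 < ρ) (o x : ℝ) :
    Near (rfn g ρ o) w x ↔ Near g w x ∨ Near (flo ρ o) w x :=
  (not_congr (rfn_eq_iff_B hg hρ o (x - w) (x + w))).trans not_and_or

theorem Grid.sep_B {r w : ℝ} {g : ℝ → ℝ} (hg : Grid r g) (hw : 0 ≤ w) (A : Finset α) (f : α → ℝ)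
    (h : ∀ p ∈ A, ¬ Near g w (f p)) : Sep A (fun p => g (f p)) f w := by
  intro p hp q _ hlt
  by_contra hc
  have e1 : g (f q) ≤ g (f p + w) := hg.mono_B (not_lt.mp hc)
  have e2 : g (f p + w) = g (f p) :=
    hg.eq_of_not_near_B (h p hp) (by rw [add_sub_cancel_left, abs_of_nonneg hw])
  have e3 : g (f p) < g (f q) := hlt
  linarith

theorem card_flo_labels_B (A : Finset α) (f : α → ℝ) {ρ : ℝ} (hρ : 0 < ρ) (o u L : ℝ) (hL : 0 ≤ L)
    (h : ∀ p ∈ A, u ≤ f p ∧ f p ≤ u + L) :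
    ((A.image (fun p => flo ρ o (f p))).card : ℝ) ≤ L / ρ + 2 := by
  have h1 : A.image (fun p => flo ρ o (f p)) ⊆
      (Finset.Icc ⌊(u - o) / ρ⌋ ⌊(u + L - o) / ρ⌋).image (fun k : ℤ => o + ρ * k) := by
    intro y hy
    obtain ⟨p, hp, rfl⟩ := mem_image.mp hy
    obtain ⟨h2, h3⟩ := h p hp
    exact mem_image.mpr ⟨⌊(f p - o) / ρ⌋, mem_Icc.mpr
      ⟨Int.floor_mono (div_le_div_of_nonneg_right (by linarith) hρ.le),
        Int.floor_mono (div_le_div_of_nonneg_right (by linarith) hρ.le)⟩, rfl⟩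
  have h2 := (card_le_card h1).trans card_image_le
  have h3 : ⌊(u - o) / ρ⌋ ≤ ⌊(u + L - o) / ρ⌋ :=
    Int.floor_mono (div_le_div_of_nonneg_right (by linarith) hρ.le)
  have h4 : ((A.image (fun p => flo ρ o (f p))).card : ℤ) ≤
      ⌊(u + L - o) / ρ⌋ + 1 - ⌊(u - o) / ρ⌋ := by
    rw [← Int.card_Icc_of_le _ _ (by linarith)]
    exact_mod_cast h2
  have h5 : ((A.image (fun p => flo ρ o (f p))).card : ℝ) ≤
      (⌊(u + L - o) / ρ⌋ : ℤ) + 1 - (⌊(u - o) / ρ⌋ : ℤ) := by exact_mod_cast h4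
  have h6 := Int.floor_le ((u + L - o) / ρ)
  have h7 := Int.lt_floor_add_one ((u - o) / ρ)
  have h8 : (u + L - o) / ρ = (u - o) / ρ + L / ρ := by ring
  linarith

theorem card_rfn_labels_B (A : Finset α) (f : α → ℝ) {g : ℝ → ℝ} {ρ : ℝ}
    (hρ : 0 < ρ) (o u L : ℝ) (hL : 0 ≤ L) (h : ∀ p ∈ A, u ≤ f p ∧ f p ≤ u + L)
    (hsame : ∀ p ∈ A, ∀ q ∈ A, g (f p) = g (f q)) :
    ((A.image (fun p => rfn g ρ o (f p))).card : ℝ) ≤ L / ρ + 2 := by
  refine le_trans ?_ (card_flo_labels_B A f hρ o u L hL h)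
  rcases A.eq_empty_or_nonempty with rfl | ⟨p₀, hp₀⟩
  · simp
  have h1 : A.image (fun p => rfn g ρ o (f p)) ⊆
      (A.image (fun p => flo ρ o (f p))).image (fun y => max (g (f p₀)) y) := by
    intro y hy
    obtain ⟨p, hp, rfl⟩ := mem_image.mp hy
    refine mem_image.mpr ⟨_, mem_image_of_mem _ hp, ?_⟩
    rw [hsame p₀ hp₀ p hp]
    rfl
  exact_mod_cast (card_le_card h1).trans card_image_le

end
end Crest.Agent.R51
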