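import Crest.Agent.R51.GDefs

/-! Row 51: offsets and classes of a labelling. -/

set_option autoImplicit false
open Classical Finset

namespace Crest.Agent.R51
noncomputable section

variable {α : Type}

theorem near_count_C {ρ w : ℝ} (hρ : 0 < ρ) (hw : 0 < w) {N : ℕ} (hN : 1 ≤ w * N) (x : ℝ) :
    (((range N).filter (fun j : ℕ => Near (flo ρ (j * ρ / N)) (w * ρ) x)).card : ℝ) ≤
      3 * (w * N) := by
  have hN0 : (0 : ℝ) < N := (mul_pos_iff_of_pos_left hw).1 (one_pos.trans_le hN)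
  set t := x / ρ with ht
  have e1 : ∀ j : ℕ, (x - w * ρ - j * ρ / N) / ρ = t - w - j / N := fun j => by
    rw [ht]; field_simp
  have e2 : ∀ j : ℕ, (x + w * ρ - j * ρ / N) / ρ = t + w - j / N := fun j => by
    rw [ht]; field_simp
  have h1 : ((range N).filter (fun j : ℕ => Near (flo ρ (j * ρ / N)) (w * ρ) x)).card ≤
      (Ioc ⌊N * (t - w)⌋ ⌊N * (t + w)⌋).card := by
    refine card_le_card_of_injOn (fun j : ℕ => (j : ℤ) + N * ⌊t + w - j / N⌋) (fun j hj => ?_)
      fun j hj k hk hjk => ?_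
    · have hn := (mem_filter.1 (mem_coe.1 hj)).2
      have hne : ⌊t - w - j / N⌋ ≠ ⌊t + w - j / N⌋ := fun h => hn (by
        unfold flo
        rw [e1, e2, h])
      have hlt : ⌊t - w - j / N⌋ < ⌊t + w - j / N⌋ :=
        lt_of_le_of_ne (Int.floor_le_floor (by linarith)) hne
      have a1 := Int.floor_lt.1 hlt
      have a2 := Int.floor_le (t + w - j / N)
      have a3 : (N : ℝ) * (j / N) = j := by field_simp
      have a4 := mul_lt_mul_of_pos_left a1 hN0
      have a5 := mul_le_mul_of_nonneg_left a2 hN0.le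
      refine mem_coe.2 (mem_Ioc.2 ⟨Int.floor_lt.2 ?_, Int.le_floor.2 ?_⟩) <;> push_cast <;> linarith
    · have hj' := mem_range.1 (mem_filter.1 (mem_coe.1 hj)).1
      have hk' := mem_range.1 (mem_filter.1 (mem_coe.1 hk)).1
      have := congrArg (· % (N : ℤ)) hjk
      simp only [Int.add_mul_emod_self_left] at this
      rw [Int.emod_eq_of_lt (by omega) (by omega), Int.emod_eq_of_lt (by omega) (by omega)] at this
      exact_mod_cast this
  have hle : ⌊N * (t - w)⌋ ≤ ⌊N * (t + w)⌋ :=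
    Int.floor_le_floor (mul_le_mul_of_nonneg_left (by linarith) hN0.le)
  have h2 : ((Ioc ⌊N * (t - w)⌋ ⌊N * (t + w)⌋).card : ℝ) = ⌊N * (t + w)⌋ - ⌊N * (t - w)⌋ := by
    exact_mod_cast Int.card_Ioc_of_le _ _ hle
  have h3 := Int.floor_le (N * (t + w))
  have h4 := Int.lt_floor_add_one (N * (t - w))
  have h5 : (((range N).filter (fun j : ℕ => Near (flo ρ (j * ρ / N)) (w * ρ) x)).card : ℝ) ≤
      (Ioc ⌊N * (t - w)⌋ ⌊N * (t + w)⌋).card := by exact_mod_cast h1
  linarith

theorem exists_offset_C {ι : Type} (A : Finset α) (f : α → ℝ) (ρ : ℝ) (hρ : 0 < ρ) (I : Finset ι)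
    (a w : ι → ℝ) (ha : ∀ k ∈ I, 0 ≤ a k) (hw : ∀ k ∈ I, 0 < w k) :
    ∃ o : ℝ, ∑ k ∈ I, a k * (A.filter (fun p => Near (flo ρ o) (w k * ρ) (f p))).card ≤
      3 * A.card * ∑ k ∈ I, a k * w k := by
  obtain ⟨N, hN⟩ := exists_nat_gt (∑ k ∈ I, 1 / w k)
  have hs : 0 ≤ ∑ k ∈ I, 1 / w k := sum_nonneg fun k hk => (one_div_pos.2 (hw k hk)).le
  have hN0 : 0 < N := by exact_mod_cast hs.trans_lt hN
  have hN1 : ∀ k ∈ I, 1 ≤ w k * N := fun k hk => by
    have := (single_le_sum (f := fun k => 1 / w k) (fun k hk => (one_div_pos.2 (hw k hk)).le)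
      hk).trans hN.le
    rwa [div_le_iff₀' (hw k hk)] at this
  obtain ⟨j, -, hj⟩ := exists_le_of_sum_le (s := range N) (nonempty_range_iff.2 hN0.ne')
    (f := fun j : ℕ => ∑ k ∈ I,
      a k * (A.filter (fun p => Near (flo ρ (j * ρ / N)) (w k * ρ) (f p))).card)
    (g := fun _ => 3 * A.card * ∑ k ∈ I, a k * w k) (by
      rw [sum_comm, sum_const, card_range, nsmul_eq_mul, mul_sum, mul_sum]
      refine sum_le_sum fun k hk => ?_
      rw [← mul_sum]
      have h1 : ∑ j ∈ range N,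
          ((A.filter (fun p => Near (flo ρ (j * ρ / N)) (w k * ρ) (f p))).card : ℝ) =
          ∑ p ∈ A, (((range N).filter
            (fun j : ℕ => Near (flo ρ (j * ρ / N)) (w k * ρ) (f p))).card : ℝ) := by
        simp only [← sum_boole]
        exact sum_comm
      have h2 := sum_le_card_nsmul A _ _ fun p _ => near_count_C hρ (hw k hk) (hN1 k hk) (f p)
      rw [nsmul_eq_mul] at h2
      rw [h1]
      refine (mul_le_mul_of_nonneg_left h2 (ha k hk)).trans (le_of_eq ?_)
      ring)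
  exact ⟨_, hj⟩

theorem heavy_label_C {β : Type} (A : Finset α) (hA : A.Nonempty) (f : α → β) (n : ℝ)
    (hn : ((A.image f).card : ℝ) ≤ n) : ∃ p ∈ A, (A.card : ℝ) ≤ n * (cls A f p).card := by
  obtain ⟨p, hp, hmax⟩ := exists_max_image A (fun p => (cls A f p).card) hA
  refine ⟨p, hp, ?_⟩
  have h1 : A.card ≤ (cls A f p).card * (A.image f).card :=
    card_le_mul_card_image A _ fun b hb => by
      obtain ⟨q, hq, rfl⟩ := mem_image.1 hb
      exact hmax q hq
  have h2 : (A.card : ℝ) ≤ (cls A f p).card * (A.image f).card := by exact_mod_cast h1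
  rw [mul_comm]
  exact h2.trans (mul_le_mul_of_nonneg_left hn (Nat.cast_nonneg _))

theorem sum_cls_C {β : Type} (A : Finset α) (f : α → β) (F : Finset α → ℝ) :
    ∑ p ∈ A, F (cls A f p) =
      ∑ b ∈ A.image f, ((A.filter (fun q => f q = b)).card : ℝ) * F (A.filter (fun q => f q = b)) := by
  have := sum_comp (s := A) (fun b => F (A.filter (fun q => f q = b))) f
  simpa only [nsmul_eq_mul, cls] using this

theorem card_light_C {β : Type} (A : Finset α) (f : α → β) (n x : ℝ) (hx : 0 ≤ x)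
    (hn : ((A.image f).card : ℝ) ≤ n) :
    ((A.filter (fun p => ((cls A f p).card : ℝ) < x)).card : ℝ) ≤ n * x := by
  have h1 := sum_cls_C A f fun B => if (B.card : ℝ) < x then 1 else 0
  rw [sum_boole] at h1
  have h2 := sum_le_card_nsmul (A.image f) (fun b => ((A.filter (fun q => f q = b)).card : ℝ) *
    if ((A.filter (fun q => f q = b)).card : ℝ) < x then 1 else 0) x fun b _ => by
      split_ifs with h
      · rw [mul_one]; exact h.le
      · rw [mul_zero]; exact hx
  rw [nsmul_eq_mul] at h2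
  rw [h1]
  exact h2.trans (mul_le_mul_of_nonneg_right hn hx)

end
end Crest.Agent.R51
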