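import Crest.Agent.R51.GDefs
import Crest.Agent.R51.GToolsB
import Crest.Agent.R51.GToolsA
import Crest.Agent.R51.GToolsC

set_option autoImplicit false
open Classical Finset

namespace Crest.Agent.R51
noncomputable section

variable {α : Type}

theorem exists_median (A : Finset α) (f : α → ℝ) :
    ∃ c : ℝ, A.card ≤ 2 * (A.filter (fun p => f p ≤ c)).card ∧
      A.card ≤ 2 * (A.filter (fun p => c ≤ f p)).card :=
  exists_median_A A f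

/-- first elbow -/
theorem elbow (A : Finset α) (hA : A.Nonempty) (N : α → ℝ)
    (h0 : 2 * (A.filter (fun p => N p ≤ 0)).card ≤ A.card) (ϱ β m₀ : ℝ) (hϱ : 1 < ϱ) (hβ : 1 < β)
    (hm : 0 ≤ m₀) (hm' : m₀ < 1 / 2) :
    ∃ w : ℝ, 0 < w ∧ out A N (ϱ * w) ≤ m₀ * A.card ∧
      (∀ k : ℕ, β ^ k * out A N (ϱ ^ (k + 1) * w) ≤ out A N (ϱ * w)) ∧
      ((0 < out A N (ϱ * w) ∧ out A N w ≤ β * out A N (ϱ * w)) ∨
        (m₀ * A.card < out A N w ∧ β * out A N (ϱ * w) ≤ out A N w)) :=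
  elbow_A A hA N h0 ϱ β m₀ hϱ hβ hm hm'

theorem slot (A : Finset α) (f : α → ℝ) (u g : ℝ) (hg : 0 < g) (N : ℕ) (hN : 1 ≤ N) :
    ∃ j : ℕ, j < N ∧
      N * (A.filter (fun p => u + j * g < f p ∧ f p ≤ u + (j + 1) * g)).card ≤ A.card :=
  slot_A A f u g hg N hN

theorem grid_flo {ρ : ℝ} (hρ : 0 < ρ) (o : ℝ) : Grid ρ (flo ρ o) :=
  grid_flo_B hρ o

theorem grid_rfn {r ρ : ℝ} {g : ℝ → ℝ} (hg : Grid r g) (hρ : 0 < ρ) (o : ℝ) :
    Grid ρ (rfn g ρ o) :=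
  grid_rfn_B hg hρ o

theorem rfn_eq_iff {r ρ : ℝ} {g : ℝ → ℝ} (hg : Grid r g) (hρ : 0 < ρ) (o x y : ℝ) :
    rfn g ρ o x = rfn g ρ o y ↔ g x = g y ∧ flo ρ o x = flo ρ o y :=
  rfn_eq_iff_B hg hρ o x y

theorem Grid.mono {r : ℝ} {g : ℝ → ℝ} (hg : Grid r g) {x y : ℝ} (h : x ≤ y) : g x ≤ g y :=
  hg.mono_B h

theorem Grid.abs_lt {r : ℝ} {g : ℝ → ℝ} (hg : Grid r g) {x y : ℝ} (h : g x = g y) :
    |x - y| < r :=
  hg.abs_lt_B h

theorem Grid.eq_of_not_near {r w : ℝ} {g : ℝ → ℝ} (hg : Grid r g) {x y : ℝ} (h : ¬ Near g w x)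
    (hxy : |y - x| ≤ w) : g y = g x :=
  hg.eq_of_not_near_B h hxy

theorem Grid.near_mono {r w w' : ℝ} {g : ℝ → ℝ} (hg : Grid r g) {x : ℝ} (hw0 : 0 ≤ w) (hw : w ≤ w')
    (h : Near g w x) : Near g w' x :=
  hg.near_mono_B hw0 hw h

theorem near_rfn {r ρ w : ℝ} {g : ℝ → ℝ} (hg : Grid r g) (hρ : 0 < ρ) (o x : ℝ) :
    Near (rfn g ρ o) w x ↔ Near g w x ∨ Near (flo ρ o) w x :=
  near_rfn_B hg hρ o x

theorem Grid.sep {r w : ℝ} {g : ℝ → ℝ} (hg : Grid r g) (hw : 0 ≤ w) (A : Finset α) (f : α → ℝ)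
    (h : ∀ p ∈ A, ¬ Near g w (f p)) : Sep A (fun p => g (f p)) f w :=
  hg.sep_B hw A f h

/-- a good offset -/
theorem exists_offset {ι : Type} (A : Finset α) (f : α → ℝ) (ρ : ℝ) (hρ : 0 < ρ) (I : Finset ι)
    (a w : ι → ℝ) (ha : ∀ k ∈ I, 0 ≤ a k) (hw : ∀ k ∈ I, 0 < w k) :
    ∃ o : ℝ, ∑ k ∈ I, a k * (A.filter (fun p => Near (flo ρ o) (w k * ρ) (f p))).card ≤
      3 * A.card * ∑ k ∈ I, a k * w k := by
  exact exists_offset_C A f ρ hρ I a w ha hw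

theorem card_flo_labels (A : Finset α) (f : α → ℝ) {ρ : ℝ} (hρ : 0 < ρ) (o u L : ℝ) (hL : 0 ≤ L)
    (h : ∀ p ∈ A, u ≤ f p ∧ f p ≤ u + L) :
    ((A.image (fun p => flo ρ o (f p))).card : ℝ) ≤ L / ρ + 2 :=
  card_flo_labels_B A f hρ o u L hL h

/-- number of refined labels inside one class of the coarse grid -/
theorem card_rfn_labels (A : Finset α) (f : α → ℝ) {r ρ : ℝ} {g : ℝ → ℝ} (hg : Grid r g)
    (hρ : 0 < ρ) (o u L : ℝ) (hL : 0 ≤ L) (h : ∀ p ∈ A, u ≤ f p ∧ f p ≤ u + L)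
    (hsame : ∀ p ∈ A, ∀ q ∈ A, g (f p) = g (f q)) :
    ((A.image (fun p => rfn g ρ o (f p))).card : ℝ) ≤ L / ρ + 2 :=
  card_rfn_labels_B A f hρ o u L hL h hsame

theorem heavy_label {β : Type} (A : Finset α) (hA : A.Nonempty) (f : α → β) (n : ℝ)
    (hn : ((A.image f).card : ℝ) ≤ n) : ∃ p ∈ A, (A.card : ℝ) ≤ n * (cls A f p).card := by
  exact heavy_label_C A hA f n hn

/-- sums over points are sums over classes -/
theorem sum_cls {β : Type} (A : Finset α) (f : α → β) (F : Finset α → ℝ) :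
    ∑ p ∈ A, F (cls A f p) =
      ∑ b ∈ A.image f, ((A.filter (fun q => f q = b)).card : ℝ) * F (A.filter (fun q => f q = b)) := by
  exact sum_cls_C A f F

/-- points in light classes -/
theorem card_light {β : Type} (A : Finset α) (f : α → β) (n x : ℝ) (hx : 0 ≤ x)
    (hn : ((A.image f).card : ℝ) ≤ n) :
    ((A.filter (fun p => ((cls A f p).card : ℝ) < x)).card : ℝ) ≤ n * x := by
  exact card_light_C A f n x hx hn

theorem psi_le (lam c σ₁ x : ℝ) : psi lam c σ₁ x ≤ lam - 12 :=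
  psi_le_A lam c σ₁ x

theorem psi_ge {lam : ℝ} (hl : 0 ≤ lam) (c σ₁ x : ℝ) : -12 ≤ psi lam c σ₁ x :=
  psi_ge_A hl c σ₁ x

theorem psi_small {lam c σ₁ x : ℝ} (hl : 0 ≤ lam) (hc : 0 ≤ c) (hσ : 0 < σ₁) (hx : 0 < x)
    (h : x ≤ σ₁) : psi lam c σ₁ x = -12 :=
  psi_small_A hl hc hσ hx h

theorem psi_sub_le {lam c σ₁ x y : ℝ} (hc : 0 ≤ c) (hσ : 0 < σ₁) (hy : 0 < y) (h : y ≤ x) :
    psi lam c σ₁ x ≤ psi lam c σ₁ y + c * Real.log (x / y) :=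
  psi_sub_le_A hc hσ hy h

end
end Crest.Agent.R51
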