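import Crest.Agent.R51.Events

set_option autoImplicit false
open Classical Finset

namespace Crest.Agent.R51
noncomputable section

namespace B1

abbrev Ev := Pt × ℕ

theorem pigeon (A : Finset Ev) (B : Finset (ℕ × ℕ)) (f : Ev → ℕ × ℕ) (hf : ∀ a ∈ A, f a ∈ B)
    (x N : ℝ) (hx : 0 < x) (hN0 : 0 < N) (hN : (B.card : ℝ) ≤ N) (h : N * x ≤ A.card) :
    ∃ b ∈ B, x ≤ ((A.filter (fun a => f a = b)).card : ℝ) := by
  by_contra hcon
  push Not at hcon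
  have hA : A.Nonempty := by
    rw [← Finset.card_pos]
    have : (0 : ℝ) < A.card := lt_of_lt_of_le (mul_pos hN0 hx) h
    exact_mod_cast this
  obtain ⟨a, ha⟩ := hA
  have hB : B.Nonempty := ⟨_, hf a ha⟩
  have h1 : (A.card : ℝ) = ∑ b ∈ B, ((A.filter (fun a => f a = b)).card : ℝ) := by
    rw [Finset.card_eq_sum_card_fiberwise (f := f) (t := B) hf]
    push_cast
    rfl
  have h2 : ∑ b ∈ B, ((A.filter (fun a => f a = b)).card : ℝ) < ∑ _b ∈ B, x :=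
    Finset.sum_lt_sum_of_nonempty hB hcon
  rw [Finset.sum_const, nsmul_eq_mul] at h2
  nlinarith

theorem card_le_fib (A : Finset Ev) (B : Finset (ℕ × ℕ)) (f : Ev → ℕ × ℕ)
    (hf : ∀ a ∈ A, f a ∈ B) (x : ℝ)
    (h : ∀ b ∈ B, ((A.filter (fun a => f a = b)).card : ℝ) ≤ x) :
    (A.card : ℝ) ≤ B.card * x := by
  have h1 : (A.card : ℝ) = ∑ b ∈ B, ((A.filter (fun a => f a = b)).card : ℝ) := by
    rw [Finset.card_eq_sum_card_fiberwise (f := f) (t := B) hf]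
    push_cast
    rfl
  rw [h1]
  calc _ ≤ ∑ _b ∈ B, x := Finset.sum_le_sum h
    _ = _ := by rw [Finset.sum_const, nsmul_eq_mul]

theorem heavy (A : Finset Ev) (B : Finset (ℕ × ℕ)) (f : Ev → ℕ × ℕ) (hf : ∀ a ∈ A, f a ∈ B)
    (x N : ℝ) (hx : 0 ≤ x) (hN : (B.card : ℝ) ≤ N) (L : Finset (ℕ × ℕ))
    (hL : ∀ b ∈ B, x ≤ ((A.filter (fun a => f a = b)).card : ℝ) → b ∈ L) :
    (A.card : ℝ) ≤ N * x + (A.filter (fun a => f a ∈ L)).card := by
  have h0 := Finset.card_filter_add_card_filter_not (s := A) (fun a => f a ∈ L)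
  have h1 : ((A.filter (fun a => ¬ f a ∈ L)).card : ℝ) ≤ B.card * x := by
    refine card_le_fib _ B f (fun a ha => hf a (Finset.mem_filter.1 ha).1) x fun b hb => ?_
    by_cases hbL : b ∈ L
    · have : (A.filter (fun a => ¬ f a ∈ L)).filter (fun a => f a = b) = ∅ := by
        refine Finset.filter_eq_empty_iff.2 fun a ha hab => ?_
        exact (Finset.mem_filter.1 ha).2 (hab ▸ hbL)
      rw [this]
      simpa using hx
    · have h2 : ((A.filter (fun a => f a = b)).card : ℝ) < x := lt_of_not_ge fun h => hbL (hL b hb h)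
      refine le_trans ?_ h2.le
      exact_mod_cast Finset.card_le_card
        (Finset.filter_subset_filter _ (Finset.filter_subset _ _))
  have h3 : (A.card : ℝ) = (A.filter (fun a => f a ∈ L)).card +
      (A.filter (fun a => ¬ f a ∈ L)).card := by exact_mod_cast h0.symm
  have h4 : (B.card : ℝ) * x ≤ N * x := mul_le_mul_of_nonneg_right hN hx
  linarith

theorem win_lt {C : Finset ℕ} {w : ℕ × ℕ} (hw : w ∈ wins C) : w.1 < w.2 :=
  (mem_wins.1 hw).2.2.1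

theorem win_before {C : Finset ℕ} {w w' : ℕ × ℕ} (hw : w ∈ wins C) (hw' : w' ∈ wins C)
    (hne : w ≠ w') (h : w.1 ≤ w'.1) : w.2 ≤ w'.1 := by
  rcases win_disj hw hw' hne with h1 | h1
  · exact h1
  · have := win_lt hw'
    omega

theorem growth {C : Finset ℕ} (r : ℕ → ℝ) (c b : ℕ) (M : ℝ) (hM : 0 ≤ M)
    (hmono : ∀ i j, c ≤ i → i ≤ j → j ≤ b → r i ≤ r j) (𝒲 : Finset (ℕ × ℕ)) :
    ∀ c', c ≤ c' → c' ≤ b → (∀ w ∈ 𝒲, w ∈ wins C ∧ c ≤ w.1 ∧ w.2 ≤ c' ∧ (1 + M) * r w.1 ≤ r w.2) →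
      (1 + M * 𝒲.card) * r c ≤ r c' := by
  induction 𝒲 using Finset.induction_on_max_value (fun w : ℕ × ℕ => w.1) with
  | empty =>
    intro c' h1 h2 _
    simpa using hmono c c' le_rfl h1 h2
  | insert w s hws hmax ih =>
    intro c' h1 h2 h
    obtain ⟨hw, hcw, hwc, hr⟩ := h w (Finset.mem_insert_self _ _)
    have hlt := win_lt hw
    have ih' := ih w.1 hcw (by omega) fun w' hw' => by
      obtain ⟨g1, g2, _, g4⟩ := h w' (Finset.mem_insert_of_mem hw')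
      exact ⟨g1, g2, win_before g1 hw (fun e => hws (e ▸ hw')) (hmax w' hw'), g4⟩
    have h3 : r c ≤ r w.1 := hmono c w.1 le_rfl hcw (by omega)
    have h4 : r w.2 ≤ r c' := hmono w.2 c' (by omega) hwc h2
    rw [Finset.card_insert_of_notMem hws]
    push_cast
    nlinarith [mul_le_mul_of_nonneg_left h3 hM]

theorem parity_pick {C : Finset ℕ} (L : Finset (ℕ × ℕ)) (hL : L ⊆ wins C) (E : Finset Ev)
    (f : Ev → ℕ × ℕ) (y : ℝ) (h : 2 * y ≤ ((E.filter (fun a => f a ∈ L)).card : ℝ)) :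
    ∃ 𝓜 : Finset (ℕ × ℕ), 𝓜 ⊆ L ∧ y ≤ ((E.filter (fun a => f a ∈ 𝓜)).card : ℝ) ∧
      ∀ m ∈ 𝓜, ∀ m' ∈ 𝓜, m.1 < m'.1 → ∃ m'' ∈ L, m.2 ≤ m''.1 ∧ m''.2 ≤ m'.1 := by
  set rk : ℕ × ℕ → ℕ := fun m => (L.filter (fun m' => m'.1 < m.1)).card with hrk
  have key : ∀ m ∈ L, ∀ m' ∈ L, rk m % 2 = rk m' % 2 → m.1 < m'.1 →
      ∃ m'' ∈ L, m.2 ≤ m''.1 ∧ m''.2 ≤ m'.1 := by
    intro m hm m' hm' hpar hlt
    have h1 : rk m < rk m' := by
      refine Finset.card_lt_card ⟨fun z hz => ?_, fun hsub => ?_⟩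
      · rw [Finset.mem_filter] at hz ⊢
        exact ⟨hz.1, hz.2.trans hlt⟩
      · have := hsub (Finset.mem_filter.2 ⟨hm, hlt⟩)
        exact lt_irrefl _ (Finset.mem_filter.1 this).2
    by_contra hcon
    have h2 : L.filter (fun z => z.1 < m'.1) ⊆ insert m (L.filter (fun z => z.1 < m.1)) := by
      intro z hz
      rw [Finset.mem_filter] at hz
      rw [Finset.mem_insert, Finset.mem_filter]
      by_contra hz'
      push Not at hz'
      refine hcon ⟨z, hz.1, win_before (hL hm) (hL hz.1) (Ne.symm hz'.1) (hz'.2 hz.1),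
        win_before (hL hz.1) (hL hm') (fun e => ?_) hz.2.le⟩
      rw [e] at hz
      exact lt_irrefl _ hz.2
    have h3 : rk m' ≤ rk m + 1 :=
      (Finset.card_le_card h2).trans (Finset.card_insert_le _ _)
    omega
  have hsplit : ((E.filter (fun a => f a ∈ L)).card : ℝ) ≤
      (E.filter (fun a => f a ∈ L.filter (fun m => rk m % 2 = 0))).card +
      (E.filter (fun a => f a ∈ L.filter (fun m => rk m % 2 = 1))).card := by
    have : E.filter (fun a => f a ∈ L) ⊆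
        E.filter (fun a => f a ∈ L.filter (fun m => rk m % 2 = 0)) ∪
        E.filter (fun a => f a ∈ L.filter (fun m => rk m % 2 = 1)) := by
      intro a ha
      simp only [Finset.mem_union, Finset.mem_filter] at ha ⊢
      rcases Nat.mod_two_eq_zero_or_one (rk (f a)) with h0 | h0
      · exact Or.inl ⟨ha.1, ha.2, h0⟩
      · exact Or.inr ⟨ha.1, ha.2, h0⟩
    exact_mod_cast (Finset.card_le_card this).trans (Finset.card_union_le _ _)
  by_cases h0 : y ≤ ((E.filter (fun a => f a ∈ L.filter (fun m => rk m % 2 = 0))).card : ℝ)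
  · refine ⟨_, Finset.filter_subset _ _, h0, fun m hm m' hm' => ?_⟩
    rw [Finset.mem_filter] at hm hm'
    exact key m hm.1 m' hm'.1 (hm.2.trans hm'.2.symm)
  · refine ⟨L.filter (fun m => rk m % 2 = 1), Finset.filter_subset _ _, by linarith,
      fun m hm m' hm' => ?_⟩
    rw [Finset.mem_filter] at hm hm'
    exact key m hm.1 m' hm'.1 (hm.2.trans hm'.2.symm)

theorem Rr_pos {em ep t : ℝ} (h1 : em < t) (h2 : t < ep) : 0 < Rr em ep t :=
  div_pos (by linarith) (by linarith)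

theorem Rr_mono {em ep t t' : ℝ} (h1 : em < t) (h : t ≤ t') (h2 : t' < ep) :
    Rr em ep t ≤ Rr em ep t' :=
  div_le_div₀ (by linarith) (by linarith) (by linarith) (by linarith)

theorem ev_lt {P : Finset Pt} {S : ℕ → Finset Pt} {G : ℕ} {e : Ev} (he : e ∈ events P S G) :
    e.2 < G :=
  Finset.mem_range.1 (Finset.mem_product.1 (Finset.mem_filter.1 he).1).2

end B1

open B1 in
theorem long_windows (δ : ℝ) (hδ : 0 < δ) (s₀ : ℕ) : ∃ δ' : ℝ, 0 < δ' ∧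
    ∀ s₃ : ℕ, s₀ ≤ s₃ → ∀ μ : ℝ, 0 < μ → ∃ s₁ : ℕ, ∀ s : ℕ, s₁ ≤ s → ∃ Δ₀ : ℝ,
      ∀ (P : Finset Pt) (τ : ℕ → ℝ) (S : ℕ → Finset Pt) (G Q : ℕ) (Δ : ℝ) (𝒞 : ℕ → Finset ℕ)
      (ε₁ : ℝ), Setup P τ S G Q Δ 𝒞 ε₁ → Δ₀ ≤ Δ →
      δ * P.card * Δ ≤
        ((events P S G).filter (fun e => Wide τ G (𝒞 s₀) (𝒞 s) (1 / 2 ^ (35 * s)) e.2)).card →
      ∃ (b : ℕ × ℕ) (em ep : ℝ) (𝓜 : Finset (ℕ × ℕ)), b ∈ wins (𝒞 s₀) ∧ 𝓜 ⊆ wins (𝒞 s₃) ∧
        Lac τ b.1 b.2 em ep μ 𝓜 ∧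
        δ' * P.card * Δ ≤ ((events P S G).filter (fun e => winOf (𝒞 s₃) e.2 ∈ 𝓜)).card := by
  set N₀ : ℝ := 2 ^ 45 * ((1024 : ℝ) ^ s₀) ^ 4 with hN₀
  have hN₀p : 0 < N₀ := by positivity
  set δ₁ : ℝ := δ / N₀ with hδ₁
  have hδ₁p : 0 < δ₁ := div_pos hδ hN₀p
  refine ⟨δ₁ / 4, by positivity, fun s₃ hs₃ μ hμ => ?_⟩
  set N₃ : ℝ := 2 ^ 45 * ((1024 : ℝ) ^ s₃) ^ 4 with hN₃
  have hN₃p : 0 < N₃ := by positivity
  set c : ℝ := δ₁ / (2 * N₃) with hc
  have hcp : 0 < c := by positivity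
  obtain ⟨N, hN⟩ := pow_unbounded_of_one_lt (1000 / (c * μ ^ 2)) (by norm_num : (1 : ℝ) < 2)
  refine ⟨max s₃ N, fun s hs => ⟨2 * 1024 ^ s, fun P τ S G Q Δ 𝒞 ε₁ hS hΔ hW => ?_⟩⟩
  have hs₃s : s₃ ≤ s := le_trans (le_max_left _ _) hs
  have hNs : N ≤ s := le_trans (le_max_right _ _) hs
  have hsc : ∀ s', s' ≤ s → Scale P S G (𝒞 s') (1024 ^ s') := fun s' h =>
    hS.scale s' (le_trans (by
      have : (1024 : ℝ) ^ s' ≤ 1024 ^ s := pow_le_pow_right₀ (by norm_num) h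
      linarith) hΔ)
  have h0 := hsc s₀ (hs₃.trans hs₃s)
  have h3 := hsc s₃ hs₃s
  have hs' := hsc s le_rfl
  have hDp : 0 < Δ := hS.Dpos
  have hnp : (0 : ℝ) < P.card := by
    rw [← hS.Deq]
    have : (0 : ℝ) < Q := by exact_mod_cast hS.Qpos
    positivity
  have hnD : 0 < (P.card : ℝ) * Δ := mul_pos hnp hDp
  have hch := hS.chain
  set M : ℝ := 1 / 2 ^ (35 * s) with hM
  have hMp : 0 < M := by positivity
  set W := (events P S G).filter (fun e => Wide τ G (𝒞 s₀) (𝒞 s) M e.2) with hWdef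
  have hWev : ∀ e ∈ W, e ∈ events P S G := fun e he => (Finset.mem_filter.1 he).1
  -- the block
  obtain ⟨b, hb, hbW⟩ := pigeon W (wins (𝒞 s₀)) (fun e => winOf (𝒞 s₀) e.2)
    (fun e he => winOf_mem h0.cuts (ev_lt (hWev e he))) (δ₁ * (P.card * Δ)) N₀
    (mul_pos hδ₁p hnD) hN₀p
    (le_trans (by exact_mod_cast card_wins_le _) h0.card)
    (by
      have : N₀ * (δ₁ * (P.card * Δ)) = δ * P.card * Δ := by
        rw [hδ₁]; field_simp
      rw [this]; exact hW)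
  set Wb := W.filter (fun e => winOf (𝒞 s₀) e.2 = b) with hWb
  set em := τ (lo (𝒞 s₀) (b.1 - 1)) with hem
  set ep := τ (hi (𝒞 s₀) b.2) with hep
  have hWbp : ∀ e ∈ Wb, e ∈ events P S G ∧ lo (𝒞 s₀) e.2 = b.1 ∧ hi (𝒞 s₀) e.2 = b.2 ∧
      0 < b.1 ∧ b.2 < G ∧
      (1 + M) * Rr em ep (τ (lo (𝒞 s) e.2)) < Rr em ep (τ (hi (𝒞 s) e.2)) := by
    intro e he
    obtain ⟨he1, he2⟩ := Finset.mem_filter.1 he
    obtain ⟨he3, he4⟩ := Finset.mem_filter.1 he1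
    have e1 : lo (𝒞 s₀) e.2 = b.1 := congrArg Prod.fst he2
    have e2 : hi (𝒞 s₀) e.2 = b.2 := congrArg Prod.snd he2
    unfold Wide at he4
    rw [e1, e2] at he4
    exact ⟨he3, e1, e2, he4.1, he4.2.1, he4.2.2⟩
  have hWbne : Wb.Nonempty := by
    rw [← Finset.card_pos]
    have : (0 : ℝ) < Wb.card := lt_of_lt_of_le (mul_pos hδ₁p hnD) hbW
    exact_mod_cast this
  obtain ⟨e₀, he₀⟩ := hWbne
  obtain ⟨-, -, -, hb1, hb2, -⟩ := hWbp e₀ he₀
  have hb12 := win_lt hb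
  have hem_lt : em < τ b.1 := hch.mono _ _
    (lt_of_le_of_lt (lo_le _ _) (by omega)) (by omega)
  have hlt_ep : τ b.2 < ep := hch.mono _ _ (lt_hi h0.cuts hb2) (hi_le h0.cuts hb2)
  set r : ℕ → ℝ := fun i => Rr em ep (τ i) with hr
  have hrpos : ∀ i, b.1 ≤ i → i ≤ b.2 → 0 < r i := fun i h1 h2 =>
    Rr_pos (lt_of_lt_of_le hem_lt (hch.le h1 (by omega)))
      (lt_of_le_of_lt (hch.le h2 hb2.le) hlt_ep)
  have hrmono : ∀ i j, b.1 ≤ i → i ≤ j → j ≤ b.2 → r i ≤ r j := fun i j h1 h2 h3 =>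
    Rr_mono (lt_of_lt_of_le hem_lt (hch.le h1 (by omega))) (hch.le h2 (by omega))
      (lt_of_le_of_lt (hch.le h3 hb2.le) hlt_ep)
  -- the long windows
  set L := (wins (𝒞 s₃)).filter (fun m => c * (P.card * Δ) ≤
    ((Wb.filter (fun e => winOf (𝒞 s₃) e.2 = m)).card : ℝ)) with hLdef
  have hLw : L ⊆ wins (𝒞 s₃) := Finset.filter_subset _ _
  have hheavy := heavy Wb (wins (𝒞 s₃)) (fun e => winOf (𝒞 s₃) e.2)
    (fun e he => winOf_mem h3.cuts (ev_lt (hWbp e he).1)) (c * (P.card * Δ)) N₃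
    (mul_pos hcp hnD).le (le_trans (by exact_mod_cast card_wins_le _) h3.card) L
    (fun m hm h => Finset.mem_filter.2 ⟨hm, h⟩)
  have hLp : ∀ m ∈ L, (b.1 ≤ m.1 ∧ m.2 ≤ b.2) ∧ r m.1 ≤ μ ^ 2 * r m.2 := by
    intro m hm
    obtain ⟨hmw, hmc⟩ := Finset.mem_filter.1 hm
    set F := Wb.filter (fun e => winOf (𝒞 s₃) e.2 = m) with hF
    have hFp : ∀ e ∈ F, e ∈ Wb ∧ lo (𝒞 s₃) e.2 = m.1 ∧ hi (𝒞 s₃) e.2 = m.2 := by
      intro e he
      obtain ⟨he1, he2⟩ := Finset.mem_filter.1 he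
      exact ⟨he1, congrArg Prod.fst he2, congrArg Prod.snd he2⟩
    have hFne : F.Nonempty := by
      rw [← Finset.card_pos]
      have : (0 : ℝ) < F.card := lt_of_lt_of_le (mul_pos hcp hnD) hmc
      exact_mod_cast this
    obtain ⟨e₁, he₁⟩ := hFne
    have hin : b.1 ≤ m.1 ∧ m.2 ≤ b.2 := by
      obtain ⟨g1, g2, g3⟩ := hFp e₁ he₁
      obtain ⟨g4, g5, g6, -⟩ := hWbp e₁ g1
      have := win_nest h0.cuts h3.cuts (hS.nest _ _ hs₃) (ev_lt g4)
      omega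
    refine ⟨hin, ?_⟩
    have hm12 := win_lt hmw
    set 𝒲 := F.image (fun e => winOf (𝒞 s) e.2) with h𝒲
    have hg := growth (C := 𝒞 s) r m.1 b.2 M hMp.le
      (fun i j h1 h2 h3 => hrmono i j (hin.1.trans h1) h2 h3) 𝒲 m.2 hm12.le hin.2 (by
        intro w hw
        obtain ⟨e, he, rfl⟩ := Finset.mem_image.1 hw
        obtain ⟨g1, g2, g3⟩ := hFp e he
        obtain ⟨g4, -, -, -, -, g5⟩ := hWbp e g1
        have := win_nest h3.cuts hs'.cuts (hS.nest _ _ hs₃s) (ev_lt g4)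
        refine ⟨winOf_mem hs'.cuts (ev_lt g4), ?_, ?_, g5.le⟩
        · change m.1 ≤ lo (𝒞 s) e.2
          omega
        · change hi (𝒞 s) e.2 ≤ m.2
          omega)
    have hJ1 : (1 : ℝ) ≤ 1024 ^ s := one_le_pow₀ (by norm_num)
    have hJp : (0 : ℝ) < ((1024 : ℝ) ^ s) ^ 4 := by positivity
    have hcard : (F.card : ℝ) ≤ 𝒲.card * (1000 * P.card * Δ / ((1024 : ℝ) ^ s) ^ 4) := by
      refine card_le_fib F 𝒲 (fun e => winOf (𝒞 s) e.2)
        (fun e he => Finset.mem_image_of_mem _ he) _ fun w hw => ?_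
      obtain ⟨e, he, hew⟩ := Finset.mem_image.1 hw
      have hww : w ∈ wins (𝒞 s) := by
        rw [← hew]
        exact winOf_mem hs'.cuts (ev_lt (hWbp e (hFp e he).1).1)
      have h5 := win_events hS.toBase hJ1 (by linarith) hs' hww
      rw [le_div_iff₀ hJp]
      refine le_trans (mul_le_mul_of_nonneg_right ?_ hJp.le) h5
      exact_mod_cast Finset.card_le_card (Finset.filter_subset_filter _
        fun z hz => (hWbp z (hFp z hz).1).1)
    have hk : c * ((1024 : ℝ) ^ s) ^ 4 ≤ 1000 * 𝒲.card := by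
      have h6 : c * (P.card * Δ) ≤ 𝒲.card * (1000 * P.card * Δ / ((1024 : ℝ) ^ s) ^ 4) :=
        hmc.trans hcard
      rw [← mul_div_assoc, le_div_iff₀ hJp] at h6
      refine le_of_mul_le_mul_right ?_ hnD
      nlinarith
    have hJM : ((1024 : ℝ) ^ s) ^ 4 * M = 2 ^ (5 * s) := by
      rw [hM, ← pow_mul, show (1024 : ℝ) = 2 ^ 10 by norm_num, ← pow_mul,
        show 10 * (s * 4) = 5 * s + 35 * s by ring, pow_add]
      field_simp
    have h2N : (2 : ℝ) ^ N ≤ 2 ^ (5 * s) := pow_le_pow_right₀ (by norm_num) (by omega)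
    have hcμ : 0 < c * μ ^ 2 := by positivity
    rw [div_lt_iff₀ hcμ] at hN
    have hkM : 1 ≤ μ ^ 2 * (M * 𝒲.card) := by
      have h7 : c * 2 ^ (5 * s) ≤ 1000 * (M * 𝒲.card) := by
        rw [← hJM]
        nlinarith [mul_le_mul_of_nonneg_right hk hMp.le]
      have h8 : 2 ^ N * (c * μ ^ 2) ≤ 2 ^ (5 * s) * (c * μ ^ 2) :=
        mul_le_mul_of_nonneg_right h2N hcμ.le
      have h9 := mul_le_mul_of_nonneg_left h7 (sq_nonneg μ)
      nlinarith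
    have hr1 := hrpos m.1 hin.1 (by omega)
    have h10 := mul_le_mul_of_nonneg_left hg (sq_nonneg μ)
    have h11 := mul_le_mul_of_nonneg_right hkM hr1.le
    have h12 : 0 ≤ μ ^ 2 * r m.1 := by positivity
    nlinarith
  obtain ⟨𝓜, h𝓜L, h𝓜c, h𝓜g⟩ := parity_pick L hLw Wb (fun e => winOf (𝒞 s₃) e.2)
    (δ₁ / 4 * (P.card * Δ)) (by
      have : N₃ * (c * (P.card * Δ)) = δ₁ / 2 * (P.card * Δ) := by
        rw [hc]; field_simp
      rw [this] at hheavy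
      linarith)
  refine ⟨b, em, ep, 𝓜, hb, h𝓜L.trans hLw, ⟨hem_lt, hlt_ep, fun m hm => (hLp m (h𝓜L hm)).1,
    fun m hm => (hLp m (h𝓜L hm)).2, fun m hm m' hm' hlt => ?_⟩, ?_⟩
  · obtain ⟨z, hz, hz1, hz2⟩ := h𝓜g m hm m' hm' hlt
    obtain ⟨⟨a1, a2⟩, -⟩ := hLp m (h𝓜L hm)
    obtain ⟨⟨a3, a4⟩, -⟩ := hLp m' (h𝓜L hm')
    obtain ⟨⟨a5, a6⟩, a7⟩ := hLp z hz
    have l1 := win_lt (hLw (h𝓜L hm))
    have l2 := win_lt (hLw (h𝓜L hm'))
    have l3 := win_lt (hLw hz)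
    have b1 : r m.2 ≤ r z.1 := hrmono _ _ (by omega) hz1 (by omega)
    have b2 : r z.2 ≤ r m'.1 := hrmono _ _ (by omega) hz2 (by omega)
    exact b1.trans (a7.trans (mul_le_mul_of_nonneg_left b2 (sq_nonneg μ)))
  · rw [mul_assoc]
    refine h𝓜c.trans ?_
    exact_mod_cast Finset.card_le_card (Finset.filter_subset_filter _
      fun z hz => (hWbp z hz).1)

end
end Crest.Agent.R51
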