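import Crest.Agent.R51.Defs

set_option autoImplicit false
open Classical Finset

namespace Crest.Agent.R51
noncomputable section

/-- many points have many events in the same seven blocks -/
theorem pick {α : Type} (P : Finset α) (Ev : Finset (α × ℕ)) (blk : ℕ → ℕ) (Bl : Finset ℕ)
    (δ h N x y : ℝ) (hδ : 0 < δ) (hh : 0 < h) (hx : 0 < x) (hN : 0 < N) (hP : P.Nonempty)
    (hEv : ∀ e ∈ Ev, e.1 ∈ P ∧ blk e.2 ∈ Bl) (hBl : (Bl.card : ℝ) ≤ N)
    (hmany : δ * P.card * x ≤ Ev.card)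
    (hdeg : ∀ p ∈ P, ((Ev.filter (fun e => e.1 = p)).card : ℝ) ≤ h * x)
    (hblk : ∀ p ∈ P, ∀ c ∈ Bl, ((Ev.filter (fun e => e.1 = p ∧ blk e.2 = c)).card : ℝ) ≤ y)
    (hy : 28 * y ≤ δ * x) :
    ∃ β : Fin 7 → ℕ, StrictMono β ∧ (∀ j, β j ∈ Bl) ∧ ∃ G' : Finset α, G' ⊆ P ∧
      δ * P.card ≤ 2 * h * N ^ 7 * G'.card ∧
      ∀ p ∈ G', ∀ j, δ * x ≤ 4 * N * (Ev.filter (fun e => e.1 = p ∧ blk e.2 = β j)).card := by
  have hδx : 0 < δ * x := mul_pos hδ hx
  set d : α → ℝ := fun p => ((Ev.filter (fun e => e.1 = p)).card : ℝ) with hd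
  set dd : α → ℕ → ℝ := fun p c => ((Ev.filter (fun e => e.1 = p ∧ blk e.2 = c)).card : ℝ) with hdd
  have h1 : (Ev.card : ℝ) = ∑ p ∈ P, d p := by
    rw [Finset.card_eq_sum_card_fiberwise (f := Prod.fst) (s := Ev) (t := P)
      (fun e he => (hEv e he).1)]
    push_cast
    rfl
  have h2 : ∀ p, d p = ∑ c ∈ Bl, dd p c := by
    intro p
    simp only [hd, hdd]
    rw [Finset.card_eq_sum_card_fiberwise (f := fun e : α × ℕ => blk e.2)
      (s := Ev.filter (fun e => e.1 = p)) (t := Bl) (fun e he => (hEv e (mem_filter.mp he).1).2)]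
    push_cast
    refine Finset.sum_congr rfl fun c _ => ?_
    rw [Finset.filter_filter]
  set good := P.filter (fun p => δ * x ≤ 2 * d p) with hgood
  have h3 : δ * P.card ≤ 2 * h * good.card := by
    rw [h1, ← Finset.sum_filter_add_sum_filter_not P (fun p => δ * x ≤ 2 * d p)] at hmany
    have e1 : ∑ p ∈ good, d p ≤ good.card * (h * x) := by
      rw [← nsmul_eq_mul]
      exact Finset.sum_le_card_nsmul _ _ _ fun p hp => hdeg p (mem_filter.mp hp).1
    have e2 : ∑ p ∈ P.filter (fun p => ¬ δ * x ≤ 2 * d p), d p ≤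
        (P.filter (fun p => ¬ δ * x ≤ 2 * d p)).card * (δ * x / 2) := by
      rw [← nsmul_eq_mul]
      refine Finset.sum_le_card_nsmul _ _ _ fun p hp => ?_
      have := not_le.mp (mem_filter.mp hp).2
      linarith
    have e3 : ((P.filter (fun p => ¬ δ * x ≤ 2 * d p)).card : ℝ) * (δ * x / 2) ≤
        P.card * (δ * x / 2) :=
      mul_le_mul_of_nonneg_right (by exact_mod_cast card_filter_le _ _) (by positivity)
    refine le_of_mul_le_mul_right ?_ hx
    nlinarith
  set heavy : α → Finset ℕ := fun p => Bl.filter (fun c => δ * x ≤ 4 * N * dd p c) with hheavy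
  have h4 : ∀ p ∈ good, 7 ≤ (heavy p).card := by
    intro p hp
    by_contra hlt
    have e0 : ((heavy p).card : ℝ) ≤ 6 := by exact_mod_cast (by omega : (heavy p).card ≤ 6)
    have e1 := (mem_filter.mp hp).2
    rw [h2, ← Finset.sum_filter_add_sum_filter_not Bl (fun c => δ * x ≤ 4 * N * dd p c)] at e1
    have e2 : ∑ c ∈ heavy p, dd p c ≤ (heavy p).card * (δ * x / 28) := by
      rw [← nsmul_eq_mul]
      refine Finset.sum_le_card_nsmul _ _ _ fun c hc => ?_
      have := hblk p (mem_filter.mp hp).1 c (mem_filter.mp hc).1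
      simp only [hdd]
      linarith
    have e3 : ∑ c ∈ Bl.filter (fun c => ¬ δ * x ≤ 4 * N * dd p c), dd p c ≤
        (Bl.filter (fun c => ¬ δ * x ≤ 4 * N * dd p c)).card * (δ * x / (4 * N)) := by
      rw [← nsmul_eq_mul]
      refine Finset.sum_le_card_nsmul _ _ _ fun c hc => ?_
      have := not_le.mp (mem_filter.mp hc).2
      rw [le_div_iff₀ (by positivity)]
      linarith
    have e4 : ((Bl.filter (fun c => ¬ δ * x ≤ 4 * N * dd p c)).card : ℝ) * (δ * x / (4 * N)) ≤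
        N * (δ * x / (4 * N)) :=
      mul_le_mul_of_nonneg_right (le_trans (by exact_mod_cast card_filter_le _ _) hBl)
        (by positivity)
    have e5 : N * (δ * x / (4 * N)) = δ * x / 4 := by field_simp
    have e6 : ((heavy p).card : ℝ) * (δ * x / 28) ≤ 6 * (δ * x / 28) :=
      mul_le_mul_of_nonneg_right e0 (by positivity)
    linarith
  have h5 : ∀ p ∈ good, ∃ S ∈ Bl.powersetCard 7, S ⊆ heavy p := by
    intro p hp
    obtain ⟨S, hS, hc⟩ := Finset.exists_subset_card_eq (h4 p hp)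
    exact ⟨S, mem_powersetCard.mpr ⟨hS.trans (filter_subset _ _), hc⟩, hS⟩
  have hPpos : (0 : ℝ) < P.card := by exact_mod_cast hP.card_pos
  have hgne : good.Nonempty := by
    rw [Finset.nonempty_iff_ne_empty]
    intro h0
    rw [h0, card_empty, Nat.cast_zero, mul_zero] at h3
    nlinarith [mul_pos hδ hPpos]
  obtain ⟨p₀, hp₀⟩ := hgne
  obtain ⟨S₀, hS₀, -⟩ := h5 p₀ hp₀
  obtain ⟨S, hS, hmax⟩ := Finset.exists_max_image (Bl.powersetCard 7)
    (fun S => (good.filter (fun p => S ⊆ heavy p)).card) ⟨S₀, hS₀⟩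
  have h6 : good.card ≤ Bl.card ^ 7 * (good.filter (fun p => S ⊆ heavy p)).card := by
    have e1 : good ⊆ (Bl.powersetCard 7).biUnion (fun S => good.filter (fun p => S ⊆ heavy p)) := by
      intro p hp
      obtain ⟨S', hS', hs⟩ := h5 p hp
      exact mem_biUnion.mpr ⟨S', hS', mem_filter.mpr ⟨hp, hs⟩⟩
    refine (card_le_card e1).trans ((card_biUnion_le_card_mul _ _ _ hmax).trans ?_)
    rw [card_powersetCard]
    exact Nat.mul_le_mul_right _ (Nat.choose_le_pow _ _)
  have h7 : (good.card : ℝ) ≤ N ^ 7 * (good.filter (fun p => S ⊆ heavy p)).card := by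
    have e1 : (good.card : ℝ) ≤ (Bl.card : ℝ) ^ 7 * (good.filter (fun p => S ⊆ heavy p)).card := by
      exact_mod_cast h6
    exact e1.trans (mul_le_mul_of_nonneg_right (pow_le_pow_left₀ (Nat.cast_nonneg _) hBl 7)
      (Nat.cast_nonneg _))
  obtain ⟨hSB, hS7⟩ := mem_powersetCard.mp hS
  refine ⟨S.orderEmbOfFin hS7, (S.orderEmbOfFin hS7).strictMono,
    fun j => hSB (S.orderEmbOfFin_mem hS7 j), good.filter (fun p => S ⊆ heavy p),
    (filter_subset _ _).trans (filter_subset _ _), ?_, fun p hp j => ?_⟩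
  · have := mul_le_mul_of_nonneg_left h7 (by positivity : (0 : ℝ) ≤ 2 * h)
    calc δ * P.card ≤ 2 * h * good.card := h3
      _ ≤ 2 * h * (N ^ 7 * (good.filter (fun p => S ⊆ heavy p)).card) := this
      _ = _ := by ring
  · exact (mem_filter.mp ((mem_filter.mp hp).2 (S.orderEmbOfFin_mem hS7 j))).2

end
end Crest.Agent.R51
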