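import Crest.Agent.R51.SysBOf
import Crest.Agent.R51.Events
import Crest.Agent.R51.Pick
import Crest.Agent.R51.Cuts

set_option autoImplicit false
open Classical Finset

namespace Crest.Agent.R51
noncomputable section

namespace B2

variable {P : Finset Pt} {τ : ℕ → ℝ} {S : ℕ → Finset Pt} {G : ℕ} {C C' : Finset ℕ}

theorem mem_events {e : Pt × ℕ} (he : e ∈ events P S G) : e.1 ∈ P ∧ e.2 < G := by
  have := mem_product.1 (mem_filter.1 he).1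
  exact ⟨this.1, mem_range.1 this.2⟩

theorem Rr_nonneg {em ep t : ℝ} (h1 : em ≤ t) (h2 : t < ep) : 0 ≤ Rr em ep t :=
  div_nonneg (by linarith) (by linarith)

theorem Rr_mono {em ep t t' : ℝ} (h1 : em ≤ t) (h : t ≤ t') (h2 : t' < ep) :
    Rr em ep t ≤ Rr em ep t' := by
  unfold Rr
  exact div_le_div₀ (by linarith) (by linarith) (by linarith) (by linarith)

theorem lo_self {c : ℕ} (hc : c ∈ C) : lo C c = c := le_antisymm (lo_le _ _) (le_lo hc le_rfl)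

theorem winOf_lo (hC : Cuts G C) {i : ℕ} (hi' : i < G) : winOf C (lo C i) = winOf C i :=
  winOf_eq hC (winOf_mem hC hi') le_rfl (lt_of_le_of_lt (lo_le C i) (lt_hi hC hi'))

/-- events of one point in one window -/
theorem card_le_deg (hC : Cuts G C) {E : Finset (Pt × ℕ)} (hE : E ⊆ events P S G) {p : Pt}
    {w : ℕ × ℕ} (hw : w ∈ wins C) (hp : p ∈ P) (h : ∀ e ∈ E, e.1 = p ∧ winOf C e.2 = w) :
    E.card ≤ deg S w.1 w.2 p := by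
  rw [← card_events_win (P := P) hC hw hp]
  exact card_le_card fun e he => mem_filter.2 ⟨hE he, h e he⟩

theorem card_le_of_dW (hC : Cuts G C) {E : Finset (Pt × ℕ)} (hE : E ⊆ events P S G) {p : Pt}
    {w : ℕ × ℕ} (h : ∀ e ∈ E, e.1 = p ∧ winOf C e.2 = w) {y : ℝ} (hy : 0 ≤ y)
    (hd : ∀ e ∈ E, (dW S C e : ℝ) ≤ y) : (E.card : ℝ) ≤ y := by
  rcases E.eq_empty_or_nonempty with rfl | ⟨e, he⟩
  · simpa using hy
  · obtain ⟨h1, h2⟩ := h e he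
    have hm := mem_events (hE he)
    have h3 := card_le_deg hC hE (h2 ▸ winOf_mem hC hm.2) (h1 ▸ hm.1) h
    refine le_trans ?_ (hd e he)
    have h4 : dW S C e = deg S w.1 w.2 p := by
      rw [← h2, ← h1]
      rfl
    rw [h4]
    exact_mod_cast h3

theorem lo_lo (hC : Cuts G C) (hC' : Cuts G C') (h : C ⊆ C') {i : ℕ} (hi' : i < G) :
    lo C (lo C' i) = lo C i :=
  le_antisymm (lo_mono C (lo_le C' i)) (le_lo (lo_mem hC i) (win_nest hC hC' h hi').1)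

/-- removing four small sets -/
theorem card_good {α : Type} (E : Finset α) (M p₀ p₁ p₂ p₃ : α → Prop) [DecidablePred M]
    [DecidablePred p₀] [DecidablePred p₁] [DecidablePred p₂] [DecidablePred p₃] :
    ((E.filter M).card : ℝ) ≤
      (E.filter fun e => M e ∧ ¬ p₀ e ∧ ¬ p₁ e ∧ ¬ p₂ e ∧ ¬ p₃ e).card + (E.filter p₀).card +
        (E.filter p₁).card + (E.filter p₂).card + (E.filter p₃).card := by
  have h : E.filter M ⊆ (E.filter fun e => M e ∧ ¬ p₀ e ∧ ¬ p₁ e ∧ ¬ p₂ e ∧ ¬ p₃ e) ∪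
      E.filter p₀ ∪ E.filter p₁ ∪ E.filter p₂ ∪ E.filter p₃ := by
    intro e he
    simp only [mem_union, mem_filter] at he ⊢
    tauto
  have h1 := card_le_card h
  have h2 := card_union_le ((E.filter fun e => M e ∧ ¬ p₀ e ∧ ¬ p₁ e ∧ ¬ p₂ e ∧ ¬ p₃ e) ∪
      E.filter p₀ ∪ E.filter p₁ ∪ E.filter p₂) (E.filter p₃)
  have h3 := card_union_le ((E.filter fun e => M e ∧ ¬ p₀ e ∧ ¬ p₁ e ∧ ¬ p₂ e ∧ ¬ p₃ e) ∪
      E.filter p₀ ∪ E.filter p₁) (E.filter p₂)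
  have h4 := card_union_le ((E.filter fun e => M e ∧ ¬ p₀ e ∧ ¬ p₁ e ∧ ¬ p₂ e ∧ ¬ p₃ e) ∪
      E.filter p₀) (E.filter p₁)
  have h5 := card_union_le (E.filter fun e => M e ∧ ¬ p₀ e ∧ ¬ p₁ e ∧ ¬ p₂ e ∧ ¬ p₃ e)
      (E.filter p₀)
  have : (E.filter M).card ≤
      (E.filter fun e => M e ∧ ¬ p₀ e ∧ ¬ p₁ e ∧ ¬ p₂ e ∧ ¬ p₃ e).card + (E.filter p₀).card +
        (E.filter p₁).card + (E.filter p₂).card + (E.filter p₃).card := by omega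
  exact_mod_cast this

/-- the geometric input of `sysB_of` -/
theorem geom (hch : Chain P τ S G) {C₀ C₂ C₃ : Finset ℕ} (h₀ : Cuts G C₀) (h₂ : Cuts G C₂)
    (h₃ : Cuts G C₃) (h02 : C₀ ⊆ C₂) (h23 : C₂ ⊆ C₃) {b : ℕ × ℕ} (hb : b ∈ wins C₀)
    {em ep μ : ℝ} {𝓜 : Finset (ℕ × ℕ)} (h𝓜 : 𝓜 ⊆ wins C₃) (hμ : 0 < μ) (hμ1 : μ ≤ 1)
    (hL : Lac τ b.1 b.2 em ep μ 𝓜) (β : Fin 7 → ℕ) (hβ : StrictMono β) (i : Fin 7 → ℕ)
    (hiG : ∀ j, i j < G) (hi1 : ∀ j, lo C₂ (i j) = β j) (hi2 : ∀ j, winOf C₃ (i j) ∈ 𝓜) :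
    hi C₂ (β 0) ≤ β 4 ∧ em < τ (β 0) ∧ τ (hi C₂ (β 4)) < ep ∧
    (∀ m ∈ 𝓜.filter (fun m => lo C₂ m.1 = β 2), hi C₂ (β 0) ≤ m.1 ∧ m.1 < m.2 ∧ m.2 ≤ β 4 ∧
      Rr em ep (τ (hi C₂ (β 0))) ≤ μ ^ 2 * Rr em ep (τ m.1) ∧
      Rr em ep (τ m.2) ≤ μ ^ 2 * Rr em ep (τ (β 4))) ∧
    Rr em ep (τ (hi C₂ (β 0))) ≤ μ ^ 4 * Rr em ep (τ (β 4)) ∧
    (∀ m ∈ 𝓜.filter (fun m => lo C₂ m.1 = β 2), ∀ m' ∈ 𝓜.filter (fun m => lo C₂ m.1 = β 2),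
      m ≠ m' → Rr em ep (τ m.2) ≤ μ * Rr em ep (τ m'.1) ∨
        Rr em ep (τ m'.2) ≤ μ * Rr em ep (τ m.1)) := by
  have hbG := win_le h₀ hb
  have hβC : ∀ j, β j ∈ C₂ := fun j => hi1 j ▸ lo_mem h₂ _
  have hβi : ∀ j, β j ≤ i j := fun j => hi1 j ▸ lo_le _ _
  have hβG : ∀ j, β j < G := fun j => lt_of_le_of_lt (hβi j) (hiG j)
  have hhi : ∀ j, hi C₂ (β j) = hi C₂ (i j) := fun j => by
    have := winOf_lo h₂ (hiG j)
    rw [hi1 j] at this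
    exact congrArg Prod.snd this
  have hin : ∀ j, b.1 ≤ β j ∧ hi C₂ (β j) ≤ b.2 := fun j => by
    have h1 := hL.inside _ (hi2 j)
    have h2 : winOf C₀ (i j) = b :=
      winOf_eq h₀ hb (le_trans h1.1 (lo_le _ _)) (lt_of_lt_of_le (lt_hi h₃ (hiG j)) h1.2)
    have h3 := win_nest h₀ h₂ h02 (hiG j)
    rw [hhi j, ← hi1 j, ← h2]
    exact h3
  have hnext : ∀ j j', j < j' → hi C₂ (β j) ≤ β j' := fun j j' h => hi_le_of_mem (hβC j') (hβ h)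
  have hm1 : ∀ j, β j ≤ lo C₃ (i j) ∧ hi C₃ (i j) ≤ hi C₂ (β j) := fun j => by
    have := win_nest h₂ h₃ h23 (hiG j)
    rw [hi1 j, ← hhi j] at this
    exact this
  have hτ1 : ∀ k, b.1 ≤ k → k ≤ b.2 → em < τ k := fun k h1 h2 =>
    lt_of_lt_of_le hL.em_lt (hch.le h1 (h2.trans hbG.2))
  have hτ2 : ∀ k, k ≤ b.2 → τ k < ep := fun k h2 => lt_of_le_of_lt (hch.le h2 hbG.2) hL.lt_ep
  have hR : ∀ k k', b.1 ≤ k → k ≤ k' → k' ≤ b.2 → Rr em ep (τ k) ≤ Rr em ep (τ k') :=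
    fun k k' h1 h2 h3 => Rr_mono (hτ1 k h1 (h2.trans h3)).le (hch.le h2 (h3.trans hbG.2)) (hτ2 k' h3)
  have hβlt : ∀ j, β j < hi C₂ (β j) := fun j => lt_hi h₂ (hβG j)
  -- jumping over a block
  have hjump : ∀ j k k', b.1 ≤ k → k ≤ β j → hi C₂ (β j) ≤ k' → k' ≤ b.2 →
      Rr em ep (τ k) ≤ μ ^ 2 * Rr em ep (τ k') := by
    intro j k k' h1 h2 h3 h4
    have h5 := hL.long _ (hi2 j)
    have h6 := hL.inside _ (hi2 j)
    have h7 := win_le h₃ (h𝓜 (hi2 j))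
    calc Rr em ep (τ k) ≤ Rr em ep (τ (winOf C₃ (i j)).1) :=
          hR _ _ h1 (h2.trans (hm1 j).1) (h7.1.le.trans h6.2)
      _ ≤ μ ^ 2 * Rr em ep (τ (winOf C₃ (i j)).2) := h5
      _ ≤ _ := mul_le_mul_of_nonneg_left
          (hR _ _ (h6.1.trans h7.1.le) ((hm1 j).2.trans h3) h4) (by positivity)
  have hb0 : b.1 ≤ hi C₂ (β 0) := (hin 0).1.trans (hβlt 0).le
  have hb4 : β 4 ≤ b.2 := (hβlt 4).le.trans (hin 4).2
  refine ⟨hnext 0 4 (by decide), hτ1 _ (hin 0).1 ((hβlt 0).le.trans (hin 0).2),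
    hτ2 _ (hin 4).2, ?_, ?_, ?_⟩
  · intro m hm
    obtain ⟨hm, hlo⟩ := mem_filter.1 hm
    have hw := win_le h₃ (h𝓜 hm)
    have hins := hL.inside m hm
    have h1 : β 2 ≤ m.1 := hlo ▸ lo_le _ _
    have hmG : m.1 < G := lt_of_lt_of_le hw.1 hw.2
    have h2 : m.2 ≤ β 3 := by
      have h3 : winOf C₃ m.1 = m := winOf_eq h₃ (h𝓜 hm) le_rfl hw.1
      have h4 : hi C₃ m.1 = m.2 := congrArg Prod.snd h3
      have h5 : m.1 < β 3 := by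
        by_contra h6
        have h7 := le_lo (hβC 3) (not_lt.1 h6)
        rw [hlo] at h7
        exact absurd (hβ (show (2 : Fin 7) < 3 by decide)) (not_lt.2 h7)
      rw [← h4]
      exact hi_le_of_mem (h23 (hβC 3)) h5
    refine ⟨(hnext 0 2 (by decide)).trans h1, hw.1,
      h2.trans (hβ.monotone (show (3 : Fin 7) ≤ 4 by decide)), ?_, ?_⟩
    · exact hjump 1 _ _ hb0 (hnext 0 1 (by decide)) ((hnext 1 2 (by decide)).trans h1)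
        (hw.1.le.trans hins.2)
    · exact hjump 3 _ _ (hins.1.trans hw.1.le) h2 (hnext 3 4 (by decide)) hb4
  · have h1 := hjump 1 (hi C₂ (β 0)) (β 2) hb0 (hnext 0 1 (by decide)) (hnext 1 2 (by decide))
      ((hβlt 2).le.trans (hin 2).2)
    have h2 := hjump 3 (β 2) (β 4) (hin 2).1 (hβ.monotone (show (2 : Fin 7) ≤ 3 by decide))
      (hnext 3 4 (by decide)) hb4
    calc _ ≤ _ := h1
      _ ≤ μ ^ 2 * (μ ^ 2 * Rr em ep (τ (β 4))) := mul_le_mul_of_nonneg_left h2 (by positivity)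
      _ = _ := by ring
  · have key : ∀ m ∈ 𝓜, ∀ m' ∈ 𝓜, m.1 < m'.1 → Rr em ep (τ m.2) ≤ μ * Rr em ep (τ m'.1) := by
      intro m hm m' hm' hlt
      have h1 := hL.gap m hm m' hm' hlt
      have hw := win_le h₃ (h𝓜 hm')
      have hins := hL.inside m' hm'
      have h2 : 0 ≤ Rr em ep (τ m'.1) :=
        Rr_nonneg (hτ1 _ hins.1 (hw.1.le.trans hins.2)).le (hτ2 _ (hw.1.le.trans hins.2))
      refine h1.trans (mul_le_mul_of_nonneg_right ?_ h2)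
      nlinarith
    intro m hm m' hm' hne
    have hm1' := (mem_filter.1 hm).1
    have hm2' := (mem_filter.1 hm').1
    have hw := win_le h₃ (h𝓜 hm1')
    have hw' := win_le h₃ (h𝓜 hm2')
    rcases win_disj (h𝓜 hm1') (h𝓜 hm2') hne with h | h
    · exact Or.inl (key m hm1' m' hm2' (lt_of_lt_of_le hw.1 h))
    · exact Or.inr (key m' hm2' m hm1' (lt_of_lt_of_le hw'.1 h))

/-- `pick` without filters -/
theorem pick' {α : Type} (P : Finset α) (Ev : Finset (α × ℕ)) (blk : ℕ → ℕ) (Bl : Finset ℕ)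
    (δ h N x y : ℝ) (hδ : 0 < δ) (hh : 0 < h) (hx : 0 < x) (hN : 0 < N) (hP : P.Nonempty)
    (hEv : ∀ e ∈ Ev, e.1 ∈ P ∧ blk e.2 ∈ Bl) (hBl : (Bl.card : ℝ) ≤ N)
    (hmany : δ * P.card * x ≤ Ev.card)
    (hdeg : ∀ p, ∀ E ⊆ Ev, (∀ e ∈ E, e.1 = p) → (E.card : ℝ) ≤ h * x)
    (hblk : ∀ p c, ∀ E ⊆ Ev, (∀ e ∈ E, e.1 = p ∧ blk e.2 = c) → (E.card : ℝ) ≤ y)
    (hy : 28 * y ≤ δ * x) :
    ∃ β : Fin 7 → ℕ, StrictMono β ∧ (∀ j, β j ∈ Bl) ∧ ∃ G' : Finset α, G' ⊆ P ∧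
      δ * P.card ≤ 2 * h * N ^ 7 * G'.card ∧
      ∀ p ∈ G', ∀ j, ∃ E ⊆ Ev, (∀ e ∈ E, e.1 = p ∧ blk e.2 = β j) ∧ δ * x ≤ 4 * N * E.card := by
  obtain ⟨β, h1, h2, G', h3, h4, h5⟩ := pick P Ev blk Bl δ h N x y hδ hh hx hN hP hEv hBl hmany
    (fun p _ => hdeg p _ (filter_subset _ _) fun e he => (mem_filter.1 he).2)
    (fun p _ c _ => hblk p c _ (filter_subset _ _) fun e he => (mem_filter.1 he).2) hy
  exact ⟨β, h1, h2, G', h3, h4, fun p hp j =>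
    ⟨_, filter_subset _ _, fun e he => (mem_filter.1 he).2, h5 p hp j⟩⟩

theorem exists_pow (x : ℝ) (s₀ : ℕ) : ∃ s : ℕ, s₀ ≤ s ∧ x ≤ (1024 : ℝ) ^ s := by
  obtain ⟨k, hk⟩ := pow_unbounded_of_one_lt x (show (1 : ℝ) < 1024 by norm_num)
  exact ⟨max k s₀, le_max_right _ _,
    hk.le.trans (pow_le_pow_right₀ (by norm_num) (le_max_left _ _))⟩

end B2

theorem mainB2 (hB : CoreB) (δ' : ℝ) (hδ : 0 < δ') (s₀ : ℕ) :
    ∃ s₃ : ℕ, s₀ ≤ s₃ ∧ ∃ μ : ℝ, 0 < μ ∧ ∃ Δ₀ : ℝ,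
      ∀ (P : Finset Pt) (τ : ℕ → ℝ) (S : ℕ → Finset Pt) (G Q : ℕ) (Δ : ℝ) (𝒞 : ℕ → Finset ℕ)
      (ε₁ : ℝ), Setup P τ S G Q Δ 𝒞 ε₁ → Δ₀ ≤ Δ →
      ∀ (b : ℕ × ℕ) (em ep : ℝ) (𝓜 : Finset (ℕ × ℕ)), b ∈ wins (𝒞 s₀) → 𝓜 ⊆ wins (𝒞 s₃) →
        Lac τ b.1 b.2 em ep μ 𝓜 →
        δ' * P.card * Δ ≤ ((events P S G).filter (fun e => winOf (𝒞 s₃) e.2 ∈ 𝓜)).card →
        False := by
  obtain ⟨h, hh, K, hK, HD⟩ := hd_events (δ' / 100) (by positivity)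
  obtain ⟨θ, hθ, hθ1⟩ : ∃ θ : ℝ, 0 < θ ∧ 2 ^ 49 * θ = δ' / 100 :=
    ⟨δ' / 100 / 2 ^ 49, by positivity, by field_simp⟩
  obtain ⟨δ, hδ0, hδ2⟩ : ∃ δ : ℝ, 0 < δ ∧ δ = δ' / 2 := ⟨_, by positivity, rfl⟩
  have hh0 : 0 < h := by linarith
  obtain ⟨s₂, hs₂, hJ₂⟩ := B2.exists_pow (28 * h / δ) s₀
  obtain ⟨J₂, hJ₂e⟩ : ∃ J : ℝ, J = 1024 ^ s₂ := ⟨_, rfl⟩
  have hJ₂1 : 1 ≤ J₂ := hJ₂e ▸ one_le_pow₀ (by norm_num)
  have hJ₂0 : 0 < J₂ := by linarith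
  rw [← hJ₂e] at hJ₂
  obtain ⟨N, hNe⟩ : ∃ N : ℝ, N = 2 ^ 45 * J₂ ^ 4 := ⟨_, rfl⟩
  have hN0 : 0 < N := by rw [hNe]; positivity
  obtain ⟨γ, hγ0, hγe⟩ : ∃ γ : ℝ, 0 < γ ∧ γ * (2 * h * N ^ 7) = δ :=
    ⟨δ / (2 * h * N ^ 7), by positivity, by field_simp⟩
  obtain ⟨d₀, hd₀0, hd₀1, hd₀2⟩ : ∃ d : ℝ, 0 < d ∧ d ≤ 1 ∧ 4 * N * d ≤ δ :=
    ⟨min 1 (δ / (4 * N)), lt_min one_pos (by positivity), min_le_left _ _, by
      have := min_le_right 1 (δ / (4 * N))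
      rw [le_div_iff₀ (by positivity)] at this
      linarith⟩
  obtain ⟨C, hC1, hC2, hC3, hC4, hC5, hC6, hC7⟩ : ∃ C : ℝ, 1 ≤ C ∧ 1 / γ ≤ C ∧
      4608 / d₀ ^ 3 ≤ C ∧ 4608 / θ ^ 3 ≤ C ∧ 4 * N * h / δ ≤ C ∧ 2 ^ 45 ≤ C ∧ 2 ^ 49 / γ ≤ C := by
    have a1 : 0 < 1 / γ := by positivity
    have a2 : 0 < 4608 / d₀ ^ 3 := by positivity
    have a3 : 0 < 4608 / θ ^ 3 := by positivity
    have a4 : 0 < 4 * N * h / δ := by positivity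
    have a5 : 0 < 2 ^ 49 / γ := by positivity
    have a6 : (0 : ℝ) < 2 ^ 45 := by positivity
    exact ⟨1 + 1 / γ + 4608 / d₀ ^ 3 + 4608 / θ ^ 3 + 4 * N * h / δ + 2 ^ 45 + 2 ^ 49 / γ,
      by linarith, by linarith, by linarith, by linarith, by linarith, by linarith, by linarith⟩
  obtain ⟨J₁, HJ⟩ := hB C hC1
  obtain ⟨s₃, hs₃, hJ₃⟩ := B2.exists_pow J₁ s₂
  obtain ⟨J₃, hJ₃e⟩ : ∃ J : ℝ, J = 1024 ^ s₃ := ⟨_, rfl⟩
  have hJ₃1 : 1 ≤ J₃ := hJ₃e ▸ one_le_pow₀ (by norm_num)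
  have hJ₃0 : 0 < J₃ := by linarith
  rw [← hJ₃e] at hJ₃
  obtain ⟨μ₀, hμ₀, D₀, HB⟩ := HJ J₃ hJ₃
  have hD := abs_nonneg D₀
  have hD' := le_abs_self D₀
  refine ⟨s₃, hs₂.trans hs₃, min μ₀ 1, lt_min hμ₀ one_pos,
    1 + 2 * K * J₃ + 24 * |D₀| / d₀ + 24 * |D₀| * J₃ / θ + |D₀| / γ, ?_⟩
  intro P τ S G Q Δ 𝒞 ε₁ hS hΔ b em ep 𝓜 hb h𝓜 hL hmany
  obtain ⟨hΔ1, hΔ2, hΔ3, hΔ4, hΔ5⟩ : 1 ≤ Δ ∧ 2 * K * J₃ ≤ Δ ∧ 24 * |D₀| / d₀ ≤ Δ ∧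
      24 * |D₀| * J₃ / θ ≤ Δ ∧ |D₀| / γ ≤ Δ := by
    have a1 : 0 ≤ 2 * K * J₃ := by positivity
    have a2 : 0 ≤ 24 * |D₀| / d₀ := by positivity
    have a3 : 0 ≤ 24 * |D₀| * J₃ / θ := by positivity
    have a4 : 0 ≤ |D₀| / γ := by positivity
    exact ⟨by linarith, by linarith, by linarith, by linarith, by linarith⟩
  have hΔ0 : 0 < Δ := hS.Dpos
  have hBase : Base P τ S G Q Δ := hS.toBase
  have hQ1 : (1 : ℝ) ≤ Q := by exact_mod_cast hS.Qpos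
  have hnΔ : Δ ≤ P.card := by
    rw [← hS.Deq]
    have : Δ ≤ Δ ^ 3 := le_self_pow₀ hΔ1 (by norm_num)
    nlinarith
  have hn0 : (0 : ℝ) < P.card := by linarith
  have hJle : ∀ s, s ≤ s₃ → (1 : ℝ) ≤ 1024 ^ s ∧ K * 1024 ^ s ≤ Δ ∧
      Scale P S G (𝒞 s) (1024 ^ s) := by
    intro s hs
    have a1 : (1024 : ℝ) ^ s ≤ J₃ := hJ₃e ▸ pow_le_pow_right₀ (by norm_num) hs
    have a2 : (1 : ℝ) ≤ 1024 ^ s := one_le_pow₀ (by norm_num)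
    have a3 : K * 1024 ^ s ≤ K * J₃ := mul_le_mul_of_nonneg_left a1 (by linarith)
    have a4 : J₃ ≤ K * J₃ := le_mul_of_one_le_left hJ₃0.le hK
    exact ⟨a2, by linarith, hS.scale s (by linarith)⟩
  obtain ⟨-, -, hsc⟩ := hJle s₀ (hs₂.trans hs₃)
  obtain ⟨b0, b0', hsc0⟩ := hJle 0 (Nat.zero_le _)
  obtain ⟨-, b2', hsc2⟩ := hJle s₂ hs₃
  obtain ⟨-, b3', hsc3⟩ := hJle s₃ le_rfl
  rw [← hJ₂e] at b2' hsc2
  rw [← hJ₃e] at b3' hsc3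
  have e0 := HD P τ S G Q Δ _ _ hBase b0 b0' hsc0
  have e2 := HD P τ S G Q Δ _ _ hBase hJ₂1 b2' hsc2
  have e3 := HD P τ S G Q Δ _ _ hBase hJ₃1 b3' hsc3
  have e4 := low_events hBase hJ₃1 hsc3 θ hθ.le
  have e5 := B2.card_good (events P S G) (fun e => winOf (𝒞 s₃) e.2 ∈ 𝓜)
    (fun e => h * Δ / 1024 ^ 0 < dW S (𝒞 0) e) (fun e => h * Δ / J₂ < dW S (𝒞 s₂) e)
    (fun e => h * Δ / J₃ < dW S (𝒞 s₃) e) (fun e => (dW S (𝒞 s₃) e : ℝ) < θ * Δ / J₃)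
  obtain ⟨Ev, hEv, hEvs, hEvp⟩ : ∃ Ev : Finset (Pt × ℕ), δ * P.card * Δ ≤ Ev.card ∧
      Ev ⊆ events P S G ∧ ∀ e ∈ Ev, winOf (𝒞 s₃) e.2 ∈ 𝓜 ∧ (dW S (𝒞 0) e : ℝ) ≤ h * Δ ∧
        (dW S (𝒞 s₂) e : ℝ) ≤ h * Δ / J₂ ∧ (dW S (𝒞 s₃) e : ℝ) ≤ h * Δ / J₃ ∧
        θ * Δ / J₃ ≤ dW S (𝒞 s₃) e := by
    refine ⟨(events P S G).filter fun e => winOf (𝒞 s₃) e.2 ∈ 𝓜 ∧
      ¬ (h * Δ / 1024 ^ 0 < dW S (𝒞 0) e) ∧ ¬ (h * Δ / J₂ < dW S (𝒞 s₂) e) ∧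
      ¬ (h * Δ / J₃ < dW S (𝒞 s₃) e) ∧ ¬ ((dW S (𝒞 s₃) e : ℝ) < θ * Δ / J₃), ?_,
      filter_subset _ _, ?_⟩
    · rw [hθ1] at e4
      have a1 : 0 < δ' * P.card * Δ := by positivity
      have a2 : δ * P.card * Δ = 1 / 2 * (δ' * P.card * Δ) := by rw [hδ2]; ring
      have a3 : δ' / 100 * P.card * Δ = 1 / 100 * (δ' * P.card * Δ) := by ring
      rw [a3] at e0 e2 e3 e4
      rw [a2]
      linarith
    · intro e he
      obtain ⟨-, a1, a2, a3, a4, a5⟩ := mem_filter.1 he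
      rw [pow_zero, div_one] at a2
      exact ⟨a1, not_lt.1 a2, not_lt.1 a3, not_lt.1 a4, not_lt.1 a5⟩
  clear e0 e2 e3 e4 e5
  have hmem : ∀ e ∈ Ev, e.1 ∈ P ∧ e.2 < G := fun e he => B2.mem_events (hEvs he)
  have hwin : ∀ p c, ∀ E ⊆ Ev, (∀ e ∈ E, e.1 = p ∧ lo (𝒞 s₂) e.2 = c) →
      ∀ e ∈ E, e.1 = p ∧ winOf (𝒞 s₂) e.2 = winOf (𝒞 s₂) c := fun p c E hE hE' e he =>
    ⟨(hE' e he).1, by
      rw [← (hE' e he).2]
      exact (B2.winOf_lo hsc2.cuts (hmem e (hE he)).2).symm⟩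
  obtain ⟨β, hβ, hβB, A₀, hA₀P, hA₀c, hA₀⟩ := B2.pick' P Ev (lo (𝒞 s₂)) ((𝒞 s₂).filter (· < G))
    δ h N Δ (h * Δ / J₂) hδ0 hh0 hΔ0 hN0 (card_pos.1 (by exact_mod_cast hn0))
    (fun e he => ⟨(hmem e he).1, mem_filter.2 ⟨lo_mem hsc2.cuts _,
      lt_of_le_of_lt (lo_le _ _) (hmem e he).2⟩⟩)
    (by
      rw [hNe]
      refine le_trans ?_ hsc2.card
      exact_mod_cast card_filter_le _ _)
    hEv
    (fun p E hE hE' => B2.card_le_of_dW hsc0.cuts (hE.trans hEvs) (p := p) (w := (0, G))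
      (fun e he => ⟨hE' e he, by
        have hG := (hmem e (hE he)).2
        refine winOf_eq hsc0.cuts (mem_wins.2 ⟨hsc0.cuts.zero, hsc0.cuts.top, by omega, ?_⟩)
          (Nat.zero_le _) hG
        intro c hc
        rw [hS.zero] at hc
        simp only [mem_insert, mem_singleton] at hc
        rcases hc with rfl | rfl
        · exact Or.inl le_rfl
        · exact Or.inr le_rfl⟩)
      (by positivity) (fun e he => (hEvp e (hE he)).2.1))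
    (fun p c E hE hE' => B2.card_le_of_dW hsc2.cuts (hE.trans hEvs) (hwin p c E hE hE')
      (by positivity) (fun e he => (hEvp e (hE he)).2.2.1))
    (by
      rw [div_le_iff₀ hδ0] at hJ₂
      rw [← mul_div_assoc, div_le_iff₀ hJ₂0]
      nlinarith)
  have hγn : γ * P.card ≤ A₀.card := by
    rw [← hγe] at hA₀c
    have a1 : (2 * h * N ^ 7) * (γ * P.card) ≤ (2 * h * N ^ 7) * A₀.card := by linarith
    exact le_of_mul_le_mul_left a1 (by positivity)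
  have hA₀0 : (0 : ℝ) < A₀.card := lt_of_lt_of_le (by positivity) hγn
  have hA₀n : (A₀.card : ℝ) ≤ P.card := by exact_mod_cast card_le_card hA₀P
  obtain ⟨p₀, hp₀⟩ : A₀.Nonempty := card_pos.1 (by exact_mod_cast hA₀0)
  have hex : ∀ j, ∃ i, i < G ∧ lo (𝒞 s₂) i = β j ∧ winOf (𝒞 s₃) i ∈ 𝓜 := by
    intro j
    obtain ⟨E, hE, hE', a1⟩ := hA₀ p₀ hp₀ j
    have a2 : E.Nonempty := by
      rw [nonempty_iff_ne_empty]
      rintro rfl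
      have a3 : 0 < δ * Δ := by positivity
      simp only [card_empty, Nat.cast_zero, mul_zero] at a1
      linarith
    obtain ⟨e, he⟩ := a2
    exact ⟨e.2, (hmem e (hE he)).2, (hE' e he).2, (hEvp e (hE he)).1⟩
  choose i hiG hi1 hi2 using hex
  obtain ⟨g1, g2, g3, g4, g5, g6⟩ := B2.geom hS.chain hsc.cuts hsc2.cuts hsc3.cuts
    (hS.nest _ _ hs₂) (hS.nest _ _ hs₃) hb h𝓜 (lt_min hμ₀ one_pos) (min_le_right _ _) hL β hβ i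
    hiG hi1 hi2
  have hβC : ∀ j, β j ∈ 𝒞 s₂ := fun j => (mem_filter.1 (hβB j)).1
  have hβG : ∀ j, β j < G := fun j => (mem_filter.1 (hβB j)).2
  have hdeg : ∀ p ∈ A₀, ∀ j, d₀ * Δ ≤ deg S (β j) (hi (𝒞 s₂) (β j)) p := by
    intro p hp j
    obtain ⟨E, hE, hE', a1⟩ := hA₀ p hp j
    have a2 := B2.card_le_deg hsc2.cuts (hE.trans hEvs) (winOf_mem hsc2.cuts (hβG j)) (hA₀P hp)
      (hwin p _ E hE hE')
    have a3 : (winOf (𝒞 s₂) (β j)).1 = β j := B2.lo_self (hβC j)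
    have a4 : (winOf (𝒞 s₂) (β j)).2 = hi (𝒞 s₂) (β j) := rfl
    rw [a3, a4] at a2
    have a5 : (E.card : ℝ) ≤ deg S (β j) (hi (𝒞 s₂) (β j)) p := by exact_mod_cast a2
    have a6 : 4 * N * (d₀ * Δ) ≤ 4 * N * deg S (β j) (hi (𝒞 s₂) (β j)) p := by
      calc 4 * N * (d₀ * Δ) = 4 * N * d₀ * Δ := by ring
        _ ≤ δ * Δ := mul_le_mul_of_nonneg_right hd₀2 hΔ0.le
        _ ≤ _ := a1
        _ ≤ _ := mul_le_mul_of_nonneg_left a5 (by positivity)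
    exact le_of_mul_le_mul_left a6 (by positivity)
  have hQd : (Q : ℝ) * (d₀ * Δ) ^ 3 / 4608 = P.card * d₀ ^ 3 / 4608 := by
    rw [← hS.Deq]; ring
  have hQm : (Q : ℝ) * (θ * Δ / J₃) ^ 3 / 4608 = P.card * θ ^ 3 / 4608 / J₃ ^ 3 := by
    rw [← hS.Deq]; field_simp
  obtain ⟨X, Y, Ta, Tc, s, Tm, lw, up, H, hsys, hTm⟩ := sysB_of hBase (β 0, hi (𝒞 s₂) (β 0))
    (β 4, hi (𝒞 s₂) (β 4)) (𝓜.filter (fun m => lo (𝒞 s₂) m.1 = β 2)) em ep (min μ₀ 1)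
    (lt_min hμ₀ one_pos) (min_le_right _ _) (lt_hi hsc2.cuts (hβG 0)) g1
    (lt_hi hsc2.cuts (hβG 4)) (hi_le hsc2.cuts (hβG 4)) g2 g3 g4 g5 g6 A₀ hA₀P (d₀ * Δ)
    (θ * Δ / J₃) (by positivity) (by positivity) (fun p hp => ⟨hdeg p hp 0, hdeg p hp 4⟩)
    (by
      rw [hQd]
      have a1 : d₀ ^ 3 ≤ 1 := pow_le_one₀ hd₀0.le hd₀1
      nlinarith)
  have hnC : (P.card : ℝ) ≤ 1 / γ * A₀.card := by
    rw [one_div, inv_mul_eq_div, le_div_iff₀ hγ0]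
    linarith
  have hsub : 𝓜.filter (fun m => lo (𝒞 s₂) m.1 = β 2) ⊆ wins (𝒞 s₃) :=
    (filter_subset _ _).trans h𝓜
  refine HB _ _ A₀ X Y Ta Tc s _ Tm _ lw up _ H _ _ _ _ hsys (min_le_left _ _) ?_ ?_ ?_ ?_ ?_ ?_
    ?_ ?_
  · exact hnC.trans (mul_le_mul_of_nonneg_right hC2 hA₀0.le)
  · rw [hQd]
    calc (A₀.card : ℝ) ≤ P.card := hA₀n
      _ = 4608 / d₀ ^ 3 * (P.card * d₀ ^ 3 / 4608) := by field_simp
      _ ≤ _ := mul_le_mul_of_nonneg_right hC3 (by positivity)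
  · rw [hQm]
    calc (A₀.card : ℝ) ≤ P.card := hA₀n
      _ = 4608 / θ ^ 3 * (J₃ ^ 3 * (P.card * θ ^ 3 / 4608 / J₃ ^ 3)) := by field_simp
      _ ≤ C * (J₃ ^ 3 * (P.card * θ ^ 3 / 4608 / J₃ ^ 3)) :=
          mul_le_mul_of_nonneg_right hC4 (by positivity)
      _ = _ := by ring
  · intro p hp
    obtain ⟨E, hE, hE', a1⟩ := hA₀ p hp 2
    obtain ⟨R, hR⟩ : ∃ R, R = (𝓜.filter (fun m => lo (𝒞 s₂) m.1 = β 2)).filter
      (fun m => p ∈ P.filter (fun p => θ * Δ / J₃ ≤ deg S m.1 m.2 p)) := ⟨_, rfl⟩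
    have a2 : ∀ e ∈ E, winOf (𝒞 s₃) e.2 ∈ R := by
      intro e he
      obtain ⟨c2, c3⟩ := hE' e he
      have c1 := hE he
      rw [hR]
      refine mem_filter.2 ⟨mem_filter.2 ⟨(hEvp e c1).1, ?_⟩, mem_filter.2 ⟨hA₀P hp, ?_⟩⟩
      · rw [← c3]
        exact B2.lo_lo hsc2.cuts hsc3.cuts (hS.nest _ _ hs₃) (hmem e c1).2
      · rw [← c2]
        exact (hEvp e c1).2.2.2.2
    have a3 : (E.card : ℝ) ≤ R.card * (h * Δ / J₃) := by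
      rw [card_eq_sum_card_fiberwise a2]
      push_cast
      rw [← nsmul_eq_mul]
      refine sum_le_card_nsmul _ _ _ fun m _ => ?_
      exact B2.card_le_of_dW hsc3.cuts
        ((filter_subset _ _).trans (hE.trans hEvs)) (p := p) (w := m)
        (fun e he => ⟨(hE' e (mem_filter.1 he).1).1, (mem_filter.1 he).2⟩)
        (by positivity) (fun e he => (hEvp e (hE (mem_filter.1 he).1)).2.2.2.1)
    have a4 : δ * Δ ≤ 4 * N * (R.card * (h * Δ / J₃)) :=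
      a1.trans (mul_le_mul_of_nonneg_left a3 (by positivity))
    have a5 : J₃ ≤ 4 * N * h / δ * R.card := by
      have a6 : 4 * N * (R.card * (h * Δ / J₃)) = (4 * N * h / δ * R.card) * (δ * Δ / J₃) := by
        field_simp
      have a7 : δ * Δ = J₃ * (δ * Δ / J₃) := by field_simp
      rw [a6] at a4
      have a8 : J₃ * (δ * Δ / J₃) ≤ (4 * N * h / δ * R.card) * (δ * Δ / J₃) := by
        rw [← a7]; exact a4
      exact le_of_mul_le_mul_right a8 (by positivity)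
    refine a5.trans (le_trans (mul_le_mul_of_nonneg_right hC5 (by positivity)) (le_of_eq ?_))
    rw [hR]
    congr 3
    ext m
    simp only [mem_filter]
  · calc ((𝓜.filter (fun m => lo (𝒞 s₂) m.1 = β 2)).card : ℝ) ≤ (𝒞 s₃).card := by
          exact_mod_cast (card_le_card hsub).trans (card_wins_le _)
      _ ≤ 2 ^ 45 * J₃ ^ 4 := hsc3.card
      _ ≤ _ := mul_le_mul_of_nonneg_right hC6 (by positivity)
  · calc _ ≤ ∑ m ∈ 𝓜.filter (fun m => lo (𝒞 s₂) m.1 = β 2), ((act S m.1 m.2).card : ℝ) :=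
          sum_le_sum fun m hm => le_trans (le_of_eq (by
            congr 1
            ext x
            simp only [mem_inter])) (hTm m hm)
      _ ≤ ∑ m ∈ wins (𝒞 s₃), ((act S m.1 m.2).card : ℝ) :=
          sum_le_sum_of_subset_of_nonneg hsub (fun _ _ _ => by positivity)
      _ ≤ 2 ^ 49 * P.card * J₃ := sum_act_le hJ₃1 hsc3
      _ ≤ 2 ^ 49 * (1 / γ * A₀.card) * J₃ := by gcongr
      _ = 2 ^ 49 / γ * (J₃ * A₀.card) := by ring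
      _ ≤ C * (J₃ * A₀.card) := mul_le_mul_of_nonneg_right hC7 (by positivity)
      _ = _ := by ring
  · rw [div_le_iff₀ hd₀0] at hΔ3
    rw [div_le_iff₀ hθ] at hΔ4
    rw [le_div_iff₀ (by norm_num), le_min_iff, le_div_iff₀ hJ₃0]
    constructor
    · linarith
    · have := mul_le_mul_of_nonneg_right hD' hJ₃0.le
      linarith
  · rw [div_le_iff₀ hγ0] at hΔ5
    have := mul_le_mul_of_nonneg_left hnΔ hγ0.le
    linarith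

end
end Crest.Agent.R51
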