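import Crest.Agent.R51.Shallow

set_option autoImplicit false
open Classical Finset

namespace Crest.Agent.R51
noncomputable section

variable {P : Finset Pt} {τ : ℕ → ℝ} {S : ℕ → Finset Pt} {G : ℕ}

theorem ref_greedy (ρ : ℕ) (hρ : 1 ≤ ρ) (hs : ∀ i, i < G → (U S i).card ≤ ρ) (d : ℕ) :
    ∀ a, a ≤ G → G - a ≤ d → ∃ (c : ℕ → ℕ) (G' : ℕ), c 0 = a ∧
      (∀ i j, i < j → j ≤ G' → c i < c j) ∧ c G' ≤ G ∧
      (∀ i, i < G' → ρ ≤ (S (c i) \ S (c (i + 1))).card ∧
        (S (c i) \ S (c (i + 1))).card ≤ 2 * ρ) ∧ (S (c G') \ S G).card ≤ 2 * ρ := by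
  induction d with
  | zero =>
    intro a ha hd
    have : a = G := by omega
    subst this
    exact ⟨fun _ => a, 0, rfl, fun i j h1 h2 => by omega, le_rfl, fun i hi => by omega, by simp⟩
  | succ d ih =>
    intro a ha hd
    by_cases hlt : (S a \ S G).card < ρ
    · exact ⟨fun _ => a, 0, rfl, fun i j h1 h2 => by omega, ha, fun i hi => by omega,
        by simp only; omega⟩
    have hex : ∃ j, a ≤ j ∧ ρ ≤ (S a \ S j).card := ⟨G, ha, by omega⟩
    obtain ⟨hj1, hj2⟩ := Nat.find_spec hex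
    have hjG : Nat.find hex ≤ G := Nat.find_min' hex ⟨ha, by omega⟩
    have hmin := fun m => @Nat.find_min _ _ hex m
    generalize Nat.find hex = j at hj1 hj2 hjG hmin
    have hne : j ≠ a := by
      rintro rfl
      simp at hj2
      omega
    obtain ⟨k, rfl⟩ : ∃ k, j = k + 1 := ⟨j - 1, by omega⟩
    have hk : (S a \ S k).card < ρ := by
      have := hmin k (by omega)
      by_contra hc
      exact this ⟨by omega, by omega⟩
    have hsub : S a \ S (k + 1) ⊆ (S a \ S k) ∪ U S k := by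
      intro p hp
      simp only [U, Finset.mem_union, Finset.mem_sdiff] at hp ⊢
      tauto
    have hj3 : (S a \ S (k + 1)).card ≤ 2 * ρ := by
      have h1 := (Finset.card_le_card hsub).trans (Finset.card_union_le _ _)
      have h2 := hs k (by omega)
      omega
    obtain ⟨c, G', h0, hm, hG, hst, hl⟩ := ih (k + 1) hjG (by omega)
    refine ⟨fun n => Nat.casesOn n a c, G' + 1, rfl, ?_, hG, ?_, hl⟩
    · intro i j hij hj
      obtain ⟨j, rfl⟩ : ∃ k, j = k + 1 := ⟨j - 1, by omega⟩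
      cases i with
      | zero =>
        show a < c j
        rcases Nat.eq_zero_or_pos j with rfl | hj0
        · omega
        · have := hm 0 j hj0 (by omega)
          omega
      | succ i => exact hm i j (by omega) (by omega)
    · intro i hi
      cases i with
      | zero =>
        show ρ ≤ (S a \ S (c 0)).card ∧ (S a \ S (c 0)).card ≤ 2 * ρ
        rw [h0]
        exact ⟨hj2, hj3⟩
      | succ i => exact hst i (by omega)

/-- greedy cutting by net change -/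
theorem net_cuts (h : Chain P τ S G) (ρ : ℕ) (hρ : 1 ≤ ρ) (hs : ∀ i, i < G → (U S i).card ≤ ρ)
    (g : ℝ)
    (hg : ∀ (c : ℕ → ℕ) (G' : ℕ), (∀ i j, i < j → j ≤ G' → c i < c j) → c G' ≤ G →
      (∀ i, i < G' → ρ ≤ (S (c i) \ S (c (i + 1))).card ∧
        (S (c i) \ S (c (i + 1))).card ≤ 2 * ρ) → (G' : ℝ) ≤ g) :
    ∃ C : Finset ℕ, Cuts G C ∧ (C.card : ℝ) ≤ g + 2 ∧
      ∀ w ∈ wins C, (S w.1 \ S w.2).card ≤ 2 * ρ := by
  obtain ⟨c, G', h0, hm, hG, hst, hl⟩ := ref_greedy ρ hρ hs G 0 (Nat.zero_le _) (by omega)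
  have hle : ∀ i, i ≤ G' → c i ≤ G := fun i hi => by
    rcases hi.eq_or_lt with rfl | hi
    · exact hG
    · exact (hm i G' hi le_rfl).le.trans hG
  refine ⟨insert G ((Finset.range (G' + 1)).image c), ⟨?_, by simp, ?_⟩, ?_, ?_⟩
  · exact Finset.mem_insert_of_mem (Finset.mem_image.2 ⟨0, by simp, h0⟩)
  · intro x hx
    rcases Finset.mem_insert.1 hx with rfl | hx
    · exact le_rfl
    · obtain ⟨i, hi, rfl⟩ := Finset.mem_image.1 hx
      exact hle i (by simpa [Nat.lt_succ_iff] using hi)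
  · have h1 := hg c G' hm hG hst
    have h2 : (insert G ((Finset.range (G' + 1)).image c)).card ≤ G' + 2 := by
      have h3 := Finset.card_insert_le G ((Finset.range (G' + 1)).image c)
      have h4 := Finset.card_image_le (s := Finset.range (G' + 1)) (f := c)
      rw [Finset.card_range] at h4
      omega
    have h5 : ((insert G ((Finset.range (G' + 1)).image c)).card : ℝ) ≤ G' + 2 := by
      exact_mod_cast h2
    linarith
  · intro w hw
    obtain ⟨ha, hb, hab, hw⟩ := mem_wins.1 hw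
    have hbG : w.2 ≤ G := by
      rcases Finset.mem_insert.1 hb with hb | hb
      · exact hb.le
      · obtain ⟨i, hi, hi'⟩ := Finset.mem_image.1 hb
        rw [← hi']
        exact hle i (by simpa [Nat.lt_succ_iff] using hi)
    rcases Finset.mem_insert.1 ha with ha | ha
    · omega
    obtain ⟨i, hi, hi'⟩ := Finset.mem_image.1 ha
    have hi2 : i ≤ G' := by simpa [Nat.lt_succ_iff] using hi
    rcases hi2.eq_or_lt with rfl | hi2
    · exact (net_mono h hi'.le hab.le hbG le_rfl).trans hl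
    · have h1 := hw (c (i + 1))
        (Finset.mem_insert_of_mem (Finset.mem_image.2 ⟨i + 1, by simpa using hi2, rfl⟩))
      have h2 : c i < c (i + 1) := hm i (i + 1) (by omega) hi2
      have h3 : w.2 ≤ c (i + 1) := by omega
      exact (net_mono h hi'.le hab.le h3 (hle (i + 1) hi2)).trans (hst i hi2).2

theorem ref_nest {D : Finset ℕ} {a b a' b' : ℕ} (ha : a ∈ D) (hb : b ∈ D) (h1 : a ≤ a')
    (h2 : a' < b') (h3 : b' ≤ b) (hD : ∀ c ∈ D, c ≤ a' ∨ b' ≤ c) :
    ∃ w ∈ wins D, w.1 ≤ a' ∧ b' ≤ w.2 := by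
  obtain ⟨u, hu, hu'⟩ := Finset.exists_max_image (D.filter (· ≤ a')) id ⟨a, by simp [ha, h1]⟩
  obtain ⟨v, hv, hv'⟩ := Finset.exists_min_image (D.filter (b' ≤ ·)) id ⟨b, by simp [hb, h3]⟩
  simp only [Finset.mem_filter, id] at hu hu' hv hv'
  refine ⟨(u, v), mem_wins.2 ⟨hu.1, hv.1, by simp only; omega, fun c hc => ?_⟩, hu.2, hv.2⟩
  rcases hD c hc with h | h
  · exact Or.inl (hu' c ⟨hc, h⟩)
  · exact Or.inr (hv' c ⟨hc, h⟩)

theorem ref_local (h : Chain P τ S G) (ρ L : ℕ) (hρ : 1 ≤ ρ) (hL : ρ ≤ L) {a b : ℕ} (hab : a ≤ b)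
    (hb : b ≤ G) (hact : (act S a b).card ≤ L)
    (hnet : ∀ i, a ≤ i → i ≤ b → (S a \ S i).card ≤ 2 * ρ) :
    ∃ D : Finset ℕ, (∀ c ∈ D, c ≤ b) ∧ D.card * ρ ≤ 7 * L ∧
      ∀ a' b', a ≤ a' → a' < b' → b' ≤ b → (∀ c ∈ D, c ≤ a' ∨ b' ≤ c) →
        (act S a' b').card ≤ 16 * ρ := by
  have hτ : ∀ i j, a ≤ i → i < j → j ≤ b → τ i < τ j := fun i j _ h2 h3 =>
    h.mono i j h2 (h3.trans hb)
  obtain ⟨D1, ha1, hb1, hm1, hc1, hw1⟩ := shallow (fun p : Pt => p.1) (fun p : Pt => p.2)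
    (act S a b \ S a) τ (fun i => S i \ S a) a b (2 * ρ) hab (by omega) hτ (fun i h1 h2 => by
      refine ⟨fun p hp => ?_, ?_, fun p hp q hq hq' => ?_⟩
      · simp only [Finset.mem_sdiff] at hp ⊢
        exact ⟨mem_act_iff.2 ⟨⟨i, h1, h2, hp.1⟩, ⟨a, le_rfl, hab, hp.2⟩⟩, hp.2⟩
      · rw [card_sdiff_comm h (h2.trans hb) (hab.trans hb)]
        exact hnet i h1 h2
      · simp only [Finset.mem_sdiff] at hp hq hq'
        exact h.cut i (h2.trans hb) p hp.1 q (act_sub h hb hq.1) (fun hc => hq' ⟨hc, hq.2⟩))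
  obtain ⟨D2, ha2, hb2, hm2, hc2, hw2⟩ := shallow (fun p : Pt => -p.1) (fun p : Pt => -p.2)
    (act S a b ∩ S a) τ (fun i => S a \ S i) a b (2 * ρ) hab (by omega) hτ (fun i h1 h2 => by
      refine ⟨fun p hp => ?_, hnet i h1 h2, fun p hp q hq hq' => ?_⟩
      · simp only [Finset.mem_sdiff, Finset.mem_inter] at hp ⊢
        exact ⟨mem_act_iff.2 ⟨⟨a, le_rfl, hab, hp.1⟩, ⟨i, h1, h2, hp.2⟩⟩, hp.1⟩
      · simp only [Finset.mem_sdiff, Finset.mem_inter] at hp hq hq'
        have hqi : q ∈ S i := by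
          by_contra hc
          exact hq' ⟨hq.2, hc⟩
        have := h.cut i (h2.trans hb) q hqi p (h.sub a (hab.trans hb) hp.1) hp.2
        simp only [ph] at this
        linarith)
  refine ⟨D1 ∪ D2, fun c hc => ?_, ?_, fun a' b' h1 h2 h3 hD => ?_⟩
  · rcases Finset.mem_union.1 hc with hc | hc
    · exact (hm1 c hc).2
    · exact (hm2 c hc).2
  · have e1 : (act S a b \ S a).card ≤ L := (Finset.card_le_card Finset.sdiff_subset).trans hact
    have e2 : (act S a b ∩ S a).card ≤ L :=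
      (Finset.card_le_card Finset.inter_subset_left).trans hact
    have e3 := Nat.mul_le_mul_right ρ (Finset.card_union_le D1 D2)
    nlinarith
  · obtain ⟨w1, hw1', k1, k1'⟩ := ref_nest ha1 hb1 h1 h2 h3
      (fun c hc => hD c (Finset.mem_union_left _ hc))
    obtain ⟨w2, hw2', k2, k2'⟩ := ref_nest ha2 hb2 h1 h2 h3
      (fun c hc => hD c (Finset.mem_union_right _ hc))
    have e1 : ((Finset.Icc w1.1 w1.2).biUnion (fun i => S i \ S a)).card ≤ 4 * (2 * ρ) := by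
      convert hw1 w1 hw1'
    have e2 : ((Finset.Icc w2.1 w2.2).biUnion (fun i => S a \ S i)).card ≤ 4 * (2 * ρ) := by
      convert hw2 w2 hw2'
    have hsub : act S a' b' ⊆ (Finset.Icc w1.1 w1.2).biUnion (fun i => S i \ S a) ∪
        (Finset.Icc w2.1 w2.2).biUnion (fun i => S a \ S i) := by
      intro p hp
      obtain ⟨⟨i, i1, i2, i3⟩, ⟨j, j1, j2, j3⟩⟩ := mem_act_iff.1 hp
      simp only [Finset.mem_union, Finset.mem_biUnion, Finset.mem_Icc, Finset.mem_sdiff]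
      by_cases hpa : p ∈ S a
      · exact Or.inr ⟨j, ⟨by omega, by omega⟩, hpa, j3⟩
      · exact Or.inl ⟨i, ⟨by omega, by omega⟩, i3, hpa⟩
    have e3 := (Finset.card_le_card hsub).trans (Finset.card_union_le _ _)
    omega

/-- one refinement step -/
theorem refine_cuts (h : Chain P τ S G) (ρ L : ℕ) (hρ : 1 ≤ ρ) (hL : ρ ≤ L)
    (hs : ∀ i, i < G → (U S i).card ≤ ρ) (C : Finset ℕ) (hC : Cuts G C)
    (hact : ∀ w ∈ wins C, (act S w.1 w.2).card ≤ L) (g : ℝ)
    (hg : ∀ (c : ℕ → ℕ) (G' : ℕ), (∀ i j, i < j → j ≤ G' → c i < c j) → c G' ≤ G →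
      (∀ i, i < G' → ρ ≤ (S (c i) \ S (c (i + 1))).card ∧
        (S (c i) \ S (c (i + 1))).card ≤ 2 * ρ) → (G' : ℝ) ≤ g) :
    ∃ C' : Finset ℕ, C ⊆ C' ∧ Cuts G C' ∧ (C'.card : ℝ) * ρ ≤ 8 * L * (C.card + g + 2) ∧
      ∀ w ∈ wins C', (act S w.1 w.2).card ≤ 16 * ρ := by
  obtain ⟨Cn, hCn, hcard, hnet⟩ := net_cuts h ρ hρ hs g hg
  have hloc : ∀ w : ℕ × ℕ, ∃ D : Finset ℕ, w ∈ wins (C ∪ Cn) →
      (∀ c ∈ D, c ≤ G) ∧ D.card * ρ ≤ 7 * L ∧
      ∀ a' b', w.1 ≤ a' → a' < b' → b' ≤ w.2 → (∀ c ∈ D, c ≤ a' ∨ b' ≤ c) →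
        (act S a' b').card ≤ 16 * ρ := by
    intro w
    by_cases hw : w ∈ wins (C ∪ Cn)
    · obtain ⟨ha, hb, hab, hw'⟩ := mem_wins.1 hw
      have hbG : w.2 ≤ G := by
        rcases Finset.mem_union.1 hb with hb | hb
        · exact hC.le _ hb
        · exact hCn.le _ hb
      obtain ⟨w1, hw1, k1, k1'⟩ := ref_nest hC.zero hC.top (Nat.zero_le _) hab hbG
        (fun c hc => hw' c (Finset.mem_union_left _ hc))
      obtain ⟨w2, hw2, k2, k2'⟩ := ref_nest hCn.zero hCn.top (Nat.zero_le _) hab hbG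
        (fun c hc => hw' c (Finset.mem_union_right _ hc))
      obtain ⟨D, d1, d2, d3⟩ := ref_local h ρ L hρ hL hab.le hbG
        ((Finset.card_le_card (act_mono S k1 k1')).trans (hact w1 hw1))
        (fun i h1 h2 => (net_mono h k2 h1 (h2.trans k2')
          (hCn.le _ (mem_wins.1 hw2).2.1)).trans (hnet w2 hw2))
      exact ⟨D, fun _ => ⟨fun c hc => (d1 c hc).trans hbG, d2, d3⟩⟩
    · exact ⟨∅, fun h => absurd h hw⟩
  choose D hD using hloc
  have hle : ∀ c ∈ (C ∪ Cn) ∪ (wins (C ∪ Cn)).biUnion D, c ≤ G := by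
    intro c hc
    rcases Finset.mem_union.1 hc with hc | hc
    · rcases Finset.mem_union.1 hc with hc | hc
      · exact hC.le _ hc
      · exact hCn.le _ hc
    · obtain ⟨w, hw, hc⟩ := Finset.mem_biUnion.1 hc
      exact (hD w hw).1 c hc
  refine ⟨(C ∪ Cn) ∪ (wins (C ∪ Cn)).biUnion D,
    Finset.subset_union_left.trans Finset.subset_union_left,
    ⟨Finset.mem_union_left _ (Finset.mem_union_left _ hC.zero),
      Finset.mem_union_left _ (Finset.mem_union_left _ hC.top), hle⟩, ?_, ?_⟩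
  · have e1 : ((wins (C ∪ Cn)).biUnion D).card * ρ ≤ (C ∪ Cn).card * (7 * L) := by
      calc ((wins (C ∪ Cn)).biUnion D).card * ρ ≤ (∑ w ∈ wins (C ∪ Cn), (D w).card) * ρ :=
            Nat.mul_le_mul_right _ Finset.card_biUnion_le
        _ = ∑ w ∈ wins (C ∪ Cn), (D w).card * ρ := Finset.sum_mul _ _ _
        _ ≤ (wins (C ∪ Cn)).card * (7 * L) := by
            rw [← smul_eq_mul]
            exact Finset.sum_le_card_nsmul _ _ _ fun w hw => (hD w hw).2.1
        _ ≤ _ := Nat.mul_le_mul_right _ (card_wins_le _)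
    have e2 : ((C ∪ Cn) ∪ (wins (C ∪ Cn)).biUnion D).card * ρ ≤ 8 * L * (C.card + Cn.card) := by
      have e3 := Nat.mul_le_mul_right ρ
        (Finset.card_union_le (C ∪ Cn) ((wins (C ∪ Cn)).biUnion D))
      have e4 := Nat.mul_le_mul_left (C ∪ Cn).card hL
      have e5 := Nat.mul_le_mul_left (8 * L) (Finset.card_union_le C Cn)
      nlinarith
    have e6 : ((((C ∪ Cn) ∪ (wins (C ∪ Cn)).biUnion D).card : ℕ) : ℝ) * ρ ≤
        8 * L * (C.card + Cn.card) := by exact_mod_cast e2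
    refine e6.trans (mul_le_mul_of_nonneg_left (by linarith) (by positivity))
  · intro w' hw'
    obtain ⟨ha, hb, hab, hw''⟩ := mem_wins.1 hw'
    obtain ⟨w, hw, k1, k2⟩ := ref_nest (D := C ∪ Cn) (Finset.mem_union_left _ hC.zero)
      (Finset.mem_union_left _ hC.top) (Nat.zero_le _) hab (hle _ hb)
      (fun c hc => hw'' c (Finset.mem_union_left _ hc))
    exact (hD w hw).2.2 _ _ k1 hab k2 fun c hc =>
      hw'' c (Finset.mem_union_right _ (Finset.mem_biUnion.2 ⟨w, hw, hc⟩))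

end
end Crest.Agent.R51
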