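import Crest.Agent.R51.Dey
import Crest.Agent.R51.Refine

set_option autoImplicit false
open Classical Finset

namespace Crest.Agent.R51
noncomputable section

variable {P : Finset Pt} {τ : ℕ → ℝ} {S : ℕ → Finset Pt} {G : ℕ}

/-- the invariant of the window recursion -/
def WinSys.Inv (P : Finset Pt) (S : ℕ → Finset Pt) (G s : ℕ) (C : Finset ℕ) : Prop :=
  Cuts G C ∧ (C.card : ℝ) ≤ 2 ^ 45 * ((1024 : ℝ) ^ s) ^ 4 ∧
    ∀ w ∈ wins C, (act S w.1 w.2).card ≤ 16 * (P.card / 2 ^ (30 * s))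

lemma WinSys.pow_eq (s : ℕ) : ((1024 : ℝ) ^ s) ^ 3 = ((2 ^ (30 * s) : ℕ) : ℝ) := by
  push_cast
  rw [← pow_mul, mul_comm s 3, pow_mul, pow_mul]
  norm_num

lemma WinSys.base (h : Chain P τ S G) : WinSys.Inv P S G 0 {0, G} := by
  have hc : Cuts G {0, G} := by
    refine ⟨by simp, by simp, fun c hc => ?_⟩
    simp only [Finset.mem_insert, Finset.mem_singleton] at hc
    omega
  refine ⟨hc, ?_, fun w hw => ?_⟩
  · have : ({0, G} : Finset ℕ).card ≤ 2 := Finset.card_le_two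
    have h2 : (({0, G} : Finset ℕ).card : ℝ) ≤ 2 := by exact_mod_cast this
    norm_num
    linarith
  · have := Finset.card_le_card (act_sub (a := w.1) h (win_le hc hw).2)
    simp only [mul_zero, pow_zero, Nat.div_one]
    omega

lemma WinSys.arith1 {g ρ J n x : ℝ} (hg : 0 ≤ g) (hρ : 0 < ρ) (hJ : 0 < J) (hn0 : 0 ≤ n)
    (hsum : g * ρ ≤ x) (hd : x ^ 3 * ρ ≤ 14000 * n ^ 4) (hn : n ≤ 2 * ρ * J ^ 3) :
    g ≤ 61 * J ^ 4 := by
  have h5 : g ^ 3 * ρ ^ 4 ≤ (61 * J ^ 4) ^ 3 * ρ ^ 4 := by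
    calc g ^ 3 * ρ ^ 4 = (g * ρ) ^ 3 * ρ := by ring
      _ ≤ x ^ 3 * ρ := by gcongr
      _ ≤ 14000 * n ^ 4 := hd
      _ ≤ 14000 * (2 * ρ * J ^ 3) ^ 4 := by gcongr
      _ = 224000 * (J ^ 12 * ρ ^ 4) := by ring
      _ ≤ 226981 * (J ^ 12 * ρ ^ 4) := by gcongr; norm_num
      _ = (61 * J ^ 4) ^ 3 * ρ ^ 4 := by ring
  have h6 : g ^ 3 ≤ (61 * J ^ 4) ^ 3 := le_of_mul_le_mul_right h5 (by positivity)
  exact le_of_pow_le_pow_left₀ (by norm_num) (by positivity) h6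

lemma WinSys.arith2 {c c' ρ ρ₀ J : ℝ} (hρ : 0 < ρ) (hJ : 1 ≤ J) (hc : 0 ≤ c)
    (h0 : ρ₀ ≤ 2 ^ 31 * ρ) (hcard : c ≤ 32 * J ^ 4)
    (h3 : c' * ρ ≤ 8 * (16 * ρ₀) * (c + 61 * J ^ 4 + 2)) : c' ≤ 2 ^ 45 * J ^ 4 := by
  have hJ4 : 1 ≤ J ^ 4 := one_le_pow₀ hJ
  have h5 : c' * ρ ≤ (2 ^ 45 * J ^ 4) * ρ := by
    calc c' * ρ ≤ 8 * (16 * ρ₀) * (c + 61 * J ^ 4 + 2) := h3
      _ = 128 * ρ₀ * (c + 61 * J ^ 4 + 2) := by ring
      _ ≤ 128 * (2 ^ 31 * ρ) * (128 * J ^ 4) := by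
        gcongr
        linarith
      _ = (2 ^ 45 * J ^ 4) * ρ := by ring
  exact le_of_mul_le_mul_right h5 hρ

lemma WinSys.step (hgp : GP P) (hx : XInj P) (h : Chain P τ S G) (Q : ℕ) (hQ1 : 1 ≤ Q)
    (hs : ∀ i, i < G → (U S i).card ≤ 2 * Q) (s : ℕ)
    (hv : 4 * Q * 2 ^ (30 * (s + 1)) ≤ P.card) (C : Finset ℕ) (hC : WinSys.Inv P S G s C) :
    ∃ C', C ⊆ C' ∧ WinSys.Inv P S G (s + 1) C' := by
  obtain ⟨hcut, hcard, hact⟩ := hC
  obtain ⟨ρ, hρ⟩ : ∃ ρ, ρ = P.card / 2 ^ (30 * (s + 1)) := ⟨_, rfl⟩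
  obtain ⟨ρ₀, hρ₀⟩ : ∃ ρ, ρ = P.card / 2 ^ (30 * s) := ⟨_, rfl⟩
  have hpos : 0 < 2 ^ (30 * (s + 1)) := by positivity
  have hρQ : 4 * Q ≤ ρ := by
    rw [hρ, Nat.le_div_iff_mul_le hpos]; exact hv
  have hρ1 : 1 ≤ ρ := by omega
  have hρρ : ρ ≤ ρ₀ := by
    rw [hρ, hρ₀]
    exact Nat.div_le_div_left (Nat.pow_le_pow_right (by norm_num) (by omega)) (by positivity)
  have hρn : ρ ≤ P.card := by rw [hρ]; exact Nat.div_le_self _ _
  have hn : P.card ≤ 2 * ρ * 2 ^ (30 * (s + 1)) := by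
    have h1 : P.card < 2 ^ (30 * (s + 1)) * (ρ + 1) := by
      rw [hρ]; exact Nat.lt_mul_div_succ _ hpos
    have h2 : 2 ^ (30 * (s + 1)) * (ρ + 1) ≤ 2 ^ (30 * (s + 1)) * (2 * ρ) :=
      Nat.mul_le_mul_left _ (by omega)
    rw [mul_comm (2 * ρ)]
    omega
  have hρ₀ρ : ρ₀ ≤ 2 ^ 31 * ρ := by
    rw [hρ₀]
    refine Nat.div_le_of_le_mul (hn.trans (le_of_eq ?_))
    ring
  obtain ⟨J, hJ⟩ : ∃ J : ℝ, J = (1024 : ℝ) ^ (s + 1) := ⟨_, rfl⟩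
  have hJ0 : 0 < J := by rw [hJ]; positivity
  have hJ1 : 1 ≤ J := by rw [hJ]; exact one_le_pow₀ (by norm_num)
  have hnR : (P.card : ℝ) ≤ 2 * ρ * J ^ 3 := by
    rw [hJ, WinSys.pow_eq]; exact_mod_cast hn
  have hρR : (0 : ℝ) < ρ := by exact_mod_cast hρ1
  rw [← hρ₀] at hact
  obtain ⟨C', h1, h2, h3, h4⟩ := refine_cuts h ρ (16 * ρ₀) hρ1 (by omega)
    (fun i hi => (hs i hi).trans (by omega)) C hcut hact (61 * J ^ 4) (by
      intro c G' hc hG hb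
      have hch := h.comp c G' hc hG
      have hd := dey hgp hx hch (Nat.zero_le G') le_rfl hρ1 (fun i _ hi => (hb i hi).1)
        (P.card : ℝ) (by exact_mod_cast Finset.card_le_card (act_sub hch le_rfl))
        (by exact_mod_cast hρn)
      have hsum : (G' : ℝ) * ρ ≤
          ∑ i ∈ Finset.Ico 0 G', ((U (fun i => S (c i)) i).card : ℝ) := by
        have := Finset.card_nsmul_le_sum (Finset.Ico 0 G')
          (fun i => ((U (fun i => S (c i)) i).card : ℝ)) (ρ : ℝ)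
          (fun i hi => by exact_mod_cast (hb i (Finset.mem_Ico.1 hi).2).1)
        simpa [nsmul_eq_mul] using this
      generalize (∑ i ∈ Finset.Ico 0 G', ((U (fun i => S (c i)) i).card : ℝ)) = x at hd hsum
      exact WinSys.arith1 (Nat.cast_nonneg _) hρR hJ0 (Nat.cast_nonneg _) hsum hd hnR)
  refine ⟨C', h1, h2, ?_, ?_⟩
  · rw [← hJ]
    have e1 : 2 ^ 45 * ((1024 : ℝ) ^ s) ^ 4 = 32 * J ^ 4 := by
      rw [hJ, pow_succ (1024 : ℝ) s]; ring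
    rw [e1] at hcard
    have hρ₀R : (ρ₀ : ℝ) ≤ 2 ^ 31 * ρ := by exact_mod_cast hρ₀ρ
    push_cast at h3
    exact WinSys.arith2 hρR hJ1 (Nat.cast_nonneg _) hρ₀R hcard h3
  · rw [← hρ]; exact h4

/-- the recursively chosen cut sets -/
def WinSys.seq (P : Finset Pt) (S : ℕ → Finset Pt) (G : ℕ) : ℕ → Finset ℕ
  | 0 => {0, G}
  | s + 1 =>
    if h : ∃ C', WinSys.seq P S G s ⊆ C' ∧ WinSys.Inv P S G (s + 1) C' then h.choose
    else WinSys.seq P S G s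

lemma WinSys.seq_succ (s : ℕ) : WinSys.seq P S G s ⊆ WinSys.seq P S G (s + 1) := by
  rw [WinSys.seq]
  split_ifs with h
  · exact h.choose_spec.1
  · exact Finset.Subset.refl _

/-- nested windows at all scales `1024^s` -/
theorem winsys (hgp : GP P) (hx : XInj P) (h : Chain P τ S G) (Q : ℕ) (hQ1 : 1 ≤ Q)
    (hs : ∀ i, i < G → (U S i).card ≤ 2 * Q) :
    ∃ 𝒞 : ℕ → Finset ℕ, 𝒞 0 = {0, G} ∧ (∀ s s', s ≤ s' → 𝒞 s ⊆ 𝒞 s') ∧
      ∀ s : ℕ, 4 * (Q : ℝ) * ((1024 : ℝ) ^ s) ^ 3 ≤ P.card → Scale P S G (𝒞 s) (1024 ^ s) := by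
  have key : ∀ s : ℕ, 4 * Q * 2 ^ (30 * s) ≤ P.card →
      WinSys.Inv P S G s (WinSys.seq P S G s) := by
    intro s
    induction s with
    | zero => intro _; exact WinSys.base h
    | succ s ih =>
      intro hv
      have hv' : 4 * Q * 2 ^ (30 * s) ≤ P.card :=
        (Nat.mul_le_mul_left _ (Nat.pow_le_pow_right (by norm_num) (by omega))).trans hv
      have hex := WinSys.step hgp hx h Q hQ1 hs s hv _ (ih hv')
      rw [WinSys.seq, dif_pos hex]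
      exact hex.choose_spec.2
  refine ⟨WinSys.seq P S G, rfl, fun s s' hss => ?_, fun s hv => ?_⟩
  · exact (monotone_nat_of_le_succ (f := WinSys.seq P S G) WinSys.seq_succ) hss
  · rw [WinSys.pow_eq] at hv
    obtain ⟨h1, h2, h3⟩ := key s (by exact_mod_cast hv)
    refine ⟨h1, h2, fun w hw => ?_⟩
    rw [WinSys.pow_eq]
    have h4 : (act S w.1 w.2).card * 2 ^ (30 * s) ≤ 16 * P.card := by
      calc (act S w.1 w.2).card * 2 ^ (30 * s)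
          ≤ 16 * (P.card / 2 ^ (30 * s)) * 2 ^ (30 * s) := Nat.mul_le_mul_right _ (h3 w hw)
        _ = 16 * (P.card / 2 ^ (30 * s) * 2 ^ (30 * s)) := by ring
        _ ≤ 16 * P.card := Nat.mul_le_mul_left _ (Nat.div_mul_le_self _ _)
    exact_mod_cast h4

end
end Crest.Agent.R51
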