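import Crest.Agent.R51.MainA
import Crest.Agent.R51.MainB1
import Crest.Agent.R51.MainB2
import Crest.Agent.R51.WinSys
import Crest.Agent.R51.Cuts

set_option autoImplicit false
open Classical Finset

namespace Crest.Agent.R51
noncomputable section

theorem main_of (hA : CoreA) (hB : CoreB) : MainSt := by
  intro ε hε
  obtain ⟨ε₁, hε₁, hε₁3⟩ : ∃ e : ℝ, 0 < e ∧ e ^ 3 = ε :=
    ⟨ε ^ ((3 : ℕ) : ℝ)⁻¹, Real.rpow_pos_of_pos hε _, Real.rpow_inv_natCast_pow hε.le (by norm_num)⟩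
  obtain ⟨s₀, s₁, HA⟩ := mainA hA ε₁ hε₁
  obtain ⟨δ', hδ', HL⟩ := long_windows (ε₁ / 10) (by positivity) s₀
  obtain ⟨s₃, hs₃, μ, hμ, Δb, HB⟩ := mainB2 hB δ' hδ' s₀
  obtain ⟨s₁', HL'⟩ := HL s₃ hs₃ μ hμ
  obtain ⟨Δa, HA'⟩ := HA (max s₁ s₁') (le_max_left _ _)
  obtain ⟨Δl, HL''⟩ := HL' (max s₁ s₁') (le_max_right _ _)
  set Δ₀ : ℝ := max (max (max Δa Δl) Δb) 1 with hΔ₀
  have hΔ₀1 : 1 ≤ Δ₀ := le_max_right _ _
  refine ⟨Δ₀ ^ 3, fun P τ S G Q hgp hx hch hQ hst hn => ?_⟩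
  by_contra hcon
  push Not at hcon
  have hQ' : (1 : ℝ) ≤ Q := by exact_mod_cast hQ
  have hQ0 : (0 : ℝ) < Q := by linarith
  have hn0 : (0 : ℝ) < P.card := lt_of_lt_of_le (by positivity) hn
  obtain ⟨Δ, hΔ, hΔ3⟩ : ∃ e : ℝ, 0 < e ∧ e ^ 3 = (P.card : ℝ) / Q :=
    ⟨((P.card : ℝ) / Q) ^ ((3 : ℕ) : ℝ)⁻¹, Real.rpow_pos_of_pos (by positivity) _,
      Real.rpow_inv_natCast_pow (by positivity) (by norm_num)⟩
  have hDeq : Δ ^ 3 * Q = P.card := by rw [hΔ3]; field_simp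
  have hΔ₀le : Δ₀ ≤ Δ := by
    refine le_of_pow_le_pow_left₀ (n := 3) (by norm_num) hΔ.le ?_
    rw [hΔ3, le_div_iff₀ hQ0]
    exact hn
  obtain ⟨𝒞, h0, hnest, hsc⟩ := winsys hgp hx hch Q hQ (fun i hi' => (hst i hi').2)
  have hev : (G : ℝ) * Q ≤ (events P S G).card := by
    rw [card_events hch]
    have : G * Q ≤ ∑ i ∈ Finset.range G, (U S i).card := by
      have := Finset.card_nsmul_le_sum (Finset.range G) (fun i => (U S i).card) Q
        (fun i hi' => (hst i (Finset.mem_range.1 hi')).1)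
      simpa using this
    exact_mod_cast this
  have hmany : ε₁ * P.card * Δ ≤ (events P S G).card := by
    refine le_trans ?_ hev
    refine le_of_pow_le_pow_left₀ (n := 3) (by norm_num) (by positivity) ?_
    have h1 : (ε₁ * P.card * Δ) ^ 3 * Q = ε * (P.card : ℝ) ^ 4 := by
      rw [← hε₁3]
      calc (ε₁ * P.card * Δ) ^ 3 * Q = ε₁ ^ 3 * (P.card : ℝ) ^ 3 * (Δ ^ 3 * Q) := by ring
        _ = _ := by rw [hDeq]; ring
    have h2 : (ε₁ * P.card * Δ) ^ 3 * Q ≤ ((G : ℝ) * Q) ^ 3 * Q := by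
      rw [h1]
      calc ε * (P.card : ℝ) ^ 4 ≤ (G : ℝ) ^ 3 * (Q : ℝ) ^ 4 := hcon.le
        _ = _ := by ring
    exact le_of_mul_le_mul_right h2 hQ0
  have hS : Setup P τ S G Q Δ 𝒞 ε₁ :=
    { gp := hgp
      xinj := hx
      chain := hch
      Qpos := hQ
      step := fun i hi' => (hst i hi').1
      Dpos := hΔ
      Deq := hDeq
      many := hmany
      nest := hnest
      zero := h0
      scale := fun s hs => hsc s (by
        have hJ : (0 : ℝ) < 1024 ^ s := by positivity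
        have h1 : (2 * (1024 : ℝ) ^ s) ^ 3 ≤ Δ ^ 3 := pow_le_pow_left₀ (by positivity) hs 3
        have h2 : (2 * (1024 : ℝ) ^ s) ^ 3 * Q ≤ Δ ^ 3 * Q := mul_le_mul_of_nonneg_right h1 hQ0.le
        rw [hDeq] at h2
        have h3 : 0 < ((1024 : ℝ) ^ s) ^ 3 * Q := by positivity
        nlinarith) }
  have ha : Δa ≤ Δ := le_trans (le_trans (le_trans (le_max_left _ _) (le_max_left _ _))
    (le_max_left _ _)) hΔ₀le
  have hl : Δl ≤ Δ := le_trans (le_trans (le_trans (le_max_right _ _) (le_max_left _ _))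
    (le_max_left _ _)) hΔ₀le
  have hb : Δb ≤ Δ := le_trans (le_trans (le_max_right _ _) (le_max_left _ _)) hΔ₀le
  rcases le_total (((events P S G).filter (fun e => Wide τ G (𝒞 s₀) (𝒞 (max s₁ s₁'))
      (1 / 2 ^ (35 * max s₁ s₁')) e.2)).card : ℝ) (ε₁ / 10 * P.card * Δ) with h | h
  · exact HA' P τ S G Q Δ 𝒞 hS ha h
  · obtain ⟨b, em, ep, 𝓜, h1, h2, h3, h4⟩ := HL'' P τ S G Q Δ 𝒞 ε₁ hS hl h
    exact HB P τ S G Q Δ 𝒞 ε₁ hS hb b em ep 𝓜 h1 h2 h3 h4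

end
end Crest.Agent.R51
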