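import Crest.Agent.R51.CaseA
import Crest.Agent.R51.Events
import Crest.Agent.R51.Pick

set_option autoImplicit false
open Classical Finset

namespace Crest.Agent.R51
noncomputable section

theorem MainA_narrow {P : Finset Pt} {τ : ℕ → ℝ} {S : ℕ → Finset Pt} {G : ℕ} {C₀ C : Finset ℕ}
    (h : Chain P τ S G) (hC₀ : Cuts G C₀) (hC : Cuts G C) (hsub : C₀ ⊆ C) {M : ℝ} {p q r t i : ℕ}
    (hp : p ∈ C₀) (hr : r ∈ C₀) (ht : t ∈ C₀) (hpq : p < q) (hqr : q < r) (hrt : r < t) (hi' : i < G)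
    (hq : lo C₀ i = q) (hn : ¬ Wide τ G C₀ C M i) :
    q ≤ lo C i ∧ lo C i < hi C i ∧ hi C i ≤ r ∧
      (τ (hi C i) - τ (lo C i)) / (τ (lo C i) - τ p) +
        (τ (hi C i) - τ (lo C i)) / (τ t - τ (hi C i)) ≤ M := by
  obtain ⟨n1, n2⟩ := win_nest hC₀ hC hsub hi'
  have tG := hC₀.le t ht
  have ir : i < r := by
    by_contra hh
    have := le_lo hr (not_lt.1 hh)
    omega
  have a1 := hi_le_of_mem hr ir
  have a2 : hi C₀ (hi C₀ i) ≤ t := hi_le_of_mem ht (by omega)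
  have a3 : p ≤ lo C₀ (lo C₀ i - 1) := le_lo hp (by omega)
  have a4 := lo_le C₀ (lo C₀ i - 1)
  have a5 := lt_hi hC₀ (show hi C₀ i < G by omega)
  have a6 := lo_le C i
  have a7 := lt_hi hC hi'
  refine ⟨by omega, by omega, by omega, ?_⟩
  have hw := not_lt.1 fun hh => hn ⟨by omega, by omega, hh⟩
  have b1 : τ p ≤ τ (lo C₀ (lo C₀ i - 1)) := h.le a3 (by omega)
  have b2 : τ (lo C₀ (lo C₀ i - 1)) < τ (lo C i) := h.mono _ _ (by omega) (by omega)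
  have b3 : τ (lo C i) < τ (hi C i) := h.mono _ _ (by omega) (by omega)
  have b4 : τ (hi C i) < τ (hi C₀ (hi C₀ i)) := h.mono _ _ (by omega) (by omega)
  have b5 : τ (hi C₀ (hi C₀ i)) ≤ τ t := h.le a2 tG
  simp only [Rr] at hw
  generalize τ (lo C₀ (lo C₀ i - 1)) = em at *
  generalize τ (hi C₀ (hi C₀ i)) = ep at *
  generalize τ (lo C i) = a at *
  generalize τ (hi C i) = b at *
  have c1 : (b - a) / (a - τ p) ≤ (b - a) / (a - em) :=
    div_le_div_of_nonneg_left (by linarith) (by linarith) (by linarith)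
  have c2 : (b - a) / (τ t - b) ≤ (b - a) / (ep - b) :=
    div_le_div_of_nonneg_left (by linarith) (by linarith) (by linarith)
  rw [← mul_div_assoc, div_le_div_iff₀ (by linarith) (by linarith)] at hw
  refine (add_le_add c1 c2).trans ?_
  rw [div_add_div _ _ (by linarith) (by linarith),
    div_le_iff₀ (mul_pos (by linarith) (by linarith))]
  linarith [sq_nonneg (b - a)]

/-- narrow windows of three pairwise non-adjacent inner blocks are mutually narrow -/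
theorem far3_of {P : Finset Pt} {τ : ℕ → ℝ} {S : ℕ → Finset Pt} {G : ℕ} {C₀ C : Finset ℕ}
    (h : Chain P τ S G) (hC₀ : Cuts G C₀) (hC : Cuts G C) (hsub : C₀ ⊆ C) (M : ℝ)
    (β : Fin 7 → ℕ) (hβ : StrictMono β) (hβC : ∀ j, β j ∈ C₀) (hβG : β 6 < G)
    (i : Fin 3 → ℕ) (hi' : ∀ j, i j < G) (h0 : lo C₀ (i 0) = β 1) (h1 : lo C₀ (i 1) = β 3)
    (h2 : lo C₀ (i 2) = β 5) (hn : ∀ j, ¬ Wide τ G C₀ C M (i j)) :
    Far3 τ (fun j => winOf C (i j)) M := by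
  have l01 : β 0 < β 1 := hβ (by decide)
  have l12 : β 1 < β 2 := hβ (by decide)
  have l23 : β 2 < β 3 := hβ (by decide)
  have l34 : β 3 < β 4 := hβ (by decide)
  have l45 : β 4 < β 5 := hβ (by decide)
  have l56 : β 5 < β 6 := hβ (by decide)
  obtain ⟨a1, a2, a3, a4⟩ :=
    MainA_narrow h hC₀ hC hsub (hβC 0) (hβC 2) (hβC 3) l01 l12 l23 (hi' 0) h0 (hn 0)
  obtain ⟨b1, b2, b3, b4⟩ :=
    MainA_narrow h hC₀ hC hsub (hβC 2) (hβC 4) (hβC 5) l23 l34 l45 (hi' 1) h1 (hn 1)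
  obtain ⟨c1, c2, c3, c4⟩ :=
    MainA_narrow h hC₀ hC hsub (hβC 4) (hβC 6) hC₀.top l45 l56 hβG (hi' 2) h2 (hn 2)
  have t1 : τ (β 0) < τ (lo C (i 0)) := h.mono _ _ (by omega) (by omega)
  have t2 : τ (lo C (i 0)) < τ (hi C (i 0)) := h.mono _ _ (by omega) (by omega)
  have t3 : τ (hi C (i 0)) ≤ τ (β 2) := h.le a3 (by omega)
  have t4 : τ (β 2) < τ (β 3) := h.mono _ _ (by omega) (by omega)
  have t5 : τ (β 3) ≤ τ (lo C (i 1)) := h.le b1 (by omega)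
  have t6 : τ (lo C (i 1)) < τ (hi C (i 1)) := h.mono _ _ (by omega) (by omega)
  have t7 : τ (hi C (i 1)) ≤ τ (β 4) := h.le b3 (by omega)
  have t8 : τ (β 4) < τ (β 5) := h.mono _ _ (by omega) (by omega)
  have t9 : τ (β 5) ≤ τ (lo C (i 2)) := h.le c1 (by omega)
  have t10 : τ (lo C (i 2)) < τ (hi C (i 2)) := h.mono _ _ (by omega) (by omega)
  have t11 : τ (hi C (i 2)) < τ G := h.mono _ _ (by omega) le_rfl
  refine ⟨?_, ?_, ?_, ?_, ?_⟩ <;> simp only [winOf]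
  · linarith
  · linarith
  · rw [← div_le_iff₀ (by linarith)]
    have d1 : 0 ≤ (τ (hi C (i 0)) - τ (lo C (i 0))) / (τ (lo C (i 0)) - τ (β 0)) :=
      div_nonneg (by linarith) (by linarith)
    refine le_trans (div_le_div_of_nonneg_left (c := τ (β 3) - τ (hi C (i 0))) ?_ ?_ ?_) ?_ <;>
      linarith
  · refine le_trans (add_le_add (div_le_div_of_nonneg_left ?_ ?_ ?_)
      (div_le_div_of_nonneg_left ?_ ?_ ?_)) b4 <;> linarith
  · rw [← div_le_iff₀ (by linarith)]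
    have d1 : 0 ≤ (τ (hi C (i 2)) - τ (lo C (i 2))) / (τ G - τ (hi C (i 2))) :=
      div_nonneg (by linarith) (by linarith)
    refine le_trans (div_le_div_of_nonneg_left (c := τ (lo C (i 2)) - τ (β 4)) ?_ ?_ ?_) ?_ <;>
      linarith

theorem MainA_mem {P : Finset Pt} {S : ℕ → Finset Pt} {G : ℕ} {e : Pt × ℕ} (he : e ∈ events P S G) :
    e.1 ∈ P ∧ e.2 < G := by
  have := mem_product.1 (mem_filter.1 he).1
  exact ⟨this.1, mem_range.1 this.2⟩

/-- events of bounded degree at one point in one window -/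
theorem MainA_fib (P : Finset Pt) (S : ℕ → Finset Pt) {G : ℕ} {C : Finset ℕ} (hC : Cuts G C)
    {F : Finset (Pt × ℕ)} {y : ℝ} (hy : 0 ≤ y) (p : Pt) (w : ℕ × ℕ)
    (hF : ∀ e ∈ F, e ∈ events P S G ∧ (dW S C e : ℝ) ≤ y ∧ e.1 = p ∧ winOf C e.2 = w) :
    (F.card : ℝ) ≤ y := by
  rcases F.eq_empty_or_nonempty with rfl | ⟨e, he⟩
  · simpa using hy
  · obtain ⟨h1, h2, rfl, rfl⟩ := hF e he
    obtain ⟨h3, h4⟩ := MainA_mem h1
    refine le_trans ?_ h2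
    have h5 := card_events_win (S := S) hC (winOf_mem hC h4) h3
    have h6 : F.card ≤ dW S C e := by
      refine le_trans (card_le_card fun e' he' => ?_) h5.le
      exact mem_filter.2 ⟨(hF e' he').1, (hF e' he').2.2⟩
    exact_mod_cast h6

theorem MainA_mf {α : Type} {F : Finset α} {q : α → Prop} {inst : DecidablePred q} {e : α}
    (he : e ∈ @Finset.filter α q inst F) : e ∈ F ∧ q e := mem_filter.1 he

theorem MainA_sum {α β : Type} (F : Finset α) (f : α → β) (T : Finset β) {y : ℝ}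
    (h1 : ∀ e ∈ F, f e ∈ T)
    (h2 : ∀ b, ∀ F' : Finset α, (∀ e ∈ F', e ∈ F ∧ f e = b) → (F'.card : ℝ) ≤ y) :
    (F.card : ℝ) ≤ T.card * y := by
  rw [card_eq_sum_card_fiberwise (f := f) (t := T) h1, Nat.cast_sum, ← nsmul_eq_mul]
  exact sum_le_card_nsmul _ _ _ fun b _ => h2 b _ fun e he => mem_filter.1 he

theorem mainA (hA : CoreA) (ε₁ : ℝ) (hε : 0 < ε₁) :
    ∃ s₀ s₁ : ℕ, ∀ s : ℕ, s₁ ≤ s → ∃ Δ₀ : ℝ, ∀ (P : Finset Pt) (τ : ℕ → ℝ) (S : ℕ → Finset Pt)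
      (G Q : ℕ) (Δ : ℝ) (𝒞 : ℕ → Finset ℕ), Setup P τ S G Q Δ 𝒞 ε₁ → Δ₀ ≤ Δ →
      (((events P S G).filter (fun e => Wide τ G (𝒞 s₀) (𝒞 s) (1 / 2 ^ (35 * s)) e.2)).card : ℝ)
        ≤ ε₁ / 10 * P.card * Δ → False := by
  obtain ⟨h, h1, K, K1, hhd⟩ := hd_events (ε₁ / 100) (by positivity)
  have h0 : 0 < h := by linarith
  obtain ⟨s₀, hs₀⟩ := pow_unbounded_of_one_lt (28 * h / (ε₁ / 2)) (show (1 : ℝ) < 1024 by norm_num)
  obtain ⟨N, hN⟩ : ∃ N : ℝ, N = 2 ^ 45 * (1024 ^ s₀) ^ 4 := ⟨_, rfl⟩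
  have N0 : 0 < N := by rw [hN]; positivity
  obtain ⟨θ, θ0, θ1, θ2⟩ : ∃ θ : ℝ, 0 < θ ∧ θ ≤ 1 ∧ 2 ^ 49 * θ ≤ ε₁ / 100 := by
    refine ⟨min 1 (ε₁ / 100 / 2 ^ 49), by positivity, min_le_left _ _, ?_⟩
    rw [mul_comm, ← le_div_iff₀ (by positivity)]
    exact min_le_right _ _
  obtain ⟨C', C0, hC'⟩ : ∃ C' : ℝ, 0 < C' ∧ 2 ^ 49 * h = ε₁ / 100 * C' :=
    ⟨2 ^ 49 * h / (ε₁ / 100), by positivity, by field_simp⟩
  obtain ⟨s₁, hs₁⟩ := caseA hA (ε₁ / 2 / (2 * h * N ^ 7)) (ε₁ / 2 / (4 * N * h)) C' θ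
    (by positivity) (by positivity) C0 θ0 θ1
  refine ⟨s₀, max s₀ s₁, fun s hs => ?_⟩
  obtain ⟨Δ₁, hΔ₁⟩ := hs₁ s (le_of_max_le_right hs)
  refine ⟨max Δ₁ (2 * K * 1024 ^ s), fun P τ S G Q Δ 𝒞 hS hΔ hW => ?_⟩
  have hB := hS.toBase
  have D0 := hB.Dpos
  have one : ∀ t : ℕ, (1 : ℝ) ≤ 1024 ^ t := fun t => one_le_pow₀ (by norm_num)
  have big : ∀ t ≤ s, K * 1024 ^ t ≤ Δ ∧ Scale P S G (𝒞 t) (1024 ^ t) := fun t ht => by
    have a1 : (1024 : ℝ) ^ t ≤ 1024 ^ s := pow_le_pow_right₀ (by norm_num) ht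
    have a2 := le_of_max_le_right hΔ
    have a3 := mul_le_mul_of_nonneg_left a1 (show 0 ≤ K by linarith)
    have a4 := mul_le_mul_of_nonneg_right K1 (show (0 : ℝ) ≤ 1024 ^ t by positivity)
    have a5 := one t
    exact ⟨by linarith, hS.scale t (by linarith)⟩
  have ss := le_of_max_le_left hs
  obtain ⟨k0, sc0⟩ := big 0 (Nat.zero_le _)
  obtain ⟨k1, sc1⟩ := big s₀ ss
  obtain ⟨k2, sc2⟩ := big s le_rfl
  have H0 := hhd P τ S G Q Δ _ _ hB (one 0) k0 sc0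
  have H1 := hhd P τ S G Q Δ _ _ hB (one s₀) k1 sc1
  have H2 := hhd P τ S G Q Δ _ _ hB (one s) k2 sc2
  have H3 := low_events hB (one s) sc2 θ θ0.le
  have H4 := many_active hB (one s) sc2 C' C0
  have n0 : (0 : ℝ) < P.card := by
    have : (0 : ℝ) < Q := by exact_mod_cast hB.Qpos
    rw [← hB.Deq]
    positivity
  have J0 : (0 : ℝ) < 1024 ^ s₀ := by positivity
  have J1 : (0 : ℝ) < 1024 ^ s := by positivity
  simp only [pow_zero, div_one] at H0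
  -- scale zero
  have z0 : ∀ (F : Finset (Pt × ℕ)) (p : Pt),
      (∀ e ∈ F, e ∈ events P S G ∧ ¬ h * Δ < dW S (𝒞 0) e ∧ e.1 = p) →
      (F.card : ℝ) ≤ h * Δ := fun F p hF => by
    refine MainA_fib P S sc0.cuts (by positivity) p (0, G) fun e he => ?_
    obtain ⟨a3, a4, a2⟩ := hF e he
    have a5 := (MainA_mem a3).2
    refine ⟨a3, not_lt.1 a4, a2, winOf_eq sc0.cuts (mem_wins.2 ⟨sc0.cuts.zero, sc0.cuts.top,
      by omega, fun c hc => ?_⟩) (Nat.zero_le _) a5⟩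
    rw [hS.zero] at hc
    simp only [mem_insert, mem_singleton] at hc
    omega
  have H5 : (((events P S G).filter fun e => ¬ h * Δ < dW S (𝒞 0) e ∧
      C' * 1024 ^ s < (actW S (𝒞 s) e.1).card).card : ℝ) ≤ ε₁ / 100 * P.card * Δ := by
    refine le_trans (MainA_sum _ Prod.fst (P.filter fun p => C' * 1024 ^ s < (actW S (𝒞 s) p).card)
      (y := h * Δ) (fun e he => ?_) fun p F hF => z0 F p fun e he => ?_) ?_
    · obtain ⟨a1, -, a2⟩ := mem_filter.1 he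
      exact mem_filter.2 ⟨(MainA_mem a1).1, a2⟩
    · obtain ⟨a1, a2, -⟩ := mem_filter.1 (hF e he).1
      exact ⟨a1, a2, (hF e he).2⟩
    refine le_of_mul_le_mul_right ?_ C0
    have a1 := mul_le_mul_of_nonneg_right H4 (show 0 ≤ h * Δ by positivity)
    have a2 : 2 ^ 49 * h * (P.card * Δ) = ε₁ / 100 * C' * (P.card * Δ) := by rw [hC']
    linarith
  obtain ⟨Ev, hEv⟩ : ∃ Ev : Finset (Pt × ℕ), ∀ e, e ∈ Ev ↔ e ∈ events P S G ∧
      ¬ Wide τ G (𝒞 s₀) (𝒞 s) (1 / 2 ^ (35 * s)) e.2 ∧ ¬ h * Δ < dW S (𝒞 0) e ∧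
      ¬ h * Δ / 1024 ^ s₀ < dW S (𝒞 s₀) e ∧ ¬ h * Δ / 1024 ^ s < dW S (𝒞 s) e ∧
      ¬ (dW S (𝒞 s) e : ℝ) < θ * Δ / 1024 ^ s ∧ ¬ C' * 1024 ^ s < (actW S (𝒞 s) e.1).card :=
    ⟨(events P S G).filter _, fun e => mem_filter⟩
  have hmany : ε₁ / 2 * P.card * Δ ≤ Ev.card := by
    have a1 : events P S G ⊆ Ev ∪
        (events P S G).filter (fun e => Wide τ G (𝒞 s₀) (𝒞 s) (1 / 2 ^ (35 * s)) e.2) ∪
        (events P S G).filter (fun e => h * Δ < dW S (𝒞 0) e) ∪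
        (events P S G).filter (fun e => h * Δ / 1024 ^ s₀ < dW S (𝒞 s₀) e) ∪
        (events P S G).filter (fun e => h * Δ / 1024 ^ s < dW S (𝒞 s) e) ∪
        (events P S G).filter (fun e => (dW S (𝒞 s) e : ℝ) < θ * Δ / 1024 ^ s) ∪
        (events P S G).filter (fun e => ¬ h * Δ < dW S (𝒞 0) e ∧
          C' * 1024 ^ s < (actW S (𝒞 s) e.1).card) := by
      intro e he
      simp only [mem_union, mem_filter, hEv, he, true_and]
      tauto
    have a2 := (card_le_card a1).trans ((card_union_le _ _).trans (add_le_add_left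
      ((card_union_le _ _).trans (add_le_add_left ((card_union_le _ _).trans (add_le_add_left
      ((card_union_le _ _).trans (add_le_add_left ((card_union_le _ _).trans (add_le_add_left
      (card_union_le _ _) _)) _)) _)) _)) _))
    have a3 := (Nat.cast_le (α := ℝ)).2 a2
    push_cast at a3
    have a4 := hS.many
    have a5 := mul_le_mul_of_nonneg_right θ2 (show 0 ≤ P.card * Δ by positivity)
    have a6 : 0 < ε₁ * (P.card * Δ) := by positivity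
    linarith
  obtain ⟨β, hβ, hβC, G', hG', g1, g2⟩ := pick P Ev (lo (𝒞 s₀)) ((𝒞 s₀).filter (· < G)) (ε₁ / 2) h N
    Δ (h * Δ / 1024 ^ s₀) (by positivity) h0 D0 N0 (card_pos.1 (by exact_mod_cast n0))
    (fun e he => by
      obtain ⟨a1, a2⟩ := MainA_mem ((hEv e).1 he).1
      exact ⟨a1, mem_filter.2 ⟨lo_mem sc1.cuts _, (lo_le _ _).trans_lt a2⟩⟩)
    (le_trans (by exact_mod_cast card_filter_le _ _) (hN ▸ sc1.card)) hmany
    (fun p _ => z0 _ p fun e he => by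
      obtain ⟨a1, a2⟩ := MainA_mf he
      exact ⟨((hEv e).1 a1).1, ((hEv e).1 a1).2.2.1, a2⟩)
    (fun p _ c _ => MainA_fib P S sc1.cuts (by positivity) p (winOf (𝒞 s₀) c) fun e he => by
      obtain ⟨a1, a2, a3⟩ := MainA_mf he
      obtain ⟨a4, -, -, a5, -⟩ := (hEv e).1 a1
      have a6 := (MainA_mem a4).2
      refine ⟨a4, not_lt.1 a5, a2, (winOf_eq sc1.cuts (winOf_mem sc1.cuts a6) a3.le ?_).symm⟩
      exact a3 ▸ (lo_le _ _).trans_lt (lt_hi sc1.cuts a6))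
    (by
      rw [div_lt_iff₀ (by positivity)] at hs₀
      rw [← mul_div_assoc, div_le_iff₀ J0]
      have := mul_le_mul_of_nonneg_right hs₀.le D0.le
      linarith)
  have eD : 0 < ε₁ / 2 * Δ := by positivity
  have g3 : ∀ p ∈ G', ∀ j, ∃ F : Finset (Pt × ℕ),
      (∀ e ∈ F, e ∈ Ev ∧ e.1 = p ∧ lo (𝒞 s₀) e.2 = β j) ∧ ε₁ / 2 * Δ ≤ 4 * N * F.card :=
    fun p hp j => ⟨_, fun e he => MainA_mf he, g2 p hp j⟩
  clear g2
  choose! F hF g2 using g3
  refine hΔ₁ P τ S G Q Δ (𝒞 s) hB (le_of_max_le_left hΔ) sc2 G'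
    (fun j p => (F p (![1, 3, 5] j)).image fun e => winOf (𝒞 s) e.2) hG' ?_
    (fun p hp j => ⟨?_, fun w hw => ?_⟩) (fun p hp => ?_) fun p hp w hw => ?_
  · rw [div_mul_eq_mul_div, div_le_iff₀ (by positivity)]
    linarith
  · have a1 := g2 p hp (![1, 3, 5] j)
    have a2 := MainA_sum (F p (![1, 3, 5] j))
      (fun e => winOf (𝒞 s) e.2) _ (y := h * Δ / 1024 ^ s) 
      (fun e he => mem_image_of_mem (fun e : Pt × ℕ => winOf (𝒞 s) e.2) he)
      fun w F' hF' => MainA_fib P S sc2.cuts (by positivity) p w fun e he => by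
        obtain ⟨a1, a2⟩ := hF' e he
        obtain ⟨a3, a4, -⟩ := hF p hp _ e a1
        obtain ⟨a5, -, -, -, a6, -⟩ := (hEv e).1 a3
        exact ⟨a5, not_lt.1 a6, a4, a2⟩
    rw [← mul_div_assoc, le_div_iff₀ J1] at a2
    rw [div_mul_eq_mul_div, div_le_iff₀ (by positivity)]
    refine le_of_mul_le_mul_right ?_ D0
    have a3 := mul_le_mul_of_nonneg_right a1 J1.le
    have a4 := mul_le_mul_of_nonneg_left a2 (show 0 ≤ 4 * N by positivity)
    linarith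
  · obtain ⟨e, he, rfl⟩ := mem_image.1 hw
    obtain ⟨a3, rfl, -⟩ := hF p hp _ e he
    obtain ⟨a5, -, -, -, -, a6, -⟩ := (hEv e).1 a3
    exact ⟨winOf_mem sc2.cuts (MainA_mem a5).2, not_lt.1 a6⟩
  · have a1 := g2 p hp 0
    rcases (F p 0).eq_empty_or_nonempty with a2 | ⟨e, he⟩
    · rw [a2, card_empty, Nat.cast_zero, mul_zero] at a1
      linarith
    · obtain ⟨a3, rfl, -⟩ := hF p hp _ e he
      exact not_lt.1 ((hEv e).1 a3).2.2.2.2.2.2
  · choose e he hew using fun j => mem_image.1 (hw j)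
    obtain rfl : w = fun j => winOf (𝒞 s) (e j).2 := funext fun j => (hew j).symm
    exact far3_of hB.chain sc1.cuts sc2.cuts (hS.nest _ _ ss) _ β hβ
      (fun j => (mem_filter.1 (hβC j)).1) (mem_filter.1 (hβC 6)).2 (fun j => (e j).2)
      (fun j => (MainA_mem ((hEv _).1 (hF p hp _ _ (he j)).1).1).2)
      (hF p hp _ _ (he 0)).2.2 (hF p hp _ _ (he 1)).2.2 (hF p hp _ _ (he 2)).2.2
      fun j => ((hEv _).1 (hF p hp _ _ (he j)).1).2.1

end
end Crest.Agent.R51
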