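import Crest.Agent.R51.Cuts

set_option autoImplicit false
open Classical Finset

namespace Crest.Agent.R51
noncomputable section

variable {P : Finset Pt} {τ : ℕ → ℝ} {S : ℕ → Finset Pt} {G a b Q : ℕ}
  {mt : ℕ → ℕ → Pt → Pt}

/-- one step: a family of involutions matching `A` with `B` -/
theorem Match_exists_step {α : Type} (A B : Finset α) (hd : ∀ p ∈ A, p ∉ B)
    (hc : A.card = B.card) : ∃ f : ℕ → α → α, (∀ w p, f w (f w p) = p) ∧
      (∀ w, ∀ p ∈ A, f w p ∈ B) ∧ (∀ w, ∀ p ∈ B, f w p ∈ A) ∧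
      (∀ w p, p ∉ A → p ∉ B → f w p = p) ∧
      ∀ w, w < A.card → ∀ w', w' < A.card → ∀ p ∈ A, f w p = f w' p → w = w' := by
  rcases Nat.eq_zero_or_pos A.card with h0 | hpos
  · have hA : A = ∅ := Finset.card_eq_zero.1 h0
    have hB : B = ∅ := Finset.card_eq_zero.1 (hc ▸ h0)
    subst hA hB
    exact ⟨fun _ p => p, fun _ _ => rfl, by simp, by simp, fun _ _ _ _ => rfl, by simp⟩
  have : NeZero A.card := ⟨hpos.ne'⟩
  let eA : A ≃ ZMod A.card := Fintype.equivOfCardEq (by simp)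
  let eB : B ≃ ZMod A.card := Fintype.equivOfCardEq (by simp [hc])
  let σ : ℕ → A ≃ B := fun w => eA.trans ((Equiv.addRight (w : ZMod A.card)).trans eB.symm)
  let f : ℕ → α → α := fun w p =>
    if h : p ∈ A then (σ w ⟨p, h⟩ : α) else if h : p ∈ B then ((σ w).symm ⟨p, h⟩ : α) else p
  have fA : ∀ w (p : A), f w p = σ w p := fun w p => dif_pos p.2
  have fB : ∀ w (p : B), f w p = (σ w).symm p := fun w p => by
    have h1 : (p : α) ∉ A := fun h => hd _ h p.2
    simp only [f, dif_neg h1, dif_pos p.2]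
  have fO : ∀ w p, p ∉ A → p ∉ B → f w p = p := fun w p h1 h2 => by
    simp only [f, dif_neg h1, dif_neg h2]
  refine ⟨f, fun w p => ?_, fun w p hp => ?_, fun w p hp => ?_, fO, fun w hw w' hw' p hp h => ?_⟩
  · by_cases h1 : p ∈ A
    · have := fA w ⟨p, h1⟩
      simp only at this
      rw [this, fB, Equiv.symm_apply_apply]
    · by_cases h2 : p ∈ B
      · have := fB w ⟨p, h2⟩
        simp only at this
        rw [this, fA, Equiv.apply_symm_apply]
      · rw [fO w p h1 h2, fO w p h1 h2]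
  · have := fA w ⟨p, hp⟩
    simp only at this
    rw [this]
    exact (σ w ⟨p, hp⟩).2
  · have := fB w ⟨p, hp⟩
    simp only at this
    rw [this]
    exact ((σ w).symm ⟨p, hp⟩).2
  · have h1 := fA w ⟨p, hp⟩
    have h2 := fA w' ⟨p, hp⟩
    simp only at h1 h2
    rw [h1, h2] at h
    have h3 : σ w ⟨p, hp⟩ = σ w' ⟨p, hp⟩ := Subtype.ext h
    simp only [σ, Equiv.trans_apply, Equiv.coe_addRight, EmbeddingLike.apply_eq_iff_eq,
      add_right_inj] at h3
    rwa [ZMod.natCast_eq_natCast_iff', Nat.mod_eq_of_lt hw, Nat.mod_eq_of_lt hw'] at h3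

theorem Match_mt_mem (h : Chain P τ S G) (hb : b ≤ G) (hm : Mt S a b Q mt) (w : ℕ) {i : ℕ}
    (hai : a ≤ i) (hib : i < b) {y : Pt} (hy : y ∈ P) : mt w i y ∈ P := by
  by_cases h1 : y ∈ U S i
  · exact h.sub (i + 1) (by omega) (Finset.mem_sdiff.1 (hm.toV w i hai hib y h1)).1
  · by_cases h2 : y ∈ V S i
    · exact h.sub i (by omega) (Finset.mem_sdiff.1 (hm.toU w i hai hib y h2)).1
    · rwa [hm.fix w i y h1 h2]

/-- shifting the slope -/
theorem Match_shift {s s' : ℝ} {u v : Pt} (h1 : u.1 < v.1) (h2 : ph s u < ph s v)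
    (h3 : ph s' v < ph s' u) :
    (∀ t, t ≤ s → ph t u ≤ ph t v) ∧ ∀ t, s' ≤ t → ph t v ≤ ph t u := by
  unfold ph at *
  constructor
  · intro t ht
    nlinarith [mul_nonneg (sub_nonneg.2 ht) (sub_nonneg.2 h1.le)]
  · intro t ht
    nlinarith [mul_nonneg (sub_nonneg.2 ht) (sub_nonneg.2 h1.le)]

theorem exists_mt (h : Chain P τ S G) (hb : b ≤ G)
    (hQ : ∀ i, a ≤ i → i < b → Q ≤ (U S i).card) : ∃ mt, Mt S a b Q mt := by
  have key : ∀ i, ∃ f : ℕ → Pt → Pt, (∀ w p, f w (f w p) = p) ∧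
      (∀ w p, p ∉ U S i → p ∉ V S i → f w p = p) ∧ (a ≤ i → i < b →
      (∀ w, ∀ p ∈ U S i, f w p ∈ V S i) ∧ (∀ w, ∀ p ∈ V S i, f w p ∈ U S i) ∧
      ∀ w, w < Q → ∀ w', w' < Q → ∀ p ∈ U S i, f w p = f w' p → w = w') := by
    intro i
    by_cases hi : a ≤ i ∧ i < b
    · obtain ⟨f, h1, h2, h3, h4, h5⟩ := Match_exists_step (U S i) (V S i)
        (fun p hp hq => (Finset.mem_sdiff.1 hq).2 (Finset.mem_sdiff.1 hp).1)
        (card_U_eq_V h (by omega))
      have hq := hQ i hi.1 hi.2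
      exact ⟨f, h1, h4, fun _ _ => ⟨h2, h3, fun w hw w' hw' =>
        h5 w (lt_of_lt_of_le hw hq) w' (lt_of_lt_of_le hw' hq)⟩⟩
    · exact ⟨fun _ p => p, fun _ _ => rfl, fun _ _ _ _ => rfl,
        fun h1 h2 => absurd ⟨h1, h2⟩ hi⟩
  choose f h1 h2 h3 using key
  exact ⟨fun w i => f i w, ⟨fun w i => h1 i w, fun w i ha hb => (h3 i ha hb).1 w,
    fun w i ha hb => (h3 i ha hb).2.1 w, fun w i => h2 i w,
    fun w hw w' hw' i ha hb => (h3 i ha hb).2.2 w hw w' hw'⟩⟩

theorem pos_mem (h : Chain P τ S G) (hb : b ≤ G) (hm : Mt S a b Q mt) (w : ℕ) {j : ℕ}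
    (hj : a + j ≤ b) {x : Pt} (hx : x ∈ P) : pos mt w a j x ∈ P := by
  induction j with
  | zero => exact hx
  | succ j ih => exact Match_mt_mem h hb hm w (by omega) (by omega) (ih (by omega))

theorem pos_inj (hm : Mt S a b Q mt) (w j : ℕ) : Function.Injective (pos mt w a j) := by
  induction j with
  | zero => exact fun _ _ h => h
  | succ j ih =>
    intro x y hxy
    apply ih
    have := congrArg (mt w (a + j)) hxy
    simpa only [pos, hm.invol] using this

theorem pos_surj (h : Chain P τ S G) (hb : b ≤ G) (hm : Mt S a b Q mt) (w : ℕ) {j : ℕ}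
    (hj : a + j ≤ b) {p : Pt} (hp : p ∈ P) : ∃ x ∈ P, pos mt w a j x = p := by
  induction j generalizing p with
  | zero => exact ⟨p, hp, rfl⟩
  | succ j ih =>
    obtain ⟨x, hx, hx'⟩ := ih (by omega)
      (Match_mt_mem h hb hm w (i := a + j) (by omega) (by omega) hp)
    exact ⟨x, hx, by rw [pos, hx', hm.invol]⟩

theorem pos_token (hm : Mt S a b Q mt) (w : ℕ) {j : ℕ} (hj : a + j ≤ b) (x : Pt) :
    pos mt w a j x ∈ S (a + j) ↔ x ∈ S a := by
  induction j with
  | zero => exact Iff.rfl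
  | succ j ih =>
    rw [← ih (by omega), pos, ← add_assoc]
    generalize pos mt w a j x = y
    by_cases h1 : y ∈ U S (a + j)
    · exact iff_of_true (Finset.mem_sdiff.1 (hm.toV w _ (by omega) (by omega) y h1)).1
        (Finset.mem_sdiff.1 h1).1
    · by_cases h2 : y ∈ V S (a + j)
      · exact iff_of_false (Finset.mem_sdiff.1 (hm.toU w _ (by omega) (by omega) y h2)).2
          (Finset.mem_sdiff.1 h2).2
      · rw [hm.fix w _ y h1 h2]
        simp only [U, V, Finset.mem_sdiff, not_and, not_not] at h1 h2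
        exact ⟨h2, h1⟩

/-- a particle that ever visits an active point starts at an active point -/
theorem pos_act (hm : Mt S a b Q mt) (w : ℕ) {j : ℕ} (hj : a + j ≤ b) {x : Pt}
    (hx : pos mt w a j x ∈ act S a b) : x ∈ act S a b := by
  by_contra hn
  have key : ∀ k, a + k ≤ b → pos mt w a k x = x := by
    intro k hk
    induction k with
    | zero => rfl
    | succ k ih =>
      have h0 : x ∉ U S (a + k) ∪ V S (a + k) := fun h0 =>
        hn (Finset.mem_biUnion.2 ⟨a + k, Finset.mem_Ico.2 ⟨by omega, by omega⟩, h0⟩)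
      rw [Finset.mem_union, not_or] at h0
      rw [pos, ih (by omega), hm.fix w _ x h0.1 h0.2]
  rw [key j hj] at hx
  exact hn hx

/-- tokens move to the right along a convex chain -/
theorem token_mono (h : Chain P τ S G) (hb : b ≤ G) (hm : Mt S a b Q mt) (w : ℕ) {j j' : ℕ}
    (hjj : j ≤ j') (hj : a + j' ≤ b) {x : Pt} (hx : x ∈ S a) :
    (pos mt w a j x).1 ≤ (pos mt w a j' x).1 ∧
    (∀ t, t ≤ τ (a + j) → ph t (pos mt w a j x) ≤ ph t (pos mt w a j' x)) ∧
    (∀ t, τ (a + j') ≤ t → ph t (pos mt w a j' x) ≤ ph t (pos mt w a j x)) := by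
  induction j', hjj using Nat.le_induction with
  | base => exact ⟨le_rfl, fun _ _ => le_rfl, fun _ _ => le_rfl⟩
  | succ k hk ih =>
    obtain ⟨i1, i2, i3⟩ := ih (by omega)
    have hy : pos mt w a k x ∈ S (a + k) := (pos_token hm w (by omega) x).2 hx
    have l1 : τ (a + j) ≤ τ (a + k) := h.le (by omega) (by omega)
    have l2 : τ (a + k) ≤ τ (a + k + 1) := h.le (by omega) (by omega)
    rw [pos, ← add_assoc]
    generalize pos mt w a k x = y at *
    by_cases h1 : y ∈ U S (a + k)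
    · obtain ⟨s1, s2, s3⟩ := sdiff_left h (Nat.lt_succ_self (a + k)) (by omega) h1
        (hm.toV w _ (by omega) (by omega) y h1)
      obtain ⟨r1, r2⟩ := Match_shift s1 s2 s3
      exact ⟨i1.trans s1.le, fun t ht => (i2 t ht).trans (r1 t (ht.trans l1)),
        fun t ht => (r2 t ht).trans (i3 t (l2.trans ht))⟩
    · rw [hm.fix w _ y h1 (fun h2 => (Finset.mem_sdiff.1 h2).2 hy)]
      exact ⟨i1, i2, fun t ht => i3 t (l2.trans ht)⟩

/-- holes move to the left along a concave chain -/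
theorem hole_mono (h : Chain P τ S G) (hb : b ≤ G) (hm : Mt S a b Q mt) (w : ℕ) {j j' : ℕ}
    (hjj : j ≤ j') (hj : a + j' ≤ b) {x : Pt} (hx : x ∉ S a) :
    (pos mt w a j' x).1 ≤ (pos mt w a j x).1 ∧
    (∀ t, t ≤ τ (a + j) → ph t (pos mt w a j' x) ≤ ph t (pos mt w a j x)) ∧
    (∀ t, τ (a + j') ≤ t → ph t (pos mt w a j x) ≤ ph t (pos mt w a j' x)) := by
  induction j', hjj using Nat.le_induction with
  | base => exact ⟨le_rfl, fun _ _ => le_rfl, fun _ _ => le_rfl⟩
  | succ k hk ih =>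
    obtain ⟨i1, i2, i3⟩ := ih (by omega)
    have hy : pos mt w a k x ∉ S (a + k) := fun h0 => hx ((pos_token hm w (by omega) x).1 h0)
    have l1 : τ (a + j) ≤ τ (a + k) := h.le (by omega) (by omega)
    have l2 : τ (a + k) ≤ τ (a + k + 1) := h.le (by omega) (by omega)
    rw [pos, ← add_assoc]
    generalize pos mt w a k x = y at *
    by_cases h1 : y ∈ V S (a + k)
    · obtain ⟨s1, s2, s3⟩ := sdiff_left h (Nat.lt_succ_self (a + k)) (by omega)
        (hm.toU w _ (by omega) (by omega) y h1) h1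
      obtain ⟨r1, r2⟩ := Match_shift s1 s2 s3
      exact ⟨s1.le.trans i1, fun t ht => (r1 t (ht.trans l1)).trans (i2 t ht),
        fun t ht => (i3 t (l2.trans ht)).trans (r2 t ht)⟩
    · rw [hm.fix w _ y (fun h2 => hy (Finset.mem_sdiff.1 h2).1) h1]
      exact ⟨i1, i2, fun t ht => i3 t (l2.trans ht)⟩

end
end Crest.Agent.R51
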