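import Crest.Agent.R51.Defs

set_option autoImplicit false
open Classical Finset

namespace Crest.Agent.R51
noncomputable section

namespace PlanarAux

/-- slope of a segment -/
def sl (e : Pt × Pt) : ℝ := (e.2.2 - e.1.2) / (e.2.1 - e.1.1)

theorem hgt_eq (e : Pt × Pt) (x : ℝ) : hgt e x = e.1.2 + (x - e.1.1) * sl e := rfl

theorem hgt_left (e : Pt × Pt) : hgt e e.1.1 = e.1.2 := by
  rw [hgt_eq, sub_self, zero_mul, add_zero]

theorem hgt_right {e : Pt × Pt} (h : e.1.1 < e.2.1) : hgt e e.2.1 = e.2.2 := by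
  rw [hgt_eq, sl, mul_div_cancel₀ _ (sub_pos.2 h).ne', add_sub_cancel]

theorem hgt_lt_iff {e f : Pt × Pt} (h : f.1 = e.1) {x : ℝ} (hx : e.1.1 < x) :
    hgt f x < hgt e x ↔ sl f < sl e := by
  rw [hgt_eq, hgt_eq, h, add_lt_add_iff_left, mul_lt_mul_iff_right₀ (sub_pos.2 hx)]

variable {P : Finset Pt} {E : Finset (Pt × Pt)}

theorem hgt_ne (hgp : GP P) {e : Pt × Pt} (he : e.1 ∈ P ∧ e.2 ∈ P ∧ e.1.1 < e.2.1) {r : Pt}
    (hr : r ∈ P) (h1 : e.1 ≠ r) (h2 : e.2 ≠ r) : hgt e r.1 ≠ r.2 := by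
  intro h
  refine hgp e.1 he.1 e.2 he.2.1 r hr (fun h0 => he.2.2.ne (congrArg Prod.fst h0)) h1 h2 ?_
  have h3 := (sub_pos.2 he.2.2).ne'
  rw [← h, hgt_eq, sl]
  field_simp
  ring

theorem eq_of_sl (hgp : GP P) {e f : Pt × Pt} (he : e.1 ∈ P ∧ e.2 ∈ P ∧ e.1.1 < e.2.1)
    (hf : f.1 ∈ P ∧ f.2 ∈ P ∧ f.1.1 < f.2.1) (h1 : e.1 = f.1) (h2 : sl e = sl f) : e = f := by
  refine Prod.ext h1 ?_
  by_contra h3
  refine hgt_ne hgp he hf.2.1 (fun h0 => hf.2.2.ne (congrArg Prod.fst (h1.symm.trans h0))) h3 ?_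
  rw [← hgt_right hf.2.2, hgt_eq, hgt_eq, h1, h2]

theorem no_swap (hnc : ∀ e ∈ E, ∀ e' ∈ E, ¬ Cross e e') {e f : Pt × Pt} (he : e ∈ E) (hf : f ∈ E)
    {x₀ x₁ : ℝ} (hx : x₀ ≤ x₁) (h1 : e.1.1 ≤ x₀) (h2 : f.1.1 ≤ x₀) (h3 : x₁ ≤ e.2.1)
    (h4 : x₁ ≤ f.2.1) (h5 : hgt e x₀ < hgt f x₀) (h6 : hgt f x₁ < hgt e x₁) : False := by
  have hc : Continuous fun x => hgt e x - hgt f x := by
    simp only [hgt_eq]
    fun_prop
  obtain ⟨x, hx', h0⟩ := intermediate_value_Ioo hx hc.continuousOn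
    (show (0 : ℝ) ∈ Set.Ioo _ _ from ⟨sub_neg.2 h5, sub_pos.2 h6⟩)
  refine hnc e he f hf ⟨fun h => ?_, x, h1.trans_lt hx'.1, hx'.2.trans_le h3, h2.trans_lt hx'.1,
    hx'.2.trans_le h4, sub_eq_zero.1 h0⟩
  rw [h] at h5
  exact lt_irrefl _ h5

/-- `e'` is the next lower edge with the same left end -/
def Pred (E : Finset (Pt × Pt)) (e' e : Pt × Pt) : Prop :=
  e' ∈ E ∧ e'.1 = e.1 ∧ sl e' < sl e ∧ ∀ f ∈ E, f.1 = e.1 → sl f < sl e → sl f ≤ sl e'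

/-- `e` is the first edge above `v` -/
def Up (E : Finset (Pt × Pt)) (v : Pt) (e : Pt × Pt) : Prop :=
  e.1.1 < v.1 ∧ v.1 < e.2.1 ∧ v.2 < hgt e v.1 ∧
    ∀ f ∈ E, f.1.1 < v.1 → v.1 < f.2.1 → v.2 < hgt f v.1 → hgt e v.1 ≤ hgt f v.1

/-- `e` is the first edge below `v` -/
def Down (E : Finset (Pt × Pt)) (v : Pt) (e : Pt × Pt) : Prop :=
  e.1.1 < v.1 ∧ v.1 < e.2.1 ∧ hgt e v.1 < v.2 ∧
    ∀ f ∈ E, f.1.1 < v.1 → v.1 < f.2.1 → hgt f v.1 < v.2 → hgt f v.1 ≤ hgt e v.1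

theorem wedge (hgp : GP P) (hx : XInj P) (hE : ∀ e ∈ E, e.1 ∈ P ∧ e.2 ∈ P ∧ e.1.1 < e.2.1)
    (hnc : ∀ e ∈ E, ∀ e' ∈ E, ¬ Cross e e') {e e' : Pt × Pt} (he : e ∈ E) (h : Pred E e' e) :
    ∃ v ∈ P, Up E v e ∨ Down E v e' := by
  obtain ⟨he', h1, h2, h3⟩ := h
  obtain ⟨a1, a2, a3⟩ := hE e he
  obtain ⟨b1, b2, b3⟩ := hE e' he'
  set W := P.filter fun r => e.1.1 < r.1 ∧ r.2 ≤ hgt e r.1 ∧ hgt e' r.1 ≤ r.2 with hW
  have q1 : e.2 ∈ W := mem_filter.2 ⟨a2, a3, (hgt_right a3).ge,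
    (((hgt_lt_iff h1 a3).2 h2).trans_eq (hgt_right a3)).le⟩
  have b3' : e.1.1 < e'.2.1 := h1 ▸ b3
  have q2 : e'.2 ∈ W := mem_filter.2 ⟨b2, b3',
    ((hgt_right b3).symm.trans_lt ((hgt_lt_iff h1 b3').2 h2)).le, (hgt_right b3).le⟩
  obtain ⟨v, hv, hmin⟩ := exists_min_image W (fun r => r.1) ⟨_, q1⟩
  obtain ⟨v1, v2, v3, v4⟩ := mem_filter.1 hv
  have m1 : v.1 ≤ e.2.1 := hmin _ q1
  have m2 : v.1 ≤ e'.2.1 := hmin _ q2
  have key : ∀ f ∈ E, f.1.1 < v.1 → v.1 < f.2.1 → hgt e' v.1 < hgt f v.1 →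
      hgt f v.1 < hgt e v.1 → False := by
    intro f hf c1 c2 c3 c4
    obtain ⟨f1, f2, f3⟩ := hE f hf
    rcases lt_trichotomy f.1.1 e.1.1 with c | c | c
    · rcases lt_or_gt_of_ne (hgt_ne hgp (hE f hf) a1 (fun h0 => c.ne (congrArg Prod.fst h0))
        fun h0 => (v2.trans c2).ne' (congrArg Prod.fst h0)) with d | d
      · refine no_swap hnc hf he' v2.le c.le (h1 ▸ le_rfl) c2.le m2 ?_ c3
        rwa [← h1, hgt_left, h1]
      · refine no_swap hnc he hf v2.le le_rfl c.le m1 c2.le ?_ c4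
        rwa [hgt_left]
    · have d := hx _ f1 _ a1 c
      exact (h3 f hf d ((hgt_lt_iff d v2).1 c4)).not_gt
        ((hgt_lt_iff (h1.trans d.symm) c1).1 c3)
    · have d : f.1 ∉ W := fun d => (hmin _ d).not_gt c1
      by_cases d1 : f.1.2 ≤ hgt e f.1.1
      · refine no_swap hnc hf he' c1.le le_rfl (h1 ▸ c.le) c2.le m2 ?_ c3
        rw [hgt_left]
        exact not_le.1 fun d2 => d (mem_filter.2 ⟨f1, c, d1, d2⟩)
      · refine no_swap hnc he hf c1.le c.le le_rfl m1 c2.le ?_ c4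
        rw [hgt_left]
        exact not_le.1 d1
  refine ⟨v, v1, ?_⟩
  by_cases hq : e.2 = v
  · have d : hgt e' v.1 < v.2 := by
      have := (hgt_lt_iff h1 v2).2 h2
      rwa [← hq, hgt_right a3, hq] at this
    refine Or.inr ⟨h1 ▸ v2, lt_of_le_of_ne m2 fun h0 => d.ne ?_, d, fun f hf c1 c2 c3 =>
      not_lt.1 fun c4 => key f hf c1 c2 c4 (c3.trans_le v3)⟩
    rw [hx _ v1 _ b2 h0, hgt_right b3]
  · exact Or.inl ⟨v2, lt_of_le_of_ne m1 fun h0 => hq (hx _ v1 _ a2 h0).symm,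
      lt_of_le_of_ne v3 (hgt_ne hgp (hE e he) v1 (fun h0 => v2.ne (congrArg Prod.fst h0)) hq).symm,
      fun f hf c1 c2 c3 => not_lt.1 fun c4 => key f hf c1 c2 (v4.trans_lt c3) c4⟩

theorem card_le (R : Pt → Pt × Pt → Prop) [DecidablePred fun e => ∃ v ∈ P, R v e]
    (h : ∀ v, ∀ e ∈ E, ∀ f ∈ E, R v e → R v f → e = f) :
    (E.filter fun e => ∃ v ∈ P, R v e).card ≤ P.card := by
  have h1 : ∀ e ∈ E.filter fun e => ∃ v ∈ P, R v e, ∃ v ∈ P, R v e := fun e he => (mem_filter.1 he).2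
  choose! g g1 g2 using h1
  exact card_le_card_of_injOn g g1 fun e he f hf hg =>
    h (g e) e (mem_filter.1 he).1 f (mem_filter.1 hf).1 (g2 e he) (hg ▸ g2 f hf)

end PlanarAux

open PlanarAux in
/-- a non-crossing family of segments on `n` points in general position has at most `3 n`
members -/
theorem planar (P : Finset Pt) (hgp : GP P) (hx : XInj P) (E : Finset (Pt × Pt))
    (hE : ∀ e ∈ E, e.1 ∈ P ∧ e.2 ∈ P ∧ e.1.1 < e.2.1)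
    (hnc : ∀ e ∈ E, ∀ e' ∈ E, ¬ Cross e e') : E.card ≤ 3 * P.card := by
  have heq : ∀ e ∈ E, ∀ f ∈ E, ∀ x, e.1.1 < x → x < e.2.1 → f.1.1 < x → x < f.2.1 →
      hgt e x = hgt f x → e = f := fun e he f hf x h1 h2 h3 h4 h5 =>
    not_not.1 fun h => hnc e he f hf ⟨h, x, h1, h2, h3, h4, h5⟩
  have c1 := card_le (P := P) (E := E) (fun v e => e.1 = v ∧ ∀ f ∈ E, f.1 = e.1 → sl e ≤ sl f)
    fun v e he f hf h1 h2 => eq_of_sl hgp (hE e he) (hE f hf) (h1.1.trans h2.1.symm)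
      (le_antisymm (h1.2 f hf (h2.1.trans h1.1.symm)) (h2.2 e he (h1.1.trans h2.1.symm)))
  have c2 := card_le (P := P) (E := E) (Up E) fun v e he f hf h1 h2 =>
    heq e he f hf v.1 h1.1 h1.2.1 h2.1 h2.2.1
      (le_antisymm (h1.2.2.2 f hf h2.1 h2.2.1 h2.2.2.1) (h2.2.2.2 e he h1.1 h1.2.1 h1.2.2.1))
  have c3 := card_le (P := P) (E := E) (fun v e => ∃ e', Pred E e' e ∧ Down E v e') (by
    rintro v e he f hf ⟨e', p1, h1⟩ ⟨f', p2, h2⟩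
    have h3 : e' = f' := heq e' p1.1 f' p2.1 v.1 h1.1 h1.2.1 h2.1 h2.2.1
      (le_antisymm (h2.2.2.2 e' p1.1 h1.1 h1.2.1 h1.2.2.1) (h1.2.2.2 f' p2.1 h2.1 h2.2.1 h2.2.2.1))
    subst h3
    have h4 : e.1 = f.1 := p1.2.1.symm.trans p2.2.1
    exact eq_of_sl hgp (hE e he) (hE f hf) h4 (le_antisymm
      (not_lt.1 fun h => (p1.2.2.2 f hf h4.symm h).not_gt p2.2.2.1)
      (not_lt.1 fun h => (p2.2.2.2 e he h4 h).not_gt p1.2.2.1)))
  refine le_trans (card_le_card fun e he => ?_) (((card_union_le _ _).trans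
    (add_le_add (card_union_le _ _) le_rfl)).trans
      ((add_le_add (add_le_add c1 c2) c3).trans (by omega)))
  by_cases h : ∀ f ∈ E, f.1 = e.1 → sl e ≤ sl f
  · exact mem_union_left _ (mem_union_left _ (mem_filter.2 ⟨he, e.1, (hE e he).1, rfl, h⟩))
  · push Not at h
    obtain ⟨f, f1, f2, f3⟩ := h
    obtain ⟨e', h1, h2⟩ := exists_max_image (E.filter fun f => f.1 = e.1 ∧ sl f < sl e) sl
      ⟨f, mem_filter.2 ⟨f1, f2, f3⟩⟩
    obtain ⟨h3, h4, h5⟩ := mem_filter.1 h1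
    have hp : Pred E e' e := ⟨h3, h4, h5, fun f a b c => h2 f (mem_filter.2 ⟨a, b, c⟩)⟩
    obtain ⟨v, hv, h6 | h6⟩ := wedge hgp hx hE hnc he hp
    · exact mem_union_left _ (mem_union_right _ (mem_filter.2 ⟨he, v, hv, h6⟩))
    · exact mem_union_right _ (mem_filter.2 ⟨he, v, hv, e', hp, h6⟩)

end
end Crest.Agent.R51
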