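import Crest.Agent.R51.FewWin

set_option autoImplicit false
open Classical Finset

namespace Crest.Agent.R51
noncomputable section

variable {P : Finset Pt} {τ : ℕ → ℝ} {S : ℕ → Finset Pt} {G : ℕ}

namespace PowerAux

theorem triv_chain : Chain (∅ : Finset Pt) (fun _ => 0) (fun _ => ∅) 0 where
  mono := fun i j hij hj => by omega
  sub := fun _ _ => Finset.Subset.refl _
  cut := fun _ _ p hp => by simp at hp
  card := fun _ _ => rfl

theorem triv_sets : (sets (fun _ => (∅ : Finset Pt)) 0).card = 1 := by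
  simp [sets]

theorem sdiff_act {a b i : ℕ} (h1 : a ≤ i) (h2 : i ≤ b) :
    S i \ act S a b = S a \ act S a b := by
  ext p
  simp only [mem_sdiff]
  constructor
  · rintro ⟨hp, hn⟩
    refine ⟨?_, hn⟩
    by_contra hq
    exact hn (mem_act_iff.mpr ⟨⟨i, h1, h2, hp⟩, ⟨a, le_rfl, h1.trans h2, hq⟩⟩)
  · rintro ⟨hp, hn⟩
    refine ⟨?_, hn⟩
    by_contra hq
    exact hn (mem_act_iff.mpr ⟨⟨a, le_rfl, h1.trans h2, hp⟩, ⟨i, h1, h2, hq⟩⟩)

theorem win_chain (h : Chain P τ S G) {a b : ℕ} (hab : a ≤ b) (hb : b ≤ G) :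
    Chain (act S a b) (fun i => τ (a + i)) (fun i => S (a + i) ∩ act S a b) (b - a) where
  mono := fun i j hij hj => h.mono _ _ (by omega) (by omega)
  sub := fun _ _ => inter_subset_right
  cut := fun i hi p hp q hq hqn => by
    refine h.cut (a + i) (by omega) p (mem_inter.mp hp).1 q (act_sub h hb hq) ?_
    intro hq'
    exact hqn (mem_inter.mpr ⟨hq', hq⟩)
  card := fun i hi => by
    have e1 := card_sdiff_add_card_inter (S (a + i)) (act S a b)
    have e2 := card_sdiff_add_card_inter (S a) (act S a b)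
    rw [sdiff_act (by omega : a ≤ a + i) (by omega : a + i ≤ b)] at e1
    have e3 := h.card (a + i) (by omega)
    have e4 := h.card a (by omega)
    simp only [Nat.add_zero]
    omega

theorem win_step (hs : ∀ i, i < G → (U S i).card ≤ 1) {a b : ℕ} (hb : b ≤ G) (i : ℕ)
    (hi : i < b - a) : (U (fun i => S (a + i) ∩ act S a b) i).card ≤ 1 := by
  refine le_trans (card_le_card ?_) (hs (a + i) (by omega))
  intro p hp
  simp only [U, mem_sdiff, mem_inter, not_and] at hp ⊢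
  refine ⟨hp.1.1, fun hq => hp.2 ?_ hp.1.2⟩
  rwa [← Nat.add_assoc]

theorem win_card {a b : ℕ} :
    ((Finset.Icc a b).image S).card ≤ (sets (fun i => S (a + i) ∩ act S a b) (b - a)).card := by
  refine le_trans (card_le_card ?_) (card_image_le (f := fun T => T ∪ (S a \ act S a b)))
  intro T hT
  obtain ⟨i, hi, rfl⟩ := mem_image.mp hT
  rw [mem_Icc] at hi
  refine mem_image.mpr ⟨S i ∩ act S a b, ?_, ?_⟩
  · refine mem_image.mpr ⟨i - a, mem_range.mpr (by omega), ?_⟩
    have : a + (i - a) = i := by omega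
    simp only [this]
  · rw [← sdiff_act hi.1 hi.2, union_comm, sdiff_union_inter]

theorem cover {C : Finset ℕ} (hC : Cuts G C) (hG : 0 < G) :
    sets S G ⊆ (wins C).biUnion (fun w => (Finset.Icc w.1 w.2).image S) := by
  intro T hT
  obtain ⟨i, hi, rfl⟩ := mem_image.mp hT
  rw [mem_range] at hi
  by_cases hiG : i < G
  · refine mem_biUnion.mpr ⟨winOf C i, winOf_mem hC hiG, mem_image.mpr ⟨i, ?_, rfl⟩⟩
    exact mem_Icc.mpr ⟨lo_le C i, (lt_hi hC hiG).le⟩
  · have h1 : G - 1 < G := by omega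
    refine mem_biUnion.mpr ⟨winOf C (G - 1), winOf_mem hC h1, mem_image.mpr ⟨i, ?_, rfl⟩⟩
    have e1 := lo_le C (G - 1)
    have e2 := lt_hi hC h1
    refine mem_Icc.mpr ⟨?_, ?_⟩
    · show lo C (G - 1) ≤ i
      omega
    · show i ≤ Crest.Agent.R51.hi C (G - 1)
      omega

theorem sets_le (h : Chain P τ S G) : (sets S G).card ≤ 2 ^ P.card := by
  rw [← card_powerset]
  refine card_le_card ?_
  intro T hT
  obtain ⟨i, hi, rfl⟩ := mem_image.mp hT
  exact mem_powerset.mpr (h.sub i (by have := mem_range.mp hi; omega))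

theorem one_le_C {ε₀ C₀ : ℝ} (hP : PowSt ε₀ C₀) : 1 ≤ C₀ := by
  have := hP ∅ _ _ 0 (fun p hp => by simp at hp) (fun p hp => by simp at hp) triv_chain
    (fun i hi => by omega)
  rw [triv_sets] at this
  simpa using this

end PowerAux

theorem window_count (h : Chain P τ S G) (hs : ∀ i, i < G → (U S i).card ≤ 1) (C : Finset ℕ)
    (hC : Cuts G C) (m f : ℝ) (hm0 : 0 ≤ m) (hm : ∀ w ∈ wins C, ((act S w.1 w.2).card : ℝ) ≤ m)
    (hf : ∀ P' : Finset Pt, P' ⊆ P → (P'.card : ℝ) ≤ m →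
      ∀ (τ' : ℕ → ℝ) (S' : ℕ → Finset Pt) (G' : ℕ), Chain P' τ' S' G' →
        (∀ i, i < G' → (U S' i).card ≤ 1) → ((sets S' G').card : ℝ) ≤ f) :
    ((sets S G).card : ℝ) ≤ C.card * f := by
  have hf1 : 1 ≤ f := by
    have := hf ∅ (empty_subset _) (by simpa using hm0) _ _ 0 PowerAux.triv_chain
      (fun i hi => by omega)
    rw [PowerAux.triv_sets] at this
    simpa using this
  rcases Nat.eq_zero_or_pos G with hG | hG
  · subst hG
    have e1 : (sets S 0).card = 1 := by simp [sets]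
    have e2 : (1 : ℝ) ≤ C.card := by
      exact_mod_cast card_pos.mpr ⟨0, hC.zero⟩
    rw [e1]
    push_cast
    nlinarith
  · have e1 : ((sets S G).card : ℝ) ≤ ∑ w ∈ wins C, (((Finset.Icc w.1 w.2).image S).card : ℝ) := by
      exact_mod_cast (card_le_card (PowerAux.cover hC hG)).trans card_biUnion_le
    have e2 : ∀ w ∈ wins C, (((Finset.Icc w.1 w.2).image S).card : ℝ) ≤ f := by
      intro w hw
      obtain ⟨h1, h2⟩ := win_le hC hw
      refine le_trans ?_ (hf (act S w.1 w.2) (act_sub h h2) (hm w hw) _ _ _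
        (PowerAux.win_chain h h1.le h2) (PowerAux.win_step hs h2))
      exact_mod_cast PowerAux.win_card
    have e3 : ((wins C).card : ℝ) ≤ C.card := by exact_mod_cast card_wins_le C
    calc ((sets S G).card : ℝ) ≤ _ := e1
      _ ≤ ∑ _w ∈ wins C, f := sum_le_sum e2
      _ = (wins C).card * f := by rw [sum_const, nsmul_eq_mul]
      _ ≤ C.card * f := mul_le_mul_of_nonneg_right e3 (by linarith)

theorem power_of_main (hM : MainSt) : ∃ ε₀ : ℝ, 0 < ε₀ ∧ ε₀ < 1 / 3 ∧ ∃ C₀ : ℝ, PowSt ε₀ C₀ := by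
  obtain ⟨R, hR, n₀, H⟩ := few_windows hM
  have hR2 : (2 : ℝ) ≤ R / 2 := by linarith
  have hlog : 0 < Real.log (R / 2) := Real.log_pos (by linarith)
  have hlog2 : 0 < Real.log 2 := Real.log_pos (by norm_num)
  obtain ⟨ε₀, hε0, hε1, hε2⟩ : ∃ ε₀ : ℝ, 0 < ε₀ ∧ ε₀ ≤ 1 / 4 ∧ (R / 2) ^ ε₀ ≤ 2 := by
    refine ⟨min (1 / 4) (Real.log 2 / Real.log (R / 2)), lt_min (by norm_num) (div_pos hlog2 hlog),
      min_le_left _ _, ?_⟩
    calc (R / 2) ^ min (1 / 4) (Real.log 2 / Real.log (R / 2))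
        ≤ (R / 2) ^ (Real.log 2 / Real.log (R / 2)) :=
          Real.rpow_le_rpow_of_exponent_le (by linarith) (min_le_right _ _)
      _ = 2 := by
          rw [Real.rpow_def_of_pos (by linarith), mul_div_cancel₀ _ hlog.ne',
            Real.exp_log (by norm_num)]
  refine ⟨ε₀, hε0, by linarith, (2 : ℝ) ^ (max n₀ ⌈R⌉₊), ?_⟩
  set n₁ := max n₀ ⌈R⌉₊ with hn₁
  set e : ℝ := 4 / 3 - ε₀ with he
  have he0 : 0 ≤ e := by rw [he]; linarith
  have hC0 : (0 : ℝ) < 2 ^ n₁ := by positivity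
  suffices hind : ∀ n : ℕ, ∀ (P : Finset Pt) (τ : ℕ → ℝ) (S : ℕ → Finset Pt) (G : ℕ), P.card = n →
      GP P → XInj P → Chain P τ S G → (∀ i, i < G → (U S i).card ≤ 1) →
      ((sets S G).card : ℝ) ≤ 2 ^ n₁ * ((P.card : ℝ) + 1) ^ e from
    fun P τ S G => hind _ P τ S G rfl
  intro n
  induction n using Nat.strong_induction_on with
  | _ n ih =>
    intro P τ S G hn hgp hx hch hs
    have hone : (1 : ℝ) ≤ ((P.card : ℝ) + 1) ^ e :=
      Real.one_le_rpow (by have : (0 : ℝ) ≤ P.card := Nat.cast_nonneg _; linarith) he0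
    by_cases hsm : P.card ≤ n₁
    · have e1 : ((sets S G).card : ℝ) ≤ 2 ^ n₁ := by
        have := (PowerAux.sets_le hch).trans (Nat.pow_le_pow_right (by norm_num) hsm)
        exact_mod_cast this
      nlinarith
    · push Not at hsm
      have hn0 : n₀ ≤ P.card := le_trans (le_max_left _ _) hsm.le
      have hRn : R ≤ P.card := by
        have : ⌈R⌉₊ ≤ P.card := le_trans (le_max_right _ _) hsm.le
        exact (Nat.le_ceil R).trans (by exact_mod_cast this)
      obtain ⟨C, hC, hCc, hact⟩ := H P τ S G hgp hx hch hs hn0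
      have hRpos : 0 < R := by linarith
      have hNpos : (0 : ℝ) < P.card := by linarith
      have key := window_count hch hs C hC (P.card / R) (2 ^ n₁ * (P.card / R + 1) ^ e)
        (by positivity) (fun w hw => by rw [le_div_iff₀ hRpos]; exact hact w hw)
        (fun P' hP' hc τ' S' G' hch' hs' => by
          have hlt : P'.card < n := by
            have : (P'.card : ℝ) < P.card := by
              refine lt_of_le_of_lt hc ?_
              rw [div_lt_iff₀ hRpos]
              nlinarith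
            rw [← hn]
            exact_mod_cast this
          refine (ih _ hlt P' τ' S' G' rfl (hgp.subset hP') (hx.subset hP') hch' hs').trans ?_
          refine mul_le_mul_of_nonneg_left ?_ hC0.le
          exact Real.rpow_le_rpow (by positivity) (by linarith) he0)
      have e1 : (P.card / R + 1 : ℝ) ≤ P.card / (R / 2) := by
        have : (1 : ℝ) ≤ P.card / R := by rw [le_div_iff₀ hRpos]; linarith
        have e : (P.card : ℝ) / (R / 2) = 2 * (P.card / R) := by field_simp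
        rw [e]; linarith
      have e2 : (P.card / R + 1 : ℝ) ^ e ≤ (P.card : ℝ) ^ e / (R / 2) ^ e := by
        rw [← Real.div_rpow hNpos.le (by linarith)]
        exact Real.rpow_le_rpow (by positivity) e1 he0
      have e3 : 2 * (C.card : ℝ) ≤ (R / 2) ^ ((4 : ℝ) / 3) := by
        have hcube : ((R / 2) ^ ((4 : ℝ) / 3)) ^ 3 = (R / 2) ^ 4 := by
          rw [← Real.rpow_natCast, ← Real.rpow_mul (by linarith)]
          norm_num
        refine le_of_pow_le_pow_left₀ (n := 3) (by norm_num) (by positivity) ?_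
        rw [hcube]
        nlinarith
      have e4 : (R / 2) ^ ((4 : ℝ) / 3) = (R / 2) ^ e * (R / 2) ^ ε₀ := by
        rw [← Real.rpow_add (by linarith), he]
        ring_nf
      have hpe : 0 < (R / 2) ^ e := Real.rpow_pos_of_pos (by linarith) _
      have e5 : (C.card : ℝ) ≤ (R / 2) ^ e := by
        rw [e4] at e3
        nlinarith
      have e6 : (P.card : ℝ) ^ e ≤ ((P.card : ℝ) + 1) ^ e :=
        Real.rpow_le_rpow hNpos.le (by linarith) he0
      have hNe : 0 ≤ (P.card : ℝ) ^ e := Real.rpow_nonneg hNpos.le _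
      have e7 : (C.card : ℝ) * (P.card / R + 1 : ℝ) ^ e ≤ (P.card : ℝ) ^ e := by
        calc (C.card : ℝ) * (P.card / R + 1 : ℝ) ^ e
            ≤ (R / 2) ^ e * ((P.card : ℝ) ^ e / (R / 2) ^ e) :=
              mul_le_mul e5 e2 (by positivity) hpe.le
          _ = (P.card : ℝ) ^ e := by field_simp
      calc ((sets S G).card : ℝ) ≤ _ := key
        _ = 2 ^ n₁ * ((C.card : ℝ) * (P.card / R + 1 : ℝ) ^ e) := by ring
        _ ≤ 2 ^ n₁ * ((P.card : ℝ) + 1) ^ e := mul_le_mul_of_nonneg_left (e7.trans e6) hC0.le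

theorem ksens {ε₀ C₀ : ℝ} (h0 : 0 < ε₀) (h1 : ε₀ < 1 / 3) (hP : PowSt ε₀ C₀) : ∃ C₁ : ℝ,
    ∀ (P : Finset Pt) (τ : ℕ → ℝ) (S : ℕ → Finset Pt) (G k : ℕ), GP P → XInj P → Chain P τ S G →
      (∀ i, i < G → (U S i).card ≤ 1) → (S 0).card = k → 1 ≤ k →
      ((sets S G).card : ℝ) ≤ C₁ * P.card * ((k : ℝ) + 1) ^ ((1 : ℝ) / 3 - ε₀) := by
  have hC0 : 0 ≤ C₀ := le_trans zero_le_one (PowerAux.one_le_C hP)
  set e : ℝ := 4 / 3 - ε₀ with he
  have he0 : 0 ≤ e := by rw [he]; linarith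
  refine ⟨10 * C₀ * (4 : ℝ) ^ e, fun P τ S G k hgp hx hch hs hk hk1 => ?_⟩
  obtain ⟨C, hC1, hC2, hC3, hC4, hC5⟩ := shallow (fun p : Pt => p.1) (fun p : Pt => p.2) P τ S 0 G k
    (Nat.zero_le _) hk1 (fun i j _ hij hj => hch.mono i j hij hj)
    (fun i _ hi => ⟨hch.sub i hi, by rw [hch.card i hi, hk], hch.cut i hi⟩)
  have hC : Cuts G C := ⟨hC1, hC2, fun c hc => (hC3 c hc).2⟩
  have hkn : k ≤ P.card := by rw [← hk]; exact card_le_card (hch.sub 0 (Nat.zero_le _))
  have hkpos : (1 : ℝ) ≤ k := by exact_mod_cast hk1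
  have key := window_count hch hs C hC (4 * k) (C₀ * (4 * k + 1) ^ e) (by positivity)
    (fun w hw => by
      have : (act S w.1 w.2).card ≤ 4 * k := by
        refine le_trans (card_le_card ?_) (hC5 w hw)
        intro p hp
        obtain ⟨⟨i, h1, h2, h3⟩, -⟩ := mem_act_iff.mp hp
        simp only [mem_biUnion, mem_Icc]
        exact ⟨i, ⟨h1, h2⟩, h3⟩
      exact_mod_cast this)
    (fun P' hP' hc τ' S' G' hch' hs' => by
      refine (hP P' τ' S' G' (hgp.subset hP') (hx.subset hP') hch' hs').trans ?_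
      refine mul_le_mul_of_nonneg_left ?_ hC0
      exact Real.rpow_le_rpow (by positivity) (by linarith) he0)
  have e1 : (C.card : ℝ) * k ≤ 5 * P.card := by
    have : C.card * k ≤ 5 * P.card := by omega
    exact_mod_cast this
  have e2 : (4 * k + 1 : ℝ) ^ e ≤ (4 : ℝ) ^ e * ((k : ℝ) + 1) ^ e := by
    rw [← Real.mul_rpow (by norm_num) (by positivity)]
    exact Real.rpow_le_rpow (by positivity) (by linarith) he0
  have e3 : ((k : ℝ) + 1) ^ e = ((k : ℝ) + 1) * ((k : ℝ) + 1) ^ ((1 : ℝ) / 3 - ε₀) := by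
    have : e = 1 + ((1 : ℝ) / 3 - ε₀) := by rw [he]; ring
    rw [this, Real.rpow_add (by positivity), Real.rpow_one]
  have hA : 0 ≤ ((k : ℝ) + 1) ^ ((1 : ℝ) / 3 - ε₀) := by positivity
  have h4 : 0 ≤ (4 : ℝ) ^ e := by positivity
  have hCc : (0 : ℝ) ≤ C.card := Nat.cast_nonneg _
  have e4 : (C.card : ℝ) * ((k : ℝ) + 1) ≤ 10 * P.card := by nlinarith
  calc ((sets S G).card : ℝ) ≤ _ := key
    _ ≤ C.card * (C₀ * ((4 : ℝ) ^ e * ((k : ℝ) + 1) ^ e)) :=
        mul_le_mul_of_nonneg_left (mul_le_mul_of_nonneg_left e2 hC0) hCc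
    _ = (C.card * ((k : ℝ) + 1)) * (C₀ * (4 : ℝ) ^ e * ((k : ℝ) + 1) ^ ((1 : ℝ) / 3 - ε₀)) := by
        rw [e3]; ring
    _ ≤ (10 * P.card) * (C₀ * (4 : ℝ) ^ e * ((k : ℝ) + 1) ^ ((1 : ℝ) / 3 - ε₀)) :=
        mul_le_mul_of_nonneg_right e4 (by positivity)
    _ = _ := by ring

end
end Crest.Agent.R51
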