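import Crest.Agent.R51.Cuts

set_option autoImplicit false
open Classical Finset

namespace Crest.Agent.R51
noncomputable section

namespace ShallowAux

theorem low {α : Type} (f : α → ℝ) (Y : Finset α) (k : ℕ) (hk : k ≤ Y.card) :
    ∃ B ⊆ Y, B.card = k ∧ ∀ q ∈ B, ∀ p ∈ Y, p ∉ B → f q ≤ f p := by
  induction k with
  | zero => exact ⟨∅, empty_subset _, card_empty, fun q hq => absurd hq (notMem_empty q)⟩
  | succ k ih =>
    obtain ⟨B, h1, h2, h3⟩ := ih (Nat.le_of_succ_le hk)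
    have h4 : (Y \ B).Nonempty := by
      rw [← card_pos, card_sdiff_of_subset h1]
      omega
    obtain ⟨m, hm, h5⟩ := exists_min_image (Y \ B) f h4
    refine ⟨insert m B, insert_subset (mem_sdiff.1 hm).1 h1, ?_, fun q hq p hp hp' => ?_⟩
    · rw [card_insert_of_notMem (mem_sdiff.1 hm).2, h2]
    · have h6 : p ∉ B := fun h => hp' (mem_insert_of_mem h)
      rcases mem_insert.1 hq with rfl | hq
      · exact h5 p (mem_sdiff.2 ⟨hp, h6⟩)
      · exact h3 q hq p hp h6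

/-- the points to the right of and below `q` -/
def R {α : Type} (x y : α → ℝ) (Y : Finset α) (t : ℝ) (q : α) : Finset α :=
  Y.filter fun p => x q < x p ∧ y p - t * x p < y q - t * x q

theorem mem_R {α : Type} {x y : α → ℝ} {Y : Finset α} {t : ℝ} {q p : α} :
    p ∈ R x y Y t q ↔ p ∈ Y ∧ x q < x p ∧ y p - t * x p < y q - t * x q := mem_filter

theorem R_mono {α : Type} (x y : α → ℝ) (Y : Finset α) {s t : ℝ} (h : s ≤ t) (q : α) :
    R x y Y s q ⊆ R x y Y t q := fun p hp => by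
  obtain ⟨h1, h2, h3⟩ := mem_R.1 hp
  refine mem_R.2 ⟨h1, h2, ?_⟩
  nlinarith [mul_nonneg (sub_nonneg.2 h) (sub_nonneg.2 h2.le)]

/-- the potential -/
def Ψ {α : Type} (x y : α → ℝ) (Y : Finset α) (ρ : ℕ) (t : ℝ) : ℕ :=
  ∑ q ∈ Y, min (R x y Y t q).card (3 * ρ)

theorem Ψ_le {α : Type} (x y : α → ℝ) (Y : Finset α) (ρ : ℕ) (t : ℝ) :
    Ψ x y Y ρ t ≤ Y.card * (3 * ρ) :=
  sum_le_card_nsmul _ _ _ fun _ _ => min_le_right _ _

theorem Ψ_mono {α : Type} (x y : α → ℝ) (Y : Finset α) (ρ : ℕ) {s t : ℝ} (h : s ≤ t) :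
    Ψ x y Y ρ s ≤ Ψ x y Y ρ t :=
  sum_le_sum fun q _ => min_le_min (card_le_card (R_mono x y Y h q)) le_rfl

theorem key {α : Type} (x y : α → ℝ) (Y W : Finset α) (ρ : ℕ) {s t : ℝ} (hst : s ≤ t)
    (hW : 3 * ρ < W.card) (hWY : W ⊆ Y)
    (h : ∀ p ∈ W, ∃ (u : ℝ) (E : Finset α), s ≤ u ∧ u ≤ t ∧ E.card ≤ ρ ∧
      ∀ q ∈ Y, q ∉ E → y p - u * x p < y q - u * x q) :
    Ψ x y Y ρ s + ρ * ρ ≤ Ψ x y Y ρ t := by
  obtain ⟨B, hB, hBc, hlow⟩ := low (fun p => y p - s * x p) Y (2 * ρ)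
    (by have := card_le_card hWY; omega)
  obtain ⟨A, hA, hAc⟩ := exists_subset_card_eq (s := W \ B) (n := ρ) (by
    have := le_card_sdiff B W
    omega)
  have hAY : ∀ p ∈ A, p ∈ Y ∧ p ∉ B := fun p hp =>
    ⟨hWY (mem_sdiff.1 (hA hp)).1, (mem_sdiff.1 (hA hp)).2⟩
  have h1 : ∀ q ∈ B, min (R x y Y s q).card (3 * ρ) + (A.filter fun p => p ∈ R x y Y t q).card ≤
      min (R x y Y t q).card (3 * ρ) := by
    intro q hq
    have h2 : R x y Y s q ⊆ B := fun p hp => by
      by_contra h3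
      exact absurd (mem_R.1 hp).2.2 (not_lt.2 (hlow q hq p (mem_R.1 hp).1 h3))
    have h3 : Disjoint (R x y Y s q) (A.filter fun p => p ∈ R x y Y t q) :=
      disjoint_left.2 fun p hp hp' => (hAY p (mem_filter.1 hp').1).2 (h2 hp)
    have h4 : (R x y Y s q).card + (A.filter fun p => p ∈ R x y Y t q).card ≤
        (R x y Y t q).card := by
      rw [← card_union_of_disjoint h3]
      exact card_le_card (union_subset (R_mono x y Y hst q) fun p hp => (mem_filter.1 hp).2)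
    have h5 := card_le_card h2
    have h6 := card_filter_le A fun p => p ∈ R x y Y t q
    omega
  have h2 : ∀ p ∈ A, ρ ≤ (B.filter fun q => p ∈ R x y Y t q).card := by
    intro p hp
    obtain ⟨u, E, hu1, hu2, hE, h3⟩ := h p (mem_sdiff.1 (hA hp)).1
    have h4 : B \ E ⊆ B.filter fun q => p ∈ R x y Y t q := fun q hq => by
      obtain ⟨h5, h6⟩ := mem_sdiff.1 hq
      have h7 := h3 q (hB h5) h6
      have h8 : y q - s * x q ≤ y p - s * x p := hlow q h5 p (hAY p hp).1 (hAY p hp).2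
      refine mem_filter.2 ⟨h5, R_mono x y Y hu2 q (mem_R.2 ⟨(hAY p hp).1, ?_, h7⟩)⟩
      by_contra h9
      nlinarith [mul_nonneg (sub_nonneg.2 hu1) (sub_nonneg.2 (not_lt.1 h9))]
    have h5 := card_le_card h4
    have h6 := le_card_sdiff E B
    omega
  have h3 : ρ * ρ ≤ ∑ q ∈ B, (A.filter fun p => p ∈ R x y Y t q).card := by
    have h4 : ∑ q ∈ B, (A.filter fun p => p ∈ R x y Y t q).card =
        ∑ p ∈ A, (B.filter fun q => p ∈ R x y Y t q).card := by
      simp only [card_filter]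
      exact sum_comm
    rw [h4]
    have h5 := card_nsmul_le_sum A _ ρ h2
    rwa [hAc, smul_eq_mul] at h5
  have h4 : ∀ r, Ψ x y Y ρ r = ∑ q ∈ Y \ B, min (R x y Y r q).card (3 * ρ) +
      ∑ q ∈ B, min (R x y Y r q).card (3 * ρ) := fun r => (sum_sdiff hB).symm
  have h5 : ∑ q ∈ Y \ B, min (R x y Y s q).card (3 * ρ) ≤
      ∑ q ∈ Y \ B, min (R x y Y t q).card (3 * ρ) :=
    sum_le_sum fun q _ => min_le_min (card_le_card (R_mono x y Y hst q)) le_rfl
  have h6 := sum_le_sum h1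
  rw [sum_add_distrib] at h6
  rw [h4, h4]
  omega

theorem mem_w {C : Finset ℕ} {w : ℕ × ℕ} : w ∈ wins C ↔ IsWin C w.1 w.2 :=
  mem_filter.trans ⟨fun h => h.2, fun h => ⟨mem_product.2 ⟨h.1, h.2.1⟩, h⟩⟩

end ShallowAux

/-- shallow lemma -/
theorem shallow {α : Type} (x y : α → ℝ) (Y : Finset α) (τ : ℕ → ℝ) (E : ℕ → Finset α)
    (a b ρ : ℕ) (hab : a ≤ b) (hρ : 1 ≤ ρ)
    (hτ : ∀ i j, a ≤ i → i < j → j ≤ b → τ i < τ j)
    (hE : ∀ i, a ≤ i → i ≤ b → E i ⊆ Y ∧ (E i).card ≤ ρ ∧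
      ∀ p ∈ E i, ∀ q ∈ Y, q ∉ E i → y p - τ i * x p < y q - τ i * x q) :
    ∃ C : Finset ℕ, a ∈ C ∧ b ∈ C ∧ (∀ c ∈ C, a ≤ c ∧ c ≤ b) ∧
      C.card * ρ ≤ 3 * Y.card + 2 * ρ ∧
      ∀ w ∈ wins C, ((Finset.Icc w.1 w.2).biUnion E).card ≤ 4 * ρ := by
  have hτ' : ∀ i j, a ≤ i → i ≤ j → j ≤ b → τ i ≤ τ j := fun i j h1 h2 h3 => by
    rcases h2.eq_or_lt with rfl | h2
    · exact le_rfl
    · exact (hτ i j h1 h2 h3).le
  have main : ∀ n c, a ≤ c → c ≤ b → b - c ≤ n → ∃ C : Finset ℕ, c ∈ C ∧ b ∈ C ∧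
      (∀ e ∈ C, c ≤ e ∧ e ≤ b) ∧
      C.card * (ρ * ρ) + ShallowAux.Ψ x y Y ρ (τ c) ≤ ShallowAux.Ψ x y Y ρ (τ b) + 2 * (ρ * ρ) ∧
      ∀ w ∈ wins C, ((Finset.Icc w.1 w.2).biUnion E).card ≤ 4 * ρ := by
    intro n
    induction n using Nat.strong_induction_on with
    | _ n ih =>
    intro c h1 h2 h3
    by_cases h4 : ((Finset.Icc c b).biUnion E).card ≤ 3 * ρ
    · have h5 : ∀ e ∈ ({c, b} : Finset ℕ), c ≤ e ∧ e ≤ b := fun e he => by
        rcases mem_insert.1 he with rfl | he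
        · exact ⟨le_rfl, h2⟩
        · rw [mem_singleton.1 he]
          exact ⟨h2, le_rfl⟩
      refine ⟨{c, b}, mem_insert_self _ _, mem_insert_of_mem (mem_singleton_self _), h5, ?_,
        fun w hw => ?_⟩
      · have h6 := ShallowAux.Ψ_mono x y Y ρ (hτ' c b h1 h2 le_rfl)
        have h7 : ({c, b} : Finset ℕ).card * (ρ * ρ) ≤ 2 * (ρ * ρ) :=
          Nat.mul_le_mul_right _ card_le_two
        omega
      · obtain ⟨h6, h7, -⟩ := ShallowAux.mem_w.1 hw
        have h8 := card_le_card (biUnion_subset_biUnion_of_subset_left E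
          (Icc_subset_Icc (h5 _ h6).1 (h5 _ h7).2))
        omega
    · have hex : ∃ d, 3 * ρ < ((Finset.Icc c d).biUnion E).card := ⟨b, not_le.1 h4⟩
      set d := Nat.find hex with hd
      have h5 : 3 * ρ < ((Finset.Icc c d).biUnion E).card := Nat.find_spec hex
      have h6 : d ≤ b := Nat.find_min' hex (not_le.1 h4)
      have h7 : c < d := by
        by_contra h8
        have h9 := card_le_card (biUnion_subset_biUnion_of_subset_left E
          (Icc_subset_Icc (le_refl c) (not_lt.1 h8)))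
        rw [Icc_self, singleton_biUnion] at h9
        have := (hE c h1 h2).2.1
        omega
      have h8 : ((Finset.Icc c d).biUnion E).card ≤ 4 * ρ := by
        have h9 : ¬ 3 * ρ < ((Finset.Icc c (d - 1)).biUnion E).card :=
          Nat.find_min hex (by omega)
        have h10 : (Finset.Icc c d).biUnion E ⊆ (Finset.Icc c (d - 1)).biUnion E ∪ E d :=
          fun p hp => by
            obtain ⟨i, hi, hp⟩ := mem_biUnion.1 hp
            obtain ⟨h11, h12⟩ := mem_Icc.1 hi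
            rcases h12.eq_or_lt with rfl | h12
            · exact mem_union_right _ hp
            · exact mem_union_left _ (mem_biUnion.2 ⟨i, mem_Icc.2 ⟨h11, by omega⟩, hp⟩)
        have h11 := (card_le_card h10).trans (card_union_le _ _)
        have := (hE d (by omega) h6).2.1
        omega
      have h9 := ShallowAux.key x y Y ((Finset.Icc c d).biUnion E) ρ (hτ' c d h1 h7.le h6) h5
        (biUnion_subset.2 fun i hi =>
          (hE i (h1.trans (mem_Icc.1 hi).1) ((mem_Icc.1 hi).2.trans h6)).1)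
        (fun p hp => by
          obtain ⟨i, hi, hp⟩ := mem_biUnion.1 hp
          obtain ⟨h11, h12⟩ := mem_Icc.1 hi
          obtain ⟨-, h13, h14⟩ := hE i (h1.trans h11) (h12.trans h6)
          exact ⟨τ i, E i, hτ' c i h1 h11 (h12.trans h6), hτ' i d (h1.trans h11) h12 h6, h13,
            h14 p hp⟩)
      obtain ⟨C, k1, k2, k3, k4, k5⟩ := ih (b - d) (by omega) d (by omega) h6 le_rfl
      refine ⟨insert c C, mem_insert_self _ _, mem_insert_of_mem k2, fun e he => ?_, ?_,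
        fun w hw => ?_⟩
      · rcases mem_insert.1 he with rfl | he
        · exact ⟨le_rfl, h2⟩
        · exact ⟨h7.le.trans (k3 e he).1, (k3 e he).2⟩
      · have h10 : (insert c C).card * (ρ * ρ) ≤ (C.card + 1) * (ρ * ρ) :=
          Nat.mul_le_mul_right _ (card_insert_le _ _)
        rw [add_mul, one_mul] at h10
        omega
      · obtain ⟨w1, w2, w3, w4⟩ := ShallowAux.mem_w.1 hw
        rcases mem_insert.1 w1 with h10 | h10
        · have h11 : w.2 ≤ d := (w4 d (mem_insert_of_mem k1)).resolve_left (by omega)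
          exact (card_le_card (biUnion_subset_biUnion_of_subset_left E
            (Icc_subset_Icc h10.ge h11))).trans h8
        · have h11 : w.2 ∈ C := (mem_insert.1 w2).resolve_left (by
            have := (k3 _ h10).1
            omega)
          exact k5 w (ShallowAux.mem_w.2 ⟨h10, h11, w3, fun e he => w4 e (mem_insert_of_mem he)⟩)
  obtain ⟨C, k1, k2, k3, k4, k5⟩ := main (b - a) a le_rfl hab le_rfl
  refine ⟨C, k1, k2, k3, ?_, k5⟩
  have h1 := ShallowAux.Ψ_le x y Y ρ (τ b)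
  refine Nat.le_of_mul_le_mul_right (c := ρ) ?_ hρ
  have h2 : C.card * (ρ * ρ) ≤ Y.card * (3 * ρ) + 2 * (ρ * ρ) := by omega
  calc C.card * ρ * ρ = C.card * (ρ * ρ) := by ring
    _ ≤ _ := h2
    _ = _ := by ring

end
end Crest.Agent.R51
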