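import Crest.Agent.R51.WFun
import Crest.Agent.R51.Cuts

set_option autoImplicit false
open Classical Finset

namespace Crest.Agent.R51
noncomputable section

/-- the three linear forms -/
def ellA (t : Fin 3 → ℝ) : Fin 3 → Pt → ℝ :=
  ![fun p => (t 2 - t 1) * ph (t 0) p, fun p => (t 0 - t 2) * ph (t 1) p,
    fun p => (t 1 - t 0) * ph (t 2) p]

@[simp] theorem ellA_0 (t : Fin 3 → ℝ) (p : Pt) : ellA t 0 p = (t 2 - t 1) * ph (t 0) p := rfl
@[simp] theorem ellA_1 (t : Fin 3 → ℝ) (p : Pt) : ellA t 1 p = (t 0 - t 2) * ph (t 1) p := rfl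
@[simp] theorem ellA_2 (t : Fin 3 → ℝ) (p : Pt) : ellA t 2 p = (t 1 - t 0) * ph (t 2) p := rfl

/-- the numerical data of three mutually narrow windows -/
structure FarN (t b : Fin 3 → ℝ) (M : ℝ) : Prop where
  lt : ∀ j, t j < b j
  lt01 : b 0 < t 1
  lt12 : b 1 < t 2
  n0 : b 0 - t 0 ≤ M * (t 1 - b 0)
  n1 : (b 1 - t 1) / (t 1 - t 0) + (b 1 - t 1) / (t 2 - b 1) ≤ M
  n2 : b 2 - t 2 ≤ M * (t 2 - t 1)

theorem FarN.Mnn {t b : Fin 3 → ℝ} {M : ℝ} (h : FarN t b M) : 0 ≤ M := by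
  have h0 := h.lt 0
  have h1 := h.lt01
  have h2 := h.n0
  by_contra hM
  push Not at hM
  nlinarith

theorem cone_param {a b : ℝ} (hab : a < b) {p q : Pt} (h : Cone a b p q) :
    ∃ u dx : ℝ, 0 ≤ dx ∧ 0 ≤ u ∧ u ≤ (b - a) * dx ∧ ∀ t, ph t q - ph t p = u + (a - t) * dx := by
  obtain ⟨h1, h2⟩ := h
  refine ⟨ph a q - ph a p, q.1 - p.1, ?_, by linarith, ?_, ?_⟩
  · unfold ph at h1 h2
    by_contra hc
    push Not at hc
    nlinarith
  · unfold ph at h1 h2 ⊢
    nlinarith
  · intro t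
    unfold ph
    ring

theorem FarN.key {t b : Fin 3 → ℝ} {M : ℝ} (h : FarN t b M) (i : Fin 3) {p q : Pt}
    (hc : Cone (t i) (b i) p q) (R : ℝ) (hR : ∀ j, j ≠ i → |ellA t j p - ellA t j q| ≤ R) :
    |ellA t i p - ellA t i q| ≤ M * R := by
  obtain ⟨u, dx, hdx, hu, hub, hph⟩ := cone_param (h.lt i) hc
  have hM := h.Mnn
  have l0 := h.lt 0
  have l1 := h.lt 1
  have l2 := h.lt 2
  have l01 := h.lt01
  have l12 := h.lt12
  have e0 : ellA t 0 p - ellA t 0 q = -((t 2 - t 1) * (u + (t i - t 0) * dx)) := by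
    rw [← hph (t 0)]; simp only [ellA_0]; ring
  have e1 : ellA t 1 p - ellA t 1 q = (t 2 - t 0) * (u + (t i - t 1) * dx) := by
    rw [← hph (t 1)]; simp only [ellA_1]; ring
  have e2 : ellA t 2 p - ellA t 2 q = -((t 1 - t 0) * (u + (t i - t 2) * dx)) := by
    rw [← hph (t 2)]; simp only [ellA_2]; ring
  fin_cases i
  · simp only [Fin.zero_eta] at *
    have hR1 := hR 1 (by decide)
    rw [e1] at hR1
    rw [e0, abs_neg, sub_self, zero_mul, add_zero, abs_of_nonneg (by nlinarith)]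
    have hR1' := neg_abs_le ((t 2 - t 0) * (u + (t 0 - t 1) * dx))
    have a1 : (t 2 - t 0) * ((t 1 - b 0) * dx) ≤ R := by nlinarith
    have a2 : u ≤ M * ((t 1 - b 0) * dx) := by nlinarith [h.n0]
    have a3 : 0 ≤ M * ((t 1 - b 0) * dx) := le_trans hu a2
    have a4 : M * ((t 2 - t 0) * ((t 1 - b 0) * dx)) ≤ M * R := mul_le_mul_of_nonneg_left a1 hM
    nlinarith
  · simp only [Fin.mk_one] at *
    have hR0 := hR 0 (by decide)
    have hR2 := hR 2 (by decide)
    rw [e0, abs_neg] at hR0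
    rw [e2] at hR2
    rw [e1, sub_self, zero_mul, add_zero, abs_of_nonneg (by nlinarith)]
    have hR0' := le_abs_self ((t 2 - t 1) * (u + (t 1 - t 0) * dx))
    have hR2' := le_abs_self (-((t 1 - t 0) * (u + (t 1 - t 2) * dx)))
    have a1 : (t 2 - t 1) * ((t 1 - t 0) * dx) ≤ R := by nlinarith
    have a2 : (t 1 - t 0) * ((t 2 - b 1) * dx) ≤ R := by nlinarith
    have hRn : 0 ≤ R := le_trans (abs_nonneg _) hR0
    have p1 : 0 < t 1 - t 0 := by linarith
    have p2 : 0 < t 2 - b 1 := by linarith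
    set α := (b 1 - t 1) / (t 1 - t 0) with hα
    set β := (b 1 - t 1) / (t 2 - b 1) with hβ
    have hα0 : 0 ≤ α := div_nonneg (by linarith) p1.le
    have hβ0 : 0 ≤ β := div_nonneg (by linarith) p2.le
    have hα1 : α * (t 1 - t 0) = b 1 - t 1 := by rw [hα]; field_simp
    have hβ1 : β * (t 2 - b 1) = b 1 - t 1 := by rw [hβ]; field_simp
    have c1 : (t 2 - t 1) * u ≤ α * R := by
      calc (t 2 - t 1) * u ≤ (t 2 - t 1) * ((b 1 - t 1) * dx) :=
            mul_le_mul_of_nonneg_left hub (by linarith)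
        _ = α * ((t 2 - t 1) * ((t 1 - t 0) * dx)) := by rw [← hα1]; ring
        _ ≤ α * R := mul_le_mul_of_nonneg_left a1 hα0
    have c2 : (t 1 - t 0) * u ≤ β * R := by
      calc (t 1 - t 0) * u ≤ (t 1 - t 0) * ((b 1 - t 1) * dx) :=
            mul_le_mul_of_nonneg_left hub p1.le
        _ = β * ((t 1 - t 0) * ((t 2 - b 1) * dx)) := by rw [← hβ1]; ring
        _ ≤ β * R := mul_le_mul_of_nonneg_left a2 hβ0
    have c3 : (α + β) * R ≤ M * R := mul_le_mul_of_nonneg_right h.n1 hRn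
    nlinarith
  · simp only [Fin.reduceFinMk] at *
    have hR1 := hR 1 (by decide)
    rw [e1] at hR1
    rw [e2, abs_neg, sub_self, zero_mul, add_zero, abs_of_nonneg (by nlinarith)]
    have hR1' := le_abs_self ((t 2 - t 0) * (u + (t 2 - t 1) * dx))
    have b0 : 0 ≤ (t 2 - t 1) * dx := mul_nonneg (by linarith) hdx
    have a1 : (t 1 - t 0) * ((t 2 - t 1) * dx) ≤ R := by nlinarith
    have a2 : u ≤ M * ((t 2 - t 1) * dx) := by nlinarith [h.n2]
    have a4 : M * ((t 1 - t 0) * ((t 2 - t 1) * dx)) ≤ M * R := mul_le_mul_of_nonneg_left a1 hM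
    nlinarith

/-- a form of another window is monotone along the cone -/
theorem FarN.mono {t b : Fin 3 → ℝ} {M : ℝ} (h : FarN t b M) (i j : Fin 3) (hij : j ≠ i) :
    (∀ p q : Pt, Cone (t i) (b i) p q → ellA t j p ≤ ellA t j q) ∨
    (∀ p q : Pt, Cone (t i) (b i) p q → ellA t j q ≤ ellA t j p) := by
  have l0 := h.lt 0
  have l1 := h.lt 1
  have l2 := h.lt 2
  have l01 := h.lt01
  have l12 := h.lt12
  have lo : ∀ (s : ℝ), s ≤ t i → ∀ p q : Pt, Cone (t i) (b i) p q → ph s p ≤ ph s q := by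
    intro s hs p q hc
    obtain ⟨u, dx, hdx, hu, hub, hph⟩ := cone_param (h.lt i) hc
    have := hph s
    nlinarith
  have hi : ∀ (s : ℝ), b i ≤ s → ∀ p q : Pt, Cone (t i) (b i) p q → ph s q ≤ ph s p := by
    intro s hs p q hc
    obtain ⟨u, dx, hdx, hu, hub, hph⟩ := cone_param (h.lt i) hc
    have := hph s
    nlinarith
  fin_cases i <;> fin_cases j <;>
    simp only [Fin.zero_eta, Fin.mk_one, Fin.reduceFinMk, ne_eq, not_true_eq_false, ellA_0,
      ellA_1, ellA_2] at *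
  · left; intro p q hc; have := hi (t 1) (by linarith) p q hc; nlinarith
  · right; intro p q hc; have := hi (t 2) (by linarith) p q hc; nlinarith
  · left; intro p q hc; have := lo (t 0) (by linarith) p q hc; nlinarith
  · right; intro p q hc; have := hi (t 2) (by linarith) p q hc; nlinarith
  · left; intro p q hc; have := lo (t 0) (by linarith) p q hc; nlinarith
  · right; intro p q hc; have := lo (t 1) (by linarith) p q hc; nlinarith

theorem le_nrm {α : Type} (ℓ : Fin 3 → α → ℝ) (j : Fin 3) (p q : α) :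
    |ℓ j p - ℓ j q| ≤ nrm ℓ p q := by
  unfold nrm
  fin_cases j
  · exact le_trans (le_max_left _ _) (le_max_left _ _)
  · exact le_trans (le_max_right _ _) (le_max_left _ _)
  · exact le_max_right _ _

/-- points between two points of `A` along a cone are close to `A` from both sides -/
theorem FarN.near {t b : Fin 3 → ℝ} {M : ℝ} (h : FarN t b M) (i j : Fin 3) {p v q : Pt}
    (h1 : Cone (t i) (b i) p v) (h2 : Cone (t i) (b i) v q) (r : ℝ)
    (hr : nrm (ellA t) p q ≤ r) :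
    (ellA t j v ≤ ellA t j p + M * r ∨ ellA t j v ≤ ellA t j q + M * r) ∧
    (ellA t j p ≤ ellA t j v + M * r ∨ ellA t j q ≤ ellA t j v + M * r) := by
  have hr0 : 0 ≤ r := le_trans (le_trans (abs_nonneg _) (le_nrm (ellA t) 0 p q)) hr
  have hMr : 0 ≤ M * r := mul_nonneg h.Mnn hr0
  by_cases hij : j = i
  · subst hij
    have hk := h.key j h1 r (by
      intro k hk
      have hn := le_trans (le_nrm (ellA t) k p q) hr
      rw [abs_le] at hn ⊢
      rcases h.mono j k hk with hm | hm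
      · have a1 := hm p v h1
        have a2 := hm v q h2
        constructor <;> linarith [hn.1, hn.2]
      · have a1 := hm p v h1
        have a2 := hm v q h2
        constructor <;> linarith [hn.1, hn.2])
    rw [abs_le] at hk
    exact ⟨Or.inl (by linarith [hk.1]), Or.inl (by linarith [hk.2])⟩
  · rcases h.mono i j hij with hm | hm
    · have a1 := hm p v h1
      have a2 := hm v q h2
      exact ⟨Or.inr (by linarith), Or.inl (by linarith)⟩
    · have a1 := hm p v h1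
      have a2 := hm v q h2
      exact ⟨Or.inl (by linarith), Or.inr (by linarith)⟩

/-- the cone hull of `A` inside `z` -/
def hullA (t b : Fin 3 → ℝ) (z A : Finset Pt) : Finset Pt :=
  z.filter (fun v => ∃ i, ∃ p ∈ A, ∃ q ∈ A, Cone (t i) (b i) p v ∧ Cone (t i) (b i) v q)

theorem hullA_mono (t b : Fin 3 → ℝ) (z : Finset Pt) {A A' : Finset Pt} (h : A ⊆ A') :
    hullA t b z A ⊆ hullA t b z A' := by
  intro v hv
  rw [hullA, Finset.mem_filter] at hv ⊢
  obtain ⟨hz, i, p, hp, q, hq, hc⟩ := hv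
  exact ⟨hz, i, p, h hp, q, h hq, hc⟩

theorem sub_hullA (t b : Fin 3 → ℝ) {z A : Finset Pt} (h : A ⊆ z) : A ⊆ hullA t b z A := by
  intro v hv
  rw [hullA, Finset.mem_filter]
  exact ⟨h hv, 0, v, hv, v, hv, ⟨le_rfl, le_rfl⟩, ⟨le_rfl, le_rfl⟩⟩

theorem hullA_near {t b : Fin 3 → ℝ} {M : ℝ} (h : FarN t b M) {z A : Finset Pt} (r : ℝ)
    (hr : ∀ p ∈ A, ∀ q ∈ A, nrm (ellA t) p q ≤ r) {v : Pt} (hv : v ∈ hullA t b z A) (j : Fin 3) :
    (∃ p ∈ A, ellA t j v ≤ ellA t j p + M * r) ∧ (∃ p ∈ A, ellA t j p ≤ ellA t j v + M * r) := by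
  rw [hullA, Finset.mem_filter] at hv
  obtain ⟨-, i, p, hp, q, hq, h1, h2⟩ := hv
  obtain ⟨a1, a2⟩ := h.near i j h1 h2 r (hr p hp q hq)
  constructor
  · rcases a1 with a | a
    · exact ⟨p, hp, a⟩
    · exact ⟨q, hq, a⟩
  · rcases a2 with a | a
    · exact ⟨p, hp, a⟩
    · exact ⟨q, hq, a⟩

theorem biUnion_inst {ι : Type} (F : Finset ι) (A : ι → Finset Pt) :
    @Finset.biUnion ι Pt (fun a b => propDecidable (a = b)) F A = F.biUnion A := by
  congr
  exact Subsingleton.elim _ _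

theorem sysA_of {P : Finset Pt} {τ : ℕ → ℝ} {S : ℕ → Finset Pt} {G Q : ℕ} {Δ : ℝ}
    (hB : Base P τ S G Q Δ) (w : Fin 3 → ℕ × ℕ) (hw : ∀ j, (w j).1 < (w j).2 ∧ (w j).2 ≤ G)
    (M : ℝ) (hF : Far3 τ w M) (z A₀ : Finset Pt) (hA : A₀ ⊆ z)
    (hz : ∀ j, z ⊆ act S (w j).1 (w j).2)
    (hcl : ∀ j, ∀ p ∈ z, ∀ q ∈ z, ∀ v ∈ act S (w j).1 (w j).2,
      Cone (τ (w j).1) (τ (w j).2) p v → Cone (τ (w j).1) (τ (w j).2) v q → v ∈ z)
    (d B : ℝ) (hd : 0 < d) (hdeg : ∀ p ∈ A₀, ∀ j, d ≤ deg S (w j).1 (w j).2 p)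
    (hact : ∀ j, ((act S (w j).1 (w j).2).card : ℝ) ≤ B) (hQB : Q * d ^ 3 / 4608 ≤ B) :
    ∃ (ℓ : Fin 3 → Pt → ℝ) (T : Fin 3 → Finset Pt → ℝ) (s : Finset Pt → ℝ),
      SysA A₀ ℓ T s M (Q * d ^ 3 / 4608) (d / 24) B ∧ s A₀ ≤ z.card := by
  set t : Fin 3 → ℝ := fun j => τ (w j).1 with ht
  set b : Fin 3 → ℝ := fun j => τ (w j).2 with hb
  have hN : FarN t b M :=
    ⟨fun j => hB.chain.mono _ _ (hw j).1 (hw j).2, hF.lt01, hF.lt12, hF.n0, hF.n1, hF.n2⟩
  have hT : ∀ j : Fin 3, ∃ T, WF P τ S (w j).1 (w j).2 Q T := fun j =>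
    exists_WF hB.gp hB.xinj hB.chain (hw j).1.le (hw j).2 hB.Qpos
      (fun i _ hi' => hB.step i (lt_of_lt_of_le hi' (hw j).2))
  choose T hT using hT
  have hzP : z ⊆ P := (hz 0).trans (act_sub hB.chain (hw 0).2)
  have hQ1 : (1 : ℝ) ≤ Q := by exact_mod_cast hB.Qpos
  have hsz : ∀ A, ((hullA t b z A).card : ℝ) ≤ z.card := fun A => by
    exact_mod_cast Finset.card_le_card (Finset.filter_subset _ _)
  refine ⟨ellA t, T, fun A => ((hullA t b z A).card : ℝ), ?_, hsz A₀⟩
  refine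
    { sum0 := ?_, inj := ?_, Mnn := hN.Mnn, Qpos := by positivity, QB := hQB, Tmono := ?_,
      smono := ?_, Tcard := ?_, scard := ?_, Tle := ?_, sle := ?_, Tadd := ?_, sadd := ?_,
      floor := ?_ }
  · intro p
    simp only [ellA_0, ellA_1, ellA_2, ph]
    ring
  · intro p _ q _ h0
    have a0 := le_nrm (ellA t) 0 p q
    have a1 := le_nrm (ellA t) 1 p q
    rw [h0] at a0 a1
    have b0 := abs_nonpos_iff.1 a0
    have b1 := abs_nonpos_iff.1 a1
    simp only [ellA_0, ellA_1] at b0 b1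
    have l0 := hN.lt 0
    have l1 := hN.lt 1
    have l01 := hN.lt01
    have l12 := hN.lt12
    have c0 : ph (t 0) p = ph (t 0) q := by
      have : (t 2 - t 1) * (ph (t 0) p - ph (t 0) q) = 0 := by linarith
      rcases mul_eq_zero.1 this with h | h <;> linarith
    have c1 : ph (t 1) p = ph (t 1) q := by
      have : (t 0 - t 2) * (ph (t 1) p - ph (t 1) q) = 0 := by linarith
      rcases mul_eq_zero.1 this with h | h <;> linarith
    unfold ph at c0 c1
    have c2 : p.1 = q.1 := by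
      have : (t 1 - t 0) * (p.1 - q.1) = 0 := by linarith
      rcases mul_eq_zero.1 this with h | h <;> linarith
    refine Prod.ext c2 ?_
    rw [c2] at c0
    linarith
  · intro i A A' h _
    exact (hT i).mono A A' h
  · intro A A' h _
    exact_mod_cast Finset.card_le_card (hullA_mono t b z h)
  · intro i A h
    exact (hT i).card_le A (h.trans (hA.trans hzP))
  · intro A h
    exact_mod_cast Finset.card_le_card (sub_hullA t b (h.trans hA))
  · intro i
    exact le_trans ((hT i).le_act A₀ (hA.trans (hz i))) (hact i)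
  · refine le_trans (hsz A₀) (le_trans ?_ (hact 0))
    exact_mod_cast Finset.card_le_card (hz 0)
  · intro i ι F A _ hsep
    rw [biUnion_inst]
    refine (hT i).add ι F A ?_
    intro k hk k' hk' hkk p hp q hq hc
    have h1 := hsep k hk k' hk' hkk p hp q hq
    have h2 := hN.key i hc (nrm (ellA t) p q) (fun j _ => le_nrm _ j p q)
    linarith
  · intro r ι F A _ hr hsep
    rw [biUnion_inst] at hr ⊢
    have hrk : ∀ k ∈ F, ∀ p ∈ A k, ∀ q ∈ A k, nrm (ellA t) p q ≤ r := fun k hk p hp q hq =>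
      hr p (Finset.mem_biUnion.2 ⟨k, hk, hp⟩) q (Finset.mem_biUnion.2 ⟨k, hk, hq⟩)
    have hdis : ∀ k ∈ F, ∀ k' ∈ F, k ≠ k' →
        Disjoint (hullA t b z (A k)) (hullA t b z (A k')) := by
      intro k hk k' hk' hkk
      rw [Finset.disjoint_left]
      intro v hv hv'
      obtain ⟨j, hj⟩ := hsep k hk k' hk' hkk
      obtain ⟨⟨p1, hp1, a1⟩, ⟨p2, hp2, a2⟩⟩ := hullA_near hN r (hrk k hk) hv j
      obtain ⟨⟨q1, hq1, b1⟩, ⟨q2, hq2, b2⟩⟩ := hullA_near hN r (hrk k' hk') hv' j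
      rcases hj with hj | hj
      · have := hj p1 hp1 q2 hq2
        linarith
      · have := hj p2 hp2 q1 hq1
        linarith
    have h1 : (F.biUnion (fun k => hullA t b z (A k))).card
        = ∑ k ∈ F, (hullA t b z (A k)).card := Finset.card_biUnion hdis
    have h2 : F.biUnion (fun k => hullA t b z (A k)) ⊆ hullA t b z (F.biUnion A) := by
      intro v hv
      obtain ⟨k, hk, hv⟩ := Finset.mem_biUnion.1 hv
      exact hullA_mono t b z (Finset.subset_biUnion_of_mem A hk) hv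
    have h3 := Finset.card_le_card h2
    rw [h1] at h3
    exact_mod_cast h3
  · intro i A hAA
    have hE : d * A.card ≤ ∑ p ∈ A, (deg S (w i).1 (w i).2 p : ℝ) := by
      have := Finset.card_nsmul_le_sum A (fun p => (deg S (w i).1 (w i).2 p : ℝ)) d
        (fun p hp => hdeg p (hAA hp) i)
      rw [nsmul_eq_mul] at this
      linarith
    have hA0 : (0 : ℝ) ≤ A.card := Nat.cast_nonneg _
    have hdA : 0 ≤ d * A.card := mul_nonneg hd.le hA0
    have hfl := (hT i).fl A (hullA t b z A) (sub_hullA t b (hAA.trans hA))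
      ((Finset.filter_subset _ _).trans hzP) (by
        intro p hp q hq v hv h1 h2
        rw [hullA, Finset.mem_filter]
        exact ⟨hcl i p (hA (hAA hp)) q (hA (hAA hq)) v hv h1 h2, i, p, hp, q, hq, h1, h2⟩)
    have hT0 := (hT i).nonneg A
    set E := ∑ p ∈ A, (deg S (w i).1 (w i).2 p : ℝ) with hEdef
    rcases hfl with h | h | h
    · left; linarith
    · right; left
      have : E ≤ Q * E := by nlinarith
      show d / 24 * A.card ≤ ((hullA t b z A).card : ℝ)
      linarith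
    · rcases eq_or_lt_of_le hA0 with h0 | h0
      · left; rw [← h0]; simpa using hT0
      · right; right
        show (Q : ℝ) * d ^ 3 / 4608 * (A.card : ℝ) ^ 2 ≤ (T i A) ^ 2 * ((hullA t b z A).card : ℝ)
        have h1 : (d * A.card) ^ 3 ≤ E ^ 3 := pow_le_pow_left₀ hdA hE 3
        have h2 : (Q : ℝ) * (d * A.card) ^ 3 ≤ Q * E ^ 3 :=
          mul_le_mul_of_nonneg_left h1 (by linarith)
        have h3 : (A.card : ℝ) * ((Q : ℝ) * d ^ 3 / 4608 * (A.card : ℝ) ^ 2) ≤
            (A.card : ℝ) * ((T i A) ^ 2 * ((hullA t b z A).card : ℝ)) := by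
          nlinarith
        exact le_of_mul_le_mul_left h3 h0

end
end Crest.Agent.R51
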