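import Crest.Agent.R51.WFun

set_option autoImplicit false
open Classical Finset

namespace Crest.Agent.R51
noncomputable section

theorem sysB_cone {em ep lam s t : ℝ} (hl : 0 < lam) (h1 : em < s) (h2 : s < t) (h3 : t < ep)
    {p q : Pt} (h : Cone s t p q) :
    -ph ep p ≤ -ph ep q ∧ lam * ph em p ≤ lam * ph em q ∧
      lam * Rr em ep s * |-ph ep p - -ph ep q| ≤ |lam * ph em p - lam * ph em q| ∧
      |lam * ph em p - lam * ph em q| ≤ lam * Rr em ep t * |-ph ep p - -ph ep q| := by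
  have hX : -ph ep p ≤ -ph ep q := neg_le_neg (cone_hi h2 h3.le h)
  have hY : lam * ph em p ≤ lam * ph em q := mul_le_mul_of_nonneg_left (cone_lo h2 h1.le h) hl.le
  refine ⟨hX, hY, ?_, ?_⟩
  · rw [abs_of_nonpos (sub_nonpos.2 hX), abs_of_nonpos (sub_nonpos.2 hY), mul_assoc, ← mul_sub,
      ← mul_neg]
    refine mul_le_mul_of_nonneg_left ?_ hl.le
    rw [Rr, div_mul_eq_mul_div, div_le_iff₀ (by linarith)]
    have h4 := mul_le_mul_of_nonneg_left h.1 (show 0 ≤ ep - em by linarith)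
    simp only [ph] at h4 ⊢
    linarith
  · rw [abs_of_nonpos (sub_nonpos.2 hX), abs_of_nonpos (sub_nonpos.2 hY), mul_assoc, ← mul_sub,
      ← mul_neg]
    refine mul_le_mul_of_nonneg_left ?_ hl.le
    rw [Rr, div_mul_eq_mul_div, le_div_iff₀ (by linarith)]
    have h4 := mul_le_mul_of_nonneg_left h.2 (show 0 ≤ ep - em by linarith)
    simp only [ph] at h4 ⊢
    linarith

/-- the points of `z` in a box spanned by two points of `A` -/
def sysBHull (z : Finset Pt) (X Y : Pt → ℝ) (A : Finset Pt) : Finset Pt :=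
  z.filter fun v => ∃ p ∈ A, ∃ q ∈ A, X p ≤ X v ∧ X v ≤ X q ∧ Y p ≤ Y v ∧ Y v ≤ Y q

theorem sysBHull_mono (z : Finset Pt) (X Y : Pt → ℝ) {A A' : Finset Pt} (h : A ⊆ A') :
    sysBHull z X Y A ⊆ sysBHull z X Y A' := by
  intro v hv
  obtain ⟨hz, p, hp, q, hq, h1⟩ := mem_filter.1 hv
  exact mem_filter.2 ⟨hz, p, h hp, q, h hq, h1⟩

theorem subset_sysBHull {z : Finset Pt} (X Y : Pt → ℝ) {A : Finset Pt} (h : A ⊆ z) :
    A ⊆ sysBHull z X Y A := fun v hv =>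
  mem_filter.2 ⟨h hv, v, hv, v, hv, le_rfl, le_rfl, le_rfl, le_rfl⟩

theorem sysBHull_add (z : Finset Pt) (X Y : Pt → ℝ) {κ : Type} (F : Finset κ) (A : κ → Finset Pt)
    (h : ∀ k ∈ F, ∀ k' ∈ F, k ≠ k' →
      (∀ p ∈ A k, ∀ q ∈ A k', X p < X q) ∨ (∀ p ∈ A k, ∀ q ∈ A k', X q < X p) ∨
      (∀ p ∈ A k, ∀ q ∈ A k', Y p < Y q) ∨ (∀ p ∈ A k, ∀ q ∈ A k', Y q < Y p)) :
    ∑ k ∈ F, ((sysBHull z X Y (A k)).card : ℝ) ≤ (sysBHull z X Y (F.biUnion A)).card := by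
  have h1 : (F.biUnion fun k => sysBHull z X Y (A k)).card = ∑ k ∈ F, (sysBHull z X Y (A k)).card := by
    refine card_biUnion fun k hk k' hk' hne => disjoint_left.2 fun v hv hv' => ?_
    obtain ⟨-, p, hp, q, hq, a1, a2, a3, a4⟩ := mem_filter.1 hv
    obtain ⟨-, p', hp', q', hq', b1, b2, b3, b4⟩ := mem_filter.1 hv'
    rcases h k hk k' hk' hne with h | h | h | h
    · linarith [h q hq p' hp']
    · linarith [h p hp q' hq']
    · linarith [h q hq p' hp']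
    · linarith [h p hp q' hq']
  rw [← Nat.cast_sum, ← h1]
  exact Nat.cast_le.2 (card_le_card (biUnion_subset.2 fun k hk =>
    sysBHull_mono z X Y (subset_biUnion_of_mem A hk)))

theorem sysB_floor {P : Finset Pt} {τ : ℕ → ℝ} {S : ℕ → Finset Pt} {a b Q : ℕ}
    {T : Finset Pt → ℝ} (h : WF P τ S a b Q T) (hQ : 1 ≤ Q) {A Z : Finset Pt} (h1 : A ⊆ Z)
    (h2 : Z ⊆ P) (h3 : ∀ p ∈ A, ∀ q ∈ A, ∀ v ∈ act S a b,
      Cone (τ a) (τ b) p v → Cone (τ a) (τ b) v q → v ∈ Z) {e D : ℝ} (he : 0 < e) (hD : D ≤ e / 24)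
    (hdeg : ∀ p ∈ A, e ≤ deg S a b p) :
    D * A.card ≤ T A ∨ D * A.card ≤ Z.card ∨
      Q * e ^ 3 / 4608 * (A.card : ℝ) ^ 2 ≤ T A ^ 2 * Z.card := by
  have hs : e * A.card ≤ ∑ p ∈ A, (deg S a b p : ℝ) := by
    rw [mul_comm, ← nsmul_eq_mul]
    exact card_nsmul_le_sum A _ _ hdeg
  have hc : (0 : ℝ) ≤ A.card := Nat.cast_nonneg _
  have hD' := mul_le_mul_of_nonneg_right hD hc
  have he' := mul_nonneg he.le hc
  have hQ' : (1 : ℝ) ≤ Q := by exact_mod_cast hQ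
  rcases hc.eq_or_lt with h0 | h0
  · left
    rw [← h0, mul_zero]
    exact h.nonneg A
  rcases h.fl A Z h1 h2 h3 with h4 | h4 | h4
  · left
    linarith
  · right
    left
    have h5 := le_mul_of_one_le_left (he'.trans hs) hQ'
    linarith
  · right
    right
    have h5 := mul_le_mul_of_nonneg_left (pow_le_pow_left₀ he' hs 3) (zero_le_one.trans hQ')
    refine le_of_mul_le_mul_left ?_ (mul_pos (by norm_num : (0 : ℝ) < 4608) h0)
    linarith

theorem sysB_of {P : Finset Pt} {τ : ℕ → ℝ} {S : ℕ → Finset Pt} {G Q : ℕ} {Δ : ℝ}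
    (hB : Base P τ S G Q Δ) (wa wc : ℕ × ℕ) (𝓜 : Finset (ℕ × ℕ)) (em ep μ : ℝ)
    (hμ : 0 < μ) (hμ1 : μ ≤ 1) (hwa : wa.1 < wa.2) (hac : wa.2 ≤ wc.1) (hwc : wc.1 < wc.2)
    (hG : wc.2 ≤ G) (hem : em < τ wa.1) (hep : τ wc.2 < ep)
    (hm : ∀ m ∈ 𝓜, wa.2 ≤ m.1 ∧ m.1 < m.2 ∧ m.2 ≤ wc.1 ∧
      Rr em ep (τ wa.2) ≤ μ ^ 2 * Rr em ep (τ m.1) ∧ Rr em ep (τ m.2) ≤ μ ^ 2 * Rr em ep (τ wc.1))
    (hac' : Rr em ep (τ wa.2) ≤ μ ^ 4 * Rr em ep (τ wc.1))
    (hsep : ∀ m ∈ 𝓜, ∀ m' ∈ 𝓜, m ≠ m' → Rr em ep (τ m.2) ≤ μ * Rr em ep (τ m'.1) ∨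
      Rr em ep (τ m'.2) ≤ μ * Rr em ep (τ m.1))
    (A₀ : Finset Pt) (hA : A₀ ⊆ P) (d dm : ℝ) (hd : 0 < d) (hdm : 0 < dm)
    (hdeg : ∀ p ∈ A₀, d ≤ deg S wa.1 wa.2 p ∧ d ≤ deg S wc.1 wc.2 p)
    (hQB : Q * d ^ 3 / 4608 ≤ P.card) :
    ∃ (X Y : Pt → ℝ) (Ta Tc s : Finset Pt → ℝ) (Tm : ℕ × ℕ → Finset Pt → ℝ)
      (lw up : ℕ × ℕ → ℝ) (H : ℝ),
      SysB A₀ X Y Ta Tc s 𝓜 Tm (fun m => P.filter (fun p => dm ≤ deg S m.1 m.2 p)) lw up μ H
        (Q * d ^ 3 / 4608) (Q * dm ^ 3 / 4608) (min d dm / 24) P.card ∧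
      ∀ m ∈ 𝓜, Tm m (A₀ ∩ P.filter (fun p => dm ≤ deg S m.1 m.2 p)) ≤ (act S m.1 m.2).card := by
  have hch := hB.chain
  have hWF : ∀ a b, a ≤ b → b ≤ G → ∃ T, WF P τ S a b Q T := fun a b h1 h2 =>
    exists_WF hB.gp hB.xinj hch h1 h2 hB.Qpos fun i _ hi => hB.step i (hi.trans_le h2)
  have hGa : wa.2 ≤ G := by omega
  have hGm : ∀ m ∈ 𝓜, m.2 ≤ G := fun m h => by
    have := hm m h
    omega
  obtain ⟨Ta, ha⟩ := hWF wa.1 wa.2 hwa.le hGa
  obtain ⟨Tc, hc⟩ := hWF wc.1 wc.2 hwc.le hG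
  have hex : ∀ m : ℕ × ℕ, ∃ T : Finset Pt → ℝ, m ∈ 𝓜 → WF P τ S m.1 m.2 Q T := fun m => by
    by_cases h : m ∈ 𝓜
    · obtain ⟨T, hT⟩ := hWF m.1 m.2 (hm m h).2.1.le (hGm m h)
      exact ⟨T, fun _ => hT⟩
    · exact ⟨fun _ => 0, fun h' => absurd h' h⟩
  choose Tm hT using hex
  have hlo : ∀ i, wa.1 ≤ i → i ≤ G → em < τ i := fun i h1 h2 => hem.trans_le (hch.le h1 h2)
  have hhi : ∀ i, i ≤ wc.2 → τ i < ep := fun i h1 => (hch.le h1 hG).trans_lt hep
  have hR : 0 < Rr em ep (τ wa.2) :=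
    div_pos (sub_pos.2 (hlo _ hwa.le hGa)) (sub_pos.2 (hhi _ (by omega)))
  obtain ⟨lam, hlam, hlR⟩ : ∃ lam, 0 < lam ∧ lam * Rr em ep (τ wa.2) = μ :=
    ⟨μ / Rr em ep (τ wa.2), div_pos hμ hR, div_mul_cancel₀ _ hR.ne'⟩
  have hcone : ∀ a b, wa.1 ≤ a → a < b → b ≤ wc.2 → ∀ p q, Cone (τ a) (τ b) p q → _ :=
    fun a b h1 h2 h3 p q h => sysB_cone hlam (hlo a h1 (by omega)) (hch.mono a b h2 (h3.trans hG))
      (hhi b h3) h
  have hact : ∀ {a b : ℕ} {e : ℝ} {p : Pt}, 0 < e → e ≤ deg S a b p → p ∈ act S a b :=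
    fun h1 h2 => mem_act_of_deg (Nat.cast_pos.1 (h1.trans_le h2))
  have hAa : A₀ ⊆ act S wa.1 wa.2 := fun p hp => hact hd (hdeg p hp).1
  have hAc : A₀ ⊆ act S wc.1 wc.2 := fun p hp => hact hd (hdeg p hp).2
  have hAz : A₀ ⊆ act S wa.1 wa.2 ∩ act S wc.1 wc.2 := subset_inter hAa hAc
  have hzP : ∀ X Y A, sysBHull (act S wa.1 wa.2 ∩ act S wc.1 wc.2) X Y A ⊆ P := fun X Y A =>
    (filter_subset _ _).trans (inter_subset_left.trans (act_sub hch hGa))
  have hQ' : (0 : ℝ) < Q := Nat.cast_pos.2 hB.Qpos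
  have hhull : ∀ a b, wa.1 ≤ a → a < b → b ≤ wc.2 → ∀ (A : Finset Pt), ∀ p ∈ A, ∀ q ∈ A, ∀ v,
      v ∈ act S wa.1 wa.2 → v ∈ act S wc.1 wc.2 → Cone (τ a) (τ b) p v → Cone (τ a) (τ b) v q →
      v ∈ sysBHull (act S wa.1 wa.2 ∩ act S wc.1 wc.2) (fun p => -ph ep p)
        (fun p => lam * ph em p) A := fun a b h1 h2 h3 A p hp q hq v hv hv' c1 c2 =>
    mem_filter.2 ⟨mem_inter.2 ⟨hv, hv'⟩, p, hp, q, hq, (hcone a b h1 h2 h3 _ _ c1).1,
      (hcone a b h1 h2 h3 _ _ c2).1, (hcone a b h1 h2 h3 _ _ c1).2.1,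
      (hcone a b h1 h2 h3 _ _ c2).2.1⟩
  refine ⟨fun p => -ph ep p, fun p => lam * ph em p, Ta, Tc, fun A =>
    (sysBHull (act S wa.1 wa.2 ∩ act S wc.1 wc.2) (fun p => -ph ep p) (fun p => lam * ph em p) A).card,
    Tm, fun m => lam * Rr em ep (τ m.1), fun m => lam * Rr em ep (τ m.2),
    μ ^ 2 * (lam * Rr em ep (τ wc.1)), ?_, fun m h => (hT m h).le_act _ fun p hp =>
      hact hdm (mem_filter.1 (mem_inter.1 hp).2).2⟩
  refine
    { inj := fun p _ q _ h1 h2 => ?_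
      mupos := hμ
      Hge := ?_
      Qpos := by positivity
      QB := hQB
      Qmpos := by positivity
      lw_ge := fun m h => ?_
      up_le := fun m h => ?_
      sep := fun m h m' h' hne => ?_
      Tamono := fun A A' h _ => ha.mono A A' h
      Tcmono := fun A A' h _ => hc.mono A A' h
      smono := fun A A' h _ => Nat.cast_le.2 (card_le_card (sysBHull_mono _ _ _ h))
      Tmmono := fun m hm A A' h _ => (hT m hm).mono A A' h
      Tacard := fun A h => ha.card_le A (h.trans hA)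
      Tccard := fun A h => hc.card_le A (h.trans hA)
      scard := fun A h => Nat.cast_le.2 (card_le_card (subset_sysBHull _ _ (h.trans hAz)))
      Tmnn := fun m hm A _ => (hT m hm).nonneg A
      Tale := (ha.le_act _ hAa).trans (Nat.cast_le.2 (card_le_card (act_sub hch hGa)))
      Tcle := (hc.le_act _ hAc).trans (Nat.cast_le.2 (card_le_card (act_sub hch hG)))
      sle := Nat.cast_le.2 (card_le_card (hzP _ _ _))
      Taadd := fun κ F A _ h => (ha.add κ F A fun k hk k' hk' hne p hp q hq hco => ?_).trans_eq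
        (by congr!)
      Tcadd := fun κ F A _ h => (hc.add κ F A fun k hk k' hk' hne p hp q hq hco => ?_).trans_eq
        (by congr!)
      Tmadd := fun m hm' A A' _ _ h => ?_
      sadd := fun κ F A _ h => (sysBHull_add _ _ _ F A h).trans_eq (by congr!)
      floora := fun A h => sysB_floor ha hB.Qpos (subset_sysBHull _ _ (h.trans hAz)) (hzP _ _ _)
        (fun p hp q hq v hv c1 c2 => hhull _ _ le_rfl hwa (by omega) A p hp q hq v hv
          (act_between hch hwa hGa hG (Or.inl hac) (act_sub hch hGa hv) (hAc (h hp)) (hAc (h hq))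
            c1 c2) c1 c2) hd (by linarith [min_le_left d dm]) fun p hp => (hdeg p (h hp)).1
      floorc := fun A h => sysB_floor hc hB.Qpos (subset_sysBHull _ _ (h.trans hAz)) (hzP _ _ _)
        (fun p hp q hq v hv c1 c2 => hhull _ _ (by omega) hwc le_rfl A p hp q hq v
          (act_between hch hwc hG hGa (Or.inr hac) (act_sub hch hG hv) (hAa (h hp)) (hAa (h hq))
            c1 c2) hv c1 c2) hd (by linarith [min_le_left d dm]) fun p hp => (hdeg p (h hp)).2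
      floorm := fun m hm' A h h' => ?_ }
  · have h3 := mul_left_cancel₀ hlam.ne' h2
    have h4 : em < ep := (hlo _ hwa.le hGa).trans (hhi _ (by omega))
    simp only [ph] at h1 h3
    have h5 : p.1 = q.1 := mul_left_cancel₀ (sub_pos.2 h4).ne' (by linarith)
    rw [h5] at h3
    exact Prod.ext h5 (by linarith)
  · refine le_of_mul_le_mul_left ?_ hμ
    have h1 := mul_le_mul_of_nonneg_left hac' hlam.le
    linarith
  · refine le_of_mul_le_mul_left ?_ hμ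
    have h1 := mul_le_mul_of_nonneg_left (hm m h).2.2.2.1 hlam.le
    linarith
  · have h1 := mul_le_mul_of_nonneg_left (hm m h).2.2.2.2 hlam.le
    linarith
  · refine (hsep m h m' h' hne).imp (fun h1 => ?_) fun h1 => ?_ <;>
      linarith [mul_le_mul_of_nonneg_left h1 hlam.le]
  · have h1 := (hcone _ _ le_rfl hwa (by omega) p q hco).2.2.2
    rw [hlR] at h1
    exact absurd (h k hk k' hk' hne p hp q hq) (not_lt.2 h1)
  · have h1 := mul_le_mul_of_nonneg_left (hcone _ _ (by omega) hwc le_rfl p q hco).2.2.1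
      (sq_nonneg μ)
    rw [← mul_assoc] at h1
    exact absurd (h k hk k' hk' hne p hp q hq) (not_lt.2 h1)
  · obtain ⟨m1, m2, m3, -⟩ := hm m hm'
    have h1 := (hT m hm').add Bool univ (fun b => cond b A A') fun i _ j _ hne p hp q hq hco => by
      have h2 := (hcone _ _ (by omega) m2 (by omega) p q hco).2.2
      cases i <;> cases j
      · exact hne rfl
      · rw [abs_sub_comm, abs_sub_comm (lam * ph em p)] at h2
        exact h q hq p hp h2
      · exact h p hp q hq h2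
      · exact hne rfl
    have e : (univ : Finset Bool).biUnion (fun b => cond b A A') = A ∪ A' := by
      ext v
      simp
    rw [e, Fintype.sum_bool] at h1
    exact h1.trans_eq (by congr!)
  · obtain ⟨m1, m2, m3, -⟩ := hm m hm'
    exact sysB_floor (hT m hm') hB.Qpos (subset_sysBHull _ _ (h.trans hAz)) (hzP _ _ _)
      (fun p hp q hq v hv c1 c2 => hhull _ _ (by omega) m2 (by omega) A p hp q hq v
        (act_between hch m2 (hGm m hm') hGa (Or.inr m1) (act_sub hch (hGm m hm') hv) (hAa (h hp))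
          (hAa (h hq)) c1 c2)
        (act_between hch m2 (hGm m hm') hG (Or.inl m3) (act_sub hch (hGm m hm') hv) (hAc (h hp))
          (hAc (h hq)) c1 c2) c1 c2) hdm (by linarith [min_le_right d dm])
      fun p hp => (mem_filter.1 (h' hp)).2

end
end Crest.Agent.R51
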