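import Crest.Agent.R51.Cuts

set_option autoImplicit false
open Classical Finset

namespace Crest.Agent.R51
noncomputable section

/-- the status of a point with respect to a set of windows -/
def status (S : ℕ → Finset Pt) (R : Finset (ℕ × ℕ)) (p : Pt) :
    Finset (ℕ × ℕ) × Finset (ℕ × ℕ) :=
  (R.filter (fun w => ∀ i, w.1 ≤ i → i ≤ w.2 → p ∈ S i),
   R.filter (fun w => ∃ i, w.1 ≤ i ∧ i ≤ w.2 ∧ p ∈ S i))

namespace VCAux

/-- Sauer–Shelah for families in which the patterns `010` and `101` exclude each other -/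
theorem vc {α β : Type} [DecidableEq β] (I : Finset β) (rk : β → ℕ)
    (hrk : ∀ a ∈ I, ∀ b ∈ I, rk a = rk b → a = b) (F : β → α → Prop) (x : α → ℝ) (P : Finset α)
    (h : ∀ a ∈ I, ∀ b ∈ I, rk a < rk b → ∀ p ∈ P, ∀ q ∈ P, F a p → ¬ F b p → F b q → ¬ F a q →
      x p < x q) :
    (P.image fun p => I.filter fun a => F a p).card ≤ (I.card + 1) ^ 2 := by
  set 𝒜 := P.image fun p => I.filter fun a => F a p with h𝒜
  have hsub : ∀ s, 𝒜.Shatters s → s ⊆ I := by
    intro s hs
    obtain ⟨u, hu, hsu⟩ := hs (Subset.refl s)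
    obtain ⟨p, -, rfl⟩ := mem_image.mp hu
    intro a ha
    rw [← hsu] at ha
    exact (mem_filter.mp (mem_inter.mp ha).2).1
  have key : ∀ s, 𝒜.Shatters s → ∀ a ∈ s, ∀ b ∈ s, ∀ c ∈ s, rk a < rk b → rk b < rk c → False := by
    intro s hs a ha b hb c hc hab hbc
    have hI := hsub s hs
    have nab : a ≠ b := fun e => by rw [e] at hab; omega
    have nbc : b ≠ c := fun e => by rw [e] at hbc; omega
    obtain ⟨u, hu, hsu⟩ := hs (t := {a, c}) (by
      intro y hy
      rcases mem_insert.mp hy with rfl | hy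
      · exact ha
      · rw [mem_singleton.mp hy]; exact hc)
    obtain ⟨u', hu', hsu'⟩ := hs (t := {b}) (by
      intro y hy
      rw [mem_singleton.mp hy]; exact hb)
    obtain ⟨p, hp, rfl⟩ := mem_image.mp hu
    obtain ⟨q, hq, rfl⟩ := mem_image.mp hu'
    have e1 : ∀ y ∈ s, F y p ↔ y = a ∨ y = c := by
      intro y hy
      have : y ∈ s ∩ I.filter (fun a => F a p) ↔ y ∈ ({a, c} : Finset β) := by rw [hsu]
      simpa [hy, hI hy] using this
    have e2 : ∀ y ∈ s, F y q ↔ y = b := by
      intro y hy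
      have : y ∈ s ∩ I.filter (fun a => F a q) ↔ y ∈ ({b} : Finset β) := by rw [hsu']
      simpa [hy, hI hy] using this
    have pa : F a p := (e1 a ha).mpr (Or.inl rfl)
    have pc : F c p := (e1 c hc).mpr (Or.inr rfl)
    have pb : ¬ F b p := fun hh => by
      rcases (e1 b hb).mp hh with e | e
      · exact nab e.symm
      · exact nbc e
    have qb : F b q := (e2 b hb).mpr rfl
    have qa : ¬ F a q := fun hh => nab ((e2 a ha).mp hh)
    have qc : ¬ F c q := fun hh => nbc ((e2 c hc).mp hh).symm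
    have h1 := h a (hI ha) b (hI hb) hab p hp q hq pa pb qb qa
    have h2 := h b (hI hb) c (hI hc) hbc q hq p hp qb qc pc pb
    linarith
  have hcard : ∀ s, 𝒜.Shatters s → s.card ≤ 2 := by
    intro s hs
    by_contra hlt
    obtain ⟨a, b, c, ha, hb, hc, nab, nac, nbc⟩ := two_lt_card_iff.mp (not_le.mp hlt)
    have hI := hsub s hs
    have r1 : rk a ≠ rk b := fun e => nab (hrk a (hI ha) b (hI hb) e)
    have r2 : rk a ≠ rk c := fun e => nac (hrk a (hI ha) c (hI hc) e)
    have r3 : rk b ≠ rk c := fun e => nbc (hrk b (hI hb) c (hI hc) e)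
    have k1 := key s hs a ha b hb c hc
    have k2 := key s hs a ha c hc b hb
    have k3 := key s hs b hb a ha c hc
    have k4 := key s hs b hb c hc a ha
    have k5 := key s hs c hc a ha b hb
    have k6 := key s hs c hc b hb a ha
    rcases lt_or_gt_of_ne r1 with r1 | r1 <;> rcases lt_or_gt_of_ne r2 with r2 | r2 <;>
      rcases lt_or_gt_of_ne r3 with r3 | r3 <;> tauto
  have hsh : 𝒜.shatterer ⊆ I.powersetCard 0 ∪ I.powersetCard 1 ∪ I.powersetCard 2 := by
    intro s hs
    rw [mem_shatterer] at hs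
    have h1 := hsub s hs
    have h2 := hcard s hs
    simp only [mem_union, mem_powersetCard]
    have : s.card = 0 ∨ s.card = 1 ∨ s.card = 2 := by omega
    tauto
  have h3 := (card_le_card_shatterer 𝒜).trans (card_le_card hsh)
  have h4 := card_union_le (I.powersetCard 0 ∪ I.powersetCard 1) (I.powersetCard 2)
  have h5 := card_union_le (I.powersetCard 0) (I.powersetCard 1)
  rw [card_powersetCard] at h4
  rw [card_powersetCard, card_powersetCard, Nat.choose_zero_right, Nat.choose_one_right] at h5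
  have h6 := Nat.choose_le_pow I.card 2
  nlinarith

/-- the two sets attached to a window -/
def FF (S : ℕ → Finset Pt) (a : (ℕ × ℕ) × Bool) (p : Pt) : Prop :=
  if a.2 then ∃ i, a.1.1 ≤ i ∧ i ≤ a.1.2 ∧ p ∈ S i else ∀ i, a.1.1 ≤ i → i ≤ a.1.2 → p ∈ S i

theorem FF_sep {S : ℕ → Finset Pt} {a : (ℕ × ℕ) × Bool} {p q : Pt} (hp : FF S a p)
    (hq : ¬ FF S a q) : ∃ i, a.1.1 ≤ i ∧ i ≤ a.1.2 ∧ p ∈ S i ∧ q ∉ S i := by
  obtain ⟨w, b⟩ := a
  cases b
  · simp only [FF, Bool.false_eq_true, if_false] at hp hq ⊢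
    by_contra hc
    apply hq
    intro i h1 h2
    by_contra h3
    exact hc ⟨i, h1, h2, hp i h1 h2, h3⟩
  · simp only [FF, if_true] at hp hq ⊢
    obtain ⟨i, h1, h2, h3⟩ := hp
    exact ⟨i, h1, h2, h3, fun h4 => hq ⟨i, h1, h2, h4⟩⟩

end VCAux

theorem card_status {P : Finset Pt} {τ : ℕ → ℝ} {S : ℕ → Finset Pt} {G : ℕ} {C : Finset ℕ}
    (h : Chain P τ S G) (hC : Cuts G C) (R : Finset (ℕ × ℕ)) (hR : R ⊆ wins C) :
    (P.image (status S R)).card ≤ (2 * R.card + 1) ^ 2 := by
  set I : Finset ((ℕ × ℕ) × Bool) := R ×ˢ univ with hI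
  have hIc : I.card = 2 * R.card := by simp [hI, mul_comm]
  have hmem : ∀ a ∈ I, a.1 ∈ wins C := fun a ha => hR (mem_product.mp ha).1
  have hfst : ∀ w ∈ wins C, ∀ w' ∈ wins C, w.1 = w'.1 → w = w' := by
    intro w hw w' hw' e
    by_contra hne
    have h1 := win_disj hw hw' hne
    have h2 := win_le hC hw
    have h3 := win_le hC hw'
    omega
  have hvc := VCAux.vc I (fun a => 2 * a.1.1 + if a.2 then 1 else 0) ?_ (VCAux.FF S)
    (fun p => p.1) P ?_
  · rw [hIc] at hvc
    refine le_trans ?_ hvc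
    have e : P.image (status S R) = (P.image fun p => I.filter fun a => VCAux.FF S a p).image
        fun t => (R.filter fun w => (w, false) ∈ t, R.filter fun w => (w, true) ∈ t) := by
      rw [image_image]
      refine image_congr fun p _ => ?_
      simp only [status, Function.comp]
      congr 1
      · refine filter_congr fun w hw => ?_
        simp [hI, hw, VCAux.FF]
      · refine filter_congr fun w hw => ?_
        simp [hI, hw, VCAux.FF]
    rw [e]
    exact card_image_le
  · rintro ⟨w, b⟩ ha ⟨w', b'⟩ hb e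
    have h1 : w.1 = w'.1 ∧ b = b' := by
      cases b <;> cases b' <;> simp at e ⊢ <;> omega
    have h2 := hfst w (hmem _ ha) w' (hmem _ hb) h1.1
    rw [h2, h1.2]
  · rintro ⟨w, b⟩ ha ⟨w', b'⟩ hb hlt p _ q _ pa pb qb qa
    have hw := hmem _ ha
    have hw' := hmem _ hb
    have l1 := win_le hC hw
    have l2 := win_le hC hw'
    by_cases e : w = w'
    · subst e
      have h1 : b = false ∧ b' = true := by
        cases b <;> cases b' <;> simp at hlt ⊢
      obtain ⟨rfl, rfl⟩ := h1
      exfalso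
      simp only [VCAux.FF, Bool.false_eq_true, if_false, if_true] at pa pb
      exact pb ⟨w.1, le_rfl, l1.1.le, pa _ le_rfl l1.1.le⟩
    · have h1 := win_disj hw hw' e
      have h2 : w.1 ≤ w'.1 := by
        cases b <;> cases b' <;> simp at hlt <;> omega
      obtain ⟨i, i1, i2, i3, i4⟩ := VCAux.FF_sep pa qa
      obtain ⟨j, j1, j2, j3, j4⟩ := VCAux.FF_sep qb pb
      simp only at i1 i2 j1 j2 l1 l2 h1
      have hne : i ≠ j := fun e => j4 (e ▸ i3)
      have hij : i < j := by omega
      exact (sdiff_left h hij (by omega) (mem_sdiff.mpr ⟨i3, j4⟩) (mem_sdiff.mpr ⟨j3, i4⟩)).1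

end
end Crest.Agent.R51
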