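import Crest.Agent.R51.ConvCross
import Crest.Agent.R51.CL2

set_option autoImplicit false
open Classical Finset

namespace Crest.Agent.R51
noncomputable section

variable {P : Finset Pt} {τ : ℕ → ℝ} {S : ℕ → Finset Pt} {G a b Q : ℕ}
  {mt : ℕ → ℕ → Pt → Pt}

/-- a pair (leaving point, entering point) determines its step -/
theorem wf_step_unique (h : Chain P τ S G) {i i' : ℕ} (hii : i < i') (hi' : i' < G) {u v : Pt}
    (hu : u ∈ U S i) (hv : v ∈ V S i) (hu' : u ∈ U S i') (hv' : v ∈ V S i') : False := by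
  obtain ⟨h1, -, h3⟩ := sdiff_left h (Nat.lt_succ_self i) (by omega) hu hv
  obtain ⟨-, h5, -⟩ := sdiff_left h (Nat.lt_succ_self i') (by omega) hu' hv'
  have h7 : τ (i + 1) ≤ τ i' := h.le (by omega) (by omega)
  unfold ph at h3 h5
  have : 0 ≤ (τ i' - τ (i + 1)) * (v.1 - u.1) := mul_nonneg (by linarith) (by linarith)
  simp only [Nat.succ_eq_add_one] at h3
  nlinarith

theorem wf_token_cone (h : Chain P τ S G) (hb : b ≤ G) (hm : Mt S a b Q mt) (w : ℕ) {j j' : ℕ}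
    (hjj : j ≤ j') (hj : a + j' ≤ b) {x : Pt} (hx : x ∈ S a) :
    Cone (τ a) (τ b) (pos mt w a j x) (pos mt w a j' x) := by
  obtain ⟨-, h2, h3⟩ := token_mono h hb hm w hjj hj hx
  exact ⟨h2 _ (h.le (by omega) (by omega)), h3 _ (h.le hj hb)⟩

theorem wf_hole_cone (h : Chain P τ S G) (hb : b ≤ G) (hm : Mt S a b Q mt) (w : ℕ) {j j' : ℕ}
    (hjj : j ≤ j') (hj : a + j' ≤ b) {x : Pt} (hx : x ∉ S a) :
    Cone (τ a) (τ b) (pos mt w a j' x) (pos mt w a j x) := by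
  obtain ⟨-, h2, h3⟩ := hole_mono h hb hm w hjj hj hx
  exact ⟨h2 _ (h.le (by omega) (by omega)), h3 _ (h.le hj hb)⟩

/-- the events of `A` in the window -/
def wfEv (S : ℕ → Finset Pt) (a b : ℕ) (A : Finset Pt) : Finset (ℕ × Pt) :=
  (Finset.Ico a b ×ˢ A).filter (fun z => z.2 ∈ U S z.1)

theorem wf_card_ev (S : ℕ → Finset Pt) (a b : ℕ) (A : Finset Pt) :
    (wfEv S a b A).card = ∑ p ∈ A, deg S a b p := by
  unfold wfEv deg
  rw [Finset.card_filter, Finset.sum_product_right]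
  refine Finset.sum_congr rfl (fun p _ => ?_)
  rw [Finset.card_filter]

theorem wf_mem_ev {A : Finset Pt} {z : ℕ × Pt} :
    z ∈ wfEv S a b A ↔ a ≤ z.1 ∧ z.1 < b ∧ z.2 ∈ A ∧ z.2 ∈ U S z.1 := by
  unfold wfEv
  simp only [Finset.mem_filter, Finset.mem_product, Finset.mem_Ico]
  tauto

theorem wf_bad (h : Chain P τ S G) (hb : b ≤ G) (hm : Mt S a b Q mt) (A Z : Finset Pt)
    (hZ : ∀ p ∈ A, ∀ q ∈ A, ∀ v ∈ act S a b,
      Cone (τ a) (τ b) p v → Cone (τ a) (τ b) v q → v ∈ Z) (w : ℕ) :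
    ((wfEv S a b A).filter (fun z => ¬ mt w z.1 z.2 ∈ Z)).card ≤ Tw P mt a b w A := by
  unfold Tw
  -- key: two different steps of the same particle
  have key : ∀ (x : Pt) (z z' : ℕ × Pt), z ∈ wfEv S a b A → z' ∈ wfEv S a b A →
      pos mt w a (z.1 - a) x = z.2 → pos mt w a (z'.1 - a) x = z'.2 → z.1 < z'.1 →
      mt w z.1 z.2 ∈ Z := by
    intro x z z' hz hz' hx hx' hlt
    obtain ⟨h1, h2, h3, h4⟩ := wf_mem_ev.1 hz
    obtain ⟨h1', h2', h3', h4'⟩ := wf_mem_ev.1 hz'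
    have e1 : a + (z.1 - a) = z.1 := by omega
    have hxS : x ∈ S a := by
      rw [← pos_token hm w (j := z.1 - a) (by omega) x, hx, e1]
      exact (Finset.mem_sdiff.1 h4).1
    have hv : pos mt w a (z.1 - a + 1) x = mt w z.1 z.2 := by
      show mt w (a + (z.1 - a)) (pos mt w a (z.1 - a) x) = _
      rw [hx, e1]
    have c1 := wf_token_cone h hb hm w (j := z.1 - a) (j' := z.1 - a + 1) (by omega) (by omega) hxS
    have c2 := wf_token_cone h hb hm w (j := z.1 - a + 1) (j' := z'.1 - a) (by omega) (by omega)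
      hxS
    rw [hv, hx] at c1
    rw [hv, hx'] at c2
    refine hZ _ h3 _ h3' _ ?_ c1 c2
    unfold act
    refine Finset.mem_biUnion.2 ⟨z.1, Finset.mem_Ico.2 ⟨h1, h2⟩, ?_⟩
    exact Finset.mem_union_right _ (hm.toV w z.1 h1 h2 _ h4)
  refine Finset.card_le_card_of_forall_subsingleton
    (fun (z : ℕ × Pt) (x : Pt) => pos mt w a (z.1 - a) x = z.2) ?_ ?_
  · intro z hz
    obtain ⟨h1, h2, h3, h4⟩ := wf_mem_ev.1 (Finset.mem_filter.1 hz).1
    have hP : z.2 ∈ P := h.sub z.1 (by omega) (Finset.mem_sdiff.1 h4).1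
    obtain ⟨x, hx, hxe⟩ := pos_surj h hb hm w (j := z.1 - a) (by omega) hP
    refine ⟨x, Finset.mem_filter.2 ⟨hx, z.1 - a, by omega, ?_⟩, hxe⟩
    rw [hxe]; exact h3
  · intro x _ z hz z' hz'
    obtain ⟨hz1, hz2⟩ := hz
    obtain ⟨hz1', hz2'⟩ := hz'
    have hz3 := Finset.mem_filter.1 (Finset.mem_coe.1 hz1)
    have hz3' := Finset.mem_filter.1 (Finset.mem_coe.1 hz1')
    rcases lt_trichotomy z.1 z'.1 with hlt | heq | hlt
    · exact absurd (key x z z' hz3.1 hz3'.1 hz2 hz2' hlt) hz3.2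
    · refine Prod.ext heq ?_
      rw [← hz2, ← hz2', heq]
    · exact absurd (key x z' z hz3'.1 hz3.1 hz2' hz2 hlt) hz3'.2

theorem wf_good (h : Chain P τ S G) (hb : b ≤ G) (hm : Mt S a b Q mt) (A Z : Finset Pt) :
    ∑ w ∈ Finset.range Q, ((wfEv S a b A).filter (fun z => mt w z.1 z.2 ∈ Z)).card ≤
      (edges S mt a b Q A Z).card := by
  have e : ∑ w ∈ Finset.range Q, ((wfEv S a b A).filter (fun z => mt w z.1 z.2 ∈ Z)).card =
      ((Finset.range Q ×ˢ wfEv S a b A).filter (fun y => mt y.1 y.2.1 y.2.2 ∈ Z)).card := by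
    rw [Finset.card_filter, Finset.sum_product]
    refine Finset.sum_congr rfl (fun w _ => ?_)
    rw [Finset.card_filter]
  rw [e]
  refine Finset.card_le_card_of_injOn (fun y => (y.2.2, mt y.1 y.2.1 y.2.2)) ?_ ?_
  · intro y hy
    have hy' := Finset.mem_filter.1 (Finset.mem_coe.1 hy)
    obtain ⟨hw, hz⟩ := Finset.mem_product.1 hy'.1
    obtain ⟨h1, h2, h3, h4⟩ := wf_mem_ev.1 hz
    refine Finset.mem_coe.2 ?_
    unfold edges
    refine Finset.mem_biUnion.2 ⟨(y.1, y.2.1), Finset.mem_product.2 ⟨hw, Finset.mem_Ico.2 ⟨h1, h2⟩⟩,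
      Finset.mem_image.2 ⟨y.2.2, Finset.mem_filter.2 ⟨Finset.mem_inter.2 ⟨h4, h3⟩, hy'.2⟩, rfl⟩⟩
  · intro y hy y' hy' hyy
    have hy1 := Finset.mem_filter.1 (Finset.mem_coe.1 hy)
    have hy1' := Finset.mem_filter.1 (Finset.mem_coe.1 hy')
    obtain ⟨hw, hz⟩ := Finset.mem_product.1 hy1.1
    obtain ⟨hw', hz'⟩ := Finset.mem_product.1 hy1'.1
    obtain ⟨h1, h2, h3, h4⟩ := wf_mem_ev.1 hz
    obtain ⟨h1', h2', h3', h4'⟩ := wf_mem_ev.1 hz'
    obtain ⟨w, i, u⟩ := y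
    obtain ⟨w', i', u'⟩ := y'
    simp only [Prod.mk.injEq] at hyy h1 h2 h3 h4 h1' h2' h3' h4' hw hw' ⊢
    obtain ⟨rfl, hv⟩ := hyy
    have hV := hm.toV w i h1 h2 _ h4
    have hV' := hm.toV w' i' h1' h2' _ h4'
    have hii : i = i' := by
      rcases lt_trichotomy i i' with hlt | heq | hlt
      · exact (wf_step_unique h hlt (by omega) h4 hV h4' (hv ▸ hV')).elim
      · exact heq
      · exact (wf_step_unique h hlt (by omega) h4' hV' h4 (hv ▸ hV)).elim
    subst hii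
    exact ⟨hm.col w (Finset.mem_range.1 hw) w' (Finset.mem_range.1 hw') i h1 h2 u h4 hv, rfl, rfl⟩

theorem edges_card (h : Chain P τ S G) (hb : b ≤ G) (hm : Mt S a b Q mt) (A Z : Finset Pt)
    (hZ : ∀ p ∈ A, ∀ q ∈ A, ∀ v ∈ act S a b,
      Cone (τ a) (τ b) p v → Cone (τ a) (τ b) v q → v ∈ Z) :
    Q * ∑ p ∈ A, deg S a b p ≤
      (edges S mt a b Q A Z).card + ∑ w ∈ Finset.range Q, Tw P mt a b w A := by
  rw [← wf_card_ev]
  have e : Q * (wfEv S a b A).card =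
      ∑ w ∈ Finset.range Q, ((wfEv S a b A).filter (fun z => mt w z.1 z.2 ∈ Z)).card +
      ∑ w ∈ Finset.range Q, ((wfEv S a b A).filter (fun z => ¬ mt w z.1 z.2 ∈ Z)).card := by
    rw [← Finset.sum_add_distrib]
    simp only [Finset.card_filter_add_card_filter_not]
    rw [Finset.sum_const, Finset.card_range, smul_eq_mul]
  rw [e]
  exact Nat.add_le_add (wf_good h hb hm A Z)
    (Finset.sum_le_sum (fun w _ => wf_bad h hb hm A Z hZ w))

theorem wf_Tw_mono (w : ℕ) {A B : Finset Pt} (hAB : A ⊆ B) :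
    Tw P mt a b w A ≤ Tw P mt a b w B := by
  unfold Tw
  refine Finset.card_le_card (fun x hx => ?_)
  obtain ⟨h1, j, h2, h3⟩ := Finset.mem_filter.1 hx
  exact Finset.mem_filter.2 ⟨h1, j, h2, hAB h3⟩

theorem wf_card_le_Tw (hab : a ≤ b) (w : ℕ) {A : Finset Pt} (hA : A ⊆ P) :
    A.card ≤ Tw P mt a b w A := by
  unfold Tw
  refine Finset.card_le_card (fun x hx => ?_)
  exact Finset.mem_filter.2 ⟨hA hx, 0, by omega, hx⟩

theorem wf_Tw_le_act (hm : Mt S a b Q mt) (w : ℕ) {A : Finset Pt} (hA : A ⊆ act S a b) :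
    Tw P mt a b w A ≤ (act S a b).card := by
  unfold Tw
  refine Finset.card_le_card (fun x hx => ?_)
  obtain ⟨-, j, h2, h3⟩ := Finset.mem_filter.1 hx
  exact pos_act hm w h2 (hA h3)

theorem wf_Tw_add (h : Chain P τ S G) (hb : b ≤ G) (hm : Mt S a b Q mt) (w : ℕ) {ι : Type}
    (F : Finset ι) (A : ι → Finset Pt)
    (hA : ∀ i ∈ F, ∀ j ∈ F, i ≠ j → ∀ p ∈ A i, ∀ q ∈ A j, ¬ Cone (τ a) (τ b) p q) :
    ∑ i ∈ F, Tw P mt a b w (A i) ≤ Tw P mt a b w (F.biUnion A) := by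
  unfold Tw
  rw [← Finset.card_biUnion]
  · refine Finset.card_le_card (fun x hx => ?_)
    obtain ⟨i, hi, hx⟩ := Finset.mem_biUnion.1 hx
    obtain ⟨h1, j, h2, h3⟩ := Finset.mem_filter.1 hx
    exact Finset.mem_filter.2 ⟨h1, j, h2, Finset.mem_biUnion.2 ⟨i, hi, h3⟩⟩
  · intro i hi i' hi' hne
    have hi0 : i ∈ F := Finset.mem_coe.1 hi
    have hi0' : i' ∈ F := Finset.mem_coe.1 hi'
    refine Finset.disjoint_left.2 (fun x hx hx' => ?_)
    obtain ⟨-, j, h2, h3⟩ := Finset.mem_filter.1 hx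
    obtain ⟨-, j', h2', h3'⟩ := Finset.mem_filter.1 hx'
    by_cases hxS : x ∈ S a
    · rcases le_total j j' with hjj | hjj
      · exact hA i hi0 i' hi0' hne _ h3 _ h3' (wf_token_cone h hb hm w hjj h2' hxS)
      · exact hA i' hi0' i hi0 hne.symm _ h3' _ h3 (wf_token_cone h hb hm w hjj h2 hxS)
    · rcases le_total j j' with hjj | hjj
      · exact hA i' hi0' i hi0 hne.symm _ h3' _ h3 (wf_hole_cone h hb hm w hjj h2' hxS)
      · exact hA i hi0 i' hi0' hne _ h3 _ h3' (wf_hole_cone h hb hm w hjj h2 hxS)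

theorem wf_edges_prop (h : Chain P τ S G) (hb : b ≤ G) (hm : Mt S a b Q mt) (A Z : Finset Pt) :
    ∀ e ∈ edges S mt a b Q A Z, e.1 ∈ A ∧ e.2 ∈ Z ∧ e.1.1 < e.2.1 := by
  intro e he
  unfold edges at he
  obtain ⟨wi, hwi, he⟩ := Finset.mem_biUnion.1 he
  obtain ⟨u, hu, rfl⟩ := Finset.mem_image.1 he
  obtain ⟨hu1, hu2⟩ := Finset.mem_filter.1 hu
  obtain ⟨hu3, hu4⟩ := Finset.mem_inter.1 hu1
  obtain ⟨h1, h2⟩ := Finset.mem_Ico.1 (Finset.mem_product.1 hwi).2
  refine ⟨hu4, hu2, ?_⟩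
  exact (sdiff_left h (Nat.lt_succ_self wi.2) (by omega) hu3 (hm.toV wi.1 wi.2 h1 h2 _ hu3)).1

theorem exists_WF (hgp : GP P) (hx : XInj P) (h : Chain P τ S G) (hab : a ≤ b) (hb : b ≤ G)
    (hQ1 : 1 ≤ Q) (hQ : ∀ i, a ≤ i → i < b → Q ≤ (U S i).card) : ∃ T, WF P τ S a b Q T := by
  obtain ⟨mt, hm⟩ := exists_mt h hb hQ
  have hQ0 : (0 : ℝ) < Q := by exact_mod_cast hQ1
  refine ⟨fun A => ((∑ w ∈ Finset.range Q, Tw P mt a b w A : ℕ) : ℝ) / Q, ?_, ?_, ?_, ?_, ?_, ?_⟩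
  · intro A B hAB
    refine div_le_div_of_nonneg_right ?_ hQ0.le
    exact_mod_cast Finset.sum_le_sum (fun w _ => wf_Tw_mono w hAB)
  · intro A
    positivity
  · intro A hA
    rw [le_div_iff₀ hQ0]
    have : A.card * Q ≤ ∑ w ∈ Finset.range Q, Tw P mt a b w A := by
      calc A.card * Q = ∑ _w ∈ Finset.range Q, A.card := by
            rw [Finset.sum_const, Finset.card_range, smul_eq_mul, mul_comm]
        _ ≤ _ := Finset.sum_le_sum (fun w _ => wf_card_le_Tw hab w hA)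
    exact_mod_cast this
  · intro A hA
    rw [div_le_iff₀ hQ0]
    have : ∑ w ∈ Finset.range Q, Tw P mt a b w A ≤ (act S a b).card * Q := by
      calc _ ≤ ∑ _w ∈ Finset.range Q, (act S a b).card :=
            Finset.sum_le_sum (fun w _ => wf_Tw_le_act hm w hA)
        _ = (act S a b).card * Q := by
            rw [Finset.sum_const, Finset.card_range, smul_eq_mul, mul_comm]
    exact_mod_cast this
  · intro ι F A hA
    rw [← Finset.sum_div]
    refine div_le_div_of_nonneg_right ?_ hQ0.le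
    have : ∑ i ∈ F, ∑ w ∈ Finset.range Q, Tw P mt a b w (A i) ≤
        ∑ w ∈ Finset.range Q, Tw P mt a b w (F.biUnion A) := by
      rw [Finset.sum_comm]
      exact Finset.sum_le_sum (fun w _ => wf_Tw_add h hb hm w F A hA)
    exact_mod_cast this
  · intro A Z hAZ hZP hZ
    have h1 := edges_card h hb hm A Z hZ
    have h2 := cr_edges_le h hb hm A Z
    have h3 := cl2 P hgp hx A Z (hAZ.trans hZP) hZP (edges S mt a b Q A Z)
      (wf_edges_prop h hb hm A Z) (Finset.card_le_card hAZ)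
    set W : ℕ := ∑ w ∈ Finset.range Q, Tw P mt a b w A with hW
    set e : ℕ := (edges S mt a b Q A Z).card with he
    set c : ℕ := cr (edges S mt a b Q A Z) with hc
    have h1' : (Q : ℝ) * (∑ p ∈ A, (deg S a b p : ℝ)) ≤ e + W := by exact_mod_cast h1
    have h2' : (c : ℝ) ≤ 2 * (W : ℝ) ^ 2 := by exact_mod_cast h2
    set E : ℝ := ∑ p ∈ A, (deg S a b p : ℝ) with hE
    have hE0 : 0 ≤ E := Finset.sum_nonneg (fun p _ => by positivity)
    set T : ℝ := (W : ℝ) / Q with hT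
    have hWT : (W : ℝ) = Q * T := by rw [hT, mul_div_cancel₀ _ hQ0.ne']
    by_cases c1 : E ≤ 2 * T
    · exact Or.inl c1
    by_cases c2 : (Q : ℝ) * E ≤ 24 * Z.card
    · exact Or.inr (Or.inl c2)
    refine Or.inr (Or.inr ?_)
    push Not at c1 c2
    have h4 : (Q : ℝ) * E / 2 ≤ e := by
      have := mul_lt_mul_of_pos_left c1 hQ0
      rw [hWT] at h1'
      clear_value E T e
      linarith
    have h5 : 12 * Z.card ≤ e := by
      have : (12 : ℝ) * Z.card ≤ e := by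
        clear_value E T e
        linarith
      exact_mod_cast this
    have h6 := h3 h5
    have h7 : ((Q : ℝ) * E / 2) ^ 3 ≤ (e : ℝ) ^ 3 :=
      pow_le_pow_left₀ (by positivity) h4 3
    have h8 : (288 : ℝ) * A.card * Z.card * c ≤ 288 * A.card * Z.card * (2 * (Q * T) ^ 2) := by
      refine mul_le_mul_of_nonneg_left ?_
        (mul_nonneg (mul_nonneg (by norm_num) (Nat.cast_nonneg _)) (Nat.cast_nonneg _))
      rw [← hWT]; exact h2'
    have h9 : (Q : ℝ) ^ 2 * (Q * E ^ 3) ≤ (Q : ℝ) ^ 2 * (4608 * A.card * Z.card * T ^ 2) := by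
      have := h7.trans (h6.trans h8)
      clear_value E T e c
      nlinarith
    exact le_of_mul_le_mul_left h9 (by positivity)

end
end Crest.Agent.R51
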